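import Vale.Agent.P006.Bas1
import Vale.Agent.P026.ThR

namespace Vale.Agent.P006

open Vale.Agent.P026 Complex MeasureTheory Filter Topology
open scoped Classical ComplexConjugate Real MatrixGroups

noncomputable section

theorem prim_decomp {y : O} (hy : Prim y) : ∃ (e : ℕ) (h1 h2 d : O), e < 3 ∧ NN h1 ∧ NN h2 ∧
    IsCoprime h1 h2 ∧ d ≠ 0 ∧ y = (-2) ^ e * h1 * h2 ^ 2 * d ^ 3 := by
  refine Prim.induction (P := fun y => ∃ (e : ℕ) (h1 h2 d : O), e < 3 ∧ NN h1 ∧ NN h2 ∧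
    IsCoprime h1 h2 ∧ d ≠ 0 ∧ y = (-2) ^ e * h1 * h2 ^ 2 * d ^ 3) ?_ ?_ y hy
  · exact ⟨0, 1, 1, 1, by norm_num, nn_one, nn_one, isCoprime_one_left, one_ne_zero, by simp⟩
  · rintro p n hp hP - ⟨e, h1, h2, d, he, n1, n2, hc, hd, rfl⟩
    by_cases ho : OddO p
    · have np : NN p := ⟨hP, hp.squarefree, ho⟩
      by_cases a1 : p ∣ h1
      · obtain ⟨m, rfl⟩ := a1
        have hm : Prim m := n1.1.of_mul hP
        obtain ⟨-, nm, cm⟩ := (nn_mul_iff hP hm).1 n1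
        refine ⟨e, m, p * h2, d, he, nm, (nn_mul_iff hP n2.1).2 ⟨np, n2, hc.of_mul_left_left⟩,
          cm.symm.mul_right hc.of_mul_left_right, hd, by ring⟩
      · by_cases a2 : p ∣ h2
        · obtain ⟨m, rfl⟩ := a2
          have hm : Prim m := n2.1.of_mul hP
          obtain ⟨-, nm, -⟩ := (nn_mul_iff hP hm).1 n2
          exact ⟨e, h1, m, p * d, he, n1, nm, hc.of_mul_right_right, mul_ne_zero hp.ne_zero hd,
            by ring⟩
        · have c1 := (hp.irreducible.coprime_iff_not_dvd).2 a1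
          have c2 := (hp.irreducible.coprime_iff_not_dvd).2 a2
          exact ⟨e, p * h1, h2, d, he, (nn_mul_iff hP n1.1).2 ⟨np, n1, c1⟩, n2, c2.mul_left hc, hd,
            by ring⟩
    · have h2' : (2 : O) ∣ p := not_not.1 ho
      have : p = -2 := by
        refine hP.eq_of_associated prim_neg_two ?_
        exact ((prime_two.irreducible.associated_of_dvd hp.irreducible h2').symm).neg_right
      subst this
      by_cases he2 : e = 2
      · subst he2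
        exact ⟨0, h1, h2, -2 * d, by norm_num, n1, n2, hc, mul_ne_zero hp.ne_zero hd, by ring⟩
      · exact ⟨e + 1, h1, h2, d, by omega, n1, n2, hc, hd, by ring⟩

theorem unit_decomp {u : O} (hu : IsUnit u) : ∃ (i : ℕ) (v : O), i < 3 ∧ v ≠ 0 ∧ u = om ^ i * v ^ 3 := by
  rcases unit_cases hu with h | h | h | h | h | h
  · exact ⟨0, 1, by norm_num, one_ne_zero, by rw [h]; ring⟩
  · exact ⟨0, -1, by norm_num, by simp, by rw [h]; ring⟩
  · exact ⟨1, 1, by norm_num, one_ne_zero, by rw [h]; ring⟩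
  · exact ⟨1, -1, by norm_num, by simp, by rw [h]; ring⟩
  · exact ⟨2, 1, by norm_num, one_ne_zero, by rw [h]; ring⟩
  · exact ⟨2, -1, by norm_num, by simp, by rw [h]; ring⟩

/-- cube-free decomposition -/
theorem exists_cf {h : O} (hh : h ≠ 0) : ∃ t ∈ MI (N h), ∃ k : O, k ≠ 0 ∧ h = cf t * k ^ 3 := by
  obtain ⟨u, j, y, hu, hy, e1⟩ := exists_unit_lam_prim hh
  obtain ⟨e, h1, h2, d, he, n1, n2, hc, hd, e2⟩ := prim_decomp hy
  obtain ⟨i, v, hi, hv, e3⟩ := unit_decomp hu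
  have key : h = cf (om ^ i * lam ^ (j % 3) * (-2) ^ e, h1, h2) * (v * lam ^ (j / 3) * d) ^ 3 := by
    have : lam ^ j = lam ^ (j % 3) * (lam ^ (j / 3)) ^ 3 := by
      rw [← pow_mul, ← pow_add]
      congr 1
      omega
    rw [e1, e2, e3, this, cf]
    ring
  refine ⟨_, mem_MI.2 ⟨mem_XI.2 ⟨i, j % 3, e, hi, Nat.mod_lt _ (by norm_num), he, rfl⟩, n1, n2, hc,
    N_le_of_dvd ⟨_, key⟩ hh⟩, _,
    mul_ne_zero (mul_ne_zero hv (pow_ne_zero _ prime_lam.ne_zero)) hd, key⟩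

theorem cubefree_part {e : ℕ} {h1 h2 : O} (he : e < 3) (n1 : NN h1) (n2 : NN h2)
    (hc : IsCoprime h1 h2) (p : O) (hp : Prime p) : ¬p ^ 3 ∣ (-2) ^ e * h1 * h2 ^ 2 := by
  intro h
  have cp : ∀ x, ¬p ∣ x → IsCoprime p x := fun x hx => (hp.irreducible.coprime_iff_not_dvd).2 hx
  by_cases a0 : p ∣ 2
  · have as := hp.irreducible.associated_of_dvd prime_two.irreducible a0
    have b1 : ¬p ∣ h1 := fun h => n1.2.2 (as.symm.dvd.trans h)
    have b2 : ¬p ∣ h2 := fun h => n2.2.2 (as.symm.dvd.trans h)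
    have c1 := ((cp _ b2).pow (m := 3) (n := 2)).dvd_of_dvd_mul_right h
    have c2 := ((cp _ b1).pow_left (m := 3)).dvd_of_dvd_mul_right c1
    have c3 : p ^ 3 ∣ p ^ e := c2.trans (as.symm.neg_left.pow_pow (n := e)).dvd
    have := (pow_dvd_pow_iff hp.ne_zero hp.not_unit).1 c3
    omega
  · have c0 : IsCoprime (p ^ 3) ((-2) ^ e) := (cp _ a0).neg_right.pow
    rw [mul_assoc] at h
    have c1 := c0.dvd_of_dvd_mul_left h
    by_cases a1 : p ∣ h1
    · have c2 : IsCoprime p h2 := hc.of_isCoprime_of_dvd_left a1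
      have c3 := (c2.pow (m := 3) (n := 2)).dvd_of_dvd_mul_right c1
      exact hp.not_unit (n1.2.1 p ((Dvd.intro p (by ring)).trans c3))
    · have c2 := ((cp _ a1).pow_left (m := 3)).dvd_of_dvd_mul_left c1
      have a2 : p ∣ h2 := hp.dvd_of_dvd_pow ((dvd_pow_self p (by norm_num)).trans c2)
      obtain ⟨m, rfl⟩ := a2
      have c3 : p ^ 2 * p ∣ p ^ 2 * m ^ 2 := by
        rw [← mul_pow, ← pow_succ]
        exact c2
      have c4 := hp.dvd_of_dvd_pow ((mul_dvd_mul_iff_left (pow_ne_zero 2 hp.ne_zero)).1 c3)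
      exact hp.not_unit (n2.2.1 p (mul_dvd_mul_left p c4))

theorem sq_part_dvd {h1 h2 g1 g2 : O} (n1 : NN h1) (hc : IsCoprime h1 h2)
    (h : h1 * h2 ^ 2 = g1 * g2 ^ 2) : h1 ∣ g1 := by
  have c : IsCoprime h1 g2 := by
    rw [isCoprime_iff_no_prime (Or.inl n1.ne_zero)]
    intro p hp a1 a2
    have c2 : IsCoprime p h2 := hc.of_isCoprime_of_dvd_left a1
    have c3 : p ^ 2 ∣ h1 * h2 ^ 2 := h ▸ (pow_dvd_pow_of_dvd a2 2).mul_left g1
    have c4 := (c2.pow (m := 2) (n := 2)).dvd_of_dvd_mul_right c3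
    rw [sq] at c4
    exact hp.not_unit (n1.2.1 p c4)
  exact (c.pow_right (n := 2)).dvd_of_dvd_mul_right (h ▸ dvd_mul_right _ _)

theorem two_pow_unique {e e' : ℕ} {x y : O} (hx : OddO x) (hy : OddO y)
    (h : (-2) ^ e * x = (-2) ^ e' * y) : e = e' := by
  have key : ∀ {e e' : ℕ} {x y : O}, OddO x → (-2) ^ e * x = (-2) ^ e' * y → e' ≤ e := by
    intro e e' x y hx h
    have c : IsCoprime ((-2 : O) ^ e') x := (oddO_iff_coprime.1 hx).symm.neg_left.pow_left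
    have d : (-2 : O) ^ e' ∣ (-2) ^ e := c.dvd_of_dvd_mul_right (h ▸ dvd_mul_right _ _)
    exact (pow_dvd_pow_iff prime_two.neg.ne_zero prime_two.neg.not_unit).1 d
  exact le_antisymm (key hy h.symm) (key hx h)

theorem om_pow_eq_one {k : ℕ} (h : om ^ k = 1) : 3 ∣ k := by
  have e : om ^ k = om ^ (k % 3) := by
    conv_lhs => rw [← Nat.mod_add_div k 3, pow_add, pow_mul, om_cube, one_pow, mul_one]
  rw [e] at h
  have : k % 3 < 3 := Nat.mod_lt _ (by norm_num)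
  refine Nat.dvd_of_mod_eq_zero ?_
  generalize k % 3 = r at h this
  interval_cases r
  · rfl
  · exact absurd h (by decide)
  · exact absurd h (by decide)

theorem cf_unique {R R' : ℝ} {t t' : O × O × O} (ht : t ∈ MI R) (ht' : t' ∈ MI R')
    (h : IsCube (cf t * cf t' ^ 2)) : t = t' := by
  have hne : cf t * cf t' ^ 2 ≠ 0 := mul_ne_zero (cf_ne_zero ht) (pow_ne_zero _ (cf_ne_zero ht'))
  obtain ⟨x, h1, h2⟩ := t
  obtain ⟨x', g1, g2⟩ := t'
  obtain ⟨hx, n1, n2, hc, -⟩ := mem_MI.1 ht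
  obtain ⟨hx', m1, m2, hc', -⟩ := mem_MI.1 ht'
  obtain ⟨i, j, e, hi, hj, he, rfl⟩ := mem_XI.1 hx
  obtain ⟨i', j', e', hi', hj', he', rfl⟩ := mem_XI.1 hx'
  dsimp only at n1 n2 hc m1 m2 hc'
  obtain ⟨k, hk⟩ := h
  have hk0 : k ≠ 0 := by
    rintro rfl
    exact hne (by rw [hk]; simp)
  obtain ⟨u, m, z, hu, hz, rfl⟩ := exists_unit_lam_prim hk0
  have py : Prim ((-2) ^ e * h1 * h2 ^ 2) := ((prim_neg_two.pow e).mul n1.1).mul (n2.1.pow 2)
  have py' : Prim ((-2) ^ e' * g1 * g2 ^ 2) := ((prim_neg_two.pow e').mul m1.1).mul (m2.1.pow 2)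
  obtain ⟨a1, a2, a3⟩ := unit_lam_prim_unique (isUnit_om.pow (i + 2 * i')) (hu.pow 3)
    (py.mul (py'.pow 2)) (hz.pow 3) (k := j + 2 * j') (k' := 3 * m) (by
      simp only [cf] at hk
      linear_combination hk)
  have b1 : i = i' := by
    have : om ^ (2 * (i + 2 * i')) = 1 := by
      rw [mul_comm, pow_mul, a1, ← pow_mul]
      exact unit_pow_six hu
    have := om_pow_eq_one this
    omega
  have b2 : j = j' := by omega
  have b3 := (cube_unique py py' py' hz (cubefree_part he n1 n2 hc) (cubefree_part he' m1 m2 hc')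
    (by rw [← a3]; ring)).1
  rw [mul_assoc, mul_assoc] at b3
  have b4 : e = e' := two_pow_unique (oddO_mul.2 ⟨n1.2.2, n2.2.2.pow 2⟩)
    (oddO_mul.2 ⟨m1.2.2, m2.2.2.pow 2⟩) b3
  subst b1 b2 b4
  have b5 := mul_left_cancel₀ (prim_neg_two.pow e).ne_zero b3
  have b6 : h1 = g1 := n1.1.eq_of_associated m1.1
    (associated_of_dvd_dvd (sq_part_dvd n1 hc b5) (sq_part_dvd m1 hc' b5.symm))
  subst b6
  have b7 := mul_left_cancel₀ n1.ne_zero b5
  have b8 : h2 = g2 := by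
    refine n2.1.eq_of_associated m2.1 ?_
    rcases sq_eq_sq_iff_eq_or_eq_neg.1 b7 with h | h
    · rw [h]
    · rw [h]
      exact (Associated.refl g2).neg_left
  rw [b8]

theorem sum_le_of_cover {ι κ : Type*} (S : Finset ι) (T : Finset κ) (g : κ → ι) {f : ι → ℝ}
    (hf : ∀ h, 0 ≤ f h) (hc : ∀ h ∈ S, ∃ t ∈ T, g t = h) : ∑ h ∈ S, f h ≤ ∑ t ∈ T, f (g t) :=
  le_trans (Finset.sum_le_sum_of_subset_of_nonneg (t := T.image g)
    (fun h hh => Finset.mem_image.2 (hc h hh)) fun _ _ _ => hf _)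
    (Finset.sum_image_le_of_nonneg fun _ _ => hf _)

theorem quad_cover (H : ℝ) {f : O → ℝ} (hf : ∀ h, 0 ≤ f h) :
    ∑ h ∈ ballO H, f h ≤ ∑ t ∈ Quad H, f (cf t.1 * t.2 ^ 3) := by
  refine sum_le_of_cover (ballO H) (Quad H) (fun t : (O × O × O) × O => cf t.1 * t.2 ^ 3) hf
    fun h hh => ?_
  obtain ⟨h0, hH⟩ := mem_ballO.1 hh
  obtain ⟨t, ht, k, hk, e⟩ := exists_cf h0
  obtain ⟨a1, a2, a3, a4, -⟩ := mem_MI.1 ht
  exact ⟨(t, k), mem_Quad.2 ⟨a1, a2, a3, a4, hk, e ▸ hH⟩, e.symm⟩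

theorem norm_rho_zero : ∃ C : ℝ, ∀ σ : SLO, ‖rho σ 0‖ ≤ C := by
  haveI := finite_quot_Gam (m := 3) (by decide)
  obtain ⟨C, hC⟩ := (Set.finite_range fun q : SLO ⧸ Gam 3 => ‖rho q.out 0‖).bddAbove
  refine ⟨C, fun σ => ?_⟩
  have h1 : (σ : SLO ⧸ Gam 3).out⁻¹ * σ ∈ Gam 3 := QuotientGroup.eq.1 (QuotientGroup.out_eq' _)
  have h2 := (Gam_normal 3).mem_comm h1
  rw [rho_mult rho_out h2, norm_mul, norm_conj, tw_row h2, norm_kap0 h2, one_mul]
  exact hC ⟨_, rfl⟩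

theorem norm_rho_le : ∃ C : ℝ, 0 < C ∧ ∀ (σ : SLO) (n : O),
    ‖rho σ n‖ ≤ C * (1 + N n) ^ (1 / 3 : ℝ) := by
  obtain ⟨C0, h0⟩ := norm_rho_zero
  obtain ⟨C1, h1⟩ := rho_out.bound
  refine ⟨|C0| + √C1 + 1, by positivity, fun σ n => ?_⟩
  have hN := N_nonneg n
  have p1 : 1 ≤ (1 + N n) ^ (1 / 3 : ℝ) := Real.one_le_rpow (by linarith) (by norm_num)
  by_cases hn : n = 0
  · subst hn
    refine ((h0 σ).trans (le_abs_self _)).trans ?_
    have := Real.sqrt_nonneg C1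
    have := abs_nonneg C0
    nlinarith
  · have a1 : ‖rho σ n‖ ^ 2 ≤ C1 * N n ^ (2 / 3 : ℝ) :=
      le_trans (Finset.single_le_sum (f := fun n => ‖rho σ n‖ ^ 2) (fun _ _ => by positivity)
        (mem_ballO.2 ⟨hn, le_rfl⟩)) (h1 σ _ (one_le_N hn))
    have a2 : ‖rho σ n‖ ≤ √C1 * N n ^ (1 / 3 : ℝ) := by
      refine (Real.le_sqrt_of_sq_le a1).trans_eq ?_
      rw [Real.sqrt_mul' _ (by positivity), Real.sqrt_eq_rpow (N n ^ _), ← Real.rpow_mul hN]
      norm_num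
    refine a2.trans ?_
    have := abs_nonneg C0
    gcongr <;> linarith

theorem norm_cc_le : ∃ C : ℝ, 0 < C ∧ ∀ r : O, r ≠ 0 → ‖cc r‖ ≤ C * N r ^ (1 / 3 : ℝ) := by
  obtain ⟨C, hC, h⟩ := norm_rho_le
  have hk := kap_pos
  refine ⟨C * 10 ^ (1 / 3 : ℝ) * (|zp2| + 1) / kap, by positivity, fun r hr => ?_⟩
  have h1 := one_le_N hr
  have h2 : ‖qq r‖ ≤ C * (10 ^ (1 / 3 : ℝ) * N r ^ (1 / 3 : ℝ)) := by
    refine (h SS (3 * r)).trans ?_
    rw [← Real.mul_rpow (by norm_num) (N_nonneg r), N_mul, N_ofNat]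
    gcongr
    linarith
  rw [cc, norm_div, norm_mul, norm_mul, norm_I, one_mul, norm_real, norm_real, Real.norm_eq_abs,
    Real.norm_eq_abs, abs_of_pos hk]
  calc ‖qq r‖ * |zp2| / kap ≤ C * (10 ^ (1 / 3 : ℝ) * N r ^ (1 / 3 : ℝ)) * (|zp2| + 1) / kap := by
        gcongr
        linarith
    _ = _ := by ring

theorem norm_mdl_le : ∃ C : ℝ, 0 < C ∧ ∀ (R : ℝ) (n : O), 1 ≤ R →
    ‖mdl R n‖ ≤ C * R ^ 3 * N n ^ (-(1 / 6) : ℝ) := by
  obtain ⟨C0, hC0, h0⟩ := card_MI_le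
  obtain ⟨C1, hC1, h1⟩ := norm_cc_le
  refine ⟨C0 * C1, by positivity, fun R n hR => ?_⟩
  have hN := N_nonneg n
  unfold mdl
  split_ifs with hn
  · have key : ∀ t ∈ MI R, ‖(if t.2.2 ∣ n then
        G t.2.2 * cc (t.1 * t.2.1) * sym3 (cf t) (n / t.2.2) *
          ((N (n / t.2.2) ^ (-(1 / 6) : ℝ) : ℝ) : ℂ) else 0)‖ ≤
        C1 * R * N n ^ (-(1 / 6) : ℝ) := by
      intro t ht
      obtain ⟨a1, a2, a3, -, a5⟩ := mem_MI.1 ht
      obtain ⟨b1, -, b3⟩ := N_cf_ge (XI_ne_zero a1) a2.ne_zero a3.ne_zero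
      split_ifs with hd
      · obtain ⟨m, rfl⟩ := hd
        have hm : m ≠ 0 := right_ne_zero_of_mul hn.ne_zero
        have p1 := N_pos hm
        have p2 := N_pos a3.ne_zero
        rw [mul_div_cancel_left₀ _ a3.ne_zero, norm_mul, norm_mul, norm_mul, norm_real,
          Real.norm_of_nonneg (by positivity), norm_G a3, one_mul]
        have c1 : ‖cc (t.1 * t.2.1)‖ ≤ C1 * R ^ (1 / 3 : ℝ) := by
          refine (h1 _ (mul_ne_zero (XI_ne_zero a1) a2.ne_zero)).trans ?_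
          have := N_nonneg (t.1 * t.2.1)
          gcongr
          exact b1.trans a5
        have c2 : N m ^ (-(1 / 6) : ℝ) ≤ R ^ (1 / 6 : ℝ) * N (t.2.2 * m) ^ (-(1 / 6) : ℝ) := by
          rw [N_mul, Real.mul_rpow p2.le p1.le, ← mul_assoc]
          refine le_mul_of_one_le_left (by positivity) ?_
          rw [Real.rpow_neg p2.le, ← div_eq_mul_inv, one_le_div (by positivity)]
          gcongr
          exact b3.trans a5
        have c3 : R ^ (1 / 3 : ℝ) * R ^ (1 / 6 : ℝ) ≤ R := by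
          rw [← Real.rpow_add (by linarith)]
          conv_rhs => rw [← Real.rpow_one R]
          exact Real.rpow_le_rpow_of_exponent_le hR (by norm_num)
        calc _ ≤ C1 * R ^ (1 / 3 : ℝ) * 1 *
              (R ^ (1 / 6 : ℝ) * N (t.2.2 * m) ^ (-(1 / 6) : ℝ)) := by
              gcongr
              exact norm_sym3_le _ _
          _ = C1 * (R ^ (1 / 3 : ℝ) * R ^ (1 / 6 : ℝ)) * N (t.2.2 * m) ^ (-(1 / 6) : ℝ) := by ring
          _ ≤ _ := by gcongr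
      · rw [norm_zero]
        positivity
    refine (norm_sum_le_of_le _ key).trans ?_
    rw [Finset.sum_const, nsmul_eq_mul]
    calc _ ≤ C0 * R ^ 2 * (C1 * R * N n ^ (-(1 / 6) : ℝ)) := by
          gcongr
          exact h0 R hR
      _ = _ := by ring
  · rw [norm_zero]
    positivity

theorem del_eq_zero (R : ℝ) {n : O} (hn : ¬ NN n) : del R n = 0 := by
  rw [del, G, mdl, if_neg hn, if_neg hn, sub_zero]

theorem norm_del_le : ∃ C : ℝ, 0 < C ∧ ∀ (R : ℝ) (n : O), 1 ≤ R → ‖del R n‖ ≤ C * R ^ 3 := by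
  obtain ⟨C, hC, h⟩ := norm_mdl_le
  refine ⟨1 + C, by positivity, fun R n hR => ?_⟩
  have h3 : 1 ≤ R ^ 3 := one_le_pow₀ hR
  by_cases hn : NN n
  · have h1 : N n ^ (-(1 / 6) : ℝ) ≤ 1 :=
      Real.rpow_le_one_of_one_le_of_nonpos (one_le_N hn.ne_zero) (by norm_num)
    have h2 : ‖mdl R n‖ ≤ C * R ^ 3 := (h R n hR).trans (mul_le_of_le_one_right (by positivity) h1)
    refine (norm_sub_le _ _).trans ?_
    have := norm_G_le n
    linarith
  · rw [del_eq_zero R hn, norm_zero]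
    positivity

/-- number of elements of given norm -/
theorem card_norm_le {ε : ℝ} (hε : 0 < ε) : ∃ C : ℝ, 0 < C ∧ ∀ (k : ℕ) (R : ℝ),
    (((ballO R).filter (fun n => Nm n = k)).card : ℝ) ≤ C * (k : ℝ) ^ ε := by
  obtain ⟨C, hC, h⟩ := dv_le (half_pos hε)
  refine ⟨C, hC, fun k R => ?_⟩
  by_cases hk : k = 0
  · subst hk
    rw [Finset.filter_eq_empty_iff.2 fun n hn h => (mem_ballO.1 hn).1 (Nm_eq_zero.1 h)]
    simp only [Finset.card_empty, Nat.cast_zero]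
    positivity
  · have hk' : (k : O) ≠ 0 := fun h0 => hk (by
      have := Nm_natCast k
      rw [h0, Nm_eq_zero.2 rfl] at this
      exact pow_eq_zero_iff two_ne_zero |>.1 this.symm)
    refine (card_le_dv hk' _ fun d hd => ?_).trans ((h _ hk').trans_eq ?_)
    · rw [← (Finset.mem_filter.1 hd).2, ← mul_star_eq]
      exact dvd_mul_right _ _
    · rw [N_natCast, ← Real.rpow_natCast, ← Real.rpow_mul (Nat.cast_nonneg k)]
      congr 2
      push_cast
      ring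

end

end Vale.Agent.P006
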