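import Vale.Agent.P006.Defs
import Vale.Agent.P026.Gau
import Vale.Agent.P026.Div
import Vale.Agent.P026.Sup
import Vale.Agent.P026.Lat
import Vale.Agent.P026.Rec

namespace Vale.Agent.P006

open Vale.Agent.P026 Complex MeasureTheory Filter Topology
open scoped Classical ComplexConjugate Real MatrixGroups

noncomputable section

theorem g3_mul {a b : O} (ha : a ≠ 0) (hb : b ≠ 0) (hab : IsCoprime a b) (h : O) :
    g3 h (a * b) = sym3 b a * sym3 a b * g3 h a * g3 h b := by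
  have := gau_crt (χ₁ := fun x => sym3 x a) (χ₂ := fun x => sym3 x b) ha hb hab
    (fun _ _ h => sym3_congr h) (fun _ _ h => sym3_congr h) (fun x y => sym3_mul_left x y a)
    (fun x y => sym3_mul_left x y b) h
  simpa only [gauG, g3, sym3_mul_right _ ha hb] using this

theorem g3_twist' {n : O} (hn : Prim n) (hs : Squarefree n) (h : O) :
    g3 h n = conj (sym3 h n) * g3 1 n := by
  refine Prim.induction (P := fun n => Squarefree n → g3 h n = conj (sym3 h n) * g3 1 n) ?_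
    (fun p n hp hP hn ih hs => ?_) n hn hs
  · intro _
    simp only [g3, sym3_unit_right _ isUnit_one, map_one, div_one, ← map_mul, psi_toC, one_mul]
  · rw [squarefree_mul_iff] at hs
    have hc : IsCoprime p n := hs.1.isCoprime
    rw [g3_mul hp.ne_zero hn.ne_zero hc, g3_mul hp.ne_zero hn.ne_zero hc, ih hs.2.2,
      g3_twist hp hP h, sym3_mul_right _ hp.ne_zero hn.ne_zero, map_mul]
    ring

theorem G0_eq {n : O} (hn : Prim n) (hs : Squarefree n) : G0 n = conj (sym3 lam n) * gt3 n := by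
  rw [G0, gt3, g3_twist' hn hs lam, mul_div_assoc]

theorem norm_gt3' {n : O} (hn : Prim n) (hs : Squarefree n) : ‖gt3 n‖ = 1 :=
  gau_norm (χ := fun x => sym3 x n) hn.ne_zero (fun _ _ h => sym3_congr h) (sym3_one_left n)
    (g3_twist' hn hs)

theorem coprime_lam {n : O} (hn : Prim n) : IsCoprime lam n :=
  (prime_lam.irreducible.coprime_iff_not_dvd).2 hn.not_lam_dvd

theorem norm_G0 {n : O} (hn : Prim n) (hs : Squarefree n) : ‖G0 n‖ = 1 := by
  rw [G0_eq hn hs, norm_mul, norm_conj, norm_sym3 (coprime_lam hn), norm_gt3' hn hs, one_mul]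

theorem G0_one : G0 1 = 1 := by
  rw [G0_eq prim_one squarefree_one, sym3_unit_right _ isUnit_one, gt3_one]
  simp

theorem G0_mul {a b : O} (ha : Prim a) (hb : Prim b) (hsa : Squarefree a) (hsb : Squarefree b)
    (hab : IsCoprime a b) :
    G0 (a * b) = G0 a * G0 b * conj (sym3 a b) := by
  rw [G0_eq (ha.mul hb) (squarefree_mul_iff.2 ⟨hab.isRelPrime, hsa, hsb⟩), G0_eq ha hsa,
    G0_eq hb hsb, gt3_mul ha.ne_zero hb.ne_zero hab, sym3_mul_right _ ha.ne_zero hb.ne_zero,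
    map_mul, conj_sym3 a b, cubic_recip hb ha]
  ring

theorem psi_conj (x : ℂ) : psi (conj x) = conj (psi x) := by
  rw [← psi_neg, psi_eq_im, psi_eq_im]
  simp

theorem G0_star (n : O) : G0 (star n) = conj (G0 n) := by
  by_cases hn : n = 0
  · subst hn
    simp [G0]
  have hn' : star n ≠ 0 := by simpa using hn
  have hd : ∀ x : O, star n ∣ star x ↔ n ∣ x := by
    intro x
    constructor
    · rintro ⟨c, hc⟩
      refine ⟨star c, ?_⟩
      have := congrArg star hc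
      rwa [star_star, star_mul', star_star] at this
    · rintro ⟨c, rfl⟩
      exact ⟨star c, star_mul' _ _⟩
  have hnorm : ‖toC (star n)‖ = ‖toC n‖ := by rw [toC_star, norm_conj]
  rw [G0, G0, map_div₀, conj_ofReal, hnorm]
  congr 1
  rw [g3, g3, map_sum, sum_rs_eq_of_complete hn' (rs n) (fun x => -star x) ?_ ?_
    (gau_per (χ := fun x => sym3 x (star n)) hn' (fun _ _ h => sym3_congr h) lam)]
  · refine Finset.sum_congr rfl fun x _ => ?_
    rw [map_mul, ← psi_conj, neg_eq_neg_one_mul, sym3_mul_left, sym3_neg_one, one_mul, sym3_star]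
    congr 2
    rw [map_div₀, map_mul, map_mul, toC_star, toC_star, toC_lam]
    simp
  · intro i hi j hj h
    refine rs_inj hi hj ((hd _).1 ?_)
    rw [star_sub]
    have : star i - star j = -(-star i - -star j) := by ring
    rw [this]
    exact (dvd_neg).2 h
  · intro x
    obtain ⟨y, hy, h⟩ := rs_exists hn (-star x)
    refine ⟨y, hy, ?_⟩
    have h2 := (hd _).2 h
    rw [star_sub, star_neg, star_star] at h2
    have : x - -star y = -(-x - star y) := by ring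
    rw [this]
    exact (dvd_neg).2 h2

theorem norm_G {n : O} (hn : NN n) : ‖G n‖ = 1 := by
  rw [G, if_pos hn, norm_G0 hn.1 hn.2.1]

theorem norm_G_le (n : O) : ‖G n‖ ≤ 1 := by
  by_cases hn : NN n
  · exact (norm_G hn).le
  · rw [G, if_neg hn]
    simp

theorem G_mul {a b : O} (ha : Prim a) (hb : Prim b) :
    G (a * b) = G a * G b * conj (sym3 a b) := by
  by_cases h : NN (a * b)
  · obtain ⟨h1, h2, h3⟩ := (nn_mul_iff ha hb).1 h
    rw [G, G, G, if_pos h, if_pos h1, if_pos h2, G0_mul ha hb h1.2.1 h2.2.1 h3]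
  · rw [G, if_neg h]
    rw [nn_mul_iff ha hb] at h
    by_cases h1 : NN a
    · by_cases h2 : NN b
      · rw [(sym3_eq_zero_iff hb.ne_zero).2 fun h3 => h ⟨h1, h2, h3⟩]
        simp
      · rw [G.eq_1 b, if_neg h2]
        simp
    · rw [G.eq_1 a, if_neg h1]
      simp

theorem mem_XI {x : O} : x ∈ XI ↔ ∃ i j e : ℕ, i < 3 ∧ j < 3 ∧ e < 3 ∧
    x = om ^ i * lam ^ j * (-2) ^ e := by
  unfold XI
  rw [Finset.mem_image]
  constructor
  · rintro ⟨⟨i, j, e⟩, h, rfl⟩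
    simp only [Finset.mem_product, Finset.mem_range] at h
    exact ⟨i, j, e, h.1, h.2.1, h.2.2, rfl⟩
  · rintro ⟨i, j, e, hi, hj, he, rfl⟩
    exact ⟨(i, j, e), by simp [hi, hj, he], rfl⟩

theorem card_XI_le : XI.card ≤ 27 := by
  unfold XI
  refine Finset.card_image_le.trans ?_
  simp

theorem one_mem_XI : (1 : O) ∈ XI :=
  mem_XI.2 ⟨0, 0, 0, by norm_num, by norm_num, by norm_num, by simp⟩

theorem isUnit_om : IsUnit om := IsUnit.of_pow_eq_one om_cube (by norm_num)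

theorem XI_ne_zero {x : O} (hx : x ∈ XI) : x ≠ 0 := by
  obtain ⟨i, j, e, -, -, -, rfl⟩ := mem_XI.1 hx
  exact mul_ne_zero (mul_ne_zero (isUnit_om.pow i).ne_zero (pow_ne_zero _ prime_lam.ne_zero))
    (prim_neg_two.pow e).ne_zero

theorem N_two : N (2 : O) = 4 := by
  rw [N_ofNat]
  norm_num

theorem N_XI_le {x : O} (hx : x ∈ XI) : N x ≤ 144 := by
  obtain ⟨i, j, e, -, hj, he, rfl⟩ := mem_XI.1 hx
  rw [N_mul, N_mul, N_unit (isUnit_om.pow i), N_pow, N_pow, N_lam, N_neg, N_two]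
  interval_cases j <;> interval_cases e <;> norm_num

theorem XI_dvd {x : O} (hx : x ∈ XI) : x ∣ 6 ^ 2 := by
  obtain ⟨i, j, e, -, hj, he, rfl⟩ := mem_XI.1 hx
  have h1 : lam ^ j ∣ lam ^ 2 := pow_dvd_pow _ (by omega)
  have h2 : (-2 : O) ^ e ∣ (-2) ^ 2 := pow_dvd_pow _ (by omega)
  rw [mul_assoc, (isUnit_om.pow i).mul_left_dvd]
  refine (mul_dvd_mul h1 h2).trans ⟨-3, ?_⟩
  rw [lam_sq]
  norm_num

theorem N_cf (t : O × O × O) : N (cf t) = N t.1 * N t.2.1 * N t.2.2 ^ 2 := by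
  rw [cf, N_mul, N_mul, N_pow]

theorem N_cf_ge {t : O × O × O} (h0 : t.1 ≠ 0) (h1 : t.2.1 ≠ 0) (h2 : t.2.2 ≠ 0) :
    N (t.1 * t.2.1) ≤ N (cf t) ∧ N t.2.1 ≤ N (cf t) ∧ N t.2.2 ≤ N (cf t) := by
  have hc : cf t ≠ 0 := mul_ne_zero (mul_ne_zero h0 h1) (pow_ne_zero _ h2)
  refine ⟨N_le_of_dvd ⟨_, rfl⟩ hc, N_le_of_dvd ⟨t.1 * t.2.2 ^ 2, ?_⟩ hc,
    N_le_of_dvd ⟨t.1 * t.2.1 * t.2.2, ?_⟩ hc⟩ <;> rw [cf] <;> ring

theorem mem_MI {R : ℝ} {t : O × O × O} : t ∈ MI R ↔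
    t.1 ∈ XI ∧ NN t.2.1 ∧ NN t.2.2 ∧ IsCoprime t.2.1 t.2.2 ∧ N (cf t) ≤ R := by
  unfold MI
  rw [Finset.mem_filter, Finset.mem_product, Finset.mem_product, mem_ballN, mem_ballN]
  constructor
  · rintro ⟨⟨h1, h2, h3⟩, h4, h5⟩
    exact ⟨h1, h2.1, h3.1, h4, h5⟩
  · rintro ⟨h1, h2, h3, h4, h5⟩
    have := N_cf_ge (XI_ne_zero h1) h2.ne_zero h3.ne_zero
    exact ⟨⟨h1, ⟨h2, this.2.1.trans h5⟩, h3, this.2.2.trans h5⟩, h4, h5⟩

theorem cf_ne_zero {R : ℝ} {t : O × O × O} (ht : t ∈ MI R) : cf t ≠ 0 := by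
  obtain ⟨h1, h2, h3, -, -⟩ := mem_MI.1 ht
  exact mul_ne_zero (mul_ne_zero (XI_ne_zero h1) h2.ne_zero) (pow_ne_zero _ h3.ne_zero)

theorem MI_mono {R R' : ℝ} (h : R ≤ R') : MI R ⊆ MI R' := fun _ ht => by
  obtain ⟨h1, h2, h3, h4, h5⟩ := mem_MI.1 ht
  exact mem_MI.2 ⟨h1, h2, h3, h4, h5.trans h⟩

theorem mem_Quad {H : ℝ} {t : (O × O × O) × O} : t ∈ Quad H ↔
    t.1.1 ∈ XI ∧ NN t.1.2.1 ∧ NN t.1.2.2 ∧ IsCoprime t.1.2.1 t.1.2.2 ∧ t.2 ≠ 0 ∧
      N (cf t.1 * t.2 ^ 3) ≤ H := by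
  unfold Quad
  rw [Finset.mem_filter, Finset.mem_product, mem_MI, mem_ballO]
  constructor
  · rintro ⟨⟨⟨h1, h2, h3, h4, -⟩, h5, -⟩, h6⟩
    exact ⟨h1, h2, h3, h4, h5, h6⟩
  · rintro ⟨h1, h2, h3, h4, h5, h6⟩
    have hc : cf t.1 * t.2 ^ 3 ≠ 0 := mul_ne_zero
      (mul_ne_zero (mul_ne_zero (XI_ne_zero h1) h2.ne_zero) (pow_ne_zero _ h3.ne_zero))
      (pow_ne_zero _ h5)
    exact ⟨⟨⟨h1, h2, h3, h4, (N_le_of_dvd ⟨_, rfl⟩ hc).trans h6⟩, h5,
      (N_le_of_dvd ⟨cf t.1 * t.2 ^ 2, by ring⟩ hc).trans h6⟩, h6⟩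

theorem card_MI_le : ∃ C : ℝ, 0 < C ∧ ∀ R : ℝ, 1 ≤ R → ((MI R).card : ℝ) ≤ C * R ^ 2 := by
  obtain ⟨C, hC, h⟩ := card_ballO_le
  refine ⟨27 * C ^ 2, by positivity, fun R hR => ?_⟩
  have h1 : (MI R).card ≤ XI.card * ((ballN R).card * (ballN R).card) := by
    unfold MI
    refine (Finset.card_filter_le _ _).trans ?_
    rw [Finset.card_product, Finset.card_product]
  have h2 : ((ballN R).card : ℝ) ≤ C * R :=
    le_trans (by exact_mod_cast Finset.card_filter_le _ _) (h R (by linarith))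
  have h3 : (XI.card : ℝ) ≤ 27 := by exact_mod_cast card_XI_le
  calc ((MI R).card : ℝ) ≤ XI.card * ((ballN R).card * (ballN R).card) := by exact_mod_cast h1
    _ ≤ 27 * ((C * R) * (C * R)) := by gcongr
    _ = _ := by ring

end

end Vale.Agent.P006
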