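import Vale.Agent.P006.TH
import Vale.Agent.P026.ThR
import Vale.Agent.P026.ThN

namespace Vale.Agent.P006

open Vale.Agent.P026 Complex MeasureTheory Filter Topology
open scoped Classical ComplexConjugate Real MatrixGroups

noncomputable section

theorem tw_TS (x c d : O) : tw Phi1 (Tm x * SS) (c, d) = Phi1 (-d, c + x * d) := by
  obtain ⟨i1, i2, i3, i4⟩ := SLO_inv (Tm x * SS)
  obtain ⟨a1, a2, a3, a4⟩ := Tm_apply x
  have s1 : SS 0 0 = 0 := rfl
  have s2 : SS 0 1 = -1 := rfl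
  have s3 : SS 1 0 = 1 := rfl
  have s4 : SS 1 1 = 0 := rfl
  simp only [tw, rmul, i1, i2, i3, i4, SLO_mul, a1, a2, a3, a4, s1, s2, s3, s4]
  congr 2 <;> ring

theorem tw_lower (y c d : O) : tw Phi1 (lower y) (c, d) = Phi1 (c - y * d, d) := by
  obtain ⟨i1, i2, i3, i4⟩ := SLO_inv (lower y)
  have s1 : lower y 0 0 = 1 := rfl
  have s2 : lower y 0 1 = 0 := rfl
  have s3 : lower y 1 0 = y := rfl
  have s4 : lower y 1 1 = 1 := rfl
  simp only [tw, rmul, i1, i2, i3, i4, s1, s2, s3, s4]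
  congr 2 <;> ring

theorem good_one : Good 1 := fun t c d ht => by
  rw [tw_one, sr_Phi1_right ht, mul_comm t c, sr_Phi1_left ht, mul_comm (Phi1 _)]
  exact ⟨rfl, rfl⟩

theorem good_TS (x : O) : Good (Tm x * SS) := fun t c d ht => by
  have e1 : (3 : O) ∣ -(t * d) ↔ (3 : O) ∣ -d := by
    rw [dvd_neg, dvd_neg]
    exact ⟨fun h => ht.coprime_three.symm.dvd_of_dvd_mul_left h, fun h => h.mul_left _⟩
  obtain ⟨w, hw⟩ := ht
  have ht : Prim t := ⟨w, hw⟩
  simp only [tw_TS, Phi1, e1]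
  by_cases h3 : (3 : O) ∣ -d
  swap
  · simp [h3]
  obtain ⟨e, he⟩ := dvd_neg.1 h3
  have hc : ∀ z : O, Prim (c + z * d) ↔ Prim c := fun z =>
    ⟨fun h => h.congr ⟨z * e, by rw [he]; ring⟩, fun h => h.congr ⟨-(z * e), by rw [he]; ring⟩⟩
  have hc' : Prim (t * c + x * d) ↔ Prim c :=
    ⟨fun h => Prim.of_mul (h.congr ⟨x * e, by rw [he]; ring⟩) ht,
      fun h => (ht.mul h).congr ⟨-(x * e), by rw [he]; ring⟩⟩
  have hc2 : Prim (c + x * (t * d)) ↔ Prim c := by rw [← mul_assoc]; exact hc _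
  simp only [h3, true_and, hc, hc', hc2]
  by_cases hP : Prim c
  swap
  · simp [hP]
  simp only [hP, if_true]
  have p1 := hc2.2 hP
  have p2 := (hc x).2 hP
  have p3 := hc'.2 hP
  constructor
  · rw [show -(t * d) = t * -d by ring, sym3_mul_left, cubic_recip ht p1,
      sym3_congr (x := c + x * (t * d)) (y := c) ⟨x * d, by ring⟩,
      sym3_SYM p1 p2 ⟨x * e * w, by rw [he]; linear_combination x * 3 * e * hw⟩
        ⟨-(x * (t - 1)), by ring⟩]
  · rw [sym3_SYM p3 (ht.mul p2) ⟨-(x * e * w), by rw [he]; linear_combination -x * 3 * e * hw⟩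
        ⟨x * (t - 1), by ring⟩, sym3_mul_right _ ht.ne_zero p2.ne_zero, kub_sym3_neg]

theorem good_SS : Good SS := by
  have := good_TS 0
  rwa [Tm_zero, one_mul] at this

theorem good_lower (y : O) : Good (lower y) := fun t c d ht => by
  obtain ⟨w, hw⟩ := ht
  have ht : Prim t := ⟨w, hw⟩
  have e1 : (3 : O) ∣ c - y * (t * d) ↔ (3 : O) ∣ c - y * d := by
    rw [show c - y * (t * d) = c - y * d - 3 * (y * w * d) by linear_combination -y * d * hw]
    exact dvd_sub_left (dvd_mul_right _ _)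
  have e2 : (3 : O) ∣ t * c - y * d ↔ (3 : O) ∣ c - y * d := by
    rw [show t * c - y * d = c - y * d + 3 * (w * c) by linear_combination c * hw]
    exact dvd_add_left (dvd_mul_right _ _)
  have e3 : Prim (t * d) ↔ Prim d := ⟨fun h => h.of_mul ht, fun h => ht.mul h⟩
  simp only [tw_lower, Phi1, e1, e2, e3]
  split_ifs with h
  · constructor
    · rw [sym3_congr (x := c - y * (t * d)) (y := c) ⟨-y, by ring⟩,
        sym3_congr (x := c - y * d) (y := c) ⟨-y, by ring⟩, sym3_mul_right _ ht.ne_zero h.2.ne_zero]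
    · rw [sym3_congr (x := t * c - y * d) (y := t * c) ⟨-y, by ring⟩,
        sym3_congr (x := c - y * d) (y := c) ⟨-y, by ring⟩, sym3_mul_left, cubic_recip ht h.2]
  · simp

theorem rho_Tm (σ : SLO) (y n : O) :
    rho (σ * Tm y) n = psi (toC n * toC y / 9) * rho σ n := by
  refine (rho_out.res (σ * Tm y) n).unique (((rho_out.res σ n).const_mul _).congr fun s _ => ?_)
  rw [Dser, Dser, ← tsum_mul_left]
  refine tsum_congr fun c => ?_
  split_ifs with hc
  swap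
  · rw [mul_zero]
  have h9c := mul_ne_zero sr_nine_ne hc
  have e : ∀ d, tw Phi1 (σ * Tm y) (c, d) = tw Phi1 σ (c, d - y * c) := fun d => by
    obtain ⟨a1, a2, a3, a4⟩ := Tm_apply (-y)
    rw [← tw_tw, tw, Tm_inv]
    simp only [rmul, a1, a2, a3, a4]
    congr 2 <;> ring
  rw [mul_left_comm, sr_Ssum, sr_Ssum,
    ← sum_rs_add h9c (sr_per h9c (sr_Phi_per (σ * Tm y) c)) (y * c), Finset.mul_sum]
  congr 1
  refine Finset.sum_congr rfl fun d _ => ?_
  have h1 := toC_ne_zero hc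
  have h9 : toC 9 = 9 := map_ofNat toC 9
  rw [e, add_sub_cancel_right, mul_left_comm, ← psi_add]
  congr 2
  simp only [map_mul, map_add, h9]
  field_simp
  ring

theorem cs_diag (σ δ : SLO) {u v : O} (huv : u * v = 1) (h1 : δ 0 0 = u) (h2 : δ 0 1 = 0)
    (h3 : δ 1 0 = 0) (h4 : δ 1 1 = v) (n : O) : rho (σ * δ) n = rho σ (v ^ 2 * n) := by
  have hv : IsUnit v := IsUnit.of_mul_eq_one u (by rw [mul_comm, huv])
  have hu : IsUnit u := IsUnit.of_mul_eq_one v huv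
  refine (rho_out.res (σ * δ) n).unique ((rho_out.res σ _).congr fun s _ => ?_)
  have hb : Function.Bijective (fun c : O => v * c) := hv.unit.mulLeft.bijective
  rw [Dser, Dser, ← (Equiv.ofBijective _ hb).tsum_eq]
  refine tsum_congr fun c => ?_
  simp only [Equiv.ofBijective_apply]
  by_cases hc : c = 0
  · simp [hc]
  have hvc := mul_ne_zero hv.ne_zero hc
  rw [if_pos hc, if_pos hvc, N_mul, N_unit hv, one_mul]
  congr 1
  have h9c := mul_ne_zero sr_nine_ne hc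
  have h9vc := mul_ne_zero sr_nine_ne hvc
  obtain ⟨i1, i2, i3, i4⟩ := SLO_inv δ
  have e : ∀ d, tw Phi1 (σ * δ) (c, d) = tw Phi1 σ (v * c, u * d) := fun d => by
    rw [← tw_tw, tw]
    simp only [rmul, i1, i2, i3, i4, h1, h2, h3, h4]
    congr 2 <;> ring
  have hper := sr_per (n := v ^ 2 * n) h9vc (sr_Phi_per σ (v * c))
  rw [sr_Ssum, sr_Ssum, ← sum_rs_mul h9vc (t := u) ⟨v, 0, by rw [mul_comm, huv]; simp⟩ hper,
    ← sum_rs_assoc (q := 9 * (v * c)) (q' := 9 * c) h9vc ⟨hu.unit, by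
      simp only [IsUnit.unit_spec]; linear_combination 9 * c * huv⟩
      (f := fun x => tw Phi1 σ (v * c, u * x) * psi (toC (v ^ 2 * n * (u * x)) / toC (9 * (v * c))))
      (fun a b hab => hper (u * a) (u * b) (by rw [← mul_sub]; exact hab.mul_left _))]
  refine Finset.sum_congr rfl fun d _ => ?_
  rw [e, show v ^ 2 * n * (u * d) = v * (n * d) by linear_combination v * n * d * huv,
    show 9 * (v * c) = v * (9 * c) by ring, map_mul toC v, map_mul toC v,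
    mul_div_mul_left _ _ (toC_ne_zero hv.ne_zero)]

theorem cs_class {σ σ0 : SLO} {u : O} (hu : IsUnit u)
    (h1 : (3 : O) ∣ u * σ 0 0 - σ0 0 0) (h2 : (3 : O) ∣ u * σ 1 0 - σ0 1 0) :
    ∃ (y u : O) (η : ℂ), IsUnit u ∧ ‖η‖ = 1 ∧
      ∀ n, rho σ n = η * psi (toC n * toC y / 9) * rho σ0 (u * n) := by
  obtain ⟨v, huv⟩ := hu.exists_right_inv
  obtain ⟨δ, d1, d2, d3, d4⟩ := exists_SLO (a := u) (b := 0) (c := 0) (d := v) (by simpa using huv)
  obtain ⟨a, ha⟩ := h1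
  obtain ⟨b, hb⟩ := h2
  have e0 := det_SLO σ0
  have e1 := det_SLO σ
  set y := σ0 1 1 * (σ 0 1 * v) - σ0 0 1 * (σ 1 1 * v) with hy
  obtain ⟨a1, a2, a3, a4⟩ := Tm_apply y
  have hg : σ * δ * (σ0 * Tm y)⁻¹ ∈ Gam 3 := mul_inv_mem_Gam fun i j => by
    fin_cases i <;> fin_cases j <;>
      simp only [Fin.zero_eta, Fin.mk_one, Fin.isValue, SLO_mul, d1, d2, d3, d4, a1, a2, a3, a4]
    · exact ⟨a, by linear_combination ha⟩
    · exact ⟨σ0 0 1 * v * (σ 0 1 * b - σ 1 1 * a), by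
        rw [hy]
        linear_combination (-(σ 0 1 * v)) * e0 + (σ0 0 1 * v * σ 0 1) * hb -
          (σ0 0 1 * v * σ 1 1) * ha + σ0 0 1 * u * v * e1 + σ0 0 1 * huv⟩
    · exact ⟨b, by linear_combination hb⟩
    · exact ⟨σ0 1 1 * v * (σ 0 1 * b - σ 1 1 * a), by
        rw [hy]
        linear_combination (-(σ 1 1 * v)) * e0 + (σ0 1 1 * v * σ 0 1) * hb -
          (σ0 1 1 * v * σ 1 1) * ha + σ0 1 1 * u * v * e1 + σ0 1 1 * huv⟩
  refine ⟨u ^ 2 * y, u ^ 2, conj (tw Phi1 (σ0 * Tm y) (row (σ * δ))), hu.pow 2, ?_, fun n => ?_⟩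
  · rw [RCLike.norm_conj, tw_row hg, norm_kap0 hg]
  · have := cs_diag σ δ huv d1 d2 d3 d4 (u ^ 2 * n)
    rw [show v ^ 2 * (u ^ 2 * n) = n by linear_combination n * (u * v + 1) * huv] at this
    rw [← this, rho_mult rho_out hg, rho_Tm, mul_assoc]
    congr 3
    simp only [map_mul]; ring

theorem cusp_class (σ : SLO) : ∃ (σ0 : SLO) (y u : O) (η : ℂ), Good σ0 ∧
    ((∃ x, σ0 = Tm x * SS) ∨ ∃ x, lam ∣ x ∧ σ0 = lower x) ∧ IsUnit u ∧ ‖η‖ = 1 ∧
    ∀ n, rho σ n = η * psi (toC n * toC y / 9) * rho σ0 (u * n) := by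
  by_cases hc : lam ∣ σ 1 0
  · have ha : ¬ lam ∣ σ 0 0 := fun h => prime_lam.not_unit (isUnit_of_dvd_one (by
      rw [← det_SLO σ]; exact (h.mul_right _).sub (hc.mul_left _)))
    obtain ⟨u, hu, hP⟩ := exists_prim_assoc ha
    obtain ⟨y, u', η, h⟩ := cs_class (σ := σ) (σ0 := lower (u * σ 1 0)) hu hP
      (by rw [show lower (u * σ 1 0) 1 0 = u * σ 1 0 from rfl, sub_self]; exact dvd_zero _)
    exact ⟨_, y, u', η, good_lower _, Or.inr ⟨_, hc.mul_left u, rfl⟩, h⟩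
  · obtain ⟨u, hu, hP⟩ := exists_prim_assoc hc
    obtain ⟨a1, a2, a3, a4⟩ := Tm_apply (u * σ 0 0)
    have s1 : SS 0 0 = 0 := rfl
    have s3 : SS 1 0 = 1 := rfl
    obtain ⟨y, u', η, h⟩ := cs_class (σ := σ) (σ0 := Tm (u * σ 0 0) * SS) hu
      (by rw [SLO_mul, a1, a2, s1, s3]; simp) (by rw [SLO_mul, a3, a4, s1, s3, zero_mul, zero_add, mul_one]; exact hP)
    exact ⟨_, y, u', η, good_TS _, Or.inl ⟨_, rfl⟩, h⟩

theorem cs_G1 {σ : SLO} (hσ : Good σ) {p c : O} (hp : Prime p) (hP : Prim p) (hc : ¬ p ∣ c)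
    (n : O) : Ssum 9 (tw Phi1 σ) n (c * p) =
      sym3 9 p * g3 n p * Ssum 9 (tw Phi1 σ) (n * p) c := by
  have h9c := mul_ne_zero sr_nine_ne (sr_ne hc)
  have hcop := sr_cop9 hp hP hc
  have h1 : Ssum 9 (tw Phi1 σ) n c = sym3 c p * Ssum 9 (tw Phi1 σ) (n * p) c := by
    rw [sr_Ssum, sr_Ssum, ← sum_rs_mul h9c hcop (sr_per h9c (sr_Phi_per σ c)), Finset.mul_sum]
    apply Finset.sum_congr rfl
    intro x _
    rw [(hσ p c x hP).1, mul_assoc n]
    ring
  have h2 : Ssum 9 (tw Phi1 σ) n (c * p) =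
      sym3 9 p * sym3 c p ^ 2 * (Ssum 9 (tw Phi1 σ) n c * g3 n p) := by
    have hper := sr_per (n := n) (mul_ne_zero sr_nine_ne (mul_ne_zero (sr_ne hc) hp.ne_zero))
      (sr_Phi_per σ (c * p))
    rw [sr_Ssum, sr_Ssum]
    rw [← mul_assoc] at hper ⊢
    unfold g3
    rw [sum_rs_crt h9c hp.ne_zero hcop.symm hper, Finset.sum_mul_sum, Finset.mul_sum]
    apply Finset.sum_congr rfl
    intro x1 _
    rw [Finset.mul_sum]
    apply Finset.sum_congr rfl
    intro x2 _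
    have e1 : tw Phi1 σ (c, x1 * p + x2 * (9 * c)) = tw Phi1 σ (c, p * x1) :=
      sr_Phi_per σ c _ _ ⟨x2, by ring⟩
    have e2 : sym3 (x1 * p + x2 * (9 * c)) p = sym3 (x2 * (9 * c)) p :=
      sym3_congr ⟨x1, by ring⟩
    rw [sr_psi_crt h9c hp.ne_zero, mul_comm c p, (hσ p c _ hP).2, e1, e2, (hσ p c _ hP).1,
      sym3_mul_left, sym3_mul_left, map_mul toC n x2]
    ring
  have h3 := sym3_cube (sr_cop hp hc).symm
  rw [h2, h1]
  linear_combination sym3 9 p * g3 n p * Ssum 9 (tw Phi1 σ) (n * p) c * h3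

theorem cs_G2 {σ : SLO} (hσ : Good σ) {p c n : O} (hp : Prime p) (hP : Prim p) (hc : ¬ p ∣ c)
    (hn : ¬ p ∣ n) {k : ℕ} (hk : 2 ≤ k) : Ssum 9 (tw Phi1 σ) n (c * p ^ k) = 0 := by
  obtain ⟨j, rfl⟩ : ∃ j, k = j + 1 + 1 := ⟨k - 2, by omega⟩
  have e : 9 * (c * p ^ (j + 1 + 1)) = 9 * (c * p ^ (j + 1)) * p := by ring
  rw [sr_Ssum, e]
  have hne : c * p ^ (j + 1) ≠ 0 := mul_ne_zero (sr_ne hc) (pow_ne_zero _ hp.ne_zero)
  apply sr_vanish (mul_ne_zero sr_nine_ne hne) hp.ne_zero _ hn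
  intro x y hxy
  simp only
  have hd : p ∣ x - y := Dvd.dvd.trans ⟨9 * c * p ^ j, by ring⟩ hxy
  rw [show c * p ^ (j + 1 + 1) = p * (c * p ^ (j + 1)) by ring, (hσ p _ x hP).2, (hσ p _ y hP).2,
    sym3_congr hd]
  congr 1
  exact sr_Phi_per σ _ x y hxy

theorem cs_DG {σ : SLO} (hσ : Good σ) {p n : O} (hp : Prime p) (hP : Prim p) (hn : ¬ p ∣ n)
    {s : ℂ} (hs : 3 < s.re) :
    Dser 9 (tw Phi1 σ) n s = Dsub 9 (tw Phi1 σ) n p s +
      sym3 9 p * g3 n p * ((N p : ℝ) : ℂ) ^ (-s) * Dsub 9 (tw Phi1 σ) (n * p) p s := by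
  have h1 := dr_split sr_nine_ne (equi_tw (dvd_refl (9 : O)) σ).bd n hs hp.ne_zero dvd_rfl
    (fun c h1 h2 => absurd h1 h2)
  have h2 : ∀ c, drA 9 (tw Phi1 σ) n s (c * p) =
      sym3 9 p * g3 n p * ((N p : ℝ) : ℂ) ^ (-s) * drB 9 (tw Phi1 σ) (n * p) p s c := by
    intro c
    rw [dr_B_eq]
    unfold drA
    by_cases hc : c = 0
    · simp [hc]
    · have e := dr_cpow c p 1 s
      rw [pow_one, pow_one] at e
      rw [if_pos (mul_ne_zero hc hp.ne_zero), if_pos hc, e]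
      by_cases h : p ∣ c
      · obtain ⟨c', k, hc', rfl⟩ := dr_decomp hp hc
        have k0 : k ≠ 0 := by
          rintro rfl
          exact hc' (by simpa using h)
        rw [if_neg (not_not.2 h), mul_assoc c', ← pow_succ, cs_G2 hσ hp hP hc' hn (by omega)]
        ring
      · rw [if_pos h, cs_G1 hσ hp hP h]
        ring
  rw [tsum_congr h2, tsum_mul_left, ← dr_Dsub] at h1
  exact h1

theorem cs_prime {σ : SLO} (hσ : Good σ) {n p : O} (hp : Prime p) (hP : Prim p) (hn : ¬ p ∣ n) :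
    rho σ (n * p) =
      ((N p ^ (-(1 / 6) : ℝ) : ℝ) : ℂ) * conj (G0 p) * sym3 (9 * n) p * rho σ n := by
  have h := rho_out
  obtain ⟨n0, n1, -⟩ := thr_ne hp hP
  have hd : DifferentiableOn ℂ (fun s : ℂ => sym3 9 p * g3 n p * ((N p : ℝ) : ℂ) ^ (-s))
      {s | 1 < s.re} := Differentiable.differentiableOn
    ((Differentiable.const_cpow (by fun_prop) (Or.inl n0)).const_mul _)
  have a := ((res_Dsub h σ hp hP n).add ((res_Dsub h σ hp hP (n * p)).mul hd)).congr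
    (D' := Dser 9 (tw Phi1 σ) n) fun s hs => by rw [cs_DG hσ hp hP hn hs]
  have b := (h.res σ n).unique a
  have hN := N_pos hp.ne_zero
  obtain ⟨a, ha⟩ : ∃ a : ℝ, a = N p ^ (1 / 6 : ℝ) := ⟨_, rfl⟩
  have a0 : 0 < a := ha ▸ Real.rpow_pos_of_pos hN _
  have e6 : N p = a ^ 6 := by
    rw [ha, ← Real.rpow_natCast, ← Real.rpow_mul hN.le]; norm_num
  have e3 : ‖toC p‖ = a ^ 3 := by
    rw [norm_toC, e6, show a ^ 6 = (a ^ 3) ^ 2 by ring, Real.sqrt_sq (by positivity)]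
  have e8 : ((N p : ℝ) : ℂ) ^ (-(4 / 3 : ℂ)) = (((a : ℂ)) ^ 8)⁻¹ := by
    have : N p ^ (-(4 / 3) : ℝ) = (a ^ 8)⁻¹ := by
      rw [ha, ← Real.rpow_natCast, ← Real.rpow_mul hN.le, ← Real.rpow_neg hN.le]; norm_num
    have e := Complex.ofReal_cpow hN.le (-(4 / 3) : ℝ)
    rw [this] at e
    push_cast at e
    exact e.symm
  have hac : (a : ℂ) ≠ 0 := by exact_mod_cast a0.ne'
  have l1 := sym3_cube (x := lam) (n := p)
    (prime_lam.irreducible.coprime_iff_not_dvd.2 hP.not_lam_dvd)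
  have e9 : sym3 9 p = sym3 lam p := by
    rw [show (9 : O) = lam ^ 4 by linear_combination (3 - lam ^ 2) * lam_sq, sym3_pow_left]
    linear_combination sym3 lam p * l1
  have eg : g3 n p = conj (sym3 n p) * (sym3 lam p * G0 p) * (a : ℂ) ^ 3 := by
    rw [g3_twist hp hP, G0_eq hP hp.squarefree, gt3, e3, conj_sym3 lam]
    push_cast
    field_simp
    linear_combination (-(conj (sym3 n p) * g3 1 p)) * l1
  have c2 := Complex.mul_conj' (sym3 n p)
  have c3 := Complex.mul_conj' (G0 p)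
  rw [norm_sym3 ((hp.irreducible.coprime_iff_not_dvd).2 hn).symm] at c2
  rw [norm_G0 hP hp.squarefree] at c3
  push_cast at c2 c3
  rw [e8, eg, e9] at b
  rw [e6] at b n1
  have b2 : rho σ n = sym3 lam p ^ 2 * conj (sym3 n p) * G0 p * a * rho σ (n * p) := by
    push_cast at b n1
    field_simp at b
    linear_combination b
  rw [Real.rpow_neg hN.le, ← ha, b2, sym3_mul_left, e9]
  push_cast
  field_simp
  linear_combination (-rho σ (n * p)) *
    (sym3 n p * conj (sym3 n p) * (G0 p * conj (G0 p)) * l1 + G0 p * conj (G0 p) * c2 + c3)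

theorem rho_gauss {σ : SLO} (hσ : Good σ) {n d : O} (hd : Prim d) (hs : Squarefree d)
    (hn : IsCoprime n d) :
    rho σ (n * d) = ((N d ^ (-(1 / 6) : ℝ) : ℝ) : ℂ) * conj (G0 d) * sym3 (9 * n) d * rho σ n := by
  refine Prim.induction (P := fun d => Squarefree d → IsCoprime n d → rho σ (n * d) =
    ((N d ^ (-(1 / 6) : ℝ) : ℝ) : ℂ) * conj (G0 d) * sym3 (9 * n) d * rho σ n) ?_ ?_ d hd hs hn
  · intro _ _
    simp [N_one, G0_one, kub_sym3_one]
  · intro p d hp hP hd ih hs hn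
    have hpd : ¬ p ∣ d := fun hh => hp.not_unit (hs p (mul_dvd_mul_left p hh))
    have hcop := hp.coprime_iff_not_dvd.2 hpd
    have hpn : ¬ p ∣ n * d := fun hh => (hp.dvd_or_dvd hh).elim
      (hp.coprime_iff_not_dvd.1 hn.of_mul_right_left.symm) hpd
    rw [show n * (p * d) = n * d * p by ring, cs_prime hσ hp hP hpn,
      ih hs.of_mul_right hn.of_mul_right_right, N_mul, Real.mul_rpow (N_nonneg _) (N_nonneg _),
      G0_mul hP hd hp.squarefree hs.of_mul_right hcop, sym3_mul_right _ hp.ne_zero hd.ne_zero,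
      ← mul_assoc 9, sym3_mul_left (9 * n) d, cubic_recip hd hP]
    simp only [map_mul, Complex.conj_conj]
    push_cast
    ring

theorem rho_th {σ : SLO} (hσ : Good σ) {n a : O} (ha : Prim a) (hn : IsCoprime n a) :
    rho σ (n * a) = th a * sym3 (9 * n) a * rho σ n := by
  rcases th_cases ha with ⟨b, d, hb, hs, hd, rfl⟩ | ⟨h0, m, p, d, -, hp, hP, hd, hpm, rfl⟩
  · have h9 : IsCoprime (9 * n) d := by
      refine IsCoprime.mul_left ?_ (hn.of_mul_right_right.of_isCoprime_of_dvd_right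
        (dvd_pow_self d (by norm_num)))
      have := (hd.coprime_three.pow_right (n := 2)).symm
      rwa [show (3 : O) ^ 2 = 9 by norm_num] at this
    rw [← mul_assoc, rho_cube rho_out σ _ hd, rho_gauss hσ hb hs hn.of_mul_right_left,
      th_eq hb hs hd, sym3_mul_right _ hb.ne_zero (hd.pow 3).ne_zero,
      sym3_pow_right _ hd.ne_zero, sym3_cube h9]
    ring
  · have hpn : ¬ p ∣ n * m := fun hh => (hp.dvd_or_dvd hh).elim
      (hp.coprime_iff_not_dvd.1 (hn.of_mul_right_left.of_mul_right_right.of_isCoprime_of_dvd_right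
        (dvd_pow_self p two_ne_zero)).symm) hpm
    rw [h0, ← mul_assoc, rho_cube rho_out σ _ hd, ← mul_assoc, rho_sq rho_out σ hp hP hpn]
    simp

theorem rho_nz : ∃ u : O, IsUnit u ∧ rho 1 (3 * u) ≠ 0 := by
  obtain ⟨u, hu, h⟩ := tau_nz rho_out
  exact ⟨u, hu, fun h0 => h (by rw [tauOf, h0, mul_zero])⟩

theorem vor_base (σ γ : SLO) (hc : γ 1 0 ≠ 0) {x : ℝ} (hx : 0 < x) :
    ∑' n : O, rho σ n * psi (toC n * toC (γ 0 0) / (9 * toC (γ 1 0))) * bb (N n * x) (4 / 3) =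
      (((243 * N (γ 1 0) * x) ^ (-(2 / 3) : ℝ) : ℝ) : ℂ) *
        ∑' n : O, rho (σ * γ) n * omc (γ 1 0) (γ 1 1) n *
          bb (N n / ((243 * N (γ 1 0)) ^ 2 * x)) (4 / 3) := by
  have hN := N_pos hc
  have h9 : toC 9 = 9 := map_ofNat toC 9
  have hN9 : N (9 : O) = 81 := by rw [N_ofNat]; norm_num
  obtain ⟨v, hv, hvx⟩ : ∃ v : ℝ, 0 < v ∧ v ^ 2 = 243 * x :=
    ⟨√(243 * x), Real.sqrt_pos.2 (by positivity), Real.sq_sqrt (by positivity)⟩
  obtain ⟨t, et⟩ : ∃ t, Real.exp t = (N (γ 1 0) * v)⁻¹ := by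
    refine ⟨-Real.log (N (γ 1 0) * v), ?_⟩
    rw [Real.exp_neg, Real.exp_log (by positivity)]
  have key := (rho_out.aut σ (actO γ (-(toC (γ 1 1) / toC (γ 1 0)) + 0, t))).symm.trans
    (by rw [← actO_mul, rho_out.aut])
  rw [actO_cusp γ hc] at key
  have e1 : Real.exp (-Real.log (N (γ 1 0) * (normSq 0 + Real.exp t ^ 2) / Real.exp t)) = v := by
    rw [Real.exp_neg, Real.exp_log (by rw [map_zero]; positivity), et, map_zero]
    field_simp
    ring
  simp only [thetaF, P026.ht, e1] at key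
  simp only [map_zero, mul_zero, zero_div, sub_zero, add_zero, h9, hN9, et] at key
  have e2 : ∀ n : O, N n * v ^ 2 / (3 * 81) = N n * x := fun n => by rw [hvx]; ring
  have e3 : ∀ n : O, N n * (N (γ 1 0) * v)⁻¹ ^ 2 / (3 * 81) =
      N n / ((243 * N (γ 1 0)) ^ 2 * x) := fun n => by
    rw [inv_pow, mul_pow, hvx]; field_simp; ring
  have e4 : (N (γ 1 0) * v)⁻¹ ^ (2 / 3 : ℝ) =
      v ^ (2 / 3 : ℝ) * (243 * N (γ 1 0) * x) ^ (-(2 / 3) : ℝ) := by
    rw [Real.rpow_neg (by positivity), ← Real.inv_rpow (by positivity),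
      ← Real.mul_rpow hv.le (by positivity)]
    congr 1
    rw [show 243 * N (γ 1 0) * x = N (γ 1 0) * v ^ 2 by rw [hvx]; ring]
    field_simp
  simp only [e2, e3, e4] at key
  have hv0 : ((v ^ (2 / 3 : ℝ) : ℝ) : ℂ) ≠ 0 := by
    exact_mod_cast (Real.rpow_pos_of_pos hv _).ne'
  refine mul_left_cancel₀ hv0 ?_
  rw [← tsum_mul_left, ← tsum_mul_left, ← tsum_mul_left]
  refine (tsum_congr fun n => ?_).trans (key.trans (tsum_congr fun n => ?_))
  · rw [show toC n * (toC (γ 0 0) / toC (γ 1 0)) / 9 = toC n * toC (γ 0 0) / (9 * toC (γ 1 0)) by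
      ring]
    ring
  · rw [omc, show toC n * -(toC (γ 1 1) / toC (γ 1 0)) / 9 =
      -(toC n * toC (γ 1 1) / (9 * toC (γ 1 0))) by ring]
    push_cast
    ring

end

end Vale.Agent.P006
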