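import Vale.Agent.P006.Bas
import Vale.Agent.P026.Wb
import Vale.Agent.P026.Lat
import Vale.Agent.P026.DualB

namespace Vale.Agent.P006

open Vale.Agent.P026 Complex MeasureTheory Filter Topology
open scoped Classical ComplexConjugate Real MatrixGroups

noncomputable section

theorem norm_WK (K : ℝ) (w : ℂ) (x : ℝ) :
    ‖WK K w x‖ = Real.exp (w.re * Real.log x - K ^ 2 * Real.log x ^ 2) := by
  rw [WK, norm_exp, ← ofReal_pow, ← ofReal_pow, ← ofReal_mul]
  simp only [sub_re, re_mul_ofReal, ofReal_re]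

theorem WK_le_W {K : ℝ} (hK : 1 ≤ K) (w : ℂ) (x : ℝ) : ‖WK K w x‖ ≤ ‖W w x‖ := by
  rw [norm_WK, norm_W, Real.exp_le_exp]
  have := one_le_pow₀ (n := 2) hK
  nlinarith [sq_nonneg (Real.log x)]

theorem WK_le (a R0 : ℝ) : ∃ C : ℝ, 0 < C ∧ ∀ (K : ℝ) (w : ℂ) (x : ℝ), 1 ≤ K → |w.re| ≤ R0 →
    0 < x → ‖WK K w x‖ ≤ C * x ^ a := by
  obtain ⟨C, hC, h⟩ := W_le a R0
  exact ⟨C, hC, fun K w x hK hw hx => (WK_le_W hK w x).trans (h w x hw hx)⟩

theorem WK_cpow (K : ℝ) (w s : ℂ) {x : ℝ} (hx : 0 < x) :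
    WK K w x * (x : ℂ) ^ s = WK K (w + s) x := by
  rw [WK, WK, wb_cpow hx, ← Complex.exp_add]
  congr 1; ring

theorem WK_eq_W {K : ℝ} (hK : 0 < K) (w : ℂ) {x : ℝ} (hx : 0 < x) :
    WK K w x = W (w / K) (x ^ K) := by
  have : (K : ℂ) ≠ 0 := ofReal_ne_zero.2 hK.ne'
  rw [WK, W, Real.log_rpow hx]
  congr 1
  push_cast
  field_simp

theorem WK_mellin {K : ℝ} (hK : 0 < K) (w s : ℂ) : MellinConvergent (WK K w) s ∧
    mellin (WK K w) s = ((√π / K : ℝ) : ℂ) * Complex.exp ((s + w) ^ 2 / (4 * K ^ 2)) := by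
  have hK' : (K : ℂ) ≠ 0 := ofReal_ne_zero.2 hK.ne'
  have e : Set.EqOn (fun t : ℝ => (t : ℂ) ^ (s - 1) • W (w / K) (t ^ K))
      (fun t : ℝ => (t : ℂ) ^ (s - 1) • WK K w t) (Set.Ioi 0) := fun t ht => by
    simp only [WK_eq_W hK w ht]
  constructor
  · exact IntegrableOn.congr_fun ((MellinConvergent.comp_rpow (f := W (w / K)) (s := s) hK.ne').2
      (W_mellin _ _).1) e measurableSet_Ioi
  · have h := mellin_comp_rpow (W (w / K)) s K
    rw [(W_mellin _ _).2, abs_of_pos hK, mellin,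
      setIntegral_congr_fun measurableSet_Ioi e] at h
    rw [mellin, h, real_smul, ← mul_assoc]
    congr 1
    · push_cast
      ring
    · congr 1
      field_simp

theorem WK_gauss {K : ℝ} (hK : 0 < K) (w : ℂ) (σ : ℝ) :
    Integrable fun τ : ℝ => Complex.exp ((σ + τ * Complex.I + w) ^ 2 / (4 * K ^ 2)) := by
  have hK' : (K : ℂ) ≠ 0 := ofReal_ne_zero.2 hK.ne'
  refine (integrable_cexp_quadratic' (b := ((-1 / (4 * K ^ 2) : ℝ) : ℂ)) (by
    rw [ofReal_re]
    exact div_neg_of_neg_of_pos (by norm_num) (by positivity))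
    ((σ + w) * Complex.I / (2 * K ^ 2)) ((σ + w) ^ 2 / (4 * K ^ 2))).congr
    (ae_of_all _ fun τ => ?_)
  simp only
  congr 1
  push_cast
  field_simp
  linear_combination (-2 * τ ^ 2) * I_sq

theorem WK_inv_mellin {K : ℝ} (hK : 0 < K) (w : ℂ) (σ : ℝ) {x : ℝ} (hx : 0 < x) :
    WK K w x = 1 / (2 * π) * ∫ τ : ℝ, ((√π / K : ℝ) : ℂ) *
      Complex.exp ((σ + τ * Complex.I + w) ^ 2 / (4 * K ^ 2)) *
        (x : ℂ) ^ (-(σ + τ * Complex.I)) := by
  have h := mellinInv_mellin_eq σ (WK K w) hx (WK_mellin hK w σ).1 (by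
    simpa only [VerticalIntegrable, (WK_mellin hK w _).2] using (WK_gauss hK w σ).const_mul _)
    (by
      have := hx.ne'
      unfold WK
      fun_prop (disch := assumption))
  rw [← h, mellinInv]
  simp only [(WK_mellin hK w _).2, smul_eq_mul, real_smul]
  push_cast
  congr 2
  ext τ
  ring

theorem mrep_WK (R0 : ℝ) : ∃ M : ℝ, 0 < M ∧ ∀ (K σ : ℝ) (w : ℂ), 1 ≤ K → |σ| ≤ R0 →
    |w.re| ≤ R0 → MRep (WK K w) σ M := by
  refine ⟨Real.exp (R0 ^ 2), Real.exp_pos _, fun K σ w hK hσ hw => ?_⟩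
  have K0 : 0 < K := by linarith
  have hp := Real.pi_pos
  refine ⟨fun τ => 1 / (2 * π) * (((√π / K : ℝ) : ℂ) *
      Complex.exp ((σ + τ * Complex.I + w) ^ 2 / (4 * K ^ 2))),
    ((WK_gauss K0 w σ).const_mul _).const_mul _, ?_, fun x hx => ?_⟩
  · have e : ∀ τ : ℝ, ‖1 / (2 * π) * (((√π / K : ℝ) : ℂ) *
        Complex.exp ((σ + τ * Complex.I + w) ^ 2 / (4 * K ^ 2)))‖ =
        1 / (2 * π) * (√π / K) * Real.exp ((σ + w.re) ^ 2 / (4 * K ^ 2)) *
          Real.exp (-(1 / (4 * K ^ 2)) * (τ + w.im) ^ 2) := fun τ => by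
      have a1 : (1 / (2 * π) : ℂ) = ((1 / (2 * π) : ℝ) : ℂ) := by push_cast; rfl
      have a2 : (4 * K ^ 2 : ℂ) = ((4 * K ^ 2 : ℝ) : ℂ) := by push_cast; rfl
      rw [a1, a2, norm_mul, norm_mul, norm_real, norm_real, norm_exp, div_ofReal_re,
        Real.norm_of_nonneg (by positivity), Real.norm_of_nonneg (by positivity), mul_assoc,
        mul_assoc, ← Real.exp_add]
      congr 3
      simp [sq]
      ring
    simp only [e]
    rw [integral_const_mul, integral_add_right_eq_self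
      (fun τ : ℝ => Real.exp (-(1 / (4 * K ^ 2)) * τ ^ 2)), integral_gaussian]
    have a3 : √(π / (1 / (4 * K ^ 2))) = √π * (2 * K) := by
      rw [div_div_eq_mul_div, div_one, Real.sqrt_mul hp.le,
        show 4 * K ^ 2 = (2 * K) ^ 2 by ring, Real.sqrt_sq (by positivity)]
    have a4 : 1 / (2 * π) * (√π / K) * Real.exp ((σ + w.re) ^ 2 / (4 * K ^ 2)) * (√π * (2 * K)) =
        (√π * √π) / π * Real.exp ((σ + w.re) ^ 2 / (4 * K ^ 2)) := by
      field_simp
    rw [a3, a4, Real.mul_self_sqrt hp.le, div_self hp.ne', one_mul, Real.exp_le_exp,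
      div_le_iff₀ (by positivity)]
    have b1 : (σ + w.re) ^ 2 ≤ (2 * R0) ^ 2 :=
      sq_le_sq' (by linarith [abs_le.1 hσ, abs_le.1 hw]) (by linarith [abs_le.1 hσ, abs_le.1 hw])
    have b2 := one_le_pow₀ (n := 2) hK
    nlinarith [sq_nonneg R0]
  · rw [WK_inv_mellin K0 w σ hx, ← integral_const_mul]
    simp only [mul_assoc]

theorem MRep.norm_le {F : ℝ → ℂ} {σ M : ℝ} (h : MRep F σ M) {x : ℝ} (hx : 0 < x) :
    ‖F x‖ ≤ M * x ^ (-σ) := by
  obtain ⟨m, -, hM, hW⟩ := h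
  rw [hW x hx]
  refine (norm_integral_le_integral_norm _).trans ?_
  have : ∀ τ : ℝ, ‖m τ * (x : ℂ) ^ (-(σ + τ * Complex.I))‖ = ‖m τ‖ * x ^ (-σ) := by
    intro τ
    rw [norm_mul, Complex.norm_cpow_eq_rpow_re_of_pos hx]
    simp
  simp_rw [this]
  rw [integral_mul_const]
  exact mul_le_mul_of_nonneg_right hM (Real.rpow_nonneg hx.le _)

/-- separation of variables in an `L²` family bound -/
theorem sep {ι κ : Type*} {F : ℝ → ℂ} {σ M P B : ℝ} (h : MRep F σ M) (S : Finset ι) (T : Finset κ)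
    (c : ι → κ → ℂ) (x : κ → ℝ) (y : ι → ℝ) (hx : ∀ m ∈ T, 0 < x m)
    (hy : ∀ a ∈ S, 0 < y a ∧ y a ^ σ ≤ B)
    (hP : ∀ τ : ℝ, ∑ a ∈ S, ‖∑ m ∈ T, c a m * ((x m : ℝ) : ℂ) ^ (-(σ + τ * Complex.I))‖ ^ 2 ≤ P) :
    ∑ a ∈ S, ‖∑ m ∈ T, c a m * F (x m / y a)‖ ^ 2 ≤ M ^ 2 * B ^ 2 * P := by
  obtain ⟨g, hg, hM, hW⟩ := h
  have P0 : 0 ≤ P := le_trans (Finset.sum_nonneg fun _ _ => by positivity) (hP 0)
  have ig : ∀ x : ℝ, 0 < x → Integrable fun t : ℝ => g t * (x : ℂ) ^ (-(σ + t * Complex.I)) :=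
    fun x hx => hg.mul_bdd (c := x ^ (-σ))
      (Continuous.const_cpow (by fun_prop) (Or.inl (by exact_mod_cast hx.ne'))).aestronglyMeasurable
      (Eventually.of_forall fun t => by
        rw [Complex.norm_cpow_eq_rpow_re_of_pos hx]
        simp)
  set Z : ι → ℝ → ℂ := fun a t => ∑ m ∈ T, c a m *
    ((x m / y a : ℝ) : ℂ) ^ (-(σ + t * Complex.I)) with hZ
  have e0 : ∀ a t, g t * Z a t = ∑ m ∈ T, c a m *
      (g t * ((x m / y a : ℝ) : ℂ) ^ (-(σ + t * Complex.I))) := fun a t => by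
    rw [hZ, Finset.mul_sum]
    exact Finset.sum_congr rfl fun _ _ => by ring
  rw [mul_assoc]
  refine le_trans (le_of_eq (Finset.sum_congr rfl fun a ha => ?_))
    (dualB_int S hg hM (by positivity) Z (fun a ha => ?_) fun t => ?_)
  · simp only [e0]
    rw [integral_finsetSum _ fun m hm => (ig _ (div_pos (hx m hm) (hy a ha).1)).const_mul _]
    congr 2
    exact Finset.sum_congr rfl fun m hm => by
      rw [integral_const_mul, ← hW _ (div_pos (hx m hm) (hy a ha).1)]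
  · simp only [e0]
    exact integrable_finsetSum _ fun m hm => (ig _ (div_pos (hx m hm) (hy a ha).1)).const_mul _
  · refine le_trans ?_ (mul_le_mul_of_nonneg_left (hP t) (sq_nonneg B))
    rw [Finset.mul_sum]
    refine Finset.sum_le_sum fun a ha => ?_
    have y0 := (hy a ha).1
    have e1 : Z a t = (y a : ℂ) ^ (σ + t * Complex.I) *
        ∑ m ∈ T, c a m * ((x m : ℝ) : ℂ) ^ (-(σ + t * Complex.I)) := by
      rw [hZ, Finset.mul_sum]
      refine Finset.sum_congr rfl fun m hm => ?_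
      rw [wb_cpow (div_pos (hx m hm) y0), wb_cpow y0, wb_cpow (hx m hm),
        Real.log_div (hx m hm).ne' y0.ne', mul_left_comm, ← Complex.exp_add]
      congr 2
      push_cast
      ring
    rw [e1, norm_mul, mul_pow, Complex.norm_cpow_eq_rpow_re_of_pos y0]
    refine mul_le_mul_of_nonneg_right (pow_le_pow_left₀ (by positivity) ?_ 2) (by positivity)
    simpa using (hy a ha).2

theorem mink2 {ι : Type*} (S : Finset ι) (f g : ι → ℂ) :
    √(∑ a ∈ S, ‖f a + g a‖ ^ 2) ≤ √(∑ a ∈ S, ‖f a‖ ^ 2) + √(∑ a ∈ S, ‖g a‖ ^ 2) := by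
  have h1 : 0 ≤ ∑ a ∈ S, ‖f a‖ ^ 2 := by positivity
  have h2 : 0 ≤ ∑ a ∈ S, ‖g a‖ ^ 2 := by positivity
  have h3 : ∑ a ∈ S, ‖f a‖ * ‖g a‖ ≤ √(∑ a ∈ S, ‖f a‖ ^ 2) * √(∑ a ∈ S, ‖g a‖ ^ 2) := by
    rw [← Real.sqrt_mul h1]
    exact Real.le_sqrt_of_sq_le (Finset.sum_mul_sq_le_sq_mul_sq _ _ _)
  rw [Real.sqrt_le_left (by positivity), add_sq, Real.sq_sqrt h1, Real.sq_sqrt h2]
  calc _ ≤ ∑ a ∈ S, (‖f a‖ ^ 2 + 2 * (‖f a‖ * ‖g a‖) + ‖g a‖ ^ 2) :=
        Finset.sum_le_sum fun a _ =>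
          (pow_le_pow_left₀ (norm_nonneg _) (norm_add_le _ _) 2).trans_eq (by ring)
    _ ≤ _ := by
        rw [Finset.sum_add_distrib, Finset.sum_add_distrib, ← Finset.mul_sum]
        linarith

/-- Minkowski inequality for finite families -/
theorem mink {ι κ : Type*} (S : Finset ι) (T : Finset κ) (f : ι → κ → ℂ) :
    √(∑ a ∈ S, ‖∑ j ∈ T, f a j‖ ^ 2) ≤ ∑ j ∈ T, √(∑ a ∈ S, ‖f a j‖ ^ 2) := by
  induction T using Finset.induction_on with
  | empty => simp
  | insert j T hj ih =>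
    simp only [Finset.sum_insert hj]
    exact (mink2 S _ _).trans (add_le_add le_rfl ih)

theorem thin_exp (u : ℝ) : |Real.exp u - 1| ≤ |u| * Real.exp |u| := by
  have h0 := Real.exp_pos u
  rcases le_total 0 u with h | h
  · rw [abs_of_nonneg h, abs_of_nonneg (by linarith [Real.add_one_le_exp u])]
    have h1 := Real.add_one_le_exp (-u)
    have h2 := mul_le_mul_of_nonneg_left h1 h0.le
    rw [← Real.exp_add, add_neg_cancel, Real.exp_zero] at h2
    linarith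
  · rw [abs_of_nonpos h, abs_of_nonpos (by linarith [Real.exp_le_one_iff.2 h])]
    have h1 := Real.add_one_le_exp u
    have h2 := Real.one_le_exp (neg_nonneg.2 h)
    nlinarith

theorem thin_pt {b b0 K t : ℝ} (hb : |b| ≤ b0) (hK : 1 ≤ K) (ht : 0 < t) :
    Real.exp (b * Real.log t - K ^ 2 * Real.log t ^ 2) * (1 + K * |t - 1|) ^ 2 ≤
      4 * Real.exp ((b0 + 2) ^ 2 / 2) := by
  obtain ⟨u, rfl⟩ : ∃ u, t = Real.exp u := ⟨Real.log t, (Real.exp_log ht).symm⟩
  rw [Real.log_exp]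
  have u0 := abs_nonneg u
  have a0 := Real.one_le_exp u0
  have a1 : 1 + K * |Real.exp u - 1| ≤ Real.exp |u| * (1 + K * |u|) := by
    have := mul_le_mul_of_nonneg_left (thin_exp u) (by linarith : 0 ≤ K)
    linarith
  have a2 : (1 + K * |u|) ^ 2 ≤ 4 * Real.exp (K ^ 2 * u ^ 2 / 2) := by
    have := Real.add_one_le_exp (K ^ 2 * u ^ 2 / 2)
    have e : (K * |u|) ^ 2 = K ^ 2 * u ^ 2 := by rw [mul_pow, sq_abs]
    nlinarith [sq_nonneg (1 - K * |u|)]
  calc _ ≤ Real.exp (b * u - K ^ 2 * u ^ 2) * (Real.exp |u| * (1 + K * |u|)) ^ 2 := by gcongr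
    _ ≤ Real.exp (b * u - K ^ 2 * u ^ 2) *
        (Real.exp |u| ^ 2 * (4 * Real.exp (K ^ 2 * u ^ 2 / 2))) := by
        rw [mul_pow]
        gcongr
    _ = 4 * Real.exp (b * u - K ^ 2 * u ^ 2 + (|u| + |u|) + K ^ 2 * u ^ 2 / 2) := by
        rw [Real.exp_add, Real.exp_add, Real.exp_add]
        ring
    _ ≤ _ := by
        gcongr
        have c1 : b * u ≤ b0 * |u| := (le_abs_self _).trans (by rw [abs_mul]; gcongr)
        have c2 := one_le_pow₀ (n := 2) hK
        have c3 : u ^ 2 ≤ K ^ 2 * u ^ 2 := le_mul_of_one_le_left (sq_nonneg u) c2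
        nlinarith [sq_nonneg (b0 + 2 - |u|), sq_abs u]

theorem thin_tel {L : ℝ} (hL : 1 ≤ L) (x : ℝ) :
    L / (L + |x|) ^ 2 ≤ 2 * ((x + 1) / (L + |x + 1|) - x / (L + |x|)) := by
  rcases le_total 0 x with h | h
  · rw [abs_of_nonneg h, abs_of_nonneg (by linarith : 0 ≤ x + 1)]
    have e : 2 * ((x + 1) / (L + (x + 1)) - x / (L + x)) = L / ((L + x) * ((L + x + 1) / 2)) := by
      have : L + x ≠ 0 := by positivity
      have : L + (x + 1) ≠ 0 := by positivity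
      have : L + x + 1 ≠ 0 := by positivity
      field_simp
      ring
    rw [e, sq]
    gcongr
    linarith
  · rcases le_total (x + 1) 0 with h' | h'
    · rw [abs_of_nonpos h, abs_of_nonpos h']
      have p1 : 0 < L + -x := by linarith
      have p2 : 0 < L + -(x + 1) := by linarith
      have e : (x + 1) / (L + -(x + 1)) - x / (L + -x) = L / ((L + -x) * (L + -(x + 1))) := by
        field_simp
        ring
      have a : L / (L + -x) ^ 2 ≤ L / ((L + -x) * (L + -(x + 1))) := by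
        rw [sq]
        gcongr
        linarith
      have b : 0 ≤ L / ((L + -x) * (L + -(x + 1))) := by positivity
      rw [e]
      linarith
    · rw [abs_of_nonpos h, abs_of_nonneg h']
      have a1 : (x + 1) / (2 * L) ≤ (x + 1) / (L + (x + 1)) := by
        gcongr
        linarith
      have a2 : -x / (2 * L) ≤ -x / (L + -x) := by
        have : 0 ≤ -x := by linarith
        gcongr
        linarith
      have a3 : L / (L + -x) ^ 2 ≤ L / L ^ 2 := by
        gcongr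
        linarith
      have a4 : L / L ^ 2 = 2 * ((x + 1) / (2 * L) + -x / (2 * L)) := by
        field_simp
        ring
      rw [neg_div] at a2
      rw [neg_div (L + -x)] at a2
      rw [neg_div] at a4
      linarith

theorem thin_sum {L : ℝ} (hL : 1 ≤ L) (Y : ℝ) (M : ℕ) :
    ∑ k ∈ Finset.range M, L / (L + |(k : ℝ) - Y|) ^ 2 ≤ 4 := by
  have hb : ∀ x : ℝ, |x / (L + |x|)| ≤ 1 := fun x => by
    rw [abs_div, abs_of_pos (by positivity : 0 < L + |x|), div_le_one (by positivity)]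
    linarith
  have h := Finset.sum_range_sub (fun k : ℕ => ((k : ℝ) - Y) / (L + |(k : ℝ) - Y|)) M
  refine le_trans (Finset.sum_le_sum fun k _ => thin_tel hL ((k : ℝ) - Y)) ?_
  rw [← Finset.mul_sum]
  have e : ∀ k : ℕ, (k : ℝ) - Y + 1 = ((k + 1 : ℕ) : ℝ) - Y := fun k => by push_cast; ring
  simp only [e]
  rw [h]
  linarith [abs_le.1 (hb ((M : ℝ) - Y)), abs_le.1 (hb (((0 : ℕ) : ℝ) - Y))]

/-- thin Gaussian lattice count -/
theorem sum_WK_thin {ε : ℝ} (hε : 0 < ε) (R0 : ℝ) : ∃ C : ℝ, 0 < C ∧ ∀ (K Y : ℝ) (w : ℂ),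
    1 ≤ K → 1 ≤ Y → |w.re| ≤ R0 →
    Summable (fun n : O => if n ≠ 0 then ‖WK K w (N n / Y)‖ else 0) ∧
    ∑' n : O, (if n ≠ 0 then ‖WK K w (N n / Y)‖ else 0) ≤ C * Y ^ ε * (Y / K + 1) := by
  obtain ⟨C, hC, hc⟩ := card_norm_le hε
  obtain ⟨A, hA⟩ : ∃ A, A = 4 * Real.exp ((R0 + ε + 2) ^ 2 / 2) := ⟨_, rfl⟩
  have A0 : 0 < A := by rw [hA]; positivity
  refine ⟨C * A * 4, by positivity, fun K Y w hK hY hw => ?_⟩
  obtain ⟨L, hL⟩ : ∃ L, L = Y / K + 1 := ⟨_, rfl⟩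
  have Y0 : 0 < Y := by linarith
  have K0 : 0 < K := by linarith
  have L1 : 1 ≤ L := by rw [hL]; exact le_add_of_nonneg_left (by positivity)
  have L0 : 0 < L := by linarith
  have pt : ∀ k : ℕ, (k : ℝ) ^ ε * ‖WK K w (k / Y)‖ ≤
      Y ^ ε * A * L * (L / (L + |(k : ℝ) - Y|) ^ 2) := by
    intro k
    rcases Nat.eq_zero_or_pos k with rfl | hk
    · rw [Nat.cast_zero, Real.zero_rpow hε.ne', zero_mul]
      positivity
    have k0 : (0 : ℝ) < k := by exact_mod_cast hk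
    have t0 := div_pos k0 Y0
    have h := thin_pt (b := w.re + ε) (b0 := R0 + ε)
      ((abs_add_le _ _).trans (by rw [abs_of_pos hε]; linarith)) hK t0
    rw [← hA] at h
    have e1 : (k : ℝ) ^ ε * ‖WK K w (k / Y)‖ = Y ^ ε *
        Real.exp ((w.re + ε) * Real.log (k / Y) - K ^ 2 * Real.log (k / Y) ^ 2) := by
      rw [norm_WK, Real.rpow_def_of_pos k0, Real.rpow_def_of_pos Y0, ← Real.exp_add, ← Real.exp_add,
        Real.log_div k0.ne' Y0.ne']
      congr 1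
      ring
    have e2 : (L + |(k : ℝ) - Y|) / L ≤ 1 + K * |k / Y - 1| := by
      have : K * |k / Y - 1| = |(k : ℝ) - Y| / (Y / K) := by
        rw [div_sub_one Y0.ne', abs_div, abs_of_pos Y0]
        field_simp
      rw [add_div, div_self L0.ne', this]
      gcongr
      linarith
    rw [e1, mul_assoc, mul_assoc]
    refine mul_le_mul_of_nonneg_left ?_ (by positivity)
    have e3 : L * (L / (L + |(k : ℝ) - Y|) ^ 2) = 1 / ((L + |(k : ℝ) - Y|) / L) ^ 2 := by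
      field_simp
    rw [e3, mul_one_div, le_div_iff₀ (by positivity)]
    refine le_trans ?_ h
    gcongr
  have key : ∀ u : Finset O, ∑ n ∈ u, (if n ≠ 0 then ‖WK K w (N n / Y)‖ else 0) ≤
      C * A * 4 * Y ^ ε * (Y / K + 1) := by
    intro u
    obtain ⟨M, hM⟩ := (u.image Nm).bddAbove
    calc _ ≤ ∑ n ∈ ballO M, ‖WK K w (N n / Y)‖ := by
          rw [← Finset.sum_filter]
          refine Finset.sum_le_sum_of_subset_of_nonneg (fun n hn => ?_) fun _ _ _ => norm_nonneg _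
          rw [Finset.mem_filter] at hn
          exact mem_ballO.2 ⟨hn.2, Nat.cast_le.2 (hM (Finset.mem_image_of_mem Nm hn.1))⟩
      _ = ∑ k ∈ Finset.range (M + 1), ∑ n ∈ (ballO M).filter (fun n => Nm n = k),
          ‖WK K w (N n / Y)‖ := by
          refine (Finset.sum_fiberwise_of_maps_to (fun n hn => ?_) _).symm
          exact Finset.mem_range.2 (Nat.lt_succ_of_le (Nat.cast_le.1 (mem_ballO.1 hn).2))
      _ ≤ ∑ k ∈ Finset.range (M + 1), C * (Y ^ ε * A * L * (L / (L + |(k : ℝ) - Y|) ^ 2)) := by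
          refine Finset.sum_le_sum fun k _ => ?_
          rw [Finset.sum_congr rfl fun n hn => by rw [N, (Finset.mem_filter.1 hn).2],
            Finset.sum_const, nsmul_eq_mul]
          refine (mul_le_mul_of_nonneg_right (hc k M) (norm_nonneg _)).trans ?_
          rw [mul_assoc]
          exact mul_le_mul_of_nonneg_left (pt k) hC.le
      _ ≤ C * (Y ^ ε * A * L * 4) := by
          rw [← Finset.mul_sum, ← Finset.mul_sum]
          gcongr
          exact thin_sum L1 Y _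
      _ = _ := by rw [hL]; ring
  have nn : ∀ n : O, 0 ≤ (if n ≠ 0 then ‖WK K w (N n / Y)‖ else 0) := fun n => by positivity
  exact ⟨summable_of_sum_le nn key, Real.tsum_le_of_sum_le nn key⟩

theorem tail_WK_le {a : ℝ} (ha : 2 ≤ a) (R0 : ℝ) : ∃ C : ℝ, 0 < C ∧ ∀ (K X R : ℝ) (w : ℂ),
    1 ≤ K → |w.re| ≤ R0 → 0 < X → 0 < R →
    ∑' n : O, (if R < N n then ‖WK K w (N n / X)‖ else 0) ≤ C * R * (X / R) ^ a := by
  obtain ⟨C, hC, h⟩ := tail_W_le ha R0
  refine ⟨C, hC, fun K X R w hK hw hX hR => le_trans ?_ (h w X R hw hX hR)⟩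
  have hle : ∀ n : O, (if R < N n then ‖WK K w (N n / X)‖ else 0) ≤
      if R < N n then ‖W w (N n / X)‖ else 0 := fun n => by
    split_ifs
    · exact WK_le_W hK w _
    · exact le_rfl
  exact ((wb_tailW w hX hR).of_nonneg_of_le (fun n => by positivity) hle).tsum_le_tsum hle
    (wb_tailW w hX hR)

end

end Vale.Agent.P006
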