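import Vale.Agent.P006.TH
import Vale.Agent.P006.Sep

namespace Vale.Agent.P006

open Vale.Agent.P026 Complex MeasureTheory Filter Topology
open scoped Classical ComplexConjugate Real MatrixGroups

noncomputable section

def ctT (K a : ℝ) (k : O) (y : ℝ) (m : O) : ℂ :=
  conj (G m) * ((N m ^ (-(1 / 6) : ℝ) : ℝ) : ℂ) * sym3 k m * WK K a (N m / y)
def ctU (K a : ℝ) (k : O) (y : ℝ) : ℂ := ∑' m : O, ctT K a k y m
def ctV (K a : ℝ) (k : O) (y : ℝ) (f : O) : ℂ :=
  if Prim f then sym3 (8 * k) (f ^ 3) * ctU K a k (y / N f ^ 3) else 0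

theorem ctT_le (K a : ℝ) (k : O) (y : ℝ) (m : O) :
    ‖ctT K a k y m‖ ≤ if m ≠ 0 then ‖WK K a (N m / y)‖ else 0 := by
  by_cases hm : NN m
  · rw [if_pos hm.ne_zero, ctT, norm_mul, norm_mul, norm_mul, Complex.norm_conj, norm_G hm, one_mul,
      Complex.norm_real, Real.norm_of_nonneg (Real.rpow_nonneg (N_nonneg _) _)]
    exact mul_le_of_le_one_left (norm_nonneg _) (mul_le_one₀
      (Real.rpow_le_one_of_one_le_of_nonpos (one_le_N hm.ne_zero) (by norm_num)) (norm_nonneg _)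
      (norm_sym3_le _ _))
  · rw [ctT, G, if_neg hm]
    split_ifs <;> simp

theorem ct_WK : ∃ C : ℝ, 0 < C ∧ ∀ (K a y : ℝ) (m : O), 1 ≤ K → |a| ≤ 1 → 0 < y →
    (if m ≠ 0 then ‖WK K a (N m / y)‖ else 0) ≤ C * y ^ 2 * N m ^ (-2 : ℝ) := by
  obtain ⟨C, hC, h⟩ := WK_le (-2) 1
  refine ⟨C, hC, fun K a y m hK ha hy => ?_⟩
  have := N_nonneg m
  split_ifs with hm
  · have h1 := h K a (N m / y) hK (by simpa using ha) (div_pos (N_pos hm) hy)
    rwa [wb_div this hy, Real.rpow_two, ← mul_assoc] at h1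
  · positivity

theorem ctU_le : ∃ C : ℝ, 0 < C ∧ ∀ (K a y : ℝ) (k : O), 1 ≤ K → |a| ≤ 1 → 0 < y →
    Summable (fun m => ‖ctT K a k y m‖) ∧ ‖ctU K a k y‖ ≤ C * y ^ 2 := by
  obtain ⟨C, hC, h⟩ := ct_WK
  have hs := summable_N_rpow (s := 2) (by norm_num)
  have h0 : 0 ≤ ∑' m : O, N m ^ (-2 : ℝ) := tsum_nonneg fun m => Real.rpow_nonneg (N_nonneg _) _
  refine ⟨C * (∑' m : O, N m ^ (-2 : ℝ) + 1), by positivity, fun K a y k hK ha hy => ?_⟩
  have h1 := fun m => (ctT_le K a k y m).trans (h K a y m hK ha hy)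
  refine ⟨(hs.mul_left _).of_nonneg_of_le (fun _ => norm_nonneg _) h1, ?_⟩
  refine (tsum_of_norm_bounded (hs.mul_left _).hasSum h1).trans ?_
  rw [tsum_mul_left]
  have : 0 ≤ C * y ^ 2 := by positivity
  nlinarith

theorem ctV_le : ∃ C : ℝ, 0 < C ∧ ∀ (K a y : ℝ) (k f : O), 1 ≤ K → |a| ≤ 1 → 0 < y →
    ‖ctV K a k y f‖ ≤ C * y ^ 2 * N f ^ (-2 : ℝ) := by
  obtain ⟨C, hC, h⟩ := ctU_le
  refine ⟨C, hC, fun K a y k f hK ha hy => ?_⟩
  have := N_nonneg f
  unfold ctV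
  split_ifs with hf
  · have h1 := one_le_N hf.ne_zero
    have h2 := (h K a (y / N f ^ 3) k hK ha (by positivity)).2
    rw [norm_mul, Real.rpow_neg this, Real.rpow_two]
    calc _ ≤ 1 * (C * (y / N f ^ 3) ^ 2) := by gcongr; exact norm_sym3_le _ _
      _ = C * y ^ 2 * (N f ^ 6)⁻¹ := by ring
      _ ≤ _ := by gcongr; norm_num
  · rw [norm_zero]; positivity

theorem ct_eight {m : O} (hm : Prim m) (hs : Squarefree m) (k : O) :
    conj (G0 m) * sym3 (8 * k) m = conj (G m) * sym3 k m := by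
  rw [sym3_mul_left, show (8 : O) = 2 ^ 3 by norm_num, sym3_pow_left, G]
  by_cases ho : OddO m
  · rw [if_pos ⟨hm, hs, ho⟩, sym3_cube (oddO_iff_coprime.1 ho).symm, one_mul]
  · rw [if_neg fun h => ho h.2.2,
      (sym3_eq_zero_iff hm.ne_zero).2 fun h => ho (oddO_iff_coprime.2 h.symm)]
    simp

theorem ct_TT {K a y : ℝ} (hK : 1 ≤ K) (ha : |a| ≤ 1) (hy : 0 < y) (k : O) {d : O} (hd : Prim d) :
    sym3 (8 * k) (d ^ 3) * TT K a (8 * k) (y / N d ^ 3) = ∑' e, ctV K a k y (d * e) := by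
  have hN := N_pos hd.ne_zero
  obtain ⟨C, hC, h⟩ := ct_WK
  have hF : Summable fun m => ‖sym3 (8 * k) m * WK K a (N m / (y / N d ^ 3))‖ := by
    refine Summable.of_norm_bounded_eventually
      ((summable_N_rpow (s := 2) (by norm_num)).mul_left (C * (y / N d ^ 3) ^ 2)) ?_
    filter_upwards [(Set.finite_singleton (0 : O)).compl_mem_cofinite] with m hm
    have h1 := h K a (y / N d ^ 3) m hK ha (by positivity)
    rw [if_pos (by exact hm)] at h1
    rw [norm_norm, norm_mul]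
    exact (mul_le_of_le_one_left (norm_nonneg _) (norm_sym3_le _ _)).trans h1
  have h1 := (tsum_th hF).2
  simp only [← mul_assoc] at h1
  rw [TT, h1, ← tsum_mul_left]
  refine tsum_congr fun e => ?_
  by_cases he : Prim e
  · have hN' := N_pos he.ne_zero
    rw [ctV, if_pos (hd.mul he), mul_pow, sym3_mul_right _ (hd.pow 3).ne_zero (he.pow 3).ne_zero,
      mul_assoc, ctU, ← tsum_mul_left (a := sym3 (8 * k) (e ^ 3))]
    congr 1
    refine tsum_congr fun m => ?_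
    by_cases hm : Prim m ∧ Squarefree m
    · have e1 : N (m * e ^ 3) / (y / N d ^ 3) = N m / (y / N (d * e) ^ 3) := by
        rw [N_mul, N_mul, N_pow]
        field_simp
      rw [if_pos ⟨he, hm⟩, e1, sym3_mul_right _ hm.1.ne_zero (he.pow 3).ne_zero, ctT]
      linear_combination (((N m ^ (-(1 / 6) : ℝ) : ℝ) : ℂ) * sym3 (8 * k) (e ^ 3) *
        WK K a (N m / (y / N (d * e) ^ 3))) * ct_eight hm.1 hm.2 k
    · rw [if_neg fun h => hm h.2, ctT, G, if_neg fun h => hm ⟨h.1, h.2.1⟩]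
      simp
  · rw [ctV, if_neg fun h => he (h.of_mul hd)]
    simp [he]

theorem ct_conv {u w : O → ℂ} {B : ℝ} (hu : ∀ f, ‖u f‖ ≤ B * N f ^ (-2 : ℝ))
    (hw : ∀ d, ‖w d‖ ≤ 1) :
    Summable (fun d => w d * ∑' e, u (d * e)) ∧
    ∑' d, w d * ∑' e, u (d * e) = ∑' f, (∑ d ∈ (ballO (N f)).filter (· ∣ f), w d) * u f := by
  have hs := summable_N_rpow (s := 2) (by norm_num)
  have h0 : u 0 = 0 := by
    have := hu 0
    rw [N_zero, Real.zero_rpow (by norm_num), mul_zero] at this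
    exact norm_le_zero_iff.1 this
  have hF : Summable fun p : O × O => w p.1 * u (p.1 * p.2) := by
    refine Summable.of_norm_bounded ((hs.mul_of_nonneg hs
      (fun m => Real.rpow_nonneg (N_nonneg _) _) fun m => Real.rpow_nonneg (N_nonneg _) _).mul_left
        B) fun p => ?_
    rw [norm_mul, ← Real.mul_rpow (N_nonneg _) (N_nonneg _), ← N_mul]
    exact (mul_le_of_le_one_left (norm_nonneg _) (hw _)).trans (hu _)
  have h1 : ∀ d, ∑' e, w d * u (d * e) = w d * ∑' e, u (d * e) := fun d => tsum_mul_left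
  refine ⟨by simpa only [h1] using hF.prod, ?_⟩
  rw [← tsum_congr h1, ← hF.tsum_prod, zk2_fib hF (fun p => p.1 * p.2)
    (fun f => ((ballO (N f)).filter (· ∣ f)).image (fun d => (d, f / d)))]
  · refine tsum_congr fun f => ?_
    rw [Finset.sum_image fun _ _ _ _ h => (Prod.ext_iff.1 h).1, Finset.sum_mul]
    refine Finset.sum_congr rfl fun d hd => ?_
    rw [Finset.mem_filter, mem_ballO] at hd
    simp only [EuclideanDomain.mul_div_cancel' hd.1.1 hd.2]
  · rintro ⟨d, e⟩ h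
    by_cases g1 : d * e = 0
    · simp only [g1, h0, mul_zero]
    · refine absurd (Finset.mem_image.2 ⟨d, (div_mem g1).2 (dvd_mul_right _ _), ?_⟩) h
      rw [mul_div_cancel_left₀ _ (left_ne_zero_of_mul g1)]
  · intro f p hp
    obtain ⟨d, hd, rfl⟩ := Finset.mem_image.1 hp
    rw [Finset.mem_filter, mem_ballO] at hd
    exact EuclideanDomain.mul_div_cancel' hd.1.1 hd.2

theorem ct_id {K a y : ℝ} (hK : 1 ≤ K) (ha : |a| ≤ 1) (hy : 0 < y) (k : O) (Q : O → Prop)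
    [DecidablePred Q] (hQ : ∀ d, Q d → Prim d) :
    Summable (fun d => if Q d then
      mu d * sym3 (8 * k) (d ^ 3) * TT K a (8 * k) (y / N d ^ 3) else 0) ∧
    ∑' d, (if Q d then mu d * sym3 (8 * k) (d ^ 3) * TT K a (8 * k) (y / N d ^ 3) else 0) =
      ∑' f, (∑ d ∈ (ballO (N f)).filter (· ∣ f), if Q d then mu d else 0) * ctV K a k y f := by
  obtain ⟨C, -, h⟩ := ctV_le
  have e : (fun d => if Q d then
      mu d * sym3 (8 * k) (d ^ 3) * TT K a (8 * k) (y / N d ^ 3) else 0) =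
      fun d => (if Q d then mu d else 0) * ∑' e, ctV K a k y (d * e) := by
    funext d
    split_ifs with hd
    · rw [mul_assoc, ct_TT hK ha hy k (hQ d hd)]
    · rw [zero_mul]
  rw [e]
  exact ct_conv (fun f => h K a y k f hK ha hy) fun d => by
    split_ifs; exacts [norm_mu_le d, by simp]

theorem mink_tsum {ι : Type*} (S : Finset ι) (f : ι → O → ℂ) {g : O → ℝ} (hg : Summable g)
    (h : ∀ j, √(∑ b ∈ S, ‖f b j‖ ^ 2) ≤ g j) :
    √(∑ b ∈ S, ‖∑' j, f b j‖ ^ 2) ≤ ∑' j, g j := by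
  have h0 : ∀ j, 0 ≤ g j := fun j => (Real.sqrt_nonneg _).trans (h j)
  have hs : ∀ b ∈ S, Summable (f b) := fun b hb => Summable.of_norm_bounded hg fun j =>
    le_trans (Real.le_sqrt_of_sq_le (Finset.single_le_sum (f := fun b => ‖f b j‖ ^ 2)
      (fun _ _ => by positivity) hb)) (h j)
  have ht : Tendsto (fun T : Finset O => √(∑ b ∈ S, ‖∑ j ∈ T, f b j‖ ^ 2)) atTop
      (𝓝 (√(∑ b ∈ S, ‖∑' j, f b j‖ ^ 2))) :=
    (tendsto_finsetSum S fun b hb => (Tendsto.norm (hs b hb).hasSum).pow 2).sqrt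
  exact le_of_tendsto' ht fun T => (mink S T f).trans
    ((Finset.sum_le_sum fun j _ => h j).trans (hg.sum_le_tsum T fun j _ => h0 j))

end

end Vale.Agent.P006
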