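import Vale.Agent.P006.LRec

namespace Vale.Agent.P006

open Vale.Agent.P026 Complex MeasureTheory Filter Topology
open scoped Classical ComplexConjugate Real MatrixGroups

noncomputable section

theorem lra_tail {ε : ℝ} (hε : 0 < ε) : ∃ C : ℝ, 0 < C ∧ ∀ Z R L : ℝ, 1 ≤ Z → R ≤ Z → 1 ≤ L →
    ∑ x ∈ (lqdP R).filter (fun x => L ≤ N x.1 * N x.2), (N x.1 * N x.2) ^ (-(4 / 3) : ℝ) ≤
      C * Z ^ ε * L ^ (-(1 / 3) : ℝ) := by
  obtain ⟨C, hC, h⟩ := lqd_inv hε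
  refine ⟨C, hC, fun Z R L hZ hR hL => ?_⟩
  have l0 : 0 ≤ L ^ (-(1 / 3) : ℝ) := by positivity
  have b : ∀ x : ℝ, L ≤ x → x ^ (-(4 / 3) : ℝ) ≤ x⁻¹ * L ^ (-(1 / 3) : ℝ) := fun x k => by
    have p : 0 < x := by linarith
    rw [show (-(4 / 3) : ℝ) = -1 + -(1 / 3) by norm_num, Real.rpow_add p, Real.rpow_neg_one]
    exact mul_le_mul_of_nonneg_left (Real.rpow_le_rpow_of_nonpos (by linarith) k (by norm_num))
      (by positivity)
  calc _ ≤ ∑ x ∈ (lqdP R).filter (fun x => L ≤ N x.1 * N x.2),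
        (N x.1 * N x.2)⁻¹ * L ^ (-(1 / 3) : ℝ) :=
        Finset.sum_le_sum fun x hx => b _ (Finset.mem_filter.1 hx).2
    _ ≤ ∑ x ∈ lqdP R, (N x.1 * N x.2)⁻¹ * L ^ (-(1 / 3) : ℝ) :=
        Finset.sum_le_sum_of_subset_of_nonneg (Finset.filter_subset _ _) fun x _ _ =>
          mul_nonneg (inv_nonneg.2 (mul_nonneg (N_nonneg _) (N_nonneg _))) l0
    _ ≤ _ := by
        rw [← Finset.sum_mul]
        exact mul_le_mul_of_nonneg_right (h Z R hZ hR) l0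

theorem lra_mem {H T : ℝ} (hT : 1 ≤ T) {x : (O × O × O) × O} (hx : x ∈ Quad H)
    (hp : T * N x.1.2.2 < N x.1.2.1) : (x.1.2.2, x.2) ∈ lqdP ((H / T) ^ (1 / 3 : ℝ)) ∧
      N x.1.2.1 ≤ H / (N x.1.2.2 ^ 2 * N x.2 ^ 3) := by
  obtain ⟨-, b1, b2, b3, -, b4⟩ := lqd_mem hx
  obtain ⟨-, c1, c2, -, c3, -⟩ := mem_Quad.1 hx
  refine ⟨mem_lqdP.2 ⟨c2.ne_zero, c3, lqd_cube (by positivity) ?_⟩, ?_⟩
  · rw [le_div_iff₀ (by linarith)]
    refine le_trans ?_ b4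
    calc _ = T * N x.1.2.2 * N x.1.2.2 ^ 2 * N x.2 ^ 3 := by ring
      _ ≤ _ := by gcongr
  · rw [le_div_iff₀ (by positivity)]; linarith

theorem lra_div {H x y : ℝ} (hH : 0 < H) (hx : 1 ≤ x) (hy : 1 ≤ y) :
    H / (x ^ 2 * y ^ 3) ≤ H * (x * y)⁻¹ * (x * y)⁻¹ ∧ H * (x * y)⁻¹ * (x * y)⁻¹ ≤ H * (x * y)⁻¹ := by
  have p : 1 ≤ x * y := one_le_mul_of_one_le_of_one_le hx hy
  constructor
  · rw [mul_assoc, ← mul_inv, ← div_eq_mul_inv]
    refine div_le_div_of_nonneg_left hH.le (by positivity) ?_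
    calc _ = x ^ 2 * y ^ 2 * 1 := by ring
      _ ≤ x ^ 2 * y ^ 2 * y := by gcongr
      _ = _ := by ring
  · exact mul_le_of_le_one_right (by positivity) (inv_le_one_of_one_le₀ p)

theorem reg_a {ε : ℝ} (hε : 0 < ε) : ∃ C : ℝ, 0 < C ∧ ∀ (Z H R T Hw : ℝ) (a : O → ℂ),
    1 ≤ Z → 0 < H → H ≤ Z → 0 < R → R ≤ Z → 1 ≤ T → 0 < Hw →
    ∑ x ∈ (Quad H).filter (fun x => T * N x.1.2.2 < N x.1.2.1 ∧ N x.1.2.1 ≤ Hw), FF a R x ≤
      C * Z ^ ε * (H + (H / T) ^ (1 / 3 : ℝ) * R +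
        H ^ (1 / 2 : ℝ) * Hw ^ (1 / 6 : ℝ) * R ^ (2 / 3 : ℝ)) * nsq (ballN R) a := by
  obtain ⟨C1, hC1, h1⟩ := ls1' (half_pos hε)
  obtain ⟨C2, hC2, h2⟩ := lqd_pow (c := 0) (half_pos hε) (by norm_num)
  obtain ⟨C3, hC3, h3⟩ := lqd_inv (half_pos hε)
  refine ⟨27 * C1 * (C2 + C3), by positivity, fun Z H R T Hw a hZ a1 a2 a3 a4 a5 a6 => ?_⟩
  have n0 := nsq_nonneg (ballN R) a
  set X := (H / T) ^ (1 / 3 : ℝ) with hX
  have X0 : 0 ≤ X := by positivity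
  have XZ : X ≤ Z := lqd_third (by positivity) hZ ((div_le_self a1.le a5).trans a2)
  set E := H + H ^ (1 / 2 : ℝ) * Hw ^ (1 / 6 : ℝ) * R ^ (2 / 3 : ℝ) with hE
  have E0 : 0 ≤ E := by positivity
  set B := C1 * Z ^ (ε / 2) * ((C2 + C3) * Z ^ (ε / 2) * (X * R + E)) * nsq (ballN R) a with hB
  have hs : ∑ y ∈ lqdP X, C1 * Z ^ (ε / 2) * (R + E * (N y.1 * N y.2)⁻¹) * nsq (ballN R) a ≤ B := by
    rw [← Finset.sum_mul, ← Finset.mul_sum, Finset.sum_add_distrib, ← Finset.mul_sum]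
    have b2 := h2 Z X hZ X0 XZ
    have b3 := h3 Z X hZ XZ
    simp only [Real.rpow_zero, add_zero, Real.rpow_one] at b2
    have e : ∑ _y ∈ lqdP X, R = (∑ _y ∈ lqdP X, (1 : ℝ)) * R := by simp
    rw [e, hB]
    gcongr
    have z0 : 0 ≤ Z ^ (ε / 2) := by positivity
    calc _ ≤ C2 * Z ^ (ε / 2) * X * R + E * (C3 * Z ^ (ε / 2)) := by gcongr
      _ ≤ _ := by
        nlinarith [mul_nonneg (mul_nonneg hC2.le z0) E0,
          mul_nonneg (mul_nonneg hC3.le z0) (mul_nonneg X0 a3.le)]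
  have e : Z ^ ε = Z ^ (ε / 2) * Z ^ (ε / 2) := by
    rw [← Real.rpow_add (by linarith)]; congr 1; ring
  refine le_trans ((lqd_fix1 _ (FF_nonneg a R) (lqdP X)
    (fun y => ballN (min Hw (H / (N y.1 ^ 2 * N y.2 ^ 3)))) fun x hx hp => ?_).trans
      (lqd_XI (by positivity) fun ξ _ => le_trans (Finset.sum_le_sum fun y hy => ?_) hs))
    (le_of_eq (by rw [hB, e, hE]; ring))
  · obtain ⟨k1, k2⟩ := lra_mem a5 hx hp.1
    exact ⟨k1, mem_ballN.2 ⟨(mem_Quad.1 hx).2.1, le_min hp.2 k2⟩⟩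
  · obtain ⟨c1, c2, c3⟩ := mem_lqdP.1 hy
    have d1 := one_le_N c1
    have d2 := one_le_N c2
    obtain ⟨f1, f2⟩ := lra_div a1 d1 d2
    set H1 := min Hw (H / (N y.1 ^ 2 * N y.2 ^ 3)) with hH1
    have H10 : 0 < H1 := lt_min a6 (by positivity)
    have g1 : H1 ≤ H * (N y.1 * N y.2)⁻¹ * (N y.1 * N y.2)⁻¹ := (min_le_right _ _).trans f1
    have g2 : H1 ≤ Z := (min_le_right _ _).trans ((div_le_self a1.le
      (one_le_mul_of_one_le_of_one_le (one_le_pow₀ d1) (one_le_pow₀ d2))).trans a2)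
    refine (lqd_ff1 (by positivity) (h1 Z _ R hZ H10 g2 a3 a4) a ξ y.1 y.2).trans ?_
    refine mul_le_mul_of_nonneg_right (mul_le_mul_of_nonneg_left ?_ (by positivity)) n0
    have g3 : (H1 * R) ^ (2 / 3 : ℝ) ≤
        H ^ (1 / 2 : ℝ) * Hw ^ (1 / 6 : ℝ) * R ^ (2 / 3 : ℝ) * (N y.1 * N y.2)⁻¹ := by
      rw [Real.mul_rpow H10.le a3.le, show (2 / 3 : ℝ) = 1 / 2 + 1 / 6 by norm_num,
        Real.rpow_add H10]
      have u1 : H1 ^ (1 / 2 : ℝ) ≤ H ^ (1 / 2 : ℝ) * (N y.1 * N y.2)⁻¹ := by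
        rw [← Real.sqrt_eq_rpow, ← Real.sqrt_eq_rpow, Real.sqrt_le_left (by positivity), mul_pow,
          Real.sq_sqrt a1.le]
        exact g1.trans_eq (by ring)
      have u2 : H1 ^ (1 / 6 : ℝ) ≤ Hw ^ (1 / 6 : ℝ) := by gcongr; exact min_le_left _ _
      calc _ ≤ H ^ (1 / 2 : ℝ) * (N y.1 * N y.2)⁻¹ * Hw ^ (1 / 6 : ℝ) * R ^ (1 / 2 + 1 / 6 : ℝ) := by
            gcongr
        _ = _ := by ring
    rw [hE, add_mul]
    linarith

theorem reg_a' {ε : ℝ} (hε : 0 < ε) : ∃ C : ℝ, 0 < C ∧ ∀ (Z H R T L : ℝ) (a : O → ℂ),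
    1 ≤ Z → 0 < H → H ≤ Z → 0 < R → R ≤ Z → 1 ≤ T → 1 ≤ L →
    ∑ x ∈ (Quad H).filter (fun x => T * N x.1.2.2 < N x.1.2.1 ∧ L ≤ N (x.1.2.2 * x.2)),
        FF a R x ≤
      C * Z ^ ε * (H + (H / T) ^ (1 / 3 : ℝ) * R +
        (H * R) ^ (2 / 3 : ℝ) * L ^ (-(1 / 3) : ℝ)) * nsq (ballN R) a := by
  obtain ⟨C1, hC1, h1⟩ := ls1' (half_pos hε)
  obtain ⟨C2, hC2, h2⟩ := lqd_pow (c := 0) (half_pos hε) (by norm_num)
  obtain ⟨C3, hC3, h3⟩ := lqd_inv (half_pos hε)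
  obtain ⟨C4, hC4, h4⟩ := lra_tail (half_pos hε)
  refine ⟨27 * C1 * (C2 + C3 + C4), by positivity, fun Z H R T L a hZ a1 a2 a3 a4 a5 a6 => ?_⟩
  have n0 := nsq_nonneg (ballN R) a
  set X := (H / T) ^ (1 / 3 : ℝ) with hX
  have X0 : 0 ≤ X := by positivity
  have XZ : X ≤ Z := lqd_third (by positivity) hZ ((div_le_self a1.le a5).trans a2)
  set E := (H * R) ^ (2 / 3 : ℝ) with hE
  have E0 : 0 ≤ E := by positivity
  set S := (lqdP X).filter (fun x => L ≤ N x.1 * N x.2) with hS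
  set B := C1 * Z ^ (ε / 2) * ((C2 + C3 + C4) * Z ^ (ε / 2) *
    (H + X * R + E * L ^ (-(1 / 3) : ℝ))) * nsq (ballN R) a with hB
  have hs : ∑ y ∈ S, C1 * Z ^ (ε / 2) * (H * (N y.1 * N y.2)⁻¹ + R +
      E * (N y.1 * N y.2) ^ (-(4 / 3) : ℝ)) * nsq (ballN R) a ≤ B := by
    rw [← Finset.sum_mul, ← Finset.mul_sum, Finset.sum_add_distrib, Finset.sum_add_distrib,
      ← Finset.mul_sum, ← Finset.mul_sum]
    have b2 := h2 Z X hZ X0 XZ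
    have b3 := (Finset.sum_le_sum_of_subset_of_nonneg (Finset.filter_subset
      (fun x => L ≤ N x.1 * N x.2) _) fun x _ _ =>
        inv_nonneg.2 (mul_nonneg (N_nonneg _) (N_nonneg _))).trans (h3 Z X hZ XZ)
    have b4 := h4 Z X L hZ XZ a6
    simp only [Real.rpow_zero, add_zero, Real.rpow_one] at b2
    have b2' := (Finset.sum_le_sum_of_subset_of_nonneg (Finset.filter_subset
      (fun x => L ≤ N x.1 * N x.2) _) fun _ _ _ => zero_le_one).trans b2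
    have e : ∑ _y ∈ S, R = (∑ _y ∈ S, (1 : ℝ)) * R := by simp
    rw [e, hB]
    refine mul_le_mul_of_nonneg_right (mul_le_mul_of_nonneg_left ?_ (by positivity)) n0
    have z0 : 0 ≤ Z ^ (ε / 2) := by positivity
    have l0 : 0 ≤ E * L ^ (-(1 / 3) : ℝ) := by positivity
    have x0 : 0 ≤ X * R := by positivity
    calc _ ≤ H * (C3 * Z ^ (ε / 2)) + C2 * Z ^ (ε / 2) * X * R +
          E * (C4 * Z ^ (ε / 2) * L ^ (-(1 / 3) : ℝ)) := by gcongr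
      _ = Z ^ (ε / 2) * (C3 * H + C2 * (X * R) + C4 * (E * L ^ (-(1 / 3) : ℝ))) := by ring
      _ ≤ Z ^ (ε / 2) * ((C2 + C3 + C4) * (H + X * R + E * L ^ (-(1 / 3) : ℝ))) := by
          refine mul_le_mul_of_nonneg_left ?_ z0
          nlinarith [mul_nonneg hC2.le a1.le, mul_nonneg hC2.le l0, mul_nonneg hC3.le x0,
            mul_nonneg hC3.le l0, mul_nonneg hC4.le a1.le, mul_nonneg hC4.le x0]
      _ = _ := by ring
  have e : Z ^ ε = Z ^ (ε / 2) * Z ^ (ε / 2) := by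
    rw [← Real.rpow_add (by linarith)]; congr 1; ring
  refine le_trans ((lqd_fix1 _ (FF_nonneg a R) S
    (fun y => ballN (H / (N y.1 ^ 2 * N y.2 ^ 3))) fun x hx hp => ?_).trans
      (lqd_XI (by positivity) fun ξ _ => le_trans (Finset.sum_le_sum fun y hy => ?_) hs))
    (le_of_eq (by rw [hB, e, hE]; ring))
  · obtain ⟨k1, k2⟩ := lra_mem a5 hx hp.1
    exact ⟨Finset.mem_filter.2 ⟨k1, by simpa only [N_mul] using hp.2⟩,
      mem_ballN.2 ⟨(mem_Quad.1 hx).2.1, k2⟩⟩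
  · obtain ⟨c1, c2, c3⟩ := mem_lqdP.1 (Finset.mem_filter.1 hy).1
    have d1 := one_le_N c1
    have d2 := one_le_N c2
    obtain ⟨f1, f2⟩ := lra_div a1 d1 d2
    set H1 := H / (N y.1 ^ 2 * N y.2 ^ 3) with hH1
    have H10 : 0 < H1 := by positivity
    have g2 : H1 ≤ Z := (div_le_self a1.le
      (one_le_mul_of_one_le_of_one_le (one_le_pow₀ d1) (one_le_pow₀ d2))).trans a2
    refine (lqd_ff1 (by positivity) (h1 Z _ R hZ H10 g2 a3 a4) a ξ y.1 y.2).trans ?_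
    refine mul_le_mul_of_nonneg_right (mul_le_mul_of_nonneg_left ?_ (by positivity)) n0
    have p : 0 < N y.1 * N y.2 := by positivity
    have g3 : (H1 * R) ^ (2 / 3 : ℝ) ≤ E * (N y.1 * N y.2) ^ (-(4 / 3) : ℝ) := by
      have : (N y.1 * N y.2) ^ (-(4 / 3) : ℝ) = ((N y.1 * N y.2)⁻¹ * (N y.1 * N y.2)⁻¹) ^ (2 / 3 : ℝ) := by
        rw [← Real.rpow_neg_one, ← Real.rpow_add p, ← Real.rpow_mul p.le]; norm_num
      rw [this, hE, ← Real.mul_rpow (by positivity) (by positivity)]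
      refine Real.rpow_le_rpow (by positivity) ?_ (by norm_num)
      calc _ ≤ H * (N y.1 * N y.2)⁻¹ * (N y.1 * N y.2)⁻¹ * R := by gcongr
        _ = _ := by ring
    linarith

end

end Vale.Agent.P006
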