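import Vale.Agent.P006.LTwo
import Vale.Agent.P006.LRa

namespace Vale.Agent.P006

open Vale.Agent.P026 Complex MeasureTheory Filter Topology
open scoped Classical ComplexConjugate Real MatrixGroups

noncomputable section

theorem lrc_ff3 {q R D : ℝ} (hD : 0 ≤ D)
    (h : ∀ a : O → ℂ, ∑ h ∈ pairs2 q, ‖∑ n ∈ ballN R, a n * sym3 (h.1 * h.2 ^ 2) n‖ ^ 2 ≤
      D * nsq (ballN R) a) (a : O → ℂ) (ξ k : O) :
    ∑ y ∈ pairs2 q, FF a R ((ξ, y), k) ≤ D * nsq (ballN R) a := by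
  refine le_trans (le_of_eq ?_) ((h fun n => a n * sym3 (ξ * k ^ 3) n).trans
    (mul_le_mul_of_nonneg_left (lqd_nsq _ _ _) hD))
  refine Finset.sum_congr rfl fun y _ => ?_
  simp only [FF, cf]
  congr 2
  refine Finset.sum_congr rfl fun n _ => ?_
  rw [mul_assoc (a n), ← sym3_mul_left]; congr 2; ring

theorem lrc_q {H T x y k : ℝ} (hT : 1 ≤ T) (hx : 1 ≤ x) (hy : 1 ≤ y) (hk : 1 ≤ k)
    (h1 : x * y ^ 2 * k ^ 3 ≤ H) (h2 : x ≤ T * y) :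
    x * y ≤ (H / k ^ 3) ^ (2 / 3 : ℝ) * T ^ (1 / 3 : ℝ) := by
  have hH : 0 < H := lt_of_lt_of_le (by positivity) h1
  obtain ⟨h, rfl⟩ := lrec_exp hH
  obtain ⟨t, -, rfl⟩ := lal_log hT
  obtain ⟨u, -, rfl⟩ := lal_log hx
  obtain ⟨v, -, rfl⟩ := lal_log hy
  obtain ⟨w, -, rfl⟩ := lal_log hk
  simp only [← Real.exp_nat_mul, ← Real.exp_add, ← Real.exp_sub, ← Real.exp_mul,
    Real.exp_le_exp] at h1 h2 ⊢
  push_cast at h1 ⊢
  linarith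

theorem lrc_pw {H T R k : ℝ} (hH : 0 < H) (hR : 0 < R) (hT : 1 ≤ T) (hk : 1 ≤ k) :
    R + R ^ (1 / 3 : ℝ) * ((H / k ^ 3) ^ (2 / 3 : ℝ) * T ^ (1 / 3 : ℝ)) ^ (4 / 3 : ℝ) +
      R ^ (1 / 6 : ℝ) * ((H / k ^ 3) ^ (2 / 3 : ℝ) * T ^ (1 / 3 : ℝ)) ^ (3 / 2 : ℝ) ≤
    R + (R ^ (1 / 3 : ℝ) * H ^ (8 / 9 : ℝ) * T ^ (4 / 9 : ℝ) +
        R ^ (1 / 6 : ℝ) * H * T ^ (1 / 2 : ℝ)) * k⁻¹ := by
  obtain ⟨h, rfl⟩ := lrec_exp hH
  obtain ⟨r, rfl⟩ := lrec_exp hR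
  obtain ⟨t, -, rfl⟩ := lal_log hT
  obtain ⟨w, w0, rfl⟩ := lal_log hk
  rw [add_mul, add_assoc]
  simp only [← Real.exp_nat_mul, ← Real.exp_add, ← Real.exp_sub, ← Real.exp_mul, ← Real.exp_neg]
  refine add_le_add le_rfl (add_le_add ?_ ?_) <;> rw [Real.exp_le_exp] <;> push_cast <;> linarith

theorem reg_c {ε : ℝ} (hε : 0 < ε) : ∃ C : ℝ, 0 < C ∧ ∀ (Z H R T Q0 : ℝ) (a : O → ℂ),
    1 ≤ Z → 0 < H → H ≤ Z → 0 < R → R ≤ Z → 1 ≤ T → T ≤ Z → 0 < Q0 →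
    ∑ x ∈ (Quad H).filter (fun x => Q0 ≤ N (cf x.1) ∧ N x.1.2.1 ≤ T * N x.1.2.2), FF a R x ≤
      C * Z ^ ε * ((H / Q0) ^ (1 / 3 : ℝ) * R +
        R ^ (1 / 3 : ℝ) * H ^ (8 / 9 : ℝ) * T ^ (4 / 9 : ℝ) +
        R ^ (1 / 6 : ℝ) * H * T ^ (1 / 2 : ℝ)) * nsq (ballN R) a := by
  obtain ⟨C1, hC1, h1⟩ := ls2 (half_pos hε)
  obtain ⟨C2, hC2, h2⟩ := card_ballO_le
  obtain ⟨C3, hC3, h3⟩ := sum_inv_N_le (half_pos hε)
  refine ⟨27 * C1 * (C2 + C3), by positivity, fun Z H R T Q0 a hZ a1 a2 a3 a4 a5 a6 a7 => ?_⟩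
  have n0 := nsq_nonneg (ballN R) a
  set X := (H / Q0) ^ (1 / 3 : ℝ) with hX
  have X0 : 0 ≤ X := by positivity
  set E := R ^ (1 / 3 : ℝ) * H ^ (8 / 9 : ℝ) * T ^ (4 / 9 : ℝ) +
    R ^ (1 / 6 : ℝ) * H * T ^ (1 / 2 : ℝ) with hE
  have E0 : 0 ≤ E := by positivity
  have z1 : 1 ≤ Z ^ (ε / 2) := Real.one_le_rpow hZ (by linarith)
  set B := C1 * Z ^ (ε / 2) * ((C2 + C3) * Z ^ (ε / 2) * (X * R + E)) * nsq (ballN R) a with hB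
  have hs : ∑ k ∈ ballO (min X Z), C1 * Z ^ (ε / 2) * (R + E * (N k)⁻¹) * nsq (ballN R) a ≤ B := by
    rw [← Finset.sum_mul, ← Finset.mul_sum, Finset.sum_add_distrib, ← Finset.mul_sum,
      Finset.sum_const, nsmul_eq_mul, hB]
    have b2 : ((ballO (min X Z)).card : ℝ) ≤ C2 * X :=
      (h2 _ (le_min X0 (by linarith))).trans (by gcongr; exact min_le_left _ _)
    have b3 : ∑ k ∈ ballO (min X Z), (N k)⁻¹ ≤ C3 * Z ^ (ε / 2) :=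
      (Finset.sum_le_sum_of_subset_of_nonneg (ballO_mono (min_le_right _ _))
        fun _ _ _ => inv_nonneg.2 (N_nonneg _)).trans (h3 Z hZ)
    refine mul_le_mul_of_nonneg_right (mul_le_mul_of_nonneg_left ?_ (by positivity)) n0
    have x0 : 0 ≤ X * R := by positivity
    calc _ ≤ C2 * X * R + E * (C3 * Z ^ (ε / 2)) := by gcongr
      _ ≤ Z ^ (ε / 2) * (C2 * (X * R)) + E * (C3 * Z ^ (ε / 2)) := by
        rw [mul_assoc]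
        exact add_le_add (le_mul_of_one_le_left (by positivity) z1) le_rfl
      _ ≤ _ := by
        nlinarith [mul_nonneg (mul_nonneg hC2.le (by linarith : 0 ≤ Z ^ (ε / 2))) E0,
          mul_nonneg (mul_nonneg hC3.le (by linarith : 0 ≤ Z ^ (ε / 2))) x0]
  have e : Z ^ ε = Z ^ (ε / 2) * Z ^ (ε / 2) := by
    rw [← Real.rpow_add (by linarith)]; congr 1; ring
  refine le_trans ((lqd_fix3 _ (FF_nonneg a R) (ballO (min X Z))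
    (fun k => pairs2 ((H / N k ^ 3) ^ (2 / 3 : ℝ) * T ^ (1 / 3 : ℝ))) fun x hx hp => ?_).trans
      (lqd_XI (by positivity) fun ξ _ => le_trans (Finset.sum_le_sum fun k hk => ?_) hs))
    (le_of_eq (by rw [hB, e, hE]; ring))
  · obtain ⟨-, b1, b2, b3, -, b4⟩ := lqd_mem hx
    obtain ⟨-, c1, c2, c4, c3, c5⟩ := mem_Quad.1 hx
    have q := lrc_q a5 b1 b2 b3 b4 hp.2
    refine ⟨mem_ballO.2 ⟨c3, le_min (lqd_cube (by positivity) ?_) ?_⟩, ?_⟩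
    · rw [N_mul, N_pow] at c5
      rw [le_div_iff₀ a7]
      refine le_trans ?_ c5
      rw [mul_comm]
      exact mul_le_mul_of_nonneg_right hp.1 (by positivity)
    · refine le_trans ?_ (b4.trans a2)
      calc N x.2 = 1 * 1 ^ 2 * N x.2 ^ 1 := by ring
        _ ≤ _ := by gcongr; norm_num
    · simp only [pairs2, Finset.mem_filter, Finset.mem_product, mem_ballN]
      exact ⟨⟨⟨c1, le_trans (by nlinarith) q⟩, c2, le_trans (by nlinarith) q⟩, c4, q⟩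
  · have d1 := one_le_N (mem_ballO.1 hk).1
    have g2 : (H / N k ^ 3) ^ (2 / 3 : ℝ) * T ^ (1 / 3 : ℝ) ≤ Z := by
      have : H / N k ^ 3 ≤ Z := (div_le_self a1.le (one_le_pow₀ d1)).trans a2
      calc _ ≤ Z ^ (2 / 3 : ℝ) * Z ^ (1 / 3 : ℝ) := by gcongr
        _ = Z := by rw [← Real.rpow_add (by linarith)]; norm_num
    refine (lrc_ff3 (by positivity) (fun b => h1 Z R _ b hZ a3 a4 (by positivity) g2) a ξ k).trans ?_
    exact mul_le_mul_of_nonneg_right (mul_le_mul_of_nonneg_left (lrc_pw a1 a3 a5 d1)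
      (by positivity)) n0

theorem lrc_amgm {H B Δ : ℝ} (hH : 1 ≤ H) (hB : 1 ≤ B) (hΔ : 1 ≤ Δ) (h : Δ ≤ H) :
    (H / Δ) ^ (1 / 3 : ℝ) * B = H ^ (1 / 3 : ℝ) * B * Δ ^ (-(1 / 3) : ℝ) ∧
    B ^ (1 / 3 : ℝ) * H ^ (8 / 9 : ℝ) * Δ ^ (4 / 9 : ℝ) ≤
      H ^ (1 / 3 : ℝ) * B * Δ ^ (-(1 / 3) : ℝ) + H ^ (4 / 3 : ℝ) * Δ ^ (2 / 3 : ℝ) ∧
    B ^ (1 / 6 : ℝ) * H * Δ ^ (1 / 2 : ℝ) ≤
      H ^ (1 / 3 : ℝ) * B * Δ ^ (-(1 / 3) : ℝ) + H ^ (4 / 3 : ℝ) * Δ ^ (2 / 3 : ℝ) := by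
  obtain ⟨u, u0, rfl⟩ := lal_log hH
  obtain ⟨b, b0, rfl⟩ := lal_log hB
  obtain ⟨d, d0, rfl⟩ := lal_log hΔ
  simp only [← Real.exp_add, ← Real.exp_sub, ← Real.exp_mul, Real.exp_le_exp] at h ⊢
  have p1 := Real.exp_pos (u * (1 / 3) + b + d * (-(1 / 3)))
  have p2 := Real.exp_pos (u * (4 / 3) + d * (2 / 3))
  refine ⟨by congr 1; ring, ?_, ?_⟩
  · rcases le_total b (u * (4 / 3) + d * (2 / 3)) with k | k
    · have : Real.exp (b * (1 / 3) + u * (8 / 9) + d * (4 / 9)) ≤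
          Real.exp (u * (4 / 3) + d * (2 / 3)) := by rw [Real.exp_le_exp]; linarith
      linarith
    · have : Real.exp (b * (1 / 3) + u * (8 / 9) + d * (4 / 9)) ≤
          Real.exp (u * (1 / 3) + b + d * (-(1 / 3))) := by rw [Real.exp_le_exp]; linarith
      linarith
  · rcases le_total b (u * (4 / 3) + d * (2 / 3)) with k | k
    · have : Real.exp (b * (1 / 6) + u + d * (1 / 2)) ≤
          Real.exp (u * (4 / 3) + d * (2 / 3)) := by rw [Real.exp_le_exp]; linarith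
      linarith
    · have : Real.exp (b * (1 / 6) + u + d * (1 / 2)) ≤
          Real.exp (u * (1 / 3) + b + d * (-(1 / 3))) := by rw [Real.exp_le_exp]; linarith
      linarith

theorem lsfam' {ε : ℝ} (hε : 0 < ε) : ∃ C : ℝ, 0 < C ∧ ∀ (Z H B Δ L : ℝ) (β : O → ℂ),
    1 ≤ H → H ≤ Z → 1 ≤ B → B ≤ Z → 1 ≤ Δ → 1 ≤ L →
    ∑ t ∈ (Quad H).filter (fun t => Δ ≤ N (cf t.1) ∧ L ≤ N (t.1.2.2 * t.2)),
        ‖∑ b ∈ ballN B, β b * sym3 (cf t.1 * t.2 ^ 3) b‖ ^ 2 ≤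
      C * Z ^ ε * (H + H ^ (1 / 3 : ℝ) * B * Δ ^ (-(1 / 3) : ℝ) +
        (H * B) ^ (2 / 3 : ℝ) * L ^ (-(1 / 3) : ℝ) + H ^ (4 / 3 : ℝ) * Δ ^ (2 / 3 : ℝ)) *
        ∑ b ∈ ballN B, ‖β b‖ ^ 2 := by
  obtain ⟨C1, hC1, h1⟩ := reg_a' hε
  obtain ⟨C2, hC2, h2⟩ := reg_c hε
  refine ⟨C1 + 3 * C2, by positivity, fun Z H B Δ L β a1 a2 a3 a4 a5 a6 => ?_⟩
  have n0 := nsq_nonneg (ballN B) β
  have hZ : 1 ≤ Z := a1.trans a2
  change ∑ t ∈ _, FF β B t ≤ _ * nsq (ballN B) β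
  rcases lt_or_ge H Δ with k | k
  · rw [Finset.filter_eq_empty_iff.2, Finset.sum_empty]
    · positivity
    intro x hx hp
    obtain ⟨-, -, -, b3, -⟩ := lqd_mem hx
    have c5 := (mem_Quad.1 hx).2.2.2.2.2
    rw [N_mul, N_pow] at c5
    nlinarith [hp.1, one_le_pow₀ (n := 3) b3, N_nonneg (cf x.1)]
  have b1 := h1 Z H B Δ L β hZ (by linarith) a2 (by linarith) a4 a5 a6
  have b2 := h2 Z H B Δ Δ β hZ (by linarith) a2 (by linarith) a4 a5 (k.trans a2) (by linarith)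
  obtain ⟨e1, e2, e3⟩ := lrc_amgm a1 a3 a5 k
  rw [e1] at b1 b2
  have hs : (Quad H).filter (fun t => Δ ≤ N (cf t.1) ∧ L ≤ N (t.1.2.2 * t.2)) ⊆
      (Quad H).filter (fun x => Δ * N x.1.2.2 < N x.1.2.1 ∧ L ≤ N (x.1.2.2 * x.2)) ∪
      (Quad H).filter (fun x => Δ ≤ N (cf x.1) ∧ N x.1.2.1 ≤ Δ * N x.1.2.2) := fun x hx => by
    simp only [Finset.mem_union, Finset.mem_filter] at hx ⊢
    rcases le_or_gt (N x.1.2.1) (Δ * N x.1.2.2) with q | q <;> tauto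
  set u := H ^ (1 / 3 : ℝ) * B * Δ ^ (-(1 / 3) : ℝ)
  set v := (H * B) ^ (2 / 3 : ℝ) * L ^ (-(1 / 3) : ℝ) with hv
  set w := H ^ (4 / 3 : ℝ) * Δ ^ (2 / 3 : ℝ) with hw
  have u0 : 0 ≤ u := by positivity
  have v0 : 0 ≤ v := by positivity
  have w0 : 0 ≤ w := by positivity
  refine (Finset.sum_le_sum_of_subset_of_nonneg hs fun _ _ _ => FF_nonneg _ _ _).trans ?_
  refine le_trans (le_add_of_nonneg_right (Finset.sum_nonneg fun _ _ => FF_nonneg _ _ _))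
    (Finset.sum_union_inter.le.trans ((add_le_add b1 b2).trans ?_))
  calc _ ≤ C1 * Z ^ ε * (H + u + v + w) * nsq (ballN B) β +
        C2 * Z ^ ε * (3 * (H + u + v + w)) * nsq (ballN B) β := by
        refine add_le_add ?_ ?_ <;>
          refine mul_le_mul_of_nonneg_right (mul_le_mul_of_nonneg_left ?_ (by positivity)) n0 <;>
          linarith
    _ = _ := by ring

end

end Vale.Agent.P006
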