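import Vale.Agent.P006.LSf
import Vale.Agent.P006.LRc

namespace Vale.Agent.P006

open Vale.Agent.P026 Complex MeasureTheory Filter Topology
open scoped Classical ComplexConjugate Real MatrixGroups

noncomputable section

theorem ls1 {ε : ℝ} (hε : 0 < ε) : ∃ C : ℝ, 0 < C ∧ ∀ (Z A B : ℝ) (β : O → ℂ),
    1 ≤ A → A ≤ Z → 1 ≤ B → B ≤ Z →
    ∑ a ∈ ballN A, ‖∑ b ∈ ballN B, β b * sym3 a b‖ ^ 2 ≤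
      C * Z ^ ε * (A + B + (A * B) ^ (2 / 3 : ℝ)) * ∑ b ∈ ballN B, ‖β b‖ ^ 2 := by
  obtain ⟨C, hC, h⟩ := ls1' hε
  exact ⟨C, hC, fun Z A B β a1 a2 a3 a4 =>
    h Z A B (a1.trans a2) (by linarith) a2 (by linarith) a4 β⟩

theorem lsall {ε : ℝ} (hε : 0 < ε) : ∃ C : ℝ, 0 < C ∧ ∀ (Z H B : ℝ) (β : O → ℂ),
    1 ≤ H → H ≤ Z → 1 ≤ B → B ≤ Z →
    ∑ h ∈ ballO H, ‖∑ b ∈ ballN B, β b * sym3 h b‖ ^ 2 ≤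
      C * Z ^ ε * (H + H ^ (1 / 3 : ℝ) * B + (H * B) ^ (2 / 3 : ℝ)) *
        ∑ b ∈ ballN B, ‖β b‖ ^ 2 := by
  obtain ⟨C, hC, h⟩ := lsall' hε
  exact ⟨C, hC, fun Z A B β a1 a2 a3 a4 =>
    h Z A B (a1.trans a2) (by linarith) a2 (by linarith) a4 β⟩

theorem lsfam {ε : ℝ} (hε : 0 < ε) : ∃ C : ℝ, 0 < C ∧ ∀ (Z H B Δ L : ℝ) (β : O → ℂ),
    1 ≤ H → H ≤ Z → 1 ≤ B → B ≤ Z → 1 ≤ Δ → 1 ≤ L →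
    ∑ t ∈ (Quad H).filter (fun t => Δ ≤ N (cf t.1) ∧ L ≤ N (t.1.2.2 * t.2)),
        ‖∑ b ∈ ballN B, β b * sym3 (cf t.1 * t.2 ^ 3) b‖ ^ 2 ≤
      C * Z ^ ε * (H + H ^ (1 / 3 : ℝ) * B * Δ ^ (-(1 / 3) : ℝ) +
        (H * B) ^ (2 / 3 : ℝ) * L ^ (-(1 / 3) : ℝ) + H ^ (4 / 3 : ℝ) * Δ ^ (2 / 3 : ℝ)) *
        ∑ b ∈ ballN B, ‖β b‖ ^ 2 := lsfam' hε

/-- coefficients supported on elements that are squarefree away from `lam` -/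
theorem lssf {ε : ℝ} (hε : 0 < ε) : ∃ C : ℝ, 0 < C ∧ ∀ (Z D L : ℝ) (c : O → ℂ),
    1 ≤ D → D ≤ Z → 1 ≤ L → L ≤ Z →
    (∀ n p : O, Prime p → Prim p → p ^ 2 ∣ n → c n = 0) →
    ∑ d ∈ ballN D, ‖∑ n ∈ ballO L, c n * sym3 n d‖ ^ 2 ≤
      C * Z ^ ε * (D + L + (D * L) ^ (2 / 3 : ℝ)) * ∑ n ∈ ballO L, ‖c n‖ ^ 2 := lssf' hε

/-- bounded coefficients on all of `O` -/
theorem lsb {ε : ℝ} (hε : 0 < ε) : ∃ C : ℝ, 0 < C ∧ ∀ (Z A M : ℝ) (c : O → ℂ),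
    1 ≤ A → A ≤ Z → 1 ≤ M → M ≤ Z → (∀ m, ‖c m‖ ≤ 1) →
    ∑ a ∈ ballN A, ‖∑ m ∈ ballO M, c m * sym3 m a‖ ^ 2 ≤
      C * Z ^ ε * M * (A + M + (A * M) ^ (2 / 3 : ℝ)) := lsb' hε

end

end Vale.Agent.P006
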