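import Vale.Agent.P006.TH
import Vale.Agent.P006.Sep
import Vale.Agent.P006.LS
import Vale.Agent.P006.CT1

namespace Vale.Agent.P006

open Vale.Agent.P026 Complex MeasureTheory Filter Topology
open scoped Classical ComplexConjugate Real MatrixGroups

noncomputable section

theorem ct_card : ∃ C : ℝ, 0 < C ∧ ∀ A : ℝ, 0 ≤ A → ((ballN A).card : ℝ) ≤ C * A := by
  obtain ⟨C, hC, h⟩ := card_ballO_le
  exact ⟨C, hC, fun A hA => le_trans (by exact_mod_cast Finset.card_filter_le _ _) (h A hA)⟩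

theorem ct_main {ε : ℝ} (hε : 0 < ε) : ∃ C : ℝ, 0 < C ∧ ∀ (Z A R K a : ℝ) (h : O) (y : O → ℝ),
    1 ≤ A → A ≤ Z → 1 ≤ R → R ≤ Z → 1 ≤ K → |a| ≤ 1 → (∀ b, 0 < y b) →
    ∑ b ∈ ballN A, ‖∑ m ∈ ballN R, ctT K a (b * h) (y b) m‖ ^ 2 ≤
      C * Z ^ ε * (A + R + (A * R) ^ (2 / 3 : ℝ)) * R ^ (2 / 3 : ℝ) := by
  obtain ⟨C1, hC1, h1⟩ := ls1 hε
  obtain ⟨M, hM, h2⟩ := mrep_WK 1
  obtain ⟨C3, hC3, h3⟩ := sum_N_rpow_le (a := -(1 / 3)) (by norm_num)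
  refine ⟨M ^ 2 * C1 * C3, by positivity, fun Z A R K a h y a1 a2 a3 a4 hK ha hy => ?_⟩
  have := sep (h2 K 0 a hK (by simp) (by simpa using ha)) (ballN A) (ballN R)
    (fun b m => conj (G m) * ((N m ^ (-(1 / 6) : ℝ) : ℝ) : ℂ) * sym3 (b * h) m) N y
    (fun m hm => N_pos (mem_ballN.1 hm).1.ne_zero) (B := 1) (fun b _ => ⟨hy b, by simp⟩)
    (P := C1 * Z ^ ε * (A + R + (A * R) ^ (2 / 3 : ℝ)) * (C3 * R ^ (2 / 3 : ℝ))) (fun τ => by
      have b1 := h1 Z A R (fun m => conj (G m) * ((N m ^ (-(1 / 6) : ℝ) : ℝ) : ℂ) * sym3 h m *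
        ((N m : ℝ) : ℂ) ^ (-((0 : ℝ) + τ * Complex.I))) a1 a2 a3 a4
      refine le_trans (le_of_eq ?_) (b1.trans ?_)
      · refine Finset.sum_congr rfl fun b _ => ?_
        congr 2
        exact Finset.sum_congr rfl fun m _ => by rw [sym3_mul_left]; ring
      · have z0 : 0 < Z := by linarith
        have b2 := h3 R (by linarith)
        rw [show (1 + -(1 / 3) : ℝ) = 2 / 3 by norm_num] at b2
        refine mul_le_mul_of_nonneg_left (le_trans ?_ b2) (by positivity)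
        refine le_trans (Finset.sum_le_sum fun m hm => ?_) (Finset.sum_le_sum_of_subset_of_nonneg
          (Finset.filter_subset _ _) fun m _ _ => Real.rpow_nonneg (N_nonneg m) _)
        have hm' := (mem_ballN.1 hm).1
        have n0 := N_pos hm'.ne_zero
        rw [norm_mul, norm_mul, norm_mul, Complex.norm_conj, norm_G hm', one_mul, Complex.norm_real,
          Real.norm_of_nonneg (by positivity), Complex.norm_cpow_eq_rpow_re_of_pos n0]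
        have e1 : (-(((0 : ℝ) : ℂ) + τ * Complex.I)).re = 0 := by simp
        rw [e1, Real.rpow_zero, mul_one, show (-(1 / 3) : ℝ) = -(1 / 6) * 2 by norm_num,
          Real.rpow_mul n0.le, Real.rpow_two]
        gcongr
        exact mul_le_of_le_one_right (by positivity) (norm_sym3_le _ _))
  refine le_trans this (le_of_eq ?_)
  ring

theorem ct_big {ε : ℝ} (hε : 0 < ε) : ∃ C : ℝ, 0 < C ∧ ∀ (Z A Y K a : ℝ) (h : O) (y : O → ℝ),
    1 ≤ A → A ≤ Z → 1 ≤ Y → Y ≤ Z → 1 ≤ K → |a| ≤ 1 → (∀ b, 0 < y b ∧ y b ≤ Y) →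
    ∑ b ∈ ballN A, ‖ctU K a (b * h) (y b)‖ ^ 2 ≤ C * Z ^ ε *
      (A * Y ^ (2 / 3 : ℝ) + Y ^ (5 / 3 : ℝ) + A ^ (2 / 3 : ℝ) * Y ^ (4 / 3 : ℝ)) := by
  set η := ε / 4 with hη
  have η0 : 0 < η := by positivity
  obtain ⟨C1, hC1, h1⟩ := ct_main (ε := η / (1 + η)) (by positivity)
  obtain ⟨C2, hC2, h2⟩ := tail_WK_le (a := 2 + 1 / η) (le_add_of_nonneg_right (by positivity)) 1
  obtain ⟨C3, hC3, h3⟩ := ct_card
  obtain ⟨C4, -, h4⟩ := ctU_le
  obtain ⟨C5, -, h5⟩ := ct_WK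
  refine ⟨2 * C1 + 2 * C3 * C2 ^ 2, by positivity, fun Z A Y K a h y a1 a2 a3 a4 hK ha hy => ?_⟩
  have z1 : 1 ≤ Z := a1.trans a2
  have z0 : 0 < Z := by linarith
  have y0 : 0 < Y := by linarith
  set W := Z ^ η with hW
  have w1 : 1 ≤ W := Real.one_le_rpow z1 η0.le
  have w0 : 0 < W := by linarith
  have b1 := h1 (Z * W) A (Y * W) K a h y a1 (a2.trans (le_mul_of_one_le_right z0.le w1))
    (one_le_mul_of_one_le_of_one_le a3 w1) (by gcongr) hK ha fun b => (hy b).1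
  have e1 : (Z * W) ^ (η / (1 + η)) = W := by
    rw [hW, ← Real.rpow_one_add' z0.le (by positivity), ← Real.rpow_mul z0.le]
    congr 1
    field_simp
  have b2 : ∀ b, ‖ctU K a (b * h) (y b) - ∑ m ∈ ballN (Y * W), ctT K a (b * h) (y b) m‖ ≤ C2 :=
    fun b => by
      have s1 := (h4 K a (y b) (b * h) hK ha (hy b).1).1
      have s2 : Summable fun n : O => if Y * W < N n then ‖WK K a (N n / y b)‖ else 0 := by
        refine ((summable_N_rpow (s := 2) (by norm_num)).mul_left (C5 * y b ^ 2)).of_nonneg_of_le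
          (fun n => by split_ifs <;> simp) fun n => le_trans ?_ (h5 K a (y b) n hK ha (hy b).1)
        by_cases hn : Y * W < N n
        · have : n ≠ 0 := by
            rintro rfl
            rw [N_zero] at hn
            nlinarith
          rw [if_pos hn, if_pos this]
        · rw [if_neg hn]
          split_ifs <;> simp
      have e2 : ctU K a (b * h) (y b) - ∑ m ∈ ballN (Y * W), ctT K a (b * h) (y b) m =
          ∑' m, if m ∈ ballN (Y * W) then 0 else ctT K a (b * h) (y b) m := by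
        have e0 : ∑' m, (if m ∈ ballN (Y * W) then ctT K a (b * h) (y b) m else 0) =
            ∑ m ∈ ballN (Y * W), ctT K a (b * h) (y b) m := by
          rw [tsum_eq_sum (s := ballN (Y * W)) (fun d hd => if_neg hd)]
          exact Finset.sum_congr rfl fun d hd => if_pos hd
        rw [ctU, ← e0, ← s1.of_norm.tsum_sub
          (summable_of_ne_finset_zero (s := ballN (Y * W)) fun d hd => if_neg hd)]
        exact tsum_congr fun m => by split_ifs <;> simp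
      rw [e2]
      refine (tsum_of_norm_bounded s2.hasSum fun m => ?_).trans
        ((h2 K (y b) (Y * W) a hK (by simpa using ha) (hy b).1 (by positivity)).trans ?_)
      · by_cases c1 : m ∈ ballN (Y * W)
        · rw [if_pos c1, norm_zero]
          split_ifs <;> simp
        · rw [if_neg c1]
          by_cases c2 : NN m
          · rw [if_pos (not_le.1 fun c3 => c1 (mem_ballN.2 ⟨c2, c3⟩))]
            simpa [c2.ne_zero] using ctT_le K a (b * h) (y b) m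
          · rw [ctT, G, if_neg c2]
            split_ifs <;> simp
      · have c1 : y b / (Y * W) ≤ W⁻¹ := by
          rw [div_le_iff₀ (by positivity)]
          calc y b ≤ Y := (hy b).2
            _ = _ := by field_simp
        have c2 : (W⁻¹) ^ (2 + 1 / η) = (W * W * Z)⁻¹ := by
          rw [Real.inv_rpow w0.le, Real.rpow_add w0, Real.rpow_two, hW, ← Real.rpow_mul z0.le,
            mul_one_div_cancel η0.ne', Real.rpow_one, sq]
        have c3 : (y b / (Y * W)) ^ (2 + 1 / η) ≤ (W * W * Z)⁻¹ := by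
          rw [← c2]
          have := (hy b).1
          gcongr
        have := (hy b).1
        calc _ ≤ C2 * (Z * (W * W)) * (W * W * Z)⁻¹ := by
              gcongr
              exact le_mul_of_one_le_right w0.le w1
          _ = C2 := by field_simp
  have b3 : ∑ b ∈ ballN A, ‖ctU K a (b * h) (y b)‖ ^ 2 ≤
      2 * ∑ b ∈ ballN A, ‖∑ m ∈ ballN (Y * W), ctT K a (b * h) (y b) m‖ ^ 2 +
        2 * (C3 * A * C2 ^ 2) := by
    have : ∀ b ∈ ballN A, ‖ctU K a (b * h) (y b)‖ ^ 2 ≤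
        2 * ‖∑ m ∈ ballN (Y * W), ctT K a (b * h) (y b) m‖ ^ 2 + 2 * C2 ^ 2 := fun b _ => by
      have c1 := norm_le_insert' (ctU K a (b * h) (y b))
        (∑ m ∈ ballN (Y * W), ctT K a (b * h) (y b) m)
      have c2 := pow_le_pow_left₀ (norm_nonneg _) (c1.trans (add_le_add le_rfl (b2 b))) 2
      nlinarith [sq_nonneg (‖∑ m ∈ ballN (Y * W), ctT K a (b * h) (y b) m‖ - C2)]
    refine (Finset.sum_le_sum this).trans ?_
    rw [Finset.sum_add_distrib, ← Finset.mul_sum, Finset.sum_const, nsmul_eq_mul]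
    have := h3 A (by linarith)
    nlinarith [sq_nonneg C2]
  have p1 : 1 ≤ Y ^ (2 / 3 : ℝ) := Real.one_le_rpow a3 (by norm_num)
  have p2 : (Y * W) ^ (2 / 3 : ℝ) ≤ Y ^ (2 / 3 : ℝ) * W := by
    rw [Real.mul_rpow y0.le w0.le]
    gcongr
    exact (Real.rpow_le_rpow_of_exponent_le w1 (by norm_num)).trans (Real.rpow_one W).le
  have p3 : (A * (Y * W)) ^ (2 / 3 : ℝ) ≤ A ^ (2 / 3 : ℝ) * (Y ^ (2 / 3 : ℝ) * W) := by
    rw [Real.mul_rpow (by linarith) (by positivity)]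
    gcongr
  have p4 : Y ^ (5 / 3 : ℝ) = Y * Y ^ (2 / 3 : ℝ) := by
    rw [← Real.rpow_one_add' y0.le (by norm_num)]; norm_num
  have p5 : Y ^ (4 / 3 : ℝ) = Y ^ (2 / 3 : ℝ) * Y ^ (2 / 3 : ℝ) := by
    rw [← Real.rpow_add y0]; norm_num
  have p6 : W * W * W ≤ Z ^ ε := by
    rw [hW, ← Real.rpow_add z0, ← Real.rpow_add z0]
    exact Real.rpow_le_rpow_of_exponent_le z1 (by linarith)
  have p7 : 1 ≤ Z ^ ε := Real.one_le_rpow z1 hε.le
  rw [e1] at b1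
  rw [p4, p5]
  have a0 : 0 < A := by linarith
  have b4 : C1 * W * (A + Y * W + (A * (Y * W)) ^ (2 / 3 : ℝ)) * (Y * W) ^ (2 / 3 : ℝ) ≤
      C1 * Z ^ ε * (A * Y ^ (2 / 3 : ℝ) + Y * Y ^ (2 / 3 : ℝ) +
        A ^ (2 / 3 : ℝ) * (Y ^ (2 / 3 : ℝ) * Y ^ (2 / 3 : ℝ))) := by
    calc _ ≤ C1 * W * (A * W + Y * W + A ^ (2 / 3 : ℝ) * (Y ^ (2 / 3 : ℝ) * W)) *
          (Y ^ (2 / 3 : ℝ) * W) := by
          gcongr
          exact le_mul_of_one_le_right a0.le w1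
      _ = C1 * (W * W * W) * (A * Y ^ (2 / 3 : ℝ) + Y * Y ^ (2 / 3 : ℝ) +
        A ^ (2 / 3 : ℝ) * (Y ^ (2 / 3 : ℝ) * Y ^ (2 / 3 : ℝ))) := by ring
      _ ≤ _ := by gcongr
  have b5 : A ≤ Z ^ ε * (A * Y ^ (2 / 3 : ℝ) + Y * Y ^ (2 / 3 : ℝ) +
      A ^ (2 / 3 : ℝ) * (Y ^ (2 / 3 : ℝ) * Y ^ (2 / 3 : ℝ))) := by
    refine le_trans ?_ (le_mul_of_one_le_left (by positivity) p7)
    have : A ≤ A * Y ^ (2 / 3 : ℝ) := le_mul_of_one_le_right a0.le p1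
    have : 0 ≤ Y * Y ^ (2 / 3 : ℝ) + A ^ (2 / 3 : ℝ) * (Y ^ (2 / 3 : ℝ) * Y ^ (2 / 3 : ℝ)) := by
      positivity
    linarith
  have b6 := mul_le_mul_of_nonneg_left b5 (by positivity : 0 ≤ 2 * C3 * C2 ^ 2)
  nlinarith

theorem ct_all {ε δ : ℝ} (hε : 0 < ε) (hδ : 0 ≤ δ) (hδ1 : δ ≤ 1) : ∃ C : ℝ, 0 < C ∧
    ∀ (Z A Y K a : ℝ) (h : O) (y : O → ℝ),
    1 ≤ A → A ≤ Z → 0 < Y → Y ≤ Z → 1 ≤ K → |a| ≤ 1 → (∀ b, 0 < y b ∧ y b ≤ Y) →
    √(∑ b ∈ ballN A, ‖ctU K a (b * h) (y b)‖ ^ 2) ≤ C * Z ^ ε *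
      (√A * Y ^ (1 / 3 + δ) + Y ^ (5 / 6 + δ) + A ^ (1 / 3 : ℝ) * Y ^ (2 / 3 + δ)) := by
  obtain ⟨C1, hC1, h1⟩ := ct_big hε
  obtain ⟨C2, hC2, h2⟩ := ctU_le
  obtain ⟨C3, hC3, h3⟩ := ct_card
  refine ⟨√C1 + √C3 * C2, by positivity, fun Z A Y K a h y a1 a2 y0 a4 hK ha hy => ?_⟩
  have z1 : 1 ≤ Z := a1.trans a2
  have a0 : 0 < A := by linarith
  have p7 : 1 ≤ Z ^ ε := Real.one_le_rpow z1 hε.le
  rw [Real.sqrt_le_left (by positivity)]
  rcases le_total 1 Y with a3 | a3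
  · refine (h1 Z A Y K a h y a1 a2 a3 a4 hK ha hy).trans ?_
    have q : ∀ s : ℝ, Y ^ (2 * s) ≤ (Y ^ (s + δ)) ^ 2 := fun s => by
      rw [← Real.rpow_two, ← Real.rpow_mul y0.le]
      exact Real.rpow_le_rpow_of_exponent_le a3 (by linarith)
    have q1 := q (1 / 3)
    have q2 := q (5 / 6)
    have q3 := q (2 / 3)
    have q4 : A ^ (2 / 3 : ℝ) = (A ^ (1 / 3 : ℝ)) ^ 2 := by
      rw [← Real.rpow_two, ← Real.rpow_mul a0.le]; norm_num
    norm_num at q1 q2 q3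
    calc _ ≤ √C1 ^ 2 * (Z ^ ε) ^ 2 * ((√A * Y ^ (1 / 3 + δ)) ^ 2 + (Y ^ (5 / 6 + δ)) ^ 2 +
          (A ^ (1 / 3 : ℝ) * Y ^ (2 / 3 + δ)) ^ 2) := by
          rw [Real.sq_sqrt hC1.le, mul_pow, mul_pow, Real.sq_sqrt a0.le, q4]
          gcongr
          nlinarith
      _ ≤ √C1 ^ 2 * (Z ^ ε) ^ 2 * (√A * Y ^ (1 / 3 + δ) + Y ^ (5 / 6 + δ) +
          A ^ (1 / 3 : ℝ) * Y ^ (2 / 3 + δ)) ^ 2 := by
          have : 0 ≤ √A * Y ^ (1 / 3 + δ) := by positivity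
          have : 0 ≤ Y ^ (5 / 6 + δ) := by positivity
          have : 0 ≤ A ^ (1 / 3 : ℝ) * Y ^ (2 / 3 + δ) := by positivity
          gcongr
          nlinarith
      _ ≤ _ := by
          rw [← mul_pow, ← mul_pow]
          gcongr
          exact le_add_of_nonneg_right (by positivity)
  · have q1 : Y ^ 2 ≤ Y ^ (1 / 3 + δ) := by
      rw [← Real.rpow_two]
      exact Real.rpow_le_rpow_of_exponent_ge y0 a3 (by linarith)
    have q2 : ∀ b ∈ ballN A, ‖ctU K a (b * h) (y b)‖ ^ 2 ≤ (C2 * Y ^ (1 / 3 + δ)) ^ 2 :=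
      fun b _ => by
        have := (hy b).1
        gcongr
        refine (h2 K a (y b) (b * h) hK ha this).2.trans ?_
        gcongr
        exact le_trans (by gcongr; exact (hy b).2) q1
    refine (Finset.sum_le_card_nsmul _ _ _ q2).trans ?_
    rw [nsmul_eq_mul]
    calc _ ≤ C3 * A * (C2 * Y ^ (1 / 3 + δ)) ^ 2 := by gcongr; exact h3 A a0.le
      _ = (√C3 * C2 * 1 * (√A * Y ^ (1 / 3 + δ))) ^ 2 := by
          simp only [mul_pow, Real.sq_sqrt hC3.le, Real.sq_sqrt a0.le]; ring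
      _ ≤ _ := by
          gcongr
          · exact le_add_of_nonneg_left (by positivity)
          · rw [add_assoc]
            exact le_add_of_nonneg_right (by positivity)

theorem ct_summ {s : ℝ} (hs : 1 < s) (D : ℝ) :
    Summable fun n : O => if D < N n then N n ^ (-s) else 0 :=
  (summable_N_rpow hs).of_nonneg_of_le (fun d => by
    split_ifs; exacts [Real.rpow_nonneg (N_nonneg d) _, le_rfl]) fun d => by
    split_ifs; exacts [le_rfl, Real.rpow_nonneg (N_nonneg d) _]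

theorem ct_nn (s D : ℝ) : 0 ≤ ∑' n : O, (if D < N n then N n ^ (-s) else 0) :=
  tsum_nonneg fun n => by split_ifs; exacts [Real.rpow_nonneg (N_nonneg n) _, le_rfl]

theorem ct_f {ε δ : ℝ} (hε : 0 < ε) (δ0 : 0 < δ) (δ1 : δ ≤ 1) : ∃ C : ℝ, 0 < C ∧
    ∀ (Z A Y K D a : ℝ) (h : O) (y : O → ℝ),
    1 ≤ A → A ≤ Z → 1 ≤ Y → Y ≤ Z → 1 ≤ K → 1 ≤ D → |a| ≤ 1 → (∀ b, 0 < y b ∧ y b ≤ Y) →
    ∀ f : O, √(∑ b ∈ ballN A, ‖(∑ d ∈ (ballO (N f)).filter (· ∣ f),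
      if Prim d ∧ D < N d then mu d else 0) * ctV K a (b * h) (y b) f‖ ^ 2) ≤
      C * Z ^ ε * (√A * Y ^ (1 / 3 + δ) * (if D < N f then N f ^ (-(1 + 2 * δ)) else 0) +
        Y ^ (5 / 6 + δ) * (if D < N f then N f ^ (-(5 / 2 : ℝ)) else 0) +
        A ^ (1 / 3 : ℝ) * Y ^ (2 / 3 + δ) * (if D < N f then N f ^ (-(2 : ℝ)) else 0)) := by
  obtain ⟨C1, hC1, h1⟩ := ct_all hε δ0.le δ1
  obtain ⟨C2, hC2, h2⟩ := dv_le δ0
  refine ⟨C2 * C1, by positivity, fun Z A Y K D a h y a1 a2 a3 a4 hK hD ha hy f => ?_⟩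
  have z0 : 0 < Z := by linarith
  have a0 : 0 < A := by linarith
  have y0 : 0 < Y := by linarith
  by_cases c1 : D < N f
  · simp only [if_pos c1]
    have n1 : 1 ≤ N f := by linarith
    have n0 : 0 < N f := by linarith
    have f0 : f ≠ 0 := by rintro rfl; rw [N_zero] at n0; exact lt_irrefl _ n0
    by_cases c2 : Prim f
    · have b1 : ‖∑ d ∈ (ballO (N f)).filter (· ∣ f),
          if Prim d ∧ D < N d then mu d else 0‖ ≤ C2 * N f ^ δ := by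
        refine (norm_sum_le _ _).trans (le_trans ?_ (h2 f f0))
        simpa [dv] using Finset.sum_le_card_nsmul ((ballO (N f)).filter (· ∣ f))
          (fun d => ‖if Prim d ∧ D < N d then mu d else 0‖) 1 fun d _ => by
            split_ifs; exacts [norm_mu_le d, by simp]
      have b2 := h1 Z A (Y / N f ^ 3) K a h (fun b => y b / N f ^ 3) a1 a2 (by positivity)
        ((div_le_self y0.le (one_le_pow₀ n1)).trans a4) hK ha fun b =>
          ⟨div_pos (hy b).1 (by positivity), by gcongr; exact (hy b).2⟩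
      have b3 : √(∑ b ∈ ballN A, ‖(∑ d ∈ (ballO (N f)).filter (· ∣ f),
          if Prim d ∧ D < N d then mu d else 0) * ctV K a (b * h) (y b) f‖ ^ 2) ≤
          C2 * N f ^ δ * √(∑ b ∈ ballN A, ‖ctU K a (b * h) (y b / N f ^ 3)‖ ^ 2) := by
        rw [← Real.sqrt_sq (by positivity : 0 ≤ C2 * N f ^ δ), ← Real.sqrt_mul (sq_nonneg _),
          Finset.mul_sum]
        refine Real.sqrt_le_sqrt (Finset.sum_le_sum fun b _ => ?_)
        rw [← mul_pow, norm_mul, ctV, if_pos c2, norm_mul]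
        gcongr
        exact mul_le_of_le_one_left (norm_nonneg _) (norm_sym3_le _ _)
      have q : ∀ s r : ℝ, δ - 3 * s ≤ -r → N f ^ δ * (Y / N f ^ 3) ^ s ≤ Y ^ s * N f ^ (-r) :=
        fun s r hr => by
          rw [Real.div_rpow y0.le (by positivity), ← Real.rpow_natCast, ← Real.rpow_mul n0.le,
            mul_div_left_comm, ← Real.rpow_sub n0]
          gcongr
          exact_mod_cast hr
      have q1 := q (1 / 3 + δ) (1 + 2 * δ) (by linarith)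
      have q2 := q (5 / 6 + δ) (5 / 2) (by linarith)
      have q3 := q (2 / 3 + δ) 2 (by linarith)
      refine b3.trans ((mul_le_mul_of_nonneg_left b2 (by positivity)).trans ?_)
      calc _ = C2 * C1 * Z ^ ε * (√A * (N f ^ δ * (Y / N f ^ 3) ^ (1 / 3 + δ)) +
            N f ^ δ * (Y / N f ^ 3) ^ (5 / 6 + δ) +
            A ^ (1 / 3 : ℝ) * (N f ^ δ * (Y / N f ^ 3) ^ (2 / 3 + δ))) := by ring
        _ ≤ _ := by
            rw [mul_assoc (√A), mul_assoc (A ^ (1 / 3 : ℝ))]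
            gcongr
    · simp only [ctV, if_neg c2, mul_zero, norm_zero]
      simp only [ne_eq, OfNat.ofNat_ne_zero, not_false_eq_true, zero_pow,
        Finset.sum_const_zero, Real.sqrt_zero]
      positivity
  · have : ∑ d ∈ (ballO (N f)).filter (· ∣ f), (if Prim d ∧ D < N d then mu d else 0) = 0 :=
      Finset.sum_eq_zero fun d hd => if_neg fun h' =>
        c1 (h'.2.trans_le (mem_ballO.1 (Finset.mem_filter.1 hd).1).2)
    simp [this, c1]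

theorem ct_num {ε δ C C3 C4 C5 Z A Y D u1 u2 u3 : ℝ} (δ0 : 0 < δ) (hδ : δ ≤ ε / 4) (hC : 0 < C)
    (hC3 : 0 < C3) (hC4 : 0 < C4) (hC5 : 0 < C5) (a1 : 1 ≤ A) (a2 : A ≤ Z) (a3 : 1 ≤ Y)
    (a4 : Y ≤ Z) (hD : 1 ≤ D) (p1 : 0 ≤ u1) (p2 : 0 ≤ u2) (p3 : 0 ≤ u3) (r1 : u1 ≤ C3)
    (r2 : u2 ≤ C4 * D ^ (1 - 5 / 2 : ℝ)) (r3 : u3 ≤ C5 * D ^ (1 - 2 : ℝ)) :
    (C * Z ^ (ε / 4) * (√A * Y ^ (1 / 3 + δ) * u1 + Y ^ (5 / 6 + δ) * u2 +
      A ^ (1 / 3 : ℝ) * Y ^ (2 / 3 + δ) * u3)) ^ 2 ≤ 3 * (C * (C3 + C4 + C5)) ^ 2 * Z ^ ε *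
      (A * Y ^ (2 / 3 : ℝ) + Y ^ (5 / 3 : ℝ) / D ^ 3 +
        A ^ (2 / 3 : ℝ) * Y ^ (4 / 3 : ℝ) / D ^ 2) := by
  have z1 : 1 ≤ Z := a1.trans a2
  have z0 : 0 < Z := by linarith
  have a0 : 0 < A := by linarith
  have y0 : 0 < Y := by linarith
  have d0 : 0 < D := by linarith
  have yδ : Y ^ δ ≤ Z ^ (ε / 4) := (Real.rpow_le_rpow y0.le a4 δ0.le).trans
    (Real.rpow_le_rpow_of_exponent_le z1 hδ)
  have sq' : ∀ {x : ℝ}, 0 < x → ∀ s : ℝ, (x ^ s) ^ 2 = x ^ (2 * s) := fun hx s => by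
    rw [← Real.rpow_two, ← Real.rpow_mul hx.le, mul_comm]
  have w1 : (√A * Y ^ (1 / 3 : ℝ)) ^ 2 = A * Y ^ (2 / 3 : ℝ) := by
    rw [mul_pow, Real.sq_sqrt a0.le, sq' y0]; norm_num
  have w2 : (Y ^ (5 / 6 : ℝ) * D ^ (1 - 5 / 2 : ℝ)) ^ 2 = Y ^ (5 / 3 : ℝ) / D ^ 3 := by
    rw [mul_pow, sq' y0, sq' d0, div_eq_mul_inv (Y ^ _), ← Real.rpow_natCast,
      ← Real.rpow_neg d0.le]; norm_num
  have w3 : (A ^ (1 / 3 : ℝ) * Y ^ (2 / 3 : ℝ) * D ^ (1 - 2 : ℝ)) ^ 2 =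
      A ^ (2 / 3 : ℝ) * Y ^ (4 / 3 : ℝ) / D ^ 2 := by
    rw [mul_pow, mul_pow, sq' y0, sq' d0, sq' a0, div_eq_mul_inv (_ * _), ← Real.rpow_natCast,
      ← Real.rpow_neg d0.le]; norm_num
  have w4 : Z ^ ε = ((Z ^ (ε / 4)) ^ 2) ^ 2 := by
    rw [sq' z0, sq' z0]; congr 1; ring
  rw [← w1, ← w2, ← w3, w4]
  have e : √A * Y ^ (1 / 3 + δ) * C3 + Y ^ (5 / 6 + δ) * (C4 * D ^ (1 - 5 / 2 : ℝ)) +
      A ^ (1 / 3 : ℝ) * Y ^ (2 / 3 + δ) * (C5 * D ^ (1 - 2 : ℝ)) =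
      Y ^ δ * (C3 * (√A * Y ^ (1 / 3 : ℝ)) + C4 * (Y ^ (5 / 6 : ℝ) * D ^ (1 - 5 / 2 : ℝ)) +
        C5 * (A ^ (1 / 3 : ℝ) * Y ^ (2 / 3 : ℝ) * D ^ (1 - 2 : ℝ))) := by
    rw [Real.rpow_add y0, Real.rpow_add y0, Real.rpow_add y0]
    ring
  have v10 : 0 ≤ √A * Y ^ (1 / 3 : ℝ) := by positivity
  have v20 : 0 ≤ Y ^ (5 / 6 : ℝ) * D ^ (1 - 5 / 2 : ℝ) := by positivity
  have v30 : 0 ≤ A ^ (1 / 3 : ℝ) * Y ^ (2 / 3 : ℝ) * D ^ (1 - 2 : ℝ) := by positivity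
  have i1 : (C * Z ^ (ε / 4) * (√A * Y ^ (1 / 3 + δ) * u1 + Y ^ (5 / 6 + δ) * u2 +
      A ^ (1 / 3 : ℝ) * Y ^ (2 / 3 + δ) * u3)) ^ 2 ≤ (C * Z ^ (ε / 4) *
      (√A * Y ^ (1 / 3 + δ) * C3 + Y ^ (5 / 6 + δ) * (C4 * D ^ (1 - 5 / 2 : ℝ)) +
      A ^ (1 / 3 : ℝ) * Y ^ (2 / 3 + δ) * (C5 * D ^ (1 - 2 : ℝ)))) ^ 2 := by gcongr
  refine i1.trans ?_
  rw [e]
  generalize √A * Y ^ (1 / 3 : ℝ) = v1 at *
  generalize Y ^ (5 / 6 : ℝ) * D ^ (1 - 5 / 2 : ℝ) = v2 at *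
  generalize A ^ (1 / 3 : ℝ) * Y ^ (2 / 3 : ℝ) * D ^ (1 - 2 : ℝ) = v3 at *
  have zp : 0 < Z ^ (ε / 4) := by positivity
  have yp : 0 < Y ^ δ := by positivity
  generalize Z ^ (ε / 4) = z at *
  generalize Y ^ δ = w at *
  calc _ ≤ (C * z * (z * ((C3 + C4 + C5) * v1 + (C3 + C4 + C5) * v2 +
        (C3 + C4 + C5) * v3))) ^ 2 := by
        gcongr <;> linarith
    _ = (C * (C3 + C4 + C5)) ^ 2 * (z ^ 2) ^ 2 * (v1 + v2 + v3) ^ 2 := by ring
    _ ≤ (C * (C3 + C4 + C5)) ^ 2 * (z ^ 2) ^ 2 * (3 * (v1 ^ 2 + v2 ^ 2 + v3 ^ 2)) := by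
        gcongr
        nlinarith [sq_nonneg (v1 - v2), sq_nonneg (v1 - v3), sq_nonneg (v2 - v3)]
    _ = _ := by ring

/-- the tail of the cube sieve -/
theorem ct {ε : ℝ} (hε : 0 < ε) : ∃ C : ℝ, 0 < C ∧
    ∀ (Z A Y K D a : ℝ) (h : O) (y : O → ℝ),
    1 ≤ A → A ≤ Z → 1 ≤ Y → Y ≤ Z → 1 ≤ K → 1 ≤ D → |a| ≤ 1 → (∀ b, 0 < y b ∧ y b ≤ Y) →
    ∑ b ∈ ballN A, ‖∑' d : O, (if Prim d ∧ D < N d then mu d * sym3 (8 * b * h) (d ^ 3) *
        TT K a (8 * b * h) (y b / N d ^ 3) else 0)‖ ^ 2 ≤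
      C * Z ^ ε * (A * Y ^ (2 / 3 : ℝ) + Y ^ (5 / 3 : ℝ) / D ^ 3 +
        A ^ (2 / 3 : ℝ) * Y ^ (4 / 3 : ℝ) / D ^ 2) := by
  have δ0 : 0 < min (ε / 4) 1 := lt_min (by positivity) one_pos
  have δ1 := min_le_right (ε / 4) 1
  have δ2 := min_le_left (ε / 4) 1
  generalize min (ε / 4) 1 = δ at δ0 δ1 δ2
  obtain ⟨C1, hC1, h1⟩ := ct_f (ε := ε / 4) (by positivity) δ0 δ1
  obtain ⟨C3, hC3, h3⟩ := tail_N_rpow_le (s := 1 + 2 * δ) (by linarith)
  obtain ⟨C4, hC4, h4⟩ := tail_N_rpow_le (s := 5 / 2) (by norm_num)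
  obtain ⟨C5, hC5, h5⟩ := tail_N_rpow_le (s := 2) (by norm_num)
  refine ⟨3 * (C1 * (C3 + C4 + C5)) ^ 2, by positivity,
    fun Z A Y K D a h y a1 a2 a3 a4 hK hD ha hy => ?_⟩
  have z0 : 0 < Z := by linarith
  have a0 : 0 < A := by linarith
  have y0 : 0 < Y := by linarith
  have d0 : 0 < D := by linarith
  have e1 := fun b => (ct_id hK ha (hy b).1 (b * h) (fun d => Prim d ∧ D < N d)
    fun d hd => hd.1).2
  simp only [mul_assoc (8 : O), e1]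
  have s1 := (ct_summ (s := 1 + 2 * δ) (by linarith) D).mul_left (√A * Y ^ (1 / 3 + δ))
  have s2 := (ct_summ (s := 5 / 2) (by norm_num) D).mul_left (Y ^ (5 / 6 + δ))
  have s3 := (ct_summ (s := 2) (by norm_num) D).mul_left (A ^ (1 / 3 : ℝ) * Y ^ (2 / 3 + δ))
  have key := mink_tsum (ballN A) (fun b f => (∑ d ∈ (ballO (N f)).filter (· ∣ f),
      if Prim d ∧ D < N d then mu d else 0) * ctV K a (b * h) (y b) f)
    (((s1.add s2).add s3).mul_left (C1 * Z ^ (ε / 4))) (h1 Z A Y K D a h y a1 a2 a3 a4 hK hD ha hy)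
  have u1 := ct_nn (1 + 2 * δ) D
  have u2 := ct_nn (5 / 2) D
  have u3 := ct_nn 2 D
  rw [tsum_mul_left, (s1.add s2).tsum_add s3, s1.tsum_add s2, tsum_mul_left, tsum_mul_left,
    tsum_mul_left, Real.sqrt_le_left (by positivity)] at key
  exact key.trans (ct_num δ0 δ2 hC1 hC3 hC4 hC5 a1 a2 a3 a4 hD u1 u2 u3
    ((h3 D d0).trans (mul_le_of_le_one_right hC3.le
    (Real.rpow_le_one_of_one_le_of_nonpos hD (by linarith)))) (h4 D d0) (h5 D d0))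

/-- the cube sieve -/
theorem cube_sieve {K : ℝ} (hK : 1 ≤ K) (k : O) {y : ℝ} (hy : 0 < y) :
    Summable (fun d : O => if Prim d then mu d * sym3 (8 * k) (d ^ 3) *
        TT K (1 / 6 : ℝ) (8 * k) (y / N d ^ 3) else 0) ∧
    ∑' m : O, conj (G m) * sym3 k m * WK K 0 (N m / y) =
      ((y ^ (1 / 6 : ℝ) : ℝ) : ℂ) * ∑' d : O, (if Prim d then mu d * sym3 (8 * k) (d ^ 3) *
        TT K (1 / 6 : ℝ) (8 * k) (y / N d ^ 3) else 0) := by
  obtain ⟨h1, h2⟩ := ct_id (a := 1 / 6) hK (by rw [abs_of_pos] <;> norm_num) hy k Prim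
    fun _ h => h
  refine ⟨h1, ?_⟩
  have e : ∀ f, (∑ d ∈ (ballO (N f)).filter (· ∣ f), if Prim d then mu d else 0) *
      ctV K (1 / 6) k y f = if f = 1 then ctU K (1 / 6) k y else 0 := fun f => by
    by_cases hf : Prim f
    · have h3 := sum_mu_prim hf 0
      simp only [dvd_zero, if_true, isCoprime_zero_left] at h3
      rw [← Finset.sum_filter, Finset.filter_filter, Finset.filter_congr fun d _ => and_comm, h3]
      by_cases h4 : f = 1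
      · subst h4
        simp [ctV, prim_one, N_one, sym3_unit_right]
      · rw [if_neg h4, if_neg fun h => h4 (hf.eq_one_of_isUnit h), zero_mul]
    · rw [ctV, if_neg hf, mul_zero, if_neg (fun h : f = 1 => hf (h ▸ prim_one))]
  rw [h2, tsum_congr e, tsum_ite_eq, ctU, ← tsum_mul_left]
  refine tsum_congr fun m => ?_
  by_cases hm : NN m
  · have n0 := N_pos hm.ne_zero
    have e1 := WK_cpow K 0 ((1 / 6 : ℝ) : ℂ) (div_pos n0 hy)
    rw [zero_add, ← Complex.ofReal_cpow (div_pos n0 hy).le] at e1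
    have e2 : y ^ (1 / 6 : ℝ) * N m ^ (-(1 / 6) : ℝ) * (N m / y) ^ (1 / 6 : ℝ) = 1 := by
      rw [Real.div_rpow n0.le hy.le, Real.rpow_neg n0.le]
      field_simp
    have e3 := congrArg (fun x : ℝ => (x : ℂ)) e2
    simp only [Complex.ofReal_mul, Complex.ofReal_one] at e3
    rw [ctT, ← e1]
    linear_combination (-(conj (G m) * sym3 k m * WK K 0 (N m / y))) * e3
  · simp [ctT, G, hm]

end

end Vale.Agent.P006
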