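import Vale.Agent.P006.ConstDefs
import Vale.Agent.P026.Bes

namespace Vale.Agent.P006

open Vale.Agent.P026 Complex MeasureTheory Filter Topology
open scoped Classical ComplexConjugate Real MatrixGroups

noncomputable section

def cfj (ξ U : ℝ) : ℝ := U ^ ((4 : ℝ) / 3 - 2) * Real.exp (-(ξ * (U + U⁻¹)))

theorem cf_int {ξ : ℝ} (hξ : 0 < ξ) : IntegrableOn (cfj ξ) (Set.Ioi 0) ∧
    (bb (ξ ^ 2 / (4 * π ^ 2)) (4 / 3)).re =
      π / Real.Gamma (4 / 3) * (ξ ^ (1 / 3 : ℝ) * ∫ U in Set.Ioi 0, cfj ξ U) := by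
  set x := ξ ^ 2 / (4 * π ^ 2) with hx
  have hpi := Real.pi_pos
  set G : ℝ → ℝ := fun u => u ^ ((4 : ℝ) / 3 - 2) * bes_e x u with hG
  have e : ∀ U ∈ Set.Ioi (0 : ℝ), G (ξ * U) = ξ ^ ((4 : ℝ) / 3 - 2) * cfj ξ U := fun U hU => by
    have hU : 0 < U := hU
    simp only [hG, cfj, bes_e]
    rw [Real.mul_rpow hξ.le hU.le, mul_assoc, hx]
    congr 3
    field_simp
    ring
  have h1 : IntegrableOn G (Set.Ioi 0) := bes_int (by positivity) (by norm_num)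
  have h2 := (integrableOn_Ioi_comp_mul_left_iff G 0 hξ).2 (by rwa [mul_zero])
  rw [integrableOn_congr_fun e measurableSet_Ioi] at h2
  have hp : 0 < ξ ^ ((4 : ℝ) / 3 - 2) := by positivity
  refine ⟨(integrable_const_mul_iff (isUnit_iff_ne_zero.2 hp.ne') _).1 h2, ?_⟩
  have h3 := integral_comp_mul_left_Ioi G 0 hξ
  rw [mul_zero, setIntegral_congr_fun measurableSet_Ioi e, integral_const_mul, smul_eq_mul] at h3
  have h4 : bb x (4 / 3) = ((π / Real.Gamma (4 / 3) * ∫ u in Set.Ioi 0, G u : ℝ) : ℂ) := by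
    rw [bes_bb, Complex.ofReal_mul, ← integral_complex_ofReal, Complex.ofReal_div,
      ← Complex.Gamma_ofReal]
    congr 1
    · push_cast; rfl
    · refine setIntegral_congr_fun measurableSet_Ioi fun u hu => ?_
      simp only [hG]
      rw [Complex.ofReal_mul, Complex.ofReal_cpow (le_of_lt hu)]
      push_cast
      rfl
  rw [h4, Complex.ofReal_re, show (1 / 3 : ℝ) = 1 + (4 / 3 - 2) by norm_num, Real.rpow_add hξ,
    Real.rpow_one, mul_assoc, h3, mul_inv_cancel_left₀ hξ.ne']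

def cfg (y : ℝ) : ℝ := Real.exp (-(y / 1.001)) / 1.001 - 1.001 * Real.exp (-(y * 1.001))

theorem cf_pt {y k : ℝ} (hy : 2.418 ≤ y) (hk : 1 ≤ k) : 0 ≤ cfg (k * y) ∧
    cfg (k * y) ≤ (k + 0.706 * (k - 1)) * Real.exp (-(2.415 * (k - 1))) * cfg y := by
  obtain ⟨δ, hδ⟩ : ∃ δ : ℝ, δ = 2001 / 1001000 := ⟨_, rfl⟩
  have hδ0 : 0 < δ := by rw [hδ]; norm_num
  have e : ∀ z, cfg z = Real.exp (-(z / 1.001)) * ((1000 / 1001) - 1001 / 1000 * Real.exp (-(z * δ))) := by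
    intro z
    rw [cfg, show -(z * 1.001) = -(z / 1.001) + -(z * δ) by rw [hδ]; norm_num; ring, Real.exp_add]
    norm_num
    ring
  have h1 : 0 ≤ (1000 / 1001) - 1001 / 1000 * Real.exp (-(1 * δ)) := by
    have := Real.sum_le_exp_of_nonneg hδ0.le 4
    have h2 : (1001 / 1000 : ℝ) ^ 2 ≤ Real.exp δ := le_trans (by
      simp only [Finset.sum_range_succ, Finset.sum_range_zero, Nat.factorial, hδ]
      norm_num) this
    rw [one_mul, Real.exp_neg, sub_nonneg, ← div_eq_mul_inv,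
      div_le_div_iff₀ (Real.exp_pos _) (by norm_num)]
    linarith
  have hky : y ≤ k * y := by nlinarith
  have hm : ∀ z, 1 ≤ z → 0 ≤ (1000 / 1001) - 1001 / 1000 * Real.exp (-(z * δ)) := fun z hz => by
    have : Real.exp (-(z * δ)) ≤ Real.exp (-(1 * δ)) := by gcongr
    linarith
  have h2 := hm (k * y) (by linarith)
  have h3 := hm y (by linarith)
  have hd : 0 < k * y - 1 := by linarith
  have hc := convexOn_exp.2 (Set.mem_univ (-(1 * δ))) (Set.mem_univ (-(k * y * δ)))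
    (show 0 ≤ (k * y - y) / (k * y - 1) from div_nonneg (by linarith) hd.le)
    (show 0 ≤ (y - 1) / (k * y - 1) from div_nonneg (by linarith) hd.le) (by field_simp; ring)
  simp only [smul_eq_mul] at hc
  rw [show (k * y - y) / (k * y - 1) * -(1 * δ) + (y - 1) / (k * y - 1) * -(k * y * δ) =
    -(y * δ) by field_simp; ring, div_mul_eq_mul_div, div_mul_eq_mul_div, ← add_div,
    le_div_iff₀ hd] at hc
  rw [e, e]
  generalize Real.exp (-(1 * δ)) = A at *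
  generalize Real.exp (-(k * y * δ)) = B at *
  generalize Real.exp (-(y * δ)) = D at *
  refine ⟨by positivity, ?_⟩
  have h4 : (1000 / 1001) - 1001 / 1000 * B ≤ (k + 0.706 * (k - 1)) * ((1000 / 1001) - 1001 / 1000 * D) := by
    refine le_of_mul_le_mul_left ?_ (show 0 < y - 1 by linarith)
    have h5 : (y - 1) * ((1000 / 1001) - 1001 / 1000 * B) ≤ (k * y - 1) * ((1000 / 1001) - 1001 / 1000 * D) := by
      nlinarith [mul_nonneg (sub_nonneg.2 hky) h1]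
    have h6 : k * y - 1 ≤ (y - 1) * (k + 0.706 * (k - 1)) := by
      nlinarith [mul_nonneg (sub_nonneg.2 hk) (sub_nonneg.2 hy)]
    rw [← mul_assoc]
    exact h5.trans (mul_le_mul_of_nonneg_right h6 h3)
  have h7 : Real.exp (-(k * y / 1.001)) ≤
      Real.exp (-(2.415 * (k - 1))) * Real.exp (-(y / 1.001)) := by
    rw [← Real.exp_add, Real.exp_le_exp, show (1.001 : ℝ) = 1001 / 1000 by norm_num]
    nlinarith [mul_nonneg (sub_nonneg.2 hk) (sub_nonneg.2 hy)]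
  calc _ ≤ Real.exp (-(2.415 * (k - 1))) * Real.exp (-(y / 1.001)) *
        ((k + 0.706 * (k - 1)) * ((1000 / 1001) - 1001 / 1000 * D)) :=
        mul_le_mul h7 h4 h2 (by positivity)
    _ = _ := by ring

theorem cf_wv {ξ : ℝ} (hξ : 0 < ξ) :
    IntegrableOn (fun U => U ^ ((4 : ℝ) / 3 - 2) * cfg (ξ * (U + U⁻¹))) (Set.Ioi 0) ∧
    wv (ξ ^ 2 / (4 * π ^ 2)) = π / Real.Gamma (4 / 3) * (1.001 : ℝ) ^ (-(2 / 3) : ℝ) *
      (ξ ^ (1 / 3 : ℝ) * ∫ U in Set.Ioi 0, U ^ ((4 : ℝ) / 3 - 2) * cfg (ξ * (U + U⁻¹))) := by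
  obtain ⟨a1, a2⟩ := cf_int (ξ := ξ / 1.001) (by positivity)
  obtain ⟨b1, b2⟩ := cf_int (ξ := ξ * 1.001) (by positivity)
  have e : (fun U : ℝ => U ^ ((4 : ℝ) / 3 - 2) * cfg (ξ * (U + U⁻¹))) =
      fun U => cfj (ξ / 1.001) U / 1.001 - 1.001 * cfj (ξ * 1.001) U := by
    funext U
    rw [cfg, cfj, cfj, mul_div_right_comm ξ, mul_right_comm ξ]
    ring
  rw [e]
  refine ⟨(a1.div_const _).sub (b1.const_mul _), ?_⟩
  rw [integral_sub (a1.div_const _) (b1.const_mul _), integral_div, integral_const_mul, wv,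
    show ξ ^ 2 / (4 * π ^ 2) / 1.001 ^ 2 = (ξ / 1.001) ^ 2 / (4 * π ^ 2) by ring,
    show ξ ^ 2 / (4 * π ^ 2) * 1.001 ^ 2 = (ξ * 1.001) ^ 2 / (4 * π ^ 2) by ring, a2, b2,
    Real.div_rpow hξ.le (by norm_num), Real.mul_rpow hξ.le (by norm_num)]
  have hv : (0 : ℝ) < 1.001 := by norm_num
  have e1 : (1.001 : ℝ) ^ (1 / 3 : ℝ) = (1.001 : ℝ) ^ (-(2 / 3) : ℝ) * 1.001 := by
    rw [← Real.rpow_add_one hv.ne']; norm_num
  have e2 : (1.001 : ℝ) ^ (-(4 / 3) : ℝ) = ((1.001 : ℝ) ^ (-(2 / 3) : ℝ)) ^ 2 := by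
    rw [← Real.rpow_natCast, ← Real.rpow_mul hv.le]; norm_num
  have hp : 0 < (1.001 : ℝ) ^ (-(2 / 3) : ℝ) := by positivity
  rw [e1, e2]
  field_simp

theorem wv_le {k : ℝ} (hk : 1 ≤ k) :
    0 ≤ wv (k ^ 2 / 27) ∧ wv (k ^ 2 / 27) ≤ Rk k * wv (1 / 27) := by
  have hpi := Real.pi_gt_d4
  have hs : √27 ^ 2 = 27 := Real.sq_sqrt (by norm_num)
  have hs0 : 0 < √27 := Real.sqrt_pos.2 (by norm_num)
  have hs1 : √27 < 5.1962 := by nlinarith
  set ξ := 2 * π / √27 with hξ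
  have hξ0 : 1.209 ≤ ξ := by rw [hξ, le_div_iff₀ hs0]; linarith
  obtain ⟨a1, a2⟩ := cf_wv (ξ := k * ξ) (by positivity)
  obtain ⟨b1, b2⟩ := cf_wv (ξ := ξ) (by positivity)
  rw [show ξ ^ 2 / (4 * π ^ 2) = 1 / 27 by rw [hξ, div_pow, hs]; field_simp; norm_num] at b2
  rw [show (k * ξ) ^ 2 / (4 * π ^ 2) = k ^ 2 / 27 by
    rw [hξ, mul_pow, div_pow, hs]; field_simp; norm_num,
    Real.mul_rpow (by linarith) (by linarith)] at a2
  have hy : ∀ U ∈ Set.Ioi (0 : ℝ), 2.418 ≤ ξ * (U + U⁻¹) := fun U hU => by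
    have hU : 0 < U := hU
    have : 2 ≤ U + U⁻¹ := by
      rw [show U + U⁻¹ = (U ^ 2 + 1) / U by field_simp, le_div_iff₀ hU]
      nlinarith [sq_nonneg (U - 1)]
    nlinarith
  have hG := Real.Gamma_pos_of_pos (s := 4 / 3) (by norm_num)
  have c1 : 0 ≤ ∫ U in Set.Ioi 0, U ^ ((4 : ℝ) / 3 - 2) * cfg (k * ξ * (U + U⁻¹)) :=
    setIntegral_nonneg measurableSet_Ioi fun U hU =>
      mul_nonneg (Real.rpow_nonneg (le_of_lt hU) _) (by rw [mul_assoc]; exact (cf_pt (hy U hU) hk).1)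
  have c2 := setIntegral_mono_on a1 (b1.const_mul
    ((k + 0.706 * (k - 1)) * Real.exp (-(2.415 * (k - 1))))) measurableSet_Ioi fun U hU => by
      rw [mul_left_comm, mul_assoc k]
      exact mul_le_mul_of_nonneg_left (cf_pt (hy U hU) hk).2 (Real.rpow_nonneg (le_of_lt hU) _)
  rw [integral_const_mul] at c2
  rw [a2, b2, Rk]
  have hξ1 : 0 < ξ := by linarith
  have hk0 : 0 < k := by linarith
  refine ⟨by positivity, ?_⟩
  refine (mul_le_mul_of_nonneg_left (mul_le_mul_of_nonneg_left c2 (by positivity))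
    (by positivity)).trans_eq ?_
  ring

end

end Vale.Agent.P006
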