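import Vale.Agent.P006.ConstDefs
import Vale.Agent.P026.Bas

namespace Vale.Agent.P006

open Vale.Agent.P026 Complex MeasureTheory Filter Topology
open scoped Classical ComplexConjugate Real MatrixGroups

noncomputable section

theorem cg_exp {x y : ℝ} (n : ℕ) (hx : 0 ≤ x) (hy : 0 < y)
    (h : 1 ≤ y * ∑ i ∈ Finset.range n, x ^ i / i.factorial) : Real.exp (-x) ≤ y := by
  rw [Real.exp_neg, inv_le_iff_one_le_mul₀ (Real.exp_pos _)]
  exact h.trans (mul_le_mul_of_nonneg_left (Real.sum_le_exp_of_nonneg hx n) hy.le)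

theorem cg_root {k r : ℝ} (hk : 0 ≤ k) (hr : 0 ≤ r) (h : k ≤ r ^ 3) : k ^ (1 / 3 : ℝ) ≤ r := by
  refine (Real.rpow_le_rpow hk h (by norm_num)).trans_eq ?_
  rw [← Real.rpow_natCast, ← Real.rpow_mul hr]
  norm_num

theorem cg_int {k a b r q : ℝ} (ha : 1 ≤ a) (hk : a ≤ k) (hb : k ≤ b) (hr0 : 0 ≤ r)
    (hr : b ≤ r ^ 3) (hq : Real.exp (-(2.415 * (a - 1))) ≤ q) :
    Rk k ≤ r * (b + 0.706 * (b - 1)) * q := by
  have h1 := cg_root (k := k) (by linarith) hr0 (hb.trans hr)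
  have h2 : Real.exp (-(2.415 * (k - 1))) ≤ q := le_trans (by gcongr) hq
  have h3 : 0 ≤ k + 0.706 * (k - 1) := by nlinarith
  have h4 : k + 0.706 * (k - 1) ≤ b + 0.706 * (b - 1) := by nlinarith
  exact mul_le_mul (mul_le_mul h1 h4 h3 hr0) h2 (Real.exp_pos _).le
    (mul_nonneg hr0 (h3.trans h4))

theorem cg_big {k : ℝ} (hk : 4 ≤ k) : Rk k ≤ 25.3 * Real.exp (-(2 * k)) := by
  have h1 := cg_root (k := k) (r := 2 / 5 * k) (by linarith) (by linarith) (by
    have : 16 * k ≤ k ^ 2 * k := mul_le_mul_of_nonneg_right (by nlinarith) (by linarith)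
    nlinarith)
  have h2 := Real.add_one_le_exp (83 / 400 * k - 483 / 400)
  have h3 : Real.exp (-(2 * k)) = Real.exp (-(2.415 * (k - 1))) *
      Real.exp (83 / 400 * k - 483 / 400) ^ 2 := by
    rw [← Real.exp_nat_mul, ← Real.exp_add]
    congr 1
    norm_num
    ring
  have h4 : (83 / 400 * (k - 1)) ^ 2 ≤ Real.exp (83 / 400 * k - 483 / 400) ^ 2 :=
    pow_le_pow_left₀ (by linarith) (by linarith) 2
  rw [Rk, h3, mul_comm (Real.exp _), ← mul_assoc]
  refine mul_le_mul_of_nonneg_right ?_ (Real.exp_pos _).le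
  calc _ ≤ 2 / 5 * k * (k + 0.706 * (k - 1)) := mul_le_mul_of_nonneg_right h1 (by nlinarith)
    _ ≤ 25.3 * (83 / 400 * (k - 1)) ^ 2 := by norm_num; nlinarith
    _ ≤ _ := by gcongr

theorem cg_two : Real.exp (-2) ≤ 0.1354 :=
  cg_exp 10 (by norm_num) (by norm_num) (by norm_num [Finset.sum_range_succ, Nat.factorial])

theorem cg_pow {k : ℝ} (j : ℕ) (hk : (j : ℝ) ≤ k) : Real.exp (-(2 * k)) ≤ 0.1354 ^ j := by
  refine le_trans ?_ (pow_le_pow_left₀ (Real.exp_pos _).le cg_two j)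
  rw [← Real.exp_nat_mul, Real.exp_le_exp]
  linarith

def cgT (n : ℕ) : ℕ :=
  if n = 4 then 30500 else if n = 7 then 9930 else if n = 9 then 5100 else if n = 13 then 1560
  else if n < 16 then 1000000 else if n < 25 then 851 else if n < 49 then 116 else 3

theorem cg_T {n : ℕ} (hn : 4 ≤ n) : Rk (√(n : ℝ)) ≤ cgT n / 100000 := by
  have lo : ∀ a : ℝ, a ^ 2 ≤ n → a ≤ √(n : ℝ) := fun a h => Real.le_sqrt_of_sq_le h
  have hi : ∀ a : ℝ, 0 ≤ a → n ≤ a ^ 2 → √(n : ℝ) ≤ a := fun a h0 h =>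
    (Real.sqrt_le_left h0).2 h
  unfold cgT
  split_ifs with h1 h2 h3 h4 h5 h6 h7
  · subst h1
    refine (cg_int (a := 2) (b := 2) (r := 1.26) (q := 0.0894) (by norm_num) (lo _ (by norm_num))
      (hi _ (by norm_num) (by norm_num)) (by norm_num) (by norm_num)
      (cg_exp 12 (by norm_num) (by norm_num)
        (by norm_num [Finset.sum_range_succ, Nat.factorial]))).trans (by norm_num)
  · subst h2
    refine (cg_int (a := 2.645) (b := 2.646) (r := 1.384) (q := 0.01883) (by norm_num)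
      (lo _ (by norm_num)) (hi _ (by norm_num) (by norm_num)) (by norm_num) (by norm_num)
      (cg_exp 15 (by norm_num) (by norm_num)
        (by norm_num [Finset.sum_range_succ, Nat.factorial]))).trans (by norm_num)
  · subst h3
    refine (cg_int (a := 3) (b := 3) (r := 1.443) (q := 0.008) (by norm_num) (lo _ (by norm_num))
      (hi _ (by norm_num) (by norm_num)) (by norm_num) (by norm_num)
      (cg_exp 15 (by norm_num) (by norm_num)
        (by norm_num [Finset.sum_range_succ, Nat.factorial]))).trans (by norm_num)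
  · subst h4
    refine (cg_int (a := 3.605) (b := 3.606) (r := 1.534) (q := 0.00186) (by norm_num)
      (lo _ (by norm_num)) (hi _ (by norm_num) (by norm_num)) (by norm_num) (by norm_num)
      (cg_exp 16 (by norm_num) (by norm_num)
        (by norm_num [Finset.sum_range_succ, Nat.factorial]))).trans (by norm_num)
  · have g1 : (4 : ℝ) ≤ n := by exact_mod_cast hn
    have g2 : (n : ℝ) ≤ 16 := by exact_mod_cast h5.le
    refine (cg_int (a := 1) (b := 4) (r := 1.6) (q := 1) le_rfl (lo _ (by linarith))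
      (hi _ (by norm_num) (by linarith)) (by norm_num) (by norm_num) (by simp)).trans (by norm_num)
  all_goals
    have g1 : (16 : ℝ) ≤ n := by exact_mod_cast not_lt.1 h5
    refine (cg_big (lo _ (by linarith))).trans ?_
  · have := cg_pow 4 (lo _ (by push_cast; linarith))
    norm_num at this ⊢
    linarith
  · have g2 : (25 : ℝ) ≤ n := by exact_mod_cast not_lt.1 h6
    have := cg_pow 5 (lo _ (by push_cast; linarith))
    norm_num at this ⊢
    linarith
  · have g2 : (49 : ℝ) ≤ n := by exact_mod_cast not_lt.1 h7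
    have := cg_pow 7 (lo _ (by push_cast; linarith))
    norm_num at this ⊢
    linarith

def cgF (p : ℤ × ℤ) : ℕ :=
  if 4 ≤ Nm ⟨p.1, p.2⟩ ∧ 3 ∣ p.2 ∧ Nm ⟨p.1, p.2⟩ < 100 then
    (if 3 ∣ p.1 then 221 else 100) * cgT (Nm ⟨p.1, p.2⟩) else 0

theorem cg_sum : ∑ p ∈ Finset.Icc (-11 : ℤ) 11 ×ˢ Finset.Icc (-11 : ℤ) 11, cgF p ≤ 19000000 := by
  decide +kernel

theorem cg_tail {a b : ℤ} (h : 100 ≤ Nm ⟨a, b⟩) : Rk (√(N ⟨a, b⟩)) ≤
    0.00116 * (0.607 ^ a.natAbs * 0.607 ^ b.natAbs) := by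
  have g1 : (100 : ℝ) ≤ N ⟨a, b⟩ := by unfold N; exact_mod_cast h
  have k1 : (10 : ℝ) ≤ √(N ⟨a, b⟩) := Real.le_sqrt_of_sq_le (by linarith)
  have k2 : ((a.natAbs : ℝ) + b.natAbs) / 2 ≤ √(N ⟨a, b⟩) := by
    refine Real.le_sqrt_of_sq_le ?_
    have e : N ⟨a, b⟩ = (a : ℝ) ^ 2 - a * b + b ^ 2 := by
      have := Nm_cast ⟨a, b⟩
      unfold N
      exact_mod_cast this
    rw [e, Nat.cast_natAbs, Nat.cast_natAbs]
    push_cast
    have h1 : (a : ℝ) * b ≤ |(a : ℝ)| * |(b : ℝ)| := by rw [← abs_mul]; exact le_abs_self _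
    nlinarith [sq_abs (a : ℝ), sq_abs (b : ℝ), sq_nonneg (|(a : ℝ)| - |(b : ℝ)|)]
  generalize √(N ⟨a, b⟩) = k at k1 k2
  have h1 := cg_pow (k := k / 2) 5 (by push_cast; linarith)
  have h2 : Real.exp (-(1 / 2)) ≤ 0.607 :=
    cg_exp 5 (by norm_num) (by norm_num) (by norm_num [Finset.sum_range_succ, Nat.factorial])
  have h3 : Real.exp (-(2 * (k / 2))) ≤ 0.607 ^ a.natAbs * 0.607 ^ b.natAbs := by
    rw [← pow_add]
    refine le_trans ?_ (pow_le_pow_left₀ (Real.exp_pos _).le h2 _)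
    rw [← Real.exp_nat_mul, Real.exp_le_exp]
    push_cast
    linarith
  refine (cg_big (by linarith)).trans ?_
  rw [show -(2 * k) = -(2 * (k / 2)) + -(2 * (k / 2)) by ring, Real.exp_add, ← mul_assoc]
  refine mul_le_mul ?_ h3 (Real.exp_pos _).le (by norm_num)
  norm_num at h1 ⊢
  linarith

theorem maj_nonneg (m : O) : 0 ≤ maj m := by
  unfold maj
  split_ifs with h h'
  any_goals exact le_rfl
  all_goals
    have g1 : (4 : ℝ) ≤ N m := by unfold N; exact_mod_cast h.1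
    have k1 : (2 : ℝ) ≤ √(N m) := Real.le_sqrt_of_sq_le (by linarith)
    have : 0 ≤ √(N m) + 0.706 * (√(N m) - 1) := by nlinarith
    unfold Rk
    positivity

theorem maj_sum : Summable maj ∧ ∑' m : O, maj m ≤ 2 := by
  have h1 : HasSum (fun a : ℤ => (0.607 : ℝ) ^ a.natAbs) (1607 / 393) := by
    have := hasSum_geometric_of_lt_one (r := 0.607) (by norm_num) (by norm_num)
    have h := HasSum.of_nat_of_neg (f := fun a : ℤ => (0.607 : ℝ) ^ a.natAbs)
      (by simpa using this) (by simpa using this)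
    rwa [show ((1 : ℝ) - 0.607)⁻¹ + (1 - 0.607)⁻¹ - 0.607 ^ Int.natAbs 0 = 1607 / 393 by
      norm_num] at h
  have h2 := (h1.mul h1 (h1.summable.mul_of_nonneg h1.summable (fun _ => by positivity)
    fun _ => by positivity)).mul_left (2.21 * 0.00116)
  have h3 : HasSum (fun p : ℤ × ℤ => (cgF p : ℝ) / 10000000) (∑ p ∈
      Finset.Icc (-11 : ℤ) 11 ×ˢ Finset.Icc (-11 : ℤ) 11, (cgF p : ℝ) / 10000000) := by
    refine hasSum_sum_of_ne_finset_zero fun p hp => ?_
    rw [cgF, if_neg, Nat.cast_zero, zero_div]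
    rintro ⟨-, -, h⟩
    have e := Nm_cast ⟨p.1, p.2⟩
    have h' : p.1 ^ 2 - p.1 * p.2 + p.2 ^ 2 < 100 := by
      rw [← e]
      exact_mod_cast h
    refine hp ?_
    simp only [Finset.mem_product, Finset.mem_Icc]
    refine ⟨⟨?_, ?_⟩, ?_, ?_⟩ <;>
      nlinarith [sq_nonneg (2 * p.1 - p.2), sq_nonneg (2 * p.2 - p.1)]
  have h4 := (QuadraticAlgebra.equivProd (-1 : ℤ) (-1)).hasSum_iff.2 (h3.add h2)
  have h5 : ∀ m : O, maj m ≤ (cgF (m.re, m.im) : ℝ) / 10000000 +
      2.21 * 0.00116 * (0.607 ^ m.re.natAbs * 0.607 ^ m.im.natAbs) := fun m => by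
    have hp : (0 : ℝ) ≤ 0.607 ^ m.re.natAbs * 0.607 ^ m.im.natAbs := by positivity
    unfold maj
    by_cases h : 4 ≤ Nm m ∧ 3 ∣ m.im
    swap
    · rw [if_neg h]
      positivity
    rw [if_pos h]
    by_cases h' : Nm m < 100
    · refine le_add_of_le_of_nonneg ?_ (by positivity)
      have := cg_T h.1
      rw [show cgF (m.re, m.im) = (if 3 ∣ m.re then 221 else 100) * cgT (Nm m) from
        if_pos ⟨h.1, h.2, h'⟩, N]
      split_ifs <;> push_cast <;> norm_num <;> linarith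
    · refine le_add_of_nonneg_of_le (by positivity) ?_
      have := cg_tail (a := m.re) (b := m.im) (not_lt.1 h')
      change Rk (√(N m)) ≤ _ at this
      generalize (0.607 : ℝ) ^ m.re.natAbs * 0.607 ^ m.im.natAbs = P at this hp ⊢
      split_ifs <;> norm_num at this ⊢ <;> linarith
  have hs := Summable.of_nonneg_of_le maj_nonneg h5 h4.summable
  refine ⟨hs, (hasSum_le h5 hs.hasSum h4).trans ?_⟩
  have h6 : ((∑ p ∈ Finset.Icc (-11 : ℤ) 11 ×ˢ Finset.Icc (-11 : ℤ) 11, cgF p : ℕ) : ℝ) ≤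
      19000000 := by exact_mod_cast cg_sum
  rw [← Finset.sum_div, ← Nat.cast_sum]
  generalize ((∑ p ∈ Finset.Icc (-11 : ℤ) 11 ×ˢ Finset.Icc (-11 : ℤ) 11, cgF p : ℕ) : ℝ) = S at h6 ⊢
  norm_num
  linarith

end

end Vale.Agent.P006
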