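import Vale.Agent.P006.ConstE
import Vale.Agent.P006.ConstF
import Vale.Agent.P006.ConstG

namespace Vale.Agent.P006

open Vale.Agent.P026 Complex MeasureTheory Filter Topology
open scoped Classical ComplexConjugate Real MatrixGroups

noncomputable section

theorem cz_re {x : ℝ} (hx : 0 ≤ x) : (((bb x (4 / 3)).re : ℝ) : ℂ) = bb x (4 / 3) :=
  Complex.conj_eq_iff_re.1 (ce_conj_bb hx)

theorem cz_sum {X : ℝ} (hX : 0 < X) : HasSum (fun m : O => qq m * bb (N m * (9 * X)) (4 / 3))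
    (∑' n : O, rho SS n * bb (N n * X) (4 / 3)) := by
  have h := (rho_summable SS (ω := fun _ => 1) (fun _ => by simp) hX).hasSum
  simp only [mul_one] at h
  have h1 := (Function.Injective.hasSum_iff (g := fun a : O => 3 * a)
    (fun a b h => mul_left_cancel₀ (by decide : (3 : O) ≠ 0) h) fun n hn => by
      rw [rho_SS_three fun ⟨k, hk⟩ => hn ⟨k, hk.symm⟩, zero_mul]).2 h
  have e : (fun m : O => qq m * bb (N m * (9 * X)) (4 / 3)) =
      (fun n : O => rho SS n * bb (N n * X) (4 / 3)) ∘ fun a : O => 3 * a := by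
    funext m
    simp only [Function.comp, qq]
    rw [N_mul, N_ofNat]
    congr 2
    ring
  rwa [e]

theorem cz_zero : HasSum (fun m : O => qq m * (wv (N m / 27) : ℂ)) 0 := by
  obtain ⟨s1, s2, s3, s4⟩ := SS_apply
  have hv := vor_base SS SS (by rw [s3]; exact one_ne_zero) (x := 1.001 ^ 2 / 243) (by positivity)
  simp only [s1, s3, s4, rho_S, omc, map_zero, mul_zero, zero_div, neg_zero, psi_zero, mul_one,
    N_one, div_eq_mul_inv (N _)] at hv
  have h1 := cz_sum (X := 1.001 ^ 2 / 243) (by positivity)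
  have h2 := (cz_sum (X := (243 ^ 2 * (1.001 ^ 2 / 243))⁻¹) (by positivity)).mul_left
    (((243 * (1.001 ^ 2 / 243 : ℝ)) ^ (-(2 / 3) : ℝ) : ℝ) : ℂ)
  rw [← hv] at h2
  have h3 := h2.sub h1
  rw [sub_self] at h3
  have e : (243 * (1.001 ^ 2 / 243 : ℝ)) ^ (-(2 / 3) : ℝ) = (1.001 : ℝ) ^ (-(4 / 3) : ℝ) := by
    rw [mul_div_cancel₀ _ (by norm_num), ← Real.rpow_natCast, ← Real.rpow_mul (by norm_num)]
    norm_num
  refine (congrArg (HasSum · 0) (funext fun m => ?_)).mpr h3
  have hm := N_nonneg m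
  rw [wv, Complex.ofReal_sub, Complex.ofReal_mul, cz_re (by positivity), cz_re (by positivity), e,
    show N m * (9 * (243 ^ 2 * (1.001 ^ 2 / 243))⁻¹) = N m / 27 / 1.001 ^ 2 by norm_num; ring,
    show N m * (9 * (1.001 ^ 2 / 243)) = N m / 27 * 1.001 ^ 2 by norm_num; ring]
  ring

theorem cz_small {m : O} (h0 : m ≠ 0) (h1 : m ≠ 1) (h2 : m ≠ -1) (h3 : 3 ∣ m.im) : 4 ≤ Nm m := by
  by_contra h
  have e := Nm_cast m
  have h4 : m.re ^ 2 - m.re * m.im + m.im ^ 2 ≤ 3 := by omega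
  have h5 : m.im = 0 := by
    have g1 : m.im < 3 := by nlinarith [sq_nonneg (2 * m.re - m.im)]
    have g2 : -3 < m.im := by nlinarith [sq_nonneg (2 * m.re - m.im)]
    omega
  rw [h5] at h4
  have g1 : m.re < 2 := by nlinarith
  have g2 : -2 < m.re := by nlinarith
  obtain h6 | h6 | h6 : m.re = 0 ∨ m.re = 1 ∨ m.re = -1 := by omega
  · exact h0 (by ext <;> simp [h5, h6])
  · exact h1 (by ext <;> simp [h5, h6, QuadraticAlgebra.re_one, QuadraticAlgebra.im_one])
  · exact h2 (by ext <;> simp [h5, h6, QuadraticAlgebra.re_one, QuadraticAlgebra.im_one])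

theorem cz_sign : 0 ≤ (Complex.I * qq 1).re := by
  by_contra hneg
  push Not at hneg
  have hτ : (Complex.I * qq 1).re = -‖qq 1‖ := by
    have h := Complex.abs_re_eq_norm.2 ce_im
    rw [norm_mul, Complex.norm_I, one_mul, abs_of_neg hneg] at h
    linarith
  have h1 := Complex.hasSum_re (cz_zero.mul_left Complex.I)
  simp only [mul_zero, zero_re, ← mul_assoc, Complex.re_mul_ofReal] at h1
  have w1 := (wv_le le_rfl).1
  rw [one_pow] at w1
  set a0 := (Complex.I * qq 0).re * wv (N 0 / 27) with ha0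
  have h2 : a0 < 0 := by
    rw [ha0, qq, mul_zero, rho_SS_zero, I_sg0, ofReal_re, N_zero, zero_div, wv, zero_div, zero_mul,
      bb_zero, show (3 * π : ℂ) = ((3 * π : ℝ) : ℂ) by push_cast; rfl, ofReal_re]
    refine mul_neg_of_pos_of_neg (div_pos kap_pos (by linarith [zp2_pos'])) ?_
    have := Real.rpow_lt_one_of_one_lt_of_neg (x := 1.001) (z := -(4 / 3)) (by norm_num)
      (by norm_num)
    nlinarith [Real.pi_pos]
  set W := ‖qq 1‖ * wv (1 / 27) with hW
  have hW0 : 0 ≤ W := mul_nonneg (norm_nonneg _) w1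
  have h3 := (((maj_sum.1.hasSum.mul_left W).add (hasSum_ite_eq 0 a0)).add
    (hasSum_ite_eq 1 (-W))).add (hasSum_ite_eq (-1) (-W))
  have h4 := hasSum_le (fun m => ?_) h1 h3
  · nlinarith [maj_sum.2]
  have hm := mul_nonneg hW0 (maj_nonneg m)
  by_cases g0 : m = 0
  · subst g0
    rw [if_pos rfl, if_neg (by decide), if_neg (by decide)]
    linarith
  by_cases g1 : m = 1
  · subst g1
    rw [if_neg (by decide), if_pos rfl, if_neg (by decide), hτ, N_one]
    linarith
  by_cases g2 : m = -1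
  · subst g2
    rw [if_neg (by decide), if_neg (by decide), if_pos rfl, N_neg, N_one,
      show qq (-1) = qq 1 by rw [← qq_cube 1 (k := -1) (by decide)]; congr 1, hτ]
    linarith
  rw [if_neg g0, if_neg g1, if_neg g2, add_zero, add_zero, add_zero]
  by_cases g3 : 3 ∣ m.im
  swap
  · rw [qq_im g3]
    simpa using hm
  obtain ⟨k1, k2⟩ := wv_le (k := √(N m)) (Real.one_le_sqrt.2 (one_le_N g0))
  rw [Real.sq_sqrt (N_nonneg m)] at k1 k2
  have k3 : (Complex.I * qq m).re ≤ (if 3 ∣ m.re then 2.21 else 1) * ‖qq 1‖ :=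
    (Complex.re_le_norm _).trans (by rw [norm_mul, Complex.norm_I, one_mul]; exact norm_qq_le g0)
  rw [maj, if_pos ⟨cz_small g0 g1 g2 g3, g3⟩, hW]
  have k4 : 0 ≤ (if 3 ∣ m.re then 2.21 else 1 : ℝ) * ‖qq 1‖ := by split_ifs <;> positivity
  refine (mul_le_mul k3 k2 k1 k4).trans_eq ?_
  ring

theorem cc_one : cc 1 = (cst : ℂ) := by
  have h1 : 0 ≤ (cc 1).re := by
    rw [cc, mul_div_assoc, ← Complex.ofReal_div, Complex.re_mul_ofReal]
    exact mul_nonneg cz_sign (div_pos zp2_pos' kap_pos).le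
  have h2 := Complex.abs_re_eq_norm.2 cc_one_im
  rw [abs_of_nonneg h1, norm_cc_one] at h2
  exact Complex.ext (by simpa using h2) (by simpa using cc_one_im)

end

end Vale.Agent.P006
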