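import Vale.Agent.P006.ConstDefs
import Vale.Agent.P026.Zk2

namespace Vale.Agent.P006

open Vale.Agent.P026 Complex MeasureTheory Filter Topology
open scoped Classical ComplexConjugate Real MatrixGroups

noncomputable section

theorem ca_eq {s : ℝ} (hs : 1 < s) : DirichletCharacter.LFunction chi3D s =
    1 + ∑' m : ℕ, (((3 * m + 4 : ℝ) ^ (-s) - (3 * m + 2 : ℝ) ^ (-s) : ℝ) : ℂ) := by
  have hs' : 1 < (s : ℂ).re := by simpa using hs
  have hsum : ∀ a : ℝ, 0 < a → Summable fun m : ℕ => (((3 * m + a : ℝ) ^ (-s) : ℝ) : ℂ) := by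
    intro a ha
    rw [Complex.summable_ofReal]
    refine (summable_nat_add_iff 1).1 (Summable.of_nonneg_of_le (fun _ => by positivity)
      (fun m => ?_) ((summable_nat_add_iff 1).2 (Real.summable_nat_rpow.2 (by linarith : -s < -1))))
    refine Real.rpow_le_rpow_of_nonpos (by positivity) ?_ (by linarith)
    push_cast
    linarith [Nat.cast_nonneg (α := ℝ) m]
  have h3 : ∀ (j m : ℕ), ((j + 3 * m : ℕ) : ZMod 3) = j := fun j m => by
    push_cast
    rw [show (3 : ZMod 3) = 0 from rfl, zero_mul, add_zero]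
  have e : ∀ (j m : ℕ), 0 < j → LSeries.term (fun n => chi3D n) s (j + 3 * m) =
      chi3D j * (((3 * m + j : ℝ) ^ (-s) : ℝ) : ℂ) := fun j m hj => by
    rw [LSeries.term_of_ne_zero (by omega), h3, Complex.ofReal_cpow (by positivity),
      div_eq_mul_inv, ← Complex.cpow_neg]
    push_cast
    rw [add_comm]
  have e0 : ∀ m : ℕ, LSeries.term (fun n => chi3D n) s (0 + 3 * m) = 0 := fun m => by
    rw [LSeries.term, h3]
    have : chi3D ((0 : ℕ) : ZMod 3) = 0 := by
      rw [Nat.cast_zero]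
      exact MulChar.map_zero _
    simp only [this]
    simp
  rw [DirichletCharacter.LFunction_eq_LSeries _ hs', LSeries, Nat.sumByResidueClasses
    (DirichletCharacter.LSeriesSummable_of_one_lt_re chi3D hs') 3]
  change ∑ j : Fin 3, ∑' m : ℕ, LSeries.term (fun n => chi3D n) s ((j : ℕ) + 3 * m) = _
  rw [Fin.sum_univ_three]
  simp only [Fin.val_zero, e0]
  simp only [Fin.val_one, Fin.val_two, e 1 _ one_pos, e 2 _ two_pos,
    Nat.cast_one, Nat.cast_ofNat, zk1_one, zk1_two, tsum_zero, zero_add, one_mul, neg_one_mul,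
    tsum_neg, Complex.ofReal_sub]
  rw [(hsum 4 (by norm_num)).tsum_sub (hsum 2 two_pos), (hsum 1 one_pos).tsum_eq_zero_add]
  simp only [Nat.cast_zero, mul_zero, zero_add, Real.one_rpow, Complex.ofReal_one, Nat.cast_add,
    Nat.cast_one, show ∀ m : ℝ, 3 * (m + 1) + 1 = 3 * m + 4 from fun m => by ring]
  ring

theorem ca_bd {a s : ℝ} (ha : 1 ≤ a) (h1 : 1 ≤ s) (h2 : s ≤ 2) :
    |(a + 2) ^ (-s) - a ^ (-s)| ≤ 4 / a ^ 2 := by
  have ha0 : 0 < a := by linarith
  have e : (a + 2) ^ (-s) = a ^ (-s) * (a / (a + 2)) ^ s := by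
    rw [Real.div_rpow ha0.le (by linarith), Real.rpow_neg ha0.le, Real.rpow_neg (by linarith)]
    have := Real.rpow_pos_of_pos ha0 s
    field_simp
  have hq : a / (a + 2) ≤ 1 := by rw [div_le_one (by linarith)]; linarith
  have g1 : (a / (a + 2)) ^ s ≤ 1 := Real.rpow_le_one (by positivity) hq (by linarith)
  have g2 : (a / (a + 2)) ^ (2 : ℝ) ≤ (a / (a + 2)) ^ s :=
    Real.rpow_le_rpow_of_exponent_ge (by positivity) hq h2
  have g3 : a ^ (-s) ≤ a ^ (-1 : ℝ) := Real.rpow_le_rpow_of_exponent_le ha (by linarith)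
  rw [Real.rpow_neg_one] at g3
  rw [Real.rpow_two] at g2
  have g4 : 0 < a ^ (-s) := Real.rpow_pos_of_pos ha0 _
  rw [e, abs_sub_comm, abs_of_nonneg (by nlinarith)]
  calc _ = a ^ (-s) * (1 - (a / (a + 2)) ^ s) := by ring
    _ ≤ a⁻¹ * (1 - (a / (a + 2)) ^ 2) := by gcongr
    _ = 4 * (a + 1) / (a * (a + 2) ^ 2) := by field_simp; ring
    _ ≤ _ := by
      rw [div_le_div_iff₀ (by positivity) (by positivity)]
      nlinarith [mul_pos ha0 ha0]

theorem L_one : DirichletCharacter.LFunction chi3D 1 = ((kap / 6 : ℝ) : ℂ) := by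
  have h1 : Tendsto (fun s : ℝ => DirichletCharacter.LFunction chi3D s) (𝓝[>] 1)
      (𝓝 (DirichletCharacter.LFunction chi3D 1)) :=
    (((DirichletCharacter.differentiable_LFunction chi3D_ne_one).continuous.comp
      continuous_ofReal).tendsto 1).mono_left nhdsWithin_le_nhds
  have h2 : Tendsto (fun s : ℝ => ∑' m : ℕ,
      (((3 * m + 4 : ℝ) ^ (-s) - (3 * m + 2 : ℝ) ^ (-s) : ℝ) : ℂ)) (𝓝[>] 1)
      (𝓝 (∑' m : ℕ, (((3 * m + 4 : ℝ) ^ (-1 : ℝ) - (3 * m + 2 : ℝ) ^ (-1 : ℝ) : ℝ) : ℂ))) := by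
    refine tendsto_tsum_of_dominated_convergence (bound := fun m : ℕ => 4 * (1 / ((m + 1 : ℕ) : ℝ) ^ 2))
      (((summable_nat_add_iff 1).2 (Real.summable_one_div_nat_pow.2 one_lt_two)).mul_left 4)
      (fun m => ?_) ?_
    · have : Continuous fun s : ℝ =>
          (((3 * m + 4 : ℝ) ^ (-s) - (3 * m + 2 : ℝ) ^ (-s) : ℝ) : ℂ) :=
        continuous_ofReal.comp
          ((continuous_const.rpow continuous_neg fun _ => Or.inl (by positivity)).sub
          (continuous_const.rpow continuous_neg fun _ => Or.inl (by positivity)))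
      exact (this.tendsto 1).mono_left nhdsWithin_le_nhds
    · filter_upwards [Ioc_mem_nhdsGT (show (1 : ℝ) < 2 by norm_num)] with s hs m
      have hm := Nat.cast_nonneg (α := ℝ) m
      have := ca_bd (a := 3 * m + 2) (by linarith) hs.1.le hs.2
      rw [Complex.norm_real, Real.norm_eq_abs, show (3 * m + 4 : ℝ) = 3 * m + 2 + 2 by ring]
      refine this.trans ?_
      rw [mul_one_div]
      push_cast
      exact div_le_div_of_nonneg_left (by norm_num) (by positivity) (by nlinarith)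
  have h3 := tendsto_nhds_unique h1 ((h2.const_add 1).congr' (by
    filter_upwards [self_mem_nhdsWithin] with s hs using (ca_eq hs).symm))
  have h4 := cot_series_rep' (x := 1 / 3) (by
    rintro ⟨k, hk⟩
    have h5 : ((3 * k : ℤ) : ℂ) = (1 : ℤ) := by push_cast; rw [hk]; norm_num
    have := Int.cast_injective h5
    omega)
  have h5 : ∀ m : ℕ, (((3 * m + 4 : ℝ) ^ (-1 : ℝ) - (3 * m + 2 : ℝ) ^ (-1 : ℝ) : ℝ) : ℂ) =
      1 / 3 * (1 / (1 / 3 - (m + 1)) + 1 / (1 / 3 + (m + 1))) := fun m => by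
    have hm := Nat.cast_nonneg (α := ℝ) m
    have g : (3 * m + 4 : ℝ) ^ (-1 : ℝ) - (3 * m + 2 : ℝ) ^ (-1 : ℝ) =
        1 / 3 * (1 / (1 / 3 - (m + 1)) + 1 / (1 / 3 + (m + 1))) := by
      rw [Real.rpow_neg_one, Real.rpow_neg_one, show (1 / 3 - (m + 1) : ℝ) = -(3 * m + 2) / 3 by ring,
        show (1 / 3 + (m + 1) : ℝ) = (3 * m + 4) / 3 by ring]
      field_simp
      ring
    rw [g]
    push_cast
    rfl
  simp only [h5, tsum_mul_left] at h3
  rw [h3, ← h4, show (π * (1 / 3) : ℂ) = ((π / 3 : ℝ) : ℂ) by push_cast; ring, Complex.cot_eq_cos_div_sin,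
    ← Complex.ofReal_cos, ← Complex.ofReal_sin, Real.cos_pi_div_three, Real.sin_pi_div_three, kap]
  have : ((√3 : ℝ) : ℂ) ≠ 0 := by exact_mod_cast (Real.sqrt_pos.2 (by norm_num : (0 : ℝ) < 3)).ne'
  push_cast
  field_simp
  ring

end

end Vale.Agent.P006
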