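import Vale.Agent.P006.ConstA
import Vale.Agent.P006.CS
import Vale.Agent.P026.ThN

namespace Vale.Agent.P006

open Vale.Agent.P026 Complex MeasureTheory Filter Topology
open scoped Classical ComplexConjugate Real MatrixGroups

noncomputable section

theorem cb_S (σ : SLO) {c0 : O} (hc : ∀ p, Prime p → Prim p → ¬ p ∣ c0) (m : ℕ) :
    ∀ n, Prim n → Nm n = m →
      Ssum 9 (tw Phi1 σ) 0 (c0 * n) = Ssum 9 (tw Phi1 σ) 0 c0 * cd_b n := by
  induction m using Nat.strong_induction_on with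
  | _ m ih =>
    intro n hn hm
    have h1 : n = 1 ∨ ∃ p, Prime p ∧ Prim p ∧ p ∣ n :=
      Prim.induction (P := fun n => n = 1 ∨ ∃ p, Prime p ∧ Prim p ∧ p ∣ n) (Or.inl rfl)
        (fun p n hp hP _ _ => Or.inr ⟨p, hp, hP, dvd_mul_right _ _⟩) n hn
    rcases h1 with rfl | ⟨p, hp, hP, hd⟩
    · rw [mul_one, cd_b_one, mul_one]
    obtain ⟨k, n', h1, rfl⟩ := WfDvdMonoid.max_power_factor hn.ne_zero hp.irreducible
    have hn' : Prim n' := hn.of_mul (hP.pow k)
    have hk : 1 ≤ k := by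
      rcases Nat.eq_zero_or_pos k with rfl | h
      · exact absurd (by simpa using hd) h1
      · exact h
    have hlt : Nm n' < m := by
      have g1 : 4 ≤ Nm p := by
        have := four_le_N_of_prime hp hP
        rw [N] at this
        exact_mod_cast this
      have g2 : 0 < Nm n' := Nat.pos_of_ne_zero fun h => hn'.ne_zero (Nm_eq_zero.1 h)
      have g3 : 1 < Nm p ^ k := Nat.one_lt_pow (by omega) (by omega)
      rw [← hm, Nm_mul, Nm_pow]
      nlinarith
    have h2 := S_C σ hp hP (c := c0 * n') (fun h => (hp.dvd_or_dvd h).elim (hc p hp hP) h1) hk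
    rw [mul_comm (p ^ k), ← mul_assoc, h2, ih _ hlt n' hn' rfl, cd_b_mul hp hP h1 hk]
    split_ifs <;> ring

def cb_t (σ : SLO) (s : ℂ) (x : ballO 1 × ℕ) : ℂ :=
  ((N (x.1 * lam ^ x.2) : ℝ) : ℂ) ^ (-s) * Ssum 9 (tw Phi1 σ) 0 (x.1 * lam ^ x.2)

theorem cb_t_le (σ : SLO) {a : ℝ} {s : ℂ} (hs : a ≤ s.re) (x : ballO 1 × ℕ) :
    ‖cb_t σ s x‖ ≤ N 9 * ((3 : ℝ) ^ (1 - a)) ^ x.2 := by
  have h1 := norm_Ssum_le cd_nine (cd_ne x) (equi_tw (m := 9) dvd_rfl σ).bd 0
  have e : N (x.1 * lam ^ x.2) = 3 ^ x.2 := by rw [N_mul, N_unit (cd_unit _), N_pow, N_lam, one_mul]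
  rw [cb_t, norm_mul, Complex.norm_cpow_eq_rpow_re_of_pos (N_pos (cd_ne x)), neg_re]
  rw [e] at h1 ⊢
  have h3 : (1 : ℝ) ≤ 3 ^ x.2 := one_le_pow₀ (by norm_num)
  calc _ ≤ ((3 : ℝ) ^ x.2) ^ (-a) * (N 9 * 3 ^ x.2) :=
        mul_le_mul (Real.rpow_le_rpow_of_exponent_le h3 (by linarith)) h1 (norm_nonneg _)
          (by positivity)
    _ = _ := by
        rw [← Real.rpow_natCast ((3 : ℝ) ^ (1 - a)), ← Real.rpow_mul (by norm_num), mul_comm (1 - a),
          Real.rpow_mul (by norm_num), Real.rpow_natCast, sub_eq_add_neg,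
          Real.rpow_add (by positivity), Real.rpow_one]
        ring

theorem cb_summ (σ : SLO) {s : ℂ} (hs : 1 < s.re) : Summable fun x => ‖cb_t σ s x‖ :=
  Summable.of_nonneg_of_le (fun _ => norm_nonneg _) (cb_t_le σ le_rfl) (cd_geo hs)

theorem cb_diff (σ : SLO) {s : ℂ} (hs : 1 < s.re) :
    DifferentiableAt ℂ (fun s => ∑' x, cb_t σ s x) s := by
  have ho : IsOpen {z : ℂ | (1 + s.re) / 2 < z.re} := isOpen_lt continuous_const continuous_re
  have h := differentiableOn_tsum_of_summable_norm (cd_geo (σ := (1 + s.re) / 2) (by linarith))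
    (F := fun x z => cb_t σ z x) (fun x => by
      refine Differentiable.differentiableOn (Differentiable.mul_const ?_ _)
      exact differentiable_id.neg.const_cpow (Or.inl (by exact_mod_cast (N_pos (cd_ne x)).ne')))
    ho fun x z hz => cb_t_le σ (le_of_lt hz) x
  exact h.differentiableAt (ho.mem_nhds (show (1 + s.re) / 2 < s.re by linarith))

theorem cb_split (σ : SLO) {s : ℂ} (hs : 3 < s.re) : Dser 9 (tw Phi1 σ) 0 s =
    (∑' x, cb_t σ s x) *
    ∑' e : O, if Prim e then ((N e : ℝ) : ℂ) ^ (-(3 * s - 3)) * cd_h e else 0 := by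
  obtain ⟨C, hC0, hC⟩ := card_ballO_le
  have h2 : Summable fun e : O =>
      ‖if Prim e then ((N e : ℝ) : ℂ) ^ (-(3 * s - 3)) * cd_h e else 0‖ := by
    refine Summable.of_nonneg_of_le (fun _ => norm_nonneg _) (fun e => ?_)
      ((summable_N_rpow (s := 2) (by norm_num)).mul_left C)
    split_ifs with he
    · have g0 := N_pos he.ne_zero
      have g1 : ‖cd_h e‖ ≤ C * N e := by
        refine (norm_sum_le _ _).trans (le_trans ?_ (hC _ g0.le))
        refine (Finset.sum_le_card_nsmul _ _ 1 fun f hf => ?_).trans ?_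
        · have g2 := one_le_N ((zk2_mem he.ne_zero).1 hf).1.ne_zero
          rw [norm_div, Complex.norm_real, Real.norm_of_nonneg (N_nonneg f)]
          exact div_le_one_of_le₀ ((norm_mu_le f).trans g2) (N_nonneg f)
        · rw [nsmul_eq_mul, mul_one]
          exact_mod_cast Finset.card_filter_le _ _
      rw [norm_mul, Complex.norm_cpow_eq_rpow_re_of_pos g0]
      calc _ ≤ N e ^ (-3 : ℝ) * (C * N e) :=
            mul_le_mul (Real.rpow_le_rpow_of_exponent_le (one_le_N he.ne_zero) (by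
              simp
              linarith)) g1 (norm_nonneg _) (by positivity)
        _ = _ := by
            rw [show (-2 : ℝ) = -3 + 1 by norm_num, Real.rpow_add g0, Real.rpow_one]
            ring
    · rw [norm_zero]
      exact mul_nonneg hC0.le (Real.rpow_nonneg (N_nonneg _) _)
  rw [tsum_mul_tsum_of_summable_norm (cb_summ σ (by linarith)) h2, Dser]
  have hP : ∀ z : Function.support fun z : (ballO 1 × ℕ) × O => cb_t σ s z.1 *
      if Prim z.2 then ((N z.2 : ℝ) : ℂ) ^ (-(3 * s - 3)) * cd_h z.2 else 0, Prim z.1.2 := by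
    intro z
    by_contra h
    exact z.2 (by simp [h])
  have hval : ∀ (x : ballO 1 × ℕ) (e : O), Prim e →
      (if x.1 * lam ^ x.2 * e ^ 3 ≠ 0 then ((N (x.1 * lam ^ x.2 * e ^ 3) : ℝ) : ℂ) ^ (-s)
        * Ssum 9 (tw Phi1 σ) 0 (x.1 * lam ^ x.2 * e ^ 3) else 0) = cb_t σ s x *
        if Prim e then ((N e : ℝ) : ℂ) ^ (-(3 * s - 3)) * cd_h e else 0 := fun x e he => by
    have g0 : ((N e : ℝ) : ℂ) ≠ 0 := by exact_mod_cast (N_pos he.ne_zero).ne'
    rw [if_pos (mul_ne_zero (cd_ne x) (he.pow 3).ne_zero), if_pos he,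
      cb_S σ (cd_no_prime (cd_unit _) _) _ _ (he.pow 3) rfl, cd_b_cube he, zk2_cpow_mul, cb_t,
      show -(3 * s - 3) = -s + -s + -s + (3 : ℕ) by push_cast; ring, Complex.cpow_add _ _ g0,
      Complex.cpow_add _ _ g0, Complex.cpow_add _ _ g0, Complex.cpow_natCast]
    rw [show ((N (e ^ 3) : ℝ) : ℂ) ^ (-s) = _ by
      rw [pow_three, zk2_cpow_mul, zk2_cpow_mul], N_pow]
    push_cast
    ring
  refine tsum_eq_tsum_of_ne_zero_bij (fun z => z.1.1.1 * lam ^ z.1.1.2 * z.1.2 ^ 3) ?_ ?_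
    fun z => hval _ _ (hP z)
  · intro z z' h
    obtain ⟨g1, g2, g3⟩ := unit_lam_prim_unique (cd_unit _) (cd_unit _) ((hP z).pow 3)
      ((hP z').pow 3) h
    exact Subtype.ext (Prod.ext (Prod.ext (Subtype.ext g1) g2) (cd_cube_inj (hP z) (hP z') g3))
  · intro c hc
    have hc0 : c ≠ 0 := fun h => hc (by simp [h])
    obtain ⟨u, k, y, hu, hy, rfl⟩ := exists_unit_lam_prim hc0
    have : ∃ e, Prim e ∧ y = e ^ 3 := by
      by_contra h
      refine hc ?_
      simp only []
      rw [cb_S σ (cd_no_prime hu _) _ _ hy rfl, cd_b_zero h]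
      simp
    obtain ⟨e, he, rfl⟩ := this
    refine ⟨⟨((⟨u, mem_ballO_one.2 hu⟩, k), e), ?_⟩, rfl⟩
    rw [Function.mem_support, ← hval _ _ he]
    exact hc

theorem zp2_cast : ((zp2 : ℝ) : ℂ) =
    ∑' n : O, (if Prim n then ((N n : ℝ) : ℂ) ^ (-(2 : ℂ)) else 0) := by
  rw [zp2, Complex.ofReal_tsum]
  refine tsum_congr fun n => ?_
  split_ifs
  · rw [Complex.ofReal_cpow (N_nonneg _)]
    norm_num
  · simp

theorem cb_res (σ : SLO) : rho σ 0 = (∑' x, cb_t σ (4 / 3) x) * (sg0 / 9) := by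
  have hL := DirichletCharacter.differentiable_LFunction chi3D_ne_one
  have hden : ∀ s : ℂ, 1 < s.re → (1 - (3 : ℂ) ^ (-(3 * s - 2))) * riemannZeta (3 * s - 2)
      * DirichletCharacter.LFunction chi3D (3 * s - 2) ≠ 0 := fun s hs => by
    have h1 : 1 < (3 * s - 2).re := by simp; linarith
    exact mul_ne_zero (mul_ne_zero (cd_three (by linarith)) (riemannZeta_ne_zero_of_one_lt_re h1))
      (DirichletCharacter.LFunction_ne_zero_of_one_le_re _ (Or.inl chi3D_ne_one) h1.le)
  set f : ℂ → ℂ := fun s => (∑' x, cb_t σ s x) * ((1 - (3 : ℂ) ^ (-(3 * s - 3)))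
    * DirichletCharacter.LFunction chi3D (3 * s - 3)) / ((1 - (3 : ℂ) ^ (-(3 * s - 2)))
    * riemannZeta (3 * s - 2) * DirichletCharacter.LFunction chi3D (3 * s - 2)) with hf
  have hd : DifferentiableOn ℂ f {s | 1 < s.re} := by
    intro s hs
    have hs' : 1 < s.re := hs
    have d0 : ∀ a : ℂ, DifferentiableAt ℂ (fun s : ℂ => 3 * s - a) s := fun a => by fun_prop
    have d1 : ∀ a : ℂ, DifferentiableAt ℂ (fun s : ℂ => 1 - (3 : ℂ) ^ (-(3 * s - a))) s :=
      fun a => ((d0 a).neg.const_cpow (Or.inl (by norm_num))).const_sub 1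
    have d2 : ∀ a : ℂ, DifferentiableAt ℂ
        (fun s : ℂ => DirichletCharacter.LFunction chi3D (3 * s - a)) s :=
      fun a => (hL _).comp s (d0 a)
    have d3 : DifferentiableAt ℂ (fun s : ℂ => riemannZeta (3 * s - 2)) s :=
      (differentiableAt_riemannZeta fun h => by
        have := congrArg re h
        simp at this
        linarith).comp s (d0 2)
    exact (((cb_diff σ hs').mul ((d1 3).mul (d2 3))).div (((d1 2).mul d3).mul (d2 2))
      (hden s hs')).differentiableWithinAt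
  have he : ∀ s : ℂ, 3 < s.re → f s * riemannZeta (3 * s - 3) = Dser 9 (tw Phi1 σ) 0 s := by
    intro s hs
    symm
    have h2 : 1 < (3 * s - 2).re := by simp; linarith
    have h3 : 1 < (3 * s - 3).re := by simp; linarith
    have e1 : (fun n : O => if Prim n then mu n / ((N n : ℝ) : ℂ) * ((N n : ℝ) : ℂ) ^ (-(3 * s - 3))
        else 0) = fun n : O => if Prim n then mu n * ((N n : ℝ) : ℂ) ^ (-(3 * s - 2)) else 0 := by
      funext n
      split_ifs with hn
      · have g0 : ((N n : ℝ) : ℂ) ≠ 0 := by exact_mod_cast (N_pos hn.ne_zero).ne'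
        rw [show -(3 * s - 3) = -(3 * s - 2) + 1 by ring, Complex.cpow_add _ _ g0, Complex.cpow_one]
        field_simp
      · rfl
    have h4 := zk2_conv (fun f => mu f / ((N f : ℝ) : ℂ)) (fun n => ((N n : ℝ) : ℂ) ^ (-(3 * s - 3)))
      (fun x y => zk2_cpow_mul x y _) (by
        have := zk2_summ h2 mu norm_mu_le
        exact this.congr fun n => by rw [← congrFun e1 n])
      (by simpa only [one_mul] using zk2_summ h3 (fun _ => 1) fun _ => by simp)
    have h5 := mu_prim_mul h2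
    rw [e1, zeta_prim h3] at h4
    rw [zeta_prim h2] at h5
    rw [cb_split σ hs, hf]
    simp only []
    rw [div_mul_eq_mul_div, eq_div_iff (hden s (by linarith))]
    simp only [cd_h]
    rw [← h4]
    linear_combination ((∑' x, cb_t σ s x) * ((1 - (3 : ℂ) ^ (-(3 * s - 3)))
      * DirichletCharacter.LFunction chi3D (3 * s - 3)) * riemannZeta (3 * s - 3)) * h5
  rw [(rho_out.res σ 0).unique ((isRes_zeta hd).congr he), hf]
  simp only []
  have hz := zeta_prim (s := 2) (by norm_num)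
  rw [← zp2_cast] at hz
  have hz0 : ((zp2 : ℝ) : ℂ) ≠ 0 := by
    have := zp2_pos
    exact_mod_cast (by linarith : zp2 ≠ 0)
  rw [show (3 : ℂ) * (4 / 3) - 2 = 2 by norm_num, show (3 : ℂ) * (4 / 3) - 3 = 1 by norm_num, ← hz,
    L_one, Complex.cpow_neg_one, sg0]
  push_cast
  field_simp
  ring

theorem cb_count {a q : O} (ha : a ≠ 0) (hq : q ≠ 0) (b : O) (z : ℂ) :
    ∑ d ∈ rs (a * q), (if a ∣ d - b then z else 0) = ((N q : ℝ) : ℂ) * z := by
  have hp : Per (a * q) fun d => if a ∣ d - b then z else 0 := fun x y h => by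
    have h' : a ∣ x - y := (dvd_mul_right a q).trans h
    have : a ∣ x - b ↔ a ∣ y - b := by
      rw [show x - b = y - b + (x - y) by ring, dvd_add_left h']
    simp only [this]
  rw [sum_rs_split ha hq hp]
  have : ∀ x j : O, a ∣ x + a * j - b ↔ a ∣ b - x := fun x j => by
    rw [show x + a * j - b = -(b - x) + a * j by ring, dvd_add_left (dvd_mul_right a j), dvd_neg]
  simp only [this, Finset.sum_const, card_rs hq, nsmul_eq_mul, mul_ite, mul_zero]
  rw [sum_class ha, N]
  simp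

theorem cb_single (σ : SLO) {u0 : O} (hu0 : IsUnit u0)
    (h0 : ∀ c, ¬ Prim (u0 * c) → ∀ d, tw Phi1 σ (c, d) = 0)
    (h1 : ∀ c, u0 * c = 1 → ∃ b, ∀ d, tw Phi1 σ (c, d) = if 3 ∣ d - b then 1 else 0) :
    rho σ 0 = sg0 := by
  obtain ⟨v, hv⟩ := hu0.exists_right_inv
  have hvu : IsUnit v := IsUnit.of_mul_eq_one u0 (by rw [mul_comm, hv])
  rw [cb_res, tsum_eq_single (⟨v, mem_ballO_one.2 hvu⟩, 0)]
  · obtain ⟨b, hb⟩ := h1 v hv
    simp only [cb_t, pow_zero, mul_one, N_unit hvu, Ssum, hb, map_zero, zero_mul, zero_div, psi_zero]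
    rw [show (9 : O) * v = 3 * (3 * v) by ring, cb_count (by decide)
      (mul_ne_zero (by decide) hvu.ne_zero), N_mul, N_unit hvu, N_ofNat]
    norm_num
    ring
  · rintro ⟨u, j⟩ hx
    have : ¬ Prim (u0 * (u * lam ^ j)) := fun h => hx (by
      obtain ⟨g1, g2, -⟩ := unit_lam_prim_unique (k := j) (k' := 0) (hu0.mul (cd_unit u)) isUnit_one
        prim_one h (by ring)
      refine Prod.ext (Subtype.ext ?_) g2
      exact mul_left_cancel₀ hu0.ne_zero (g1.trans hv.symm))
    simp [cb_t, Ssum, h0 _ this]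

theorem rho_SS_zero : rho SS 0 = sg0 := by
  have e : ∀ c d, tw Phi1 SS (c, d) = Phi1 (-d, c) := fun c d => by
    have := tw_TS 0 c d
    rwa [Tm_zero, one_mul, zero_mul, add_zero] at this
  refine cb_single SS isUnit_one (fun c hc d => ?_) fun c hc => ⟨0, fun d => ?_⟩
  · rw [one_mul] at hc
    simp [e, Phi1, hc]
  · rw [one_mul] at hc
    simp [e, Phi1, hc, prim_one, kub_sym3_one]

theorem rho_lower_one : rho (lower 1) 0 = sg0 := by
  refine cb_single _ isUnit_one (fun c hc d => ?_) fun c hc => ⟨1, fun d => ?_⟩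
  · rw [one_mul] at hc
    rw [tw_lower, Phi1, if_neg]
    rintro ⟨h1, h2⟩
    exact hc (Prim.congr h2 (by simpa using dvd_sub_comm.1 h1))
  · rw [one_mul] at hc
    rw [tw_lower, Phi1, hc]
    simp only [one_mul]
    by_cases h : (3 : O) ∣ d - 1
    · rw [if_pos ⟨dvd_sub_comm.1 h, h⟩, if_pos h, ← sym3_one_left d]
      exact sym3_congr ⟨-1, by ring⟩
    · rw [if_neg fun h' => h h'.2, if_neg h]

theorem rho_lower_neg_one : rho (lower (-1)) 0 = sg0 := by
  refine cb_single _ isUnit_one.neg (fun c hc d => ?_) fun c hc => ⟨1, fun d => ?_⟩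
  · rw [tw_lower, Phi1, if_neg]
    rintro ⟨h1, h2⟩
    exact hc (Prim.congr h2 (by
      simp only at h1 ⊢
      rwa [show d - -1 * c = c - -1 * d by ring]))
  · obtain rfl : c = -1 := by linear_combination -hc
    rw [tw_lower, Phi1]
    simp only
    by_cases h : (3 : O) ∣ d - 1
    · rw [if_pos ⟨by rwa [show -1 - -1 * d = d - 1 by ring], h⟩, if_pos h, ← sym3_neg_one d]
      exact sym3_congr ⟨1, by ring⟩
    · rw [if_neg fun h' => h h'.2, if_neg h]

theorem cb_S_zero {u : O} (hu : IsUnit u) (j : ℕ) {t : O} (ht : Prim t)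
    (h : sym3 (u * lam ^ j) t ≠ 1) : Ssum 9 Phi1 0 (u * lam ^ j) = 0 := by
  have hc0 : u * lam ^ j ≠ 0 := mul_ne_zero hu.ne_zero (pow_ne_zero _ prime_lam.ne_zero)
  have hcl : IsCoprime t lam := ((prime_lam.irreducible.coprime_iff_not_dvd).2 ht.not_lam_dvd).symm
  have hcop : IsCoprime t (9 * (u * lam ^ j)) := by
    rw [show (9 : O) = 3 * 3 by norm_num]
    exact (ht.coprime_three.mul_right ht.coprime_three).mul_right
      (((isCoprime_mul_unit_left_right hu _ _).2 hcl.pow_right))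
  have h1 := sum_rs_mul (mul_ne_zero cd_nine hc0) hcop (f := fun d => Phi1 (u * lam ^ j, d))
    fun x y hxy => by simpa only [tw_one] using Phi_per 1 hxy
  have h2 : ∀ d, Phi1 (u * lam ^ j, t * d) = sym3 (u * lam ^ j) t * Phi1 (u * lam ^ j, d) := by
    intro d
    simp only [Phi1]
    by_cases g : (3 : O) ∣ u * lam ^ j ∧ Prim d
    · rw [if_pos g, if_pos ⟨g.1, ht.mul g.2⟩, sym3_mul_right _ ht.ne_zero g.2.ne_zero]
    · rw [if_neg g, if_neg fun g' => g ⟨g'.1, g'.2.of_mul ht⟩, mul_zero]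
  simp only [h2, ← Finset.mul_sum, ← cd_S_eq] at h1
  by_contra hc
  exact h (mul_right_cancel₀ hc (by rw [h1, one_mul]))

theorem cb_omC_sq : omC ^ 2 ≠ 1 := fun h => omC_ne_one (by
  have := omC_cube
  rwa [pow_succ, h, one_mul] at this)

theorem cb_prim_t : Prim (1 - 3 * lam) := ⟨-lam, by ring⟩

theorem cb_unit_t {u : O} (hu : IsUnit u) : sym3 u (1 - 3 * lam) = 1 := by
  have h : sym3 om (1 - 3 * lam) = 1 := by
    rw [sym3_om cb_prim_t, show (Nm (1 - 3 * lam) - 1) / 3 = 3 * 3 by decide, pow_mul, omC_cube,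
      one_pow]
  rcases unit_cases hu with rfl | rfl | rfl | rfl | rfl | rfl <;>
    simp [kub_sym3_neg, sym3_pow_left, h, sym3_one_left]

theorem cb_unit_two {u : O} (hu : IsUnit u) (h1 : u ≠ 1) (h2 : u ≠ -1) : sym3 u (-2) ≠ 1 := by
  have h : sym3 om (-2) = omC := by
    rw [sym3_om prim_neg_two, show (Nm (-2) - 1) / 3 = 1 by decide, pow_one]
  rcases unit_cases hu with rfl | rfl | rfl | rfl | rfl | rfl
  · exact absurd rfl h1
  · exact absurd rfl h2
  all_goals simp only [kub_sym3_neg, sym3_pow_left, h]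
  exacts [omC_ne_one, omC_ne_one, cb_omC_sq, cb_omC_sq]

theorem cb_lam_cube {t : O} (ht : Prim t) : sym3 lam t ^ 3 = 1 :=
  sym3_cube ((prime_lam.irreducible.coprime_iff_not_dvd).2 ht.not_lam_dvd)

theorem cb_lam_t {j : ℕ} (hj : ¬ 3 ∣ j) : sym3 lam (1 - 3 * lam) ^ j ≠ 1 := by
  have h1 := sym3_three_ne
  have h3 := cb_lam_cube cb_prim_t
  rw [show sym3 3 (1 - 3 * lam) = sym3 lam (1 - 3 * lam) ^ 2 by
    rw [← sym3_pow_left, lam_sq, kub_sym3_neg]] at h1
  generalize sym3 lam (1 - 3 * lam) = z at h1 h3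
  obtain ⟨i, rfl | rfl⟩ : ∃ i, j = 3 * i + 1 ∨ j = 3 * i + 2 := ⟨j / 3, by omega⟩
  · rw [pow_add, pow_mul, h3, one_pow, one_mul, pow_one]
    rintro rfl
    exact h1 (one_pow _)
  · rwa [pow_add, pow_mul, h3, one_pow, one_mul]

theorem cb_val {u : O} (hu : u = 1 ∨ u = -1) (i : ℕ) :
    ((N (u * lam ^ (3 * (i + 1))) : ℝ) : ℂ) ^ (-(4 / 3 : ℂ)) *
      Ssum 9 Phi1 0 (u * lam ^ (3 * (i + 1))) = 3 * (1 / 3) ^ i := by
  have hU : IsUnit u := by rcases hu with rfl | rfl <;> simp
  have hc0 : u * lam ^ (3 * (i + 1)) ≠ 0 :=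
    mul_ne_zero hU.ne_zero (pow_ne_zero _ prime_lam.ne_zero)
  have h3 : (3 : O) ∣ u * lam ^ (3 * (i + 1)) :=
    ⟨-(u * lam ^ (3 * i + 1)), by linear_combination u * lam ^ (3 * i + 1) * lam_sq⟩
  have hP : ∀ d, Phi1 (u * lam ^ (3 * (i + 1)), d) = if 3 ∣ d - 1 then 1 else 0 := fun d => by
    simp only [Phi1]
    by_cases h : (3 : O) ∣ d - 1
    · rw [if_pos ⟨h3, h⟩, if_pos h, sym3_mul_left, sym3_pow_left, pow_mul, cb_lam_cube h, one_pow,
        mul_one]
      rcases hu with rfl | rfl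
      exacts [sym3_one_left d, sym3_neg_one d]
    · rw [if_neg fun h' => h h'.2, if_neg h]
  rw [cd_S_eq]
  simp only [hP]
  rw [show 9 * (u * lam ^ (3 * (i + 1))) = 3 * (3 * (u * lam ^ (3 * (i + 1)))) by ring,
    cb_count (by decide) (mul_ne_zero (by decide) hc0), N_mul 3, N_ofNat, N_mul, N_unit hU, N_pow,
    N_lam, one_mul, show (-(4 / 3) : ℂ) = ((-(4 / 3) : ℝ) : ℂ) by push_cast; rfl,
    ← Complex.ofReal_cpow (by positivity), ← Real.rpow_natCast 3 (3 * (i + 1)),
    ← Real.rpow_mul (by norm_num),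
    show ((3 * (i + 1) : ℕ) : ℝ) * -(4 / 3) = -((4 * (i + 1) : ℕ) : ℝ) by push_cast; ring,
    Real.rpow_neg (by norm_num), Real.rpow_natCast, Real.rpow_natCast]
  push_cast
  field_simp
  rw [one_div, inv_pow]
  field_simp
  ring

theorem rho_one_zero : rho 1 0 = sg0 := by
  have hs : Summable (cb_t 1 (4 / 3)) := (cb_summ 1 (by norm_num)).of_norm
  have h1 : ∀ u : ballO 1, ∑' j, cb_t 1 (4 / 3) (u, j) =
      if (u : O) = 1 ∨ (u : O) = -1 then 9 / 2 else 0 := fun u => by
    simp only [cb_t, tw_one]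
    split_ifs with hu
    · rw [← Function.Injective.tsum_eq (g := fun i : ℕ => 3 * (i + 1)) (fun a b h => by
        simp only at h
        omega)]
      · simp only [cb_val hu]
        rw [tsum_mul_left, tsum_geometric_of_norm_lt_one (by norm_num)]
        norm_num
      · intro j hj
        by_contra hr
        refine hj ?_
        by_cases h3 : 3 ∣ j
        · obtain ⟨i, rfl⟩ := h3
          obtain rfl : i = 0 := by
            by_contra hi
            exact hr ⟨i - 1, by simp only; omega⟩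
          have : ¬ (3 : O) ∣ u := fun h => by
            have h' := isUnit_of_dvd_unit h (cd_unit u)
            rw [isUnit_iff_Nm] at h'
            exact absurd h' (by decide)
          simp [cd_S_eq, Phi1, this]
        · simp only
          rw [cb_S_zero (cd_unit u) j cb_prim_t, mul_zero]
          rw [sym3_mul_left, cb_unit_t (cd_unit u), one_mul, sym3_pow_left]
          exact cb_lam_t h3
    · rw [not_or] at hu
      refine (tsum_congr fun j => ?_).trans tsum_zero
      by_cases h3 : 3 ∣ j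
      · obtain ⟨i, rfl⟩ := h3
        rw [cb_S_zero (cd_unit u) _ prim_neg_two, mul_zero]
        rw [sym3_mul_left, sym3_pow_left, pow_mul, cb_lam_cube prim_neg_two, one_pow, mul_one]
        exact cb_unit_two (cd_unit u) hu.1 hu.2
      · rw [cb_S_zero (cd_unit u) j cb_prim_t, mul_zero]
        rw [sym3_mul_left, cb_unit_t (cd_unit u), one_mul, sym3_pow_left]
        exact cb_lam_t h3
  rw [cb_res, hs.tsum_prod, tsum_congr h1, tsum_fintype,
    Finset.sum_coe_sort (ballO 1) fun u => if u = 1 ∨ u = -1 then (9 / 2 : ℂ) else 0,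
    ← Finset.sum_filter, show (ballO 1).filter (fun u => u = 1 ∨ u = -1) = {1, -1} by
      ext u
      simp only [Finset.mem_filter, mem_ballO_one, Finset.mem_insert, Finset.mem_singleton]
      exact ⟨fun h => h.2, fun h => ⟨by rcases h with rfl | rfl <;> simp, h⟩⟩,
    Finset.sum_pair (by decide)]
  ring

end

end Vale.Agent.P006
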