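import Vale.Agent.P006.ConstB

namespace Vale.Agent.P006

open Vale.Agent.P026 Complex MeasureTheory Filter Topology
open scoped Classical ComplexConjugate Real MatrixGroups

noncomputable section

theorem bb_zero : bb 0 (4 / 3) = 3 * π := by
  have h1 := Complex.Gamma_eq_integral (s := 1 / 3) (by norm_num)
  have h2 := Complex.Gamma_add_one (1 / 3) (by norm_num)
  have h3 := Complex.Gamma_ne_zero_of_re_pos (s := 1 / 3) (by norm_num)
  rw [bb, show (4 / 3 : ℂ) = 1 / 3 + 1 by norm_num, h2]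
  have : ∫ u in Set.Ioi (0 : ℝ), (u : ℂ) ^ (1 / 3 + 1 - 2 : ℂ) *
      ((Real.exp (-u - 4 * π ^ 2 * 0 / u) : ℝ) : ℂ) = Complex.Gamma (1 / 3) := by
    rw [h1, Complex.GammaIntegral]
    refine integral_congr_ae (Eventually.of_forall fun u => ?_)
    simp only [mul_zero, zero_div, sub_zero]
    rw [mul_comm, show (1 / 3 + 1 - 2 : ℂ) = 1 / 3 - 1 by ring]
  rw [this]
  field_simp

theorem rho_summ : ∃ C : ℝ, 0 < C ∧ ∀ (σ : SLO) (ω : O → ℂ) (X : ℝ), (∀ n, ‖ω n‖ ≤ 1) → 0 < X →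
    ∀ n : O, n ≠ 0 → ‖rho σ n * ω n * bb (N n * X) (4 / 3)‖ ≤
      C * X ^ (-2 : ℝ) * N n ^ (-(5 / 3) : ℝ) := by
  obtain ⟨C1, h1, hC1⟩ := norm_rho_le
  obtain ⟨C2, h2, hC2⟩ := bb_decay (a := 2) (by norm_num)
  refine ⟨2 * C1 * C2, by positivity, fun σ ω X hω hX n hn => ?_⟩
  have hN := N_pos hn
  have hN1 := one_le_N hn
  have e1 : (1 + N n) ^ (1 / 3 : ℝ) ≤ 2 * N n ^ (1 / 3 : ℝ) := by
    calc _ ≤ (8 * N n) ^ (1 / 3 : ℝ) := Real.rpow_le_rpow (by positivity) (by linarith) (by norm_num)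
      _ = _ := by
        rw [Real.mul_rpow (by norm_num) hN.le, show (8 : ℝ) = 2 ^ (3 : ℝ) by norm_num,
          ← Real.rpow_mul (by norm_num)]
        norm_num
  rw [norm_mul, norm_mul]
  calc _ ≤ C1 * (2 * N n ^ (1 / 3 : ℝ)) * 1 * (C2 * (N n * X) ^ (-2 : ℝ)) := by
        gcongr
        · exact (hC1 σ n).trans (by gcongr)
        · exact hω n
        · exact hC2 _ (by positivity)
    _ = _ := by
        rw [Real.mul_rpow hN.le hX.le, show (-(5 / 3) : ℝ) = 1 / 3 + -2 by norm_num,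
          Real.rpow_add hN]
        ring

theorem rho_summable (σ : SLO) {ω : O → ℂ} {X : ℝ} (hω : ∀ n, ‖ω n‖ ≤ 1) (hX : 0 < X) :
    Summable fun n : O => rho σ n * ω n * bb (N n * X) (4 / 3) := by
  obtain ⟨C, -, hC⟩ := rho_summ
  refine Summable.of_norm_bounded_eventually
    ((summable_N_rpow (s := 5 / 3) (by norm_num)).mul_left (C * X ^ (-2 : ℝ))) ?_
  filter_upwards [eventually_cofinite_ne 0] with n hn using hC σ ω X hω hX n hn

theorem rho_tail : ∃ C : ℝ, ∀ (σ : SLO) (ω : O → ℂ) (X : ℝ), (∀ n, ‖ω n‖ ≤ 1) → ω 0 = 1 → 0 < X →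
    ‖∑' n : O, rho σ n * ω n * bb (N n * X) (4 / 3) - rho σ 0 * (3 * π)‖ ≤ C * X ^ (-2 : ℝ) := by
  obtain ⟨C, hC0, hC⟩ := rho_summ
  have hs := summable_N_rpow (s := 5 / 3) (by norm_num)
  refine ⟨C * ∑' n : O, N n ^ (-(5 / 3) : ℝ), fun σ ω X hω h0 hX => ?_⟩
  rw [(rho_summable σ hω hX).tsum_eq_add_tsum_ite 0, h0, N_zero, zero_mul, bb_zero, mul_one,
    add_sub_cancel_left, mul_right_comm, ← tsum_mul_left]
  refine tsum_of_norm_bounded (hs.mul_left _).hasSum fun n => ?_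
  split_ifs with hn
  · rw [norm_zero]
    exact mul_nonneg (by positivity) (Real.rpow_nonneg (N_nonneg _) _)
  · exact hC σ ω X hω hX n hn

theorem cc_left {g : SLO} (hg : g ∈ Gam 3) (σ : SLO) (n : O) :
    rho (g * σ) n = conj (kap0 g) * rho σ n := by
  have h : g * σ * σ⁻¹ ∈ Gam 3 := by simpa using hg
  rw [rho_mult rho_out h, tw_row h, mul_inv_cancel_right]

theorem SS_apply : SS 0 0 = 0 ∧ SS 0 1 = -1 ∧ SS 1 0 = 1 ∧ SS 1 1 = 0 := ⟨rfl, rfl, rfl, rfl⟩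
theorem lower_apply (y : O) :
    lower y 0 0 = 1 ∧ lower y 0 1 = 0 ∧ lower y 1 0 = y ∧ lower y 1 1 = 1 := ⟨rfl, rfl, rfl, rfl⟩

theorem cc_kapS {δ : SLO} (hδ : δ ∈ Gam 3) : kap0 (SS * δ * SS⁻¹) = kap0 δ := by
  obtain ⟨s1, s2, s3, s4⟩ := SS_apply
  obtain ⟨Pa, hb, hc, Pd⟩ := mem_Gam.1 hδ
  obtain ⟨i1, i2, i3, i4⟩ := SLO_inv SS
  have det := det_SLO δ
  unfold kap0
  have e1 : (SS * δ * SS⁻¹) 1 0 = -δ 0 1 := by
    rw [SLO_mul, SLO_mul, SLO_mul, i1, i3, s3, s4]; ring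
  have e2 : (SS * δ * SS⁻¹) 1 1 = δ 0 0 := by
    rw [SLO_mul, SLO_mul, SLO_mul, i2, i4, s1, s2, s3, s4]; ring
  rw [e1, e2, kub_sym3_neg]
  have Pa : Prim (δ 0 0) := Pa
  have Pd : Prim (δ 1 1) := Pd
  have f1 : sym3 (δ 0 1) (δ 0 0) * sym3 (δ 1 0) (δ 0 0) = 1 := by
    rw [← sym3_mul_left, ← sym3_neg_one (δ 0 0)]
    apply sym3_congr
    exact ⟨δ 1 1, by linear_combination -det⟩
  have f2 : sym3 (δ 1 0) (δ 0 0) * sym3 (δ 1 0) (δ 1 1) = 1 := by
    rw [← sym3_mul_right _ Pa.ne_zero Pd.ne_zero, ← kub_sym3_one (δ 1 0)]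
    have : δ 0 0 * δ 1 1 - 1 = δ 0 1 * δ 1 0 := by linear_combination det
    apply sym3_SYM (Pa.mul Pd) prim_one
    · rw [this]; exact kub_nine_mul hb hc
    · rw [this]; exact dvd_mul_left _ _
  linear_combination (-sym3 (δ 0 1) (δ 0 0)) * f2 + sym3 (δ 1 0) (δ 1 1) * f1

theorem cc_T0 (σ : SLO) (y : O) : rho (σ * Tm y) 0 = rho σ 0 := by
  rw [rho_Tm]; simp [psi_zero]

theorem cc_key {σ σ0 : SLO} {u : O} (hu : IsUnit u)
    (h1 : (3 : O) ∣ u * σ 0 0 - σ0 0 0) (h2 : (3 : O) ∣ u * σ 1 0 - σ0 1 0) :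
    ∃ η : ℂ, ‖η‖ = 1 ∧ rho σ 0 = η * rho σ0 0 ∧ rho (SS * σ) 0 = η * rho (SS * σ0) 0 := by
  obtain ⟨v, huv⟩ := hu.exists_right_inv
  obtain ⟨δ, d1, d2, d3, d4⟩ := exists_SLO (a := u) (b := 0) (c := 0) (d := v) (by simpa using huv)
  obtain ⟨a, ha⟩ := h1
  obtain ⟨b, hb⟩ := h2
  have e0 := det_SLO σ0
  have e1 := det_SLO σ
  set y := σ0 1 1 * (σ 0 1 * v) - σ0 0 1 * (σ 1 1 * v) with hy
  obtain ⟨a1, a2, a3, a4⟩ := Tm_apply y
  have hg : σ * δ * (σ0 * Tm y)⁻¹ ∈ Gam 3 := mul_inv_mem_Gam fun i j => by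
    fin_cases i <;> fin_cases j <;>
      simp only [Fin.zero_eta, Fin.mk_one, Fin.isValue, SLO_mul, d1, d2, d3, d4, a1, a2, a3, a4]
    · exact ⟨a, by linear_combination ha⟩
    · exact ⟨σ0 0 1 * v * (σ 0 1 * b - σ 1 1 * a), by
        rw [hy]
        linear_combination (-(σ 0 1 * v)) * e0 + (σ0 0 1 * v * σ 0 1) * hb -
          (σ0 0 1 * v * σ 1 1) * ha + σ0 0 1 * u * v * e1 + σ0 0 1 * huv⟩
    · exact ⟨b, by linear_combination hb⟩
    · exact ⟨σ0 1 1 * v * (σ 0 1 * b - σ 1 1 * a), by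
        rw [hy]
        linear_combination (-(σ 1 1 * v)) * e0 + (σ0 1 1 * v * σ 0 1) * hb -
          (σ0 1 1 * v * σ 1 1) * ha + σ0 1 1 * u * v * e1 + σ0 1 1 * huv⟩
  set g := σ * δ * (σ0 * Tm y)⁻¹ with hgd
  refine ⟨conj (kap0 g), by rw [RCLike.norm_conj, norm_kap0 hg], ?_, ?_⟩
  · have := cs_diag σ δ huv d1 d2 d3 d4 0
    rw [mul_zero, show σ * δ = g * (σ0 * Tm y) by rw [hgd]; group, cc_left hg, cc_T0] at this
    exact this.symm
  · have := cs_diag (SS * σ) δ huv d1 d2 d3 d4 0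
    rw [mul_zero, show SS * σ * δ = SS * g * SS⁻¹ * (SS * σ0 * Tm y) by rw [hgd]; group,
      cc_left ((Gam_normal 3).conj_mem g hg SS), cc_T0, cc_kapS hg] at this
    exact this.symm

theorem cc_stab (σ : SLO) {y : O} (hy : (3 : O) ∣ y) (hk : kap0 (σ * Tm y * σ⁻¹) ≠ 1) :
    rho σ 0 = 0 := by
  have h := cc_left ((Gam_normal 3).conj_mem _ (Tm_mem_Gam.2 hy) σ) σ 0
  rw [inv_mul_cancel_right, cc_T0] at h
  by_contra h0
  have h1 : conj (kap0 (σ * Tm y * σ⁻¹)) = 1 := mul_right_cancel₀ h0 (by rw [← h, one_mul])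
  have := congrArg conj h1
  rw [map_one, conj_conj] at this
  exact hk this

theorem cc_kap (σ : SLO) (y : O) :
    kap0 (σ * Tm y * σ⁻¹) = sym3 (-(σ 1 0 ^ 2 * y)) (1 + σ 0 0 * σ 1 0 * y) := by
  obtain ⟨a1, a2, a3, a4⟩ := Tm_apply y
  obtain ⟨i1, i2, i3, i4⟩ := SLO_inv σ
  have e := det_SLO σ
  rw [kap0]
  simp only [SLO_mul, a1, a2, a3, a4, i1, i2, i3, i4]
  congr 1
  · ring
  · linear_combination e

theorem cc_mod (x : O) : ∃ r, (3 : O) ∣ x - r ∧ (r = 0 ∨ IsUnit r ∨ ∃ e : O,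
    (e = 1 ∨ e = -1) ∧ r = e * lam) := by
  by_cases h : lam ∣ x
  · obtain ⟨y, rfl⟩ := h
    by_cases h' : lam ∣ y
    · obtain ⟨z, rfl⟩ := h'
      exact ⟨0, ⟨-z, by linear_combination z * lam_sq⟩, Or.inl rfl⟩
    · have h3 : ∀ a : O, (3 : O) ∣ a ↔ 3 ∣ a.re ∧ 3 ∣ a.im := fun a => intCast_dvd_iff 3 a
      have h4 : ¬ 3 ∣ y.re + y.im := fun ⟨k, hk⟩ => h' ⟨⟨2 * k - y.re, k - y.re⟩, by
        ext <;> simp [lam] <;> omega⟩
      obtain h5 | h5 : 3 ∣ y.re + y.im - 1 ∨ 3 ∣ y.re + y.im + 1 := by omega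
      · refine ⟨1 * lam, ?_, Or.inr (Or.inr ⟨1, Or.inl rfl, rfl⟩)⟩
        rw [h3]; simp [lam]; omega
      · refine ⟨-1 * lam, ?_, Or.inr (Or.inr ⟨-1, Or.inr rfl, rfl⟩)⟩
        rw [h3]; simp [lam]; omega
  · obtain ⟨u, hu, hP⟩ := exists_prim_assoc h
    obtain ⟨v, hv⟩ := hu.exists_right_inv
    obtain ⟨k, hk⟩ := hP
    exact ⟨v, ⟨v * k, by linear_combination v * hk - x * hv⟩,
      Or.inr (Or.inl (IsUnit.of_mul_eq_one u (by rw [mul_comm, hv])))⟩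

theorem cc_im {x r : O} (h : (3 : O) ∣ x - r) : 3 ∣ x.im ↔ 3 ∣ r.im := by
  have := ((intCast_dvd_iff 3 (x - r)).1 h).2
  simp only [QuadraticAlgebra.im_sub] at this
  omega

theorem cc_unit_im {u : O} (hu : IsUnit u) : 3 ∣ u.im ↔ u = 1 ∨ u = -1 := by
  rcases unit_cases hu with rfl | rfl | rfl | rfl | rfl | rfl <;> decide

theorem cc_lower_unit {u : O} (hu : IsUnit u) :
    rho (lower u) 0 = if 3 ∣ u.im then sg0 else 0 := by
  simp only [cc_unit_im hu]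
  split_ifs with h
  · rcases h with rfl | rfl
    exacts [rho_lower_one, rho_lower_neg_one]
  · rw [not_or] at h
    obtain ⟨v, hv⟩ := hu.exists_right_inv
    obtain ⟨l1, -, l3, -⟩ := lower_apply u
    refine cc_stab _ (y := 3 * -v) (dvd_mul_right _ _) ?_
    rw [cc_kap, l1, l3, show 1 + 1 * u * (3 * -v) = -2 by linear_combination -3 * hv,
      sym3_congr (y := u) ⟨-u, by linear_combination 3 * u * hv⟩]
    exact cb_unit_two hu h.1 h.2

theorem cc_lam_im {e : O} (he : e = 1 ∨ e = -1) : ¬ 3 ∣ (e * lam).im := by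
  rcases he with rfl | rfl <;> decide

theorem rho_lower_zero (x : O) : rho (lower x) 0 = if 3 ∣ x.im then sg0 else 0 := by
  obtain ⟨r, hr, h⟩ := cc_mod x
  have e0 : lower x = lower (x - r) * lower r := by
    obtain ⟨a1, a2, a3, a4⟩ := lower_apply x
    obtain ⟨b1, b2, b3, b4⟩ := lower_apply (x - r)
    obtain ⟨c1, c2, c3, c4⟩ := lower_apply r
    apply SLO_ext <;> simp only [SLO_mul, a1, a2, a3, a4, b1, b2, b3, b4, c1, c2, c3, c4] <;> ring
  have hg : lower (x - r) ∈ Gam 3 := by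
    obtain ⟨b1, b2, b3, b4⟩ := lower_apply (x - r)
    exact mem_Gam.2 (by simp [b1, b2, b3, b4, hr])
  rw [e0, cc_left hg, show kap0 (lower (x - r)) = 1 from kub_sym3_one _, map_one, one_mul]
  simp only [cc_im hr]
  clear e0 hg hr
  rcases h with rfl | h | ⟨e, he, rfl⟩
  · rw [if_pos (by decide), ← rho_one_zero]
    congr 1
    obtain ⟨a1, a2, a3, a4⟩ := SLO_one
    exact SLO_ext a1.symm a2.symm a3.symm a4.symm
  · exact cc_lower_unit h
  · rw [if_neg (cc_lam_im he)]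
    obtain ⟨l1, -, l3, -⟩ := lower_apply (e * lam)
    have h2 : e * e = 1 := by rcases he with rfl | rfl <;> ring
    refine cc_stab _ (y := 3 * -e) (dvd_mul_right _ _) ?_
    rw [cc_kap, l1, l3, show 1 + 1 * (e * lam) * (3 * -e) = 1 - 3 * lam by
      linear_combination -3 * lam * h2, show -((e * lam) ^ 2 * (3 * -e)) = -e * lam ^ 4 by
      linear_combination (3 * e * lam ^ 2) * h2 + (e * lam ^ 2) * lam_sq, sym3_mul_left,
      cb_unit_t (IsUnit.of_mul_eq_one (-e) (by linear_combination h2)), one_mul, sym3_pow_left]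
    exact cb_lam_t (by norm_num)

theorem TS_apply (y : O) : (Tm y * SS) 0 0 = y ∧ (Tm y * SS) 0 1 = -1 ∧ (Tm y * SS) 1 0 = 1 ∧
    (Tm y * SS) 1 1 = 0 := by
  obtain ⟨a1, a2, a3, a4⟩ := Tm_apply y
  obtain ⟨s1, s2, s3, s4⟩ := SS_apply
  simp [SLO_mul, a1, a2, a3, a4, s1, s2, s3, s4]

theorem rho_TS_zero (y : O) : rho (Tm y * SS) 0 = if 3 ∣ y.im then sg0 else 0 := by
  obtain ⟨r, hr, h⟩ := cc_mod y
  rw [show Tm y = Tm (y - r) * Tm r by rw [← Tm_add, sub_add_cancel], mul_assoc,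
    cc_left (Tm_mem_Gam.2 hr), show kap0 (Tm (y - r)) = 1 from kub_sym3_one _, map_one, one_mul]
  simp only [cc_im hr]
  obtain ⟨t1, t2, t3, t4⟩ := TS_apply r
  rcases h with rfl | h | ⟨e, he, rfl⟩
  · rw [if_pos (by decide), Tm_zero, one_mul, rho_SS_zero]
  · obtain ⟨v, hv⟩ := h.exists_right_inv
    have hvu : IsUnit v := IsUnit.of_mul_eq_one r (by rw [mul_comm, hv])
    obtain ⟨δ, d1, d2, d3, d4⟩ := exists_SLO (a := v) (b := 0) (c := 0) (d := r)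
      (by linear_combination hv)
    have h1 := cs_diag (Tm r * SS) δ (by linear_combination hv) d1 d2 d3 d4 0
    have e : Tm r * SS * δ = lower v * Tm (-r) := by
      obtain ⟨a1, a2, a3, a4⟩ := Tm_apply (-r)
      obtain ⟨c1, c2, c3, c4⟩ := lower_apply v
      apply SLO_ext <;> rw [SLO_mul (Tm r * SS), SLO_mul (lower v)] <;>
        simp only [t1, t2, t3, t4, a1, a2, a3, a4, d1, d2, d3, d4, c1, c2, c3, c4]
      · linear_combination hv
      · ring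
      · ring
      · linear_combination hv
    rw [mul_zero, e, cc_T0, cc_lower_unit hvu] at h1
    rw [← h1]
    simp only [cc_unit_im h, cc_unit_im hvu]
    have : v = 1 ∨ v = -1 ↔ r = 1 ∨ r = -1 := by
      constructor <;> rintro (rfl | rfl)
      · left; linear_combination hv
      · right; linear_combination -hv
      · left; linear_combination hv
      · right; linear_combination -hv
    simp only [this]
  · rw [if_neg (cc_lam_im he)]
    have h2 : e * e = 1 := by rcases he with rfl | rfl <;> ring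
    refine cc_stab _ (y := 3 * -e) (dvd_mul_right _ _) ?_
    rw [cc_kap, t1, t3, show 1 + e * lam * 1 * (3 * -e) = 1 - 3 * lam by
      linear_combination -3 * lam * h2, show -((1 : O) ^ 2 * (3 * -e)) = e * 3 by ring,
      sym3_mul_left, cb_unit_t (IsUnit.of_mul_eq_one e h2), one_mul]
    exact sym3_three_ne

theorem cc_S_lower (x : O) : rho (SS * lower x) 0 = rho (lower x) 0 := by
  have e : SS * lower x = Tm (-x) * SS := by
    obtain ⟨t1, t2, t3, t4⟩ := TS_apply (-x)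
    obtain ⟨s1, s2, s3, s4⟩ := SS_apply
    obtain ⟨c1, c2, c3, c4⟩ := lower_apply x
    apply SLO_ext <;> rw [SLO_mul SS] <;>
      simp only [t1, t2, t3, t4, s1, s2, s3, s4, c1, c2, c3, c4] <;> ring
  rw [e, rho_TS_zero, rho_lower_zero]
  simp

theorem cc_SS (σ : SLO) (n : O) : rho (SS * (SS * σ)) n = rho σ n := by
  obtain ⟨δ, d1, d2, d3, d4⟩ := exists_SLO (a := -1) (b := 0) (c := 0) (d := -1) (by ring)
  have e : SS * (SS * σ) = σ * δ := by
    obtain ⟨s1, s2, s3, s4⟩ := SS_apply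
    apply SLO_ext <;> simp only [SLO_mul, s1, s2, s3, s4, d1, d2, d3, d4] <;> ring
  rw [e, cs_diag σ δ (u := -1) (v := -1) (by ring) d1 d2 d3 d4]
  congr 1
  ring

theorem cc_zero (σ : SLO) : rho (SS * σ) 0 = rho σ 0 ∧ ‖rho σ 0‖ ≤ ‖sg0‖ := by
  have key : ∀ σ : SLO, ¬ lam ∣ σ 0 0 → rho (SS * σ) 0 = rho σ 0 ∧ ‖rho σ 0‖ ≤ ‖sg0‖ := by
    intro σ ha
    obtain ⟨u, hu, hP⟩ := exists_prim_assoc ha
    obtain ⟨η, hη, h1, h2⟩ := cc_key (σ := σ) (σ0 := lower (u * σ 1 0)) hu hP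
      (by rw [show lower (u * σ 1 0) 1 0 = u * σ 1 0 from rfl, sub_self]; exact dvd_zero _)
    refine ⟨by rw [h1, h2, cc_S_lower], ?_⟩
    rw [h1, norm_mul, hη, one_mul, rho_lower_zero]
    split_ifs <;> simp
  by_cases ha : lam ∣ σ 0 0
  · have hc : ¬ lam ∣ (SS * σ) 0 0 := fun h => prime_lam.not_isUnit (isUnit_of_dvd_one (by
      obtain ⟨s1, s2, s3, s4⟩ := SS_apply
      rw [SLO_mul, s1, s2, zero_mul, zero_add, neg_one_mul, dvd_neg] at h
      rw [← det_SLO σ]; exact (ha.mul_right _).sub (h.mul_left _)))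
    obtain ⟨h1, h2⟩ := key _ hc
    rw [cc_SS] at h1
    exact ⟨h1.symm, h1 ▸ h2⟩
  · exact key σ ha

theorem norm_rho_zero_le (σ : SLO) : ‖rho σ 0‖ ≤ ‖sg0‖ := (cc_zero σ).2

theorem rho_S (σ : SLO) (n : O) : rho (SS * σ) n = rho σ n := by
  have e1 := equi_Phi1 (m := 9) dvd_rfl
  have e2 := equi_tw (m := 9) dvd_rfl SS
  have hE : Equi 9 kap0 fun x => 1 / 2 * (Phi1 x - tw Phi1 SS x) := by
    refine ⟨fun x => ?_, fun x hx => ?_, fun γ hγ x => ?_⟩
    · have := norm_sub_le (Phi1 x) (tw Phi1 SS x)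
      rw [norm_mul]
      norm_num
      linarith [e1.bd x, e2.bd x]
    · rw [e1.supp x hx, e2.supp x hx]; simp
    · rw [e1.eqv γ hγ, e2.eqv γ hγ]; ring
  obtain ⟨ρ, h⟩ := theta_machine (m := 9) (by decide) (mulS_kap0 dvd_rfl) hE
  have hv : ∀ σ n, ρ σ n = 1 / 2 * (rho σ n - rho (SS * σ) n) := fun σ n => by
    refine (h.res σ n).unique ((((rho_out.res σ n).sub (rho_out.res (SS * σ) n)).const_mul
      (1 / 2)).congr fun s hs => ?_)
    rw [Dser, Dser, Dser, ← (summable_Dser cd_nine (equi_tw dvd_rfl σ).bd n hs).tsum_sub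
      (summable_Dser cd_nine (equi_tw dvd_rfl (SS * σ)).bd n hs), ← tsum_mul_left]
    refine tsum_congr fun c => ?_
    split_ifs
    · rw [← mul_sub, mul_left_comm, Ssum, Ssum, Ssum, ← Finset.sum_sub_distrib, Finset.mul_sum]
      congr 1
      refine Finset.sum_congr rfl fun d _ => ?_
      rw [← tw_tw]
      simp only [tw]
      ring
    · simp
  have := h.van (fun σ => by rw [hv, (cc_zero σ).1, sub_self, mul_zero]) σ n
  rw [hv] at this
  linear_combination -2 * this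

theorem cc_twT : tw Phi1 (Tm 1) = Phi1 := by
  funext ⟨c, d⟩
  obtain ⟨a1, a2, a3, a4⟩ := Tm_apply (-1)
  simp only [tw, Tm_inv, rmul, a1, a2, a3, a4, Phi1, mul_one, mul_zero, add_zero]
  by_cases h : (3 : O) ∣ c ∧ Prim d
  · have hP : Prim (c * -1 + d) := h.2.congr (by simpa using h.1)
    rw [if_pos h, if_pos ⟨h.1, hP⟩, sym3_congr (y := d) ⟨-1, by ring⟩, cubic_recip h.2 hP,
      sym3_congr (y := -c) ⟨1, by ring⟩, kub_sym3_neg]
  · rw [if_neg h, if_neg fun h' => h ⟨h'.1, h'.2.congr (by simpa using h'.1)⟩]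

theorem qq_im {m : O} (h : ¬ 3 ∣ m.im) : qq m = 0 := by
  have h1 : rho (Tm 1) (3 * m) = rho 1 (3 * m) := by
    refine (rho_out.res _ _).unique ?_
    rw [cc_twT]
    simpa only [tw_one] using rho_out.res 1 (3 * m)
  have h2 := rho_Tm 1 1 (3 * m)
  have h3 := rho_S 1 (3 * m)
  rw [one_mul, h1] at h2
  rw [mul_one] at h3
  rw [qq, h3]
  by_contra h0
  have h4 : psi (toC (3 * m) * toC 1 / 9) = 1 := mul_right_cancel₀ h0 (by rw [← h2, one_mul])
  rw [show toC (3 * m) * toC 1 / 9 = ((m.re / 3 : ℝ) : ℂ) + ((m.im / 3 : ℝ) : ℂ) * omC by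
    rw [map_one, map_mul, map_ofNat]
    simp only [toC, RingHom.coe_mk, MonoidHom.coe_mk, OneHom.coe_mk]
    push_cast
    ring, psi_coord, Complex.exp_eq_one_iff] at h4
  obtain ⟨k, hk⟩ := h4
  have h5 : ((m.im / 3 : ℝ) : ℂ) = k :=
    mul_left_cancel₀ Complex.two_pi_I_ne_zero (by rw [hk]; ring)
  have h6 : (m.im : ℝ) = 3 * k := by
    have : (m.im / 3 : ℝ) = k := by exact_mod_cast h5
    linarith
  exact h ⟨k, by exact_mod_cast h6⟩

end

end Vale.Agent.P006
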