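import Vale.Agent.P006.ConstDefs
import Vale.Agent.P026.Bes2
import Vale.Agent.P026.Res
import Vale.Agent.P026.Lat

namespace Vale.Agent.P006

open Vale.Agent.P026 Complex MeasureTheory Filter Topology
open scoped Classical ComplexConjugate Real MatrixGroups

noncomputable section

/-- Mellin transform of the Bessel kernel -/
def Bf (w : ℂ) : ℂ :=
  π / Complex.Gamma (4 / 3) * (4 * π ^ 2 : ℂ) ^ (-w) * Complex.Gamma w * Complex.Gamma (w + 1 / 3)

theorem cd_mel {w : ℂ} (hw : 0 < w.re) : MellinConvergent (fun x => bb x (4 / 3)) w ∧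
    mellin (fun x => bb x (4 / 3)) w = Bf w := by
  obtain ⟨h1, h2⟩ := kk_mellin (s := w - 1 / 3) (by simp; linarith)
  have e : ∀ t ∈ Set.Ioi (0 : ℝ), (t : ℂ) ^ (w - 1 / 3 - 1) • kk t =
      (t : ℂ) ^ (w - 1) • bb t (4 / 3) := fun t ht => by
    have : (t : ℂ) ≠ 0 := by exact_mod_cast (ne_of_gt ht)
    rw [kk, Complex.ofReal_cpow (le_of_lt ht), smul_eq_mul, smul_eq_mul, ← mul_assoc,
      ← Complex.cpow_add _ _ this]
    congr 2
    push_cast
    ring
  refine ⟨(integrableOn_congr_fun e measurableSet_Ioi).1 h1, ?_⟩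
  rw [mellin, setIntegral_congr_fun measurableSet_Ioi e] at h2
  rw [mellin, h2, Bf, show -(w - 1 / 3) - 1 / 3 = -w by ring, show w - 1 / 3 + 1 / 3 = w by ring,
    show w - 1 / 3 + 2 / 3 = w + 1 / 3 by ring]

theorem cd_bd {u : O → ℂ} {A : ℝ} (hu : ∀ n, ‖u n‖ ≤ A) (h0 : u 0 = 0) {a : ℝ} (ha : 1 < a) :
    ∃ C : ℝ, ∀ X : ℝ, 0 < X → Summable (fun n => u n * bb (N n * X) (4 / 3)) ∧
      ‖∑' n, u n * bb (N n * X) (4 / 3)‖ ≤ C * X ^ (-a) := by
  obtain ⟨C, hC0, hC⟩ := bb_decay (a := a) (by linarith)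
  have hA : 0 ≤ A := (norm_nonneg _).trans (hu 0)
  refine ⟨A * C * ∑' n : O, N n ^ (-a), fun X hX => ?_⟩
  have h1 := (summable_N_rpow ha).mul_left (A * C * X ^ (-a))
  have h2 : ∀ n, ‖u n * bb (N n * X) (4 / 3)‖ ≤ A * C * X ^ (-a) * N n ^ (-a) := fun n => by
    by_cases hn : n = 0
    · rw [hn, h0, zero_mul, norm_zero]
      exact mul_nonneg (by positivity) (Real.rpow_nonneg (N_nonneg _) _)
    · have := N_pos hn
      rw [norm_mul]
      calc _ ≤ A * (C * (N n * X) ^ (-a)) :=
            mul_le_mul (hu n) (hC _ (by positivity)) (norm_nonneg _) hA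
        _ = _ := by rw [Real.mul_rpow this.le hX.le]; ring
  refine ⟨Summable.of_norm_bounded h1 h2, (tsum_of_norm_bounded h1.hasSum h2).trans_eq ?_⟩
  rw [tsum_mul_left]
  ring

theorem cd_sum {u : O → ℂ} {A : ℝ} (hu : ∀ n, ‖u n‖ ≤ A) (h0 : u 0 = 0) {s : ℂ} (hs : 1 < s.re) :
    mellin (fun X => ∑' n, u n * bb (N n * X) (4 / 3)) s =
      (∑' n : O, u n * ((N n : ℝ) : ℂ) ^ (-s)) * Bf s := by
  have hA : 0 ≤ A := (norm_nonneg _).trans (hu 0)
  obtain ⟨m1, m2⟩ := cd_mel (w := s) (by linarith)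
  set F : O → ℝ → ℂ := fun n X => (X : ℂ) ^ (s - 1) • (u n * bb (N n * X) (4 / 3)) with hF
  have e : ∀ n, F n = fun X : ℝ => u n * ((X : ℂ) ^ (s - 1) • bb (N n * X) (4 / 3)) :=
    fun n => funext fun X => by simp only [hF, smul_eq_mul]; ring
  have e0 : F 0 = fun _ => 0 := funext fun X => by simp [hF, h0]
  have it : ∀ n, Integrable (F n) (volume.restrict (Set.Ioi 0)) := fun n => by
    by_cases hn : n = 0
    · rw [hn, e0]; exact integrable_zero _ _ _
    · rw [e n]
      exact Integrable.const_mul ((MellinConvergent.comp_mul_left (N_pos hn)).2 m1) _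
  have sm : Summable fun n => ∫ X in Set.Ioi 0, ‖F n X‖ := by
    refine (((summable_N_rpow hs).mul_right
      ‖mellin (fun x => ((‖bb x (4 / 3)‖ : ℝ) : ℂ)) s.re‖).mul_left A).of_nonneg_of_le
      (fun n => integral_nonneg fun _ => norm_nonneg _) fun n => ?_
    by_cases hn : n = 0
    · rw [hn, e0]
      simp only [norm_zero, integral_zero]
      exact mul_nonneg hA (mul_nonneg (Real.rpow_nonneg (N_nonneg _) _) (norm_nonneg _))
    · have hp := N_pos hn
      have a : ((∫ X : ℝ in Set.Ioi 0, ‖(X : ℂ) ^ (s - 1) • bb (N n * X) (4 / 3)‖ : ℝ) : ℂ) =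
          mellin (fun X : ℝ => ((‖bb (N n * X) (4 / 3)‖ : ℝ) : ℂ)) (s.re : ℂ) := by
        rw [← integral_complex_ofReal, mellin]
        refine setIntegral_congr_fun measurableSet_Ioi fun X hX => ?_
        simp only [norm_smul, norm_cpow_eq_rpow_re_of_pos hX]
        simp [ofReal_cpow (le_of_lt hX)]
      rw [mellin_comp_mul_left (fun x => ((‖bb x (4 / 3)‖ : ℝ) : ℂ)) _ hp] at a
      have b := congrArg (‖·‖) a
      simp only [norm_smul ((_ : ℂ) ^ (-(s.re : ℂ))), norm_cpow_eq_rpow_re_of_pos hp,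
        neg_re, ofReal_re, norm_real] at b
      rw [← b, e n]
      simp only [norm_mul (u n), integral_const_mul]
      exact mul_le_mul (hu n) (le_abs_self _) (integral_nonneg fun _ => norm_nonneg _) hA
  have h := (hasSum_integral_of_summable_integral_norm it sm).tsum_eq
  rw [← tsum_mul_right, mellin]
  simp only [hF, smul_eq_mul, tsum_mul_left] at h
  refine (h.symm.trans (tsum_congr fun n => ?_))
  change ∫ X in Set.Ioi 0, F n X = _
  by_cases hn : n = 0
  · simp [hn, e0, h0]
  · rw [e n, integral_const_mul, mul_assoc, ← m2, ← smul_eq_mul (_ ^ (-s)),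
      ← mellin_comp_mul_left (fun x => bb x (4 / 3)) _ (N_pos hn)]
    rfl

/-- an asymptotic formula for the Bessel-smoothed sum determines the generalized residue -/
theorem res_of_asymp {u : O → ℂ} {A : ℝ} (hu : ∀ n, ‖u n‖ ≤ A) (h0 : u 0 = 0) {K : ℂ} {C : ℝ}
    (h : ∀ x : ℝ, 0 < x → x ≤ 1 →
      ‖∑' n : O, u n * bb (N n * x) (4 / 3) - K * ((x ^ (-(2 / 3) : ℝ) : ℝ) : ℂ)‖ ≤ C) :
    IsRes (fun s => ∑' n : O, u n * ((N n : ℝ) : ℂ) ^ (-(s - 2 / 3)))
      (K / (Complex.I * (B0 : ℂ))) := by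
  set T : ℝ → ℂ := fun X => ∑' n, u n * bb (N n * X) (4 / 3) with hT
  set Q : ℝ → ℂ := fun X => K • (Set.Ioc (0 : ℝ) 1).indicator
    (fun Y : ℝ => (Y : ℂ) ^ (-(2 / 3) : ℂ)) X with hQ
  set E : ℝ → ℂ := fun X => T X - Q X with hE
  have hloc : LocallyIntegrableOn E (Set.Ioi 0) := by
    obtain ⟨C1, h1⟩ := cd_bd hu h0 one_lt_two
    have m1 : AEStronglyMeasurable T (volume.restrict (Set.Ioi 0)) := by
      refine aestronglyMeasurable_of_tendsto_ae atTop (f := fun (R : ℝ) X =>
        ∑ n ∈ ballO R, u n * bb (N n * X) (4 / 3)) (fun R => ?_)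
        ((ae_restrict_iff' measurableSet_Ioi).2 (.of_forall fun X hX =>
          tendsto_sum_ballO (h1 X hX).1 (by simp [h0])))
      refine ContinuousOn.aestronglyMeasurable (continuousOn_finsetSum _ fun n _ =>
        continuousOn_const.mul ?_) measurableSet_Ioi
      exact (continuousOn_bb (s := 4 / 3) (by norm_num)).comp (by fun_prop)
        fun x hx => mul_nonneg (N_nonneg n) (le_of_lt hx)
    refine (locallyIntegrableOn_iff isOpen_Ioi.isLocallyClosed).2 fun S hK hc => ?_
    have c : ContinuousOn (fun X : ℝ => C1 * X ^ (-2 : ℝ)) S :=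
      continuousOn_const.mul (continuousOn_id.rpow_const fun x hx => Or.inl (ne_of_gt (hK hx)))
    have i1 : IntegrableOn T S :=
      (c.integrableOn_compact hc).mono' (m1.mono_measure (Measure.restrict_mono hK le_rfl))
        ((ae_restrict_iff' hc.measurableSet).2 (.of_forall fun X hX => (h1 X (hK hX)).2))
    have c2 : ContinuousOn (fun Y : ℝ => (Y : ℂ) ^ (-(2 / 3) : ℂ)) S :=
      Complex.continuous_ofReal.continuousOn.cpow_const fun x hx => Or.inl (by simpa using hK hx)
    exact i1.sub (((c2.integrableOn_compact hc).indicator measurableSet_Ioc).smul K)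
  have hbot : E =O[𝓝[>] 0] fun X : ℝ => X ^ (-(0 : ℝ)) := by
    refine Asymptotics.IsBigO.of_bound C ?_
    filter_upwards [Ioc_mem_nhdsGT one_pos] with X hX
    have := h X hX.1 hX.2
    rw [neg_zero, Real.rpow_zero, norm_one, mul_one]
    simp only [hE, hQ, hT]
    rw [Set.indicator_of_mem hX]
    refine le_of_eq_of_le ?_ this
    rw [Complex.ofReal_cpow hX.1.le, smul_eq_mul]
    norm_num
  have htop : ∀ a : ℝ, 1 < a → E =O[atTop] fun X : ℝ => X ^ (-a) := by
    intro a ha
    obtain ⟨C1, h1⟩ := cd_bd hu h0 ha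
    refine Asymptotics.IsBigO.of_bound C1 ?_
    filter_upwards [eventually_gt_atTop 1] with X hX
    rw [Real.norm_of_nonneg (Real.rpow_nonneg (by linarith) _)]
    simp only [hE, hQ, hT]
    rw [Set.indicator_of_notMem (fun h => by linarith [h.2]), smul_zero, sub_zero]
    exact (h1 X (by linarith)).2
  have hJ : DifferentiableOn ℂ (fun s => mellin E (s - 2 / 3)) {s | 1 < s.re} := by
    intro s hs
    have hs' : 1 < s.re := hs
    refine (DifferentiableAt.comp s (g := mellin E)
      (mellin_differentiableAt_of_isBigO_rpow hloc (htop s.re hs') (by simp)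
        hbot (by simp; linarith)) (by fun_prop)).differentiableWithinAt
  have hβ : Bf (4 / 3 - 2 / 3) = (B0 : ℝ) := by
    rw [Bf, B0, show (4 / 3 - 2 / 3 : ℂ) = 2 / 3 by norm_num, show (2 / 3 + 1 / 3 : ℂ) = 1 by
      norm_num, Complex.Gamma_one, mul_one]
    push_cast
    rw [Complex.ofReal_cpow (by positivity), ← Complex.Gamma_ofReal, ← Complex.Gamma_ofReal]
    push_cast
    rfl
  have hB : ((B0 : ℝ) : ℂ) ≠ 0 := by
    have h1 := Real.Gamma_pos_of_pos (s := 4 / 3) (by norm_num)
    have h2 := Real.Gamma_pos_of_pos (s := 2 / 3) (by norm_num)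
    have : 0 < B0 := by unfold B0; positivity
    exact_mod_cast this.ne'
  refine ⟨fun s => mellin E (s - 2 / 3) + K / (s - 4 / 3), fun s => Bf (s - 2 / 3), ?_, ?_,
    by simp only [hβ]; exact hB, ?_, ?_⟩
  · refine (res_Om hJ).add ((differentiableOn_const K).div (by fun_prop) fun s hs h => ?_)
    have := congrArg Complex.im h
    simp at this
    exact hs.2.1.ne' this
  · intro s hs
    have hs' : 1 < s.re := hs
    have g : ∀ a : ℝ, 0 ≤ a → DifferentiableAt ℂ (fun s : ℂ => Complex.Gamma (s - 2 / 3 + a)) s :=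
      fun a ha => (Complex.differentiableAt_Gamma _ fun m hm => by
        have := congrArg Complex.re hm
        simp at this
        linarith [Nat.cast_nonneg (α := ℝ) m]).comp s (by fun_prop)
    have g1 := g 0 le_rfl
    have g2 := g (1 / 3) (by norm_num)
    simp only [ofReal_zero, add_zero] at g1
    push_cast at g2
    refine (((DifferentiableAt.const_mul ?_ _).mul g1).mul g2).differentiableWithinAt
    refine DifferentiableAt.const_cpow (by fun_prop) (Or.inl ?_)
    exact_mod_cast (by positivity : (4 * π ^ 2 : ℝ) ≠ 0)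
  · intro s _ hs
    have a1 : 1 < (s - 2 / 3).re := by simp; linarith
    obtain ⟨q1, q2⟩ := hasMellin_cpow_Ioc (-(2 / 3)) (s := s - 2 / 3) (by simp; linarith)
    obtain ⟨q3, q4⟩ := hasMellin_const_smul q1 K
    have c1 : MellinConvergent E (s - 2 / 3) :=
      mellinConvergent_of_isBigO_rpow hloc (htop s.re (by linarith)) (by simp) hbot
        (by simp; linarith)
    have := (hasMellin_add c1 q3).2
    rw [q4, q2, show s - 2 / 3 + -(2 / 3) = s - 4 / 3 by ring, smul_eq_mul, mul_one_div] at this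
    simp only
    rw [← this, ← cd_sum hu h0 a1]
    congr 1
    funext X
    simp only [hE, hQ, hT, sub_add_cancel]
  · have hU : (UU : Filter ℝ) ≤ 𝓝[>] 0 := Ultrafilter.of_le _
    have t0 : Tendsto (fun ε : ℝ => (ε : ℂ)) (UU : Filter ℝ) (𝓝 0) := by
      have := (Complex.continuous_ofReal.tendsto 0).mono_left (hU.trans nhdsWithin_le_nhds)
      simpa using this
    have t1 := (t0.mul (res_lim hJ)).add_const (K / Complex.I)
    rw [zero_mul, zero_add] at t1
    simp only [hβ]
    rw [show K / (Complex.I * (B0 : ℂ)) * (B0 : ℂ) = K / Complex.I by field_simp]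
    refine t1.congr' ?_
    filter_upwards [hU self_mem_nhdsWithin] with ε hε
    have : (ε : ℂ) ≠ 0 := by exact_mod_cast (ne_of_gt hε)
    rw [mul_add, add_sub_cancel_left]
    field_simp

end

end Vale.Agent.P006
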