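import Vale.Agent.P006.Defs2

namespace Vale.Agent.P006

open Vale.Agent.P026 Complex MeasureTheory Filter Topology
open scoped Classical ComplexConjugate Real MatrixGroups

noncomputable section

/-- the constant term of the theta function at the essential cusps -/
def sg0 : ℂ := (kap : ℂ) / (3 * Complex.I * (zp2 : ℂ))
/-- Mellin transform of the Bessel kernel at `2/3` -/
def B0 : ℝ := π / Real.Gamma (4 / 3) * (4 * π ^ 2) ^ (-(2 / 3) : ℝ) * Real.Gamma (2 / 3)
/-- decay ratio of the inversion defect -/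
def Rk (k : ℝ) : ℝ := k ^ (1 / 3 : ℝ) * (k + 0.706 * (k - 1)) * Real.exp (-(2.415 * (k - 1)))
/-- inversion defect of the Bessel kernel at height `1.001` -/
def wv (x : ℝ) : ℝ :=
  (1.001 : ℝ) ^ (-(4 / 3) : ℝ) * (bb (x / 1.001 ^ 2) (4 / 3)).re - (bb (x * 1.001 ^ 2) (4 / 3)).re
/-- majorant for the remaining Fourier coefficients -/
def maj (m : O) : ℝ :=
  if 4 ≤ Nm m ∧ 3 ∣ m.im then (if 3 ∣ m.re then 2.21 else 1) * Rk (√(N m)) else 0

end

end Vale.Agent.P006
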