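import Vale.Agent.P006.ConstE1

namespace Vale.Agent.P006

open Vale.Agent.P026 Complex MeasureTheory Filter Topology
open scoped Classical ComplexConjugate Real MatrixGroups

noncomputable section

theorem zp2_pos' : 0 < zp2 := lt_of_lt_of_le one_pos zp2_pos

theorem I_sg0 : Complex.I * sg0 = ((kap / (3 * zp2) : ℝ) : ℂ) := by
  have : ((zp2 : ℝ) : ℂ) ≠ 0 := by exact_mod_cast zp2_pos'.ne'
  rw [sg0]
  push_cast
  field_simp

theorem norm_sg0 : ‖sg0‖ = kap / (3 * zp2) := by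
  have h := congrArg norm I_sg0
  rwa [norm_mul, Complex.norm_I, one_mul, Complex.norm_real,
    Real.norm_of_nonneg (div_pos kap_pos (by linarith [zp2_pos'])).le] at h

theorem B0_pos : 0 < B0 := by
  have h1 := Real.Gamma_pos_of_pos (s := 4 / 3) (by norm_num)
  have h2 := Real.Gamma_pos_of_pos (s := 2 / 3) (by norm_num)
  unfold B0
  positivity

theorem ce_norm {μ : O} (hμ : ∀ a, Prim a → IsCoprime μ a) {K : ℂ} {C : ℝ}
    (h : ∀ x : ℝ, 0 < x → x ≤ 1 → ‖HH μ x - K * ((x ^ (-(2 / 3) : ℝ) : ℝ) : ℂ)‖ ≤ C) :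
    ‖qq μ‖ ^ 2 * (zp2 * B0 / 9) = ‖K‖ := by
  have h1 := congrArg norm (ce_sq hμ h)
  have hB := B0_pos
  simp only [norm_mul, norm_div, Complex.norm_conj, Complex.norm_I, Complex.norm_real,
    Real.norm_of_nonneg zp2_pos'.le, Real.norm_of_nonneg hB.le, Complex.norm_ofNat] at h1
  field_simp at h1 ⊢
  linarith

theorem ce_psi {y : O} (h : 3 ∣ y.im) : psi (-(toC y / 3)) = 1 := by
  obtain ⟨k, hk⟩ := h
  rw [show -(toC y / 3) = ((-y.re / 3 : ℝ) : ℂ) + ((-k : ℝ) : ℂ) * omC by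
    simp only [toC, RingHom.coe_mk, MonoidHom.coe_mk, OneHom.coe_mk, hk]
    push_cast
    ring, psi_coord, Complex.exp_eq_one_iff]
  exact ⟨-k, by push_cast; ring⟩

theorem ce_27 : (27 : ℝ) ^ (-(2 / 3) : ℝ) = 1 / 9 := by
  rw [show (27 : ℝ) = 3 ^ (3 : ℝ) by norm_num, ← Real.rpow_mul (by norm_num)]
  norm_num

theorem ce_one : ∃ C : ℝ, ∀ x : ℝ, 0 < x → x ≤ 1 →
    ‖HH 1 x - π * sg0 / 9 * ((x ^ (-(2 / 3) : ℝ) : ℝ) : ℂ)‖ ≤ C := by
  obtain ⟨C, hC⟩ := ce_asymp one_ne_zero (fun y => Tm y * SS)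
    (fun y => by rw [(TS_apply y).2.2.1]; exact one_ne_zero)
    (fun y => by rw [(TS_apply y).2.2.1, (TS_apply y).1])
  refine ⟨C, fun x hx hx1 => ?_⟩
  convert hC x hx hx1 using 3
  have h3 : ∀ a : O, (3 : O) ∣ a ↔ 3 ∣ a.re ∧ 3 ∣ a.im := fun a => intCast_dvd_iff 3 a
  have e : ∀ y : O, (((N (9 * 1))⁻¹ : ℝ) : ℂ) * psi (-(toC y / 3)) *
      ((((27 * N ((Tm y * SS) 1 0) / N 1) ^ (-(2 / 3) : ℝ) : ℝ) : ℂ) *
        (rho (Tm y * SS) 0 * (3 * π))) =
      (if 3 ∣ y - 0 then π * sg0 / 243 else 0) + (if 3 ∣ y - 1 then π * sg0 / 243 else 0) +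
        (if 3 ∣ y - -1 then π * sg0 / 243 else 0) := fun y => by
    rw [(TS_apply y).2.2.1, N_one, mul_one, mul_one, div_one, ce_27, rho_TS_zero, N_ofNat]
    simp only [h3, QuadraticAlgebra.re_sub, QuadraticAlgebra.im_sub, QuadraticAlgebra.re_neg,
      QuadraticAlgebra.im_neg, QuadraticAlgebra.re_one, QuadraticAlgebra.im_one,
      sub_zero, neg_zero]
    by_cases h : 3 ∣ y.im
    · rw [ce_psi h]
      simp only [h, and_true, if_true]
      split_ifs <;> first | omega | (push_cast; ring)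
    · simp [h]
  simp only [e, Finset.sum_add_distrib]
  rw [show (9 : O) * 1 = 3 * 3 by norm_num, cb_count (by decide) (by decide),
    cb_count (by decide) (by decide), cb_count (by decide) (by decide), N_ofNat]
  push_cast
  ring

theorem ce_one_norm : ‖qq 1‖ ^ 2 * (zp2 * B0 / 9) = π * ‖sg0‖ / 9 := by
  obtain ⟨C, hC⟩ := ce_one
  rw [ce_norm (fun a _ => isCoprime_one_left) hC, norm_div, norm_mul, Complex.norm_real,
    Real.norm_of_nonneg Real.pi_pos.le, Complex.norm_ofNat]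

theorem norm_cc_one : ‖cc 1‖ = cst := by
  have h := ce_one_norm
  have hz := zp2_pos'
  have hk := kap_pos
  have g1 := Real.Gamma_pos_of_pos (s := 1 / 3) (by norm_num)
  have g2 := Real.Gamma_pos_of_pos (s := 2 / 3) (by norm_num)
  have g3 := Real.Gamma_add_one (s := 1 / 3) (by norm_num)
  have g4 := Real.Gamma_mul_Gamma_one_sub (1 / 3)
  have hpi := Real.pi_pos
  rw [show π * (1 / 3) = π / 3 by ring, Real.sin_pi_div_three,
    show (1 - 1 / 3 : ℝ) = 2 / 3 by norm_num, show π / (√3 / 2) = kap by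
      rw [kap]; field_simp] at g4
  have hP : 0 < (2 * π) ^ (2 / 3 : ℝ) := by positivity
  have e : (4 * π ^ 2) ^ (-(2 / 3) : ℝ) = (((2 * π) ^ (2 / 3 : ℝ)) ^ 2)⁻¹ := by
    rw [Real.rpow_neg (by positivity), show 4 * π ^ 2 = (2 * π) ^ 2 by ring, ← Real.rpow_natCast,
      ← Real.rpow_natCast, ← Real.rpow_mul (by positivity), ← Real.rpow_mul (by positivity),
      mul_comm (2 / 3 : ℝ)]
  rw [norm_sg0, B0, show (4 / 3 : ℝ) = 1 / 3 + 1 by norm_num, g3, e] at h
  rw [cc, norm_div, norm_mul, norm_mul, Complex.norm_I, one_mul, Complex.norm_real,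
    Complex.norm_real, Real.norm_of_nonneg hz.le, Real.norm_of_nonneg hk.le, cst]
  generalize (2 * π) ^ (2 / 3 : ℝ) = P at h hP ⊢
  rw [← g4] at h ⊢
  refine (pow_left_inj₀ (by positivity) (by positivity) two_ne_zero).1 ?_
  field_simp at h ⊢
  nlinarith

theorem th_star {a : O} (ha : Prim a) : th (star a) = conj (th a) := by
  have key : ∀ b d : O, Prim b → Squarefree b → Prim d →
      th (star (b * d ^ 3)) = conj (th (b * d ^ 3)) ∧ th (b * d ^ 3) ≠ 0 := fun b d hb hs hd => by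
    have hs' : Squarefree (star b) := fun x hx => by
      have := hs (star x) (by
        obtain ⟨k, hk⟩ := hx
        exact ⟨star k, by rw [← star_star b, hk, star_mul', star_mul']⟩)
      rwa [isUnit_iff_Nm, Nm_star, ← isUnit_iff_Nm] at this
    rw [star_mul', star_pow, th_eq hb.star hs' hd.star, th_eq hb hs hd, G0_star, N_star, map_mul,
      conj_ofReal]
    refine ⟨rfl, mul_ne_zero ?_ ?_⟩
    · rw [← norm_pos_iff, Complex.norm_conj, norm_G0 hb hs]
      exact one_pos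
    · exact_mod_cast (Real.rpow_pos_of_pos (N_pos hb.ne_zero) _).ne'
  rcases th_cases ha with ⟨b, d, hb, hs, hd, rfl⟩ | ⟨h0, -⟩
  · exact (key b d hb hs hd).1
  · rcases th_cases ha.star with ⟨b, d, hb, hs, hd, e⟩ | ⟨h1, -⟩
    · obtain ⟨k1, k2⟩ := key b d hb hs hd
      rw [← e, star_star, h0] at k1
      rw [← e] at k2
      exact absurd (by simpa using k1.symm) k2
    · rw [h0, h1, map_zero]

theorem ce_real {x : ℝ} (hx : 0 < x) : ∃ r : ℝ, HH 1 x = qq 1 * r := by
  set h : ℂ := ∑' a : O, (if Prim a then th a else 0) * bb (N a * x) (4 / 3) with hh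
  have h1 : conj h = h := by
    rw [hh, Complex.conj_tsum]
    rw [← (Function.Involutive.toPerm (star : O → O) star_star).tsum_eq
      fun a => conj ((if Prim a then th a else 0) * bb (N a * x) (4 / 3))]
    refine tsum_congr fun a => ?_
    change conj ((if Prim (star a) then th (star a) else 0) * bb (N (star a) * x) (4 / 3)) = _
    rw [map_mul, ce_conj_bb (mul_nonneg (N_nonneg _) hx.le), N_star]
    by_cases ha : Prim a
    · rw [if_pos ha, if_pos ha.star, th_star ha, conj_conj]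
    · rw [if_neg ha, if_neg fun h' => ha (by simpa using h'.star), map_zero]
  refine ⟨h.re, ?_⟩
  rw [Complex.conj_eq_iff_re.1 h1, hh, HH, ← tsum_mul_left]
  refine tsum_congr fun a => ?_
  split_ifs with ha
  · rw [qq_mul ha isCoprime_one_left, sym3_one_left]
    ring
  · simp

theorem ce_im : (Complex.I * qq 1).im = 0 := by
  obtain ⟨C, hC⟩ := ce_one
  by_contra h0
  set t := Complex.I * qq 1 with ht
  have hK : 0 < π * (kap / (3 * zp2)) / 9 := by
    have := kap_pos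
    have := zp2_pos'
    positivity
  set K := π * (kap / (3 * zp2)) / 9 with hKd
  have hb : ∀ x : ℝ, 0 < x → x ≤ 1 → K * x ^ (-(2 / 3) : ℝ) ≤ C + |t.re| * (C / |t.im|) := by
    intro x hx hx1
    obtain ⟨r, hr⟩ := ce_real hx
    have h1 := hC x hx hx1
    have h2 : ‖t * r - ((K * x ^ (-(2 / 3) : ℝ) : ℝ) : ℂ)‖ ≤ C := by
      refine le_of_eq_of_le ?_ h1
      rw [← one_mul ‖HH 1 x - _‖, ← Complex.norm_I, ← norm_mul, hr, hKd, ht]
      congr 1
      push_cast
      have := I_sg0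
      push_cast at this
      rw [← this]
      ring
    have h3 := (Complex.abs_im_le_norm _).trans h2
    have h4 := (Complex.abs_re_le_norm _).trans h2
    simp only [sub_im, mul_im, ofReal_re, ofReal_im, mul_zero, zero_add, sub_zero, sub_re, mul_re,
      abs_mul] at h3 h4
    have h5 : |r| ≤ C / |t.im| := by
      rw [le_div_iff₀ (abs_pos.2 h0)]
      linarith
    have h6 := (abs_le.1 h4).1
    have h7 : t.re * r ≤ |t.re| * (C / |t.im|) :=
      (le_abs_self _).trans (by rw [abs_mul]; gcongr)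
    linarith
  set M := C + |t.re| * (C / |t.im|)
  have hy : 1 ≤ |M| / K + 1 := le_add_of_nonneg_left (by positivity)
  have h1 := hb ((|M| / K + 1) ^ (-(3 / 2) : ℝ)) (by positivity)
    (Real.rpow_le_one_of_one_le_of_nonpos hy (by norm_num))
  rw [← Real.rpow_mul (by positivity), show (-(3 / 2) : ℝ) * -(2 / 3) = 1 by norm_num,
    Real.rpow_one, mul_add, mul_div_cancel₀ _ hK.ne'] at h1
  linarith [le_abs_self M]

theorem cc_one_im : (cc 1).im = 0 := by
  rw [cc, mul_div_assoc, ← Complex.ofReal_div, Complex.mul_im, ce_im]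
  simp

theorem ce_rpow {a b : ℝ} (ha : 0 < a) (hb : 0 < b) (h : 1 ≤ b ^ 3 * a ^ 2) :
    a ^ (-(2 / 3) : ℝ) ≤ b := by
  refine (pow_le_pow_iff_left₀ (by positivity) hb.le three_ne_zero).1 ?_
  rw [← Real.rpow_natCast, ← Real.rpow_mul ha.le, show -(2 / 3 : ℝ) * (3 : ℕ) = -(2 : ℕ) by
    norm_num, Real.rpow_neg ha.le, Real.rpow_natCast, inv_le_iff_one_le_mul₀ (by positivity)]
  exact h

theorem ce_gam {u : O} (hu : IsUnit u) (y : O) : ∃ γ : SLO, γ 1 0 ≠ 0 ∧
    γ 0 0 * (3 * u) = y * γ 1 0 ∧ N (γ 1 0) ^ (-(2 / 3) : ℝ) ≤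
      0.232 + (if lam ∣ y - 0 then 0.25 else 0) + (if 3 ∣ y - 0 then 0.52 else 0) := by
  obtain ⟨v, hv⟩ := hu.exists_right_inv
  have key : ∀ a c : O, IsCoprime a c → ∃ γ : SLO, γ 0 0 = a ∧ γ 1 0 = c := fun a c ⟨s, t, h⟩ => by
    obtain ⟨γ, h1, -, h2, -⟩ := exists_SLO (a := a) (b := -t) (c := c) (d := s)
      (by linear_combination h)
    exact ⟨γ, h1, h2⟩
  have h3 : (3 : O) = -lam ^ 2 := by rw [lam_sq, neg_neg]
  simp only [sub_zero]
  by_cases h1 : (3 : O) ∣ y
  · obtain ⟨z, rfl⟩ := h1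
    obtain ⟨γ, g1, g2⟩ := key (z * v) 1 isCoprime_one_right
    refine ⟨γ, by rw [g2]; exact one_ne_zero, by rw [g1, g2]; linear_combination 3 * z * hv, ?_⟩
    rw [g2, N_one, Real.one_rpow, if_pos ⟨-lam * z, by rw [h3]; ring⟩, if_pos (dvd_mul_right _ _)]
    norm_num
  by_cases h2 : lam ∣ y
  · obtain ⟨z, rfl⟩ := h2
    have hz : ¬ lam ∣ -z * v := fun ⟨k, hk⟩ => h1 ⟨k * u, by
      linear_combination (-lam * u) * hk - lam * z * hv - k * u * lam_sq⟩
    obtain ⟨γ, g1, g2⟩ := key (-z * v) lam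
      ((prime_lam.irreducible.coprime_iff_not_dvd).2 hz).symm
    refine ⟨γ, by rw [g2]; exact prime_lam.ne_zero, by
      rw [g1, g2]; linear_combination -3 * z * hv - z * lam_sq, ?_⟩
    rw [g2, N_lam, if_pos (dvd_mul_right _ _), if_neg h1]
    exact ce_rpow (by norm_num) (by norm_num) (by norm_num)
  · have hc : IsCoprime y (3 * u) := by
      rw [isCoprime_mul_unit_right_right hu, h3, IsCoprime.neg_right_iff]
      exact ((prime_lam.irreducible.coprime_iff_not_dvd).2 h2).symm.pow_right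
    obtain ⟨γ, g1, g2⟩ := key y (3 * u) hc
    refine ⟨γ, by rw [g2]; exact mul_ne_zero (by decide) hu.ne_zero, by rw [g1, g2], ?_⟩
    rw [g2, N_mul, N_unit hu, N_ofNat, if_neg h2, if_neg h1]
    exact ce_rpow (by norm_num) (by norm_num) (by norm_num)

theorem ce_count {a q : O} (ha : a ≠ 0) (hq : q ≠ 0) (b : O) (z : ℝ) :
    ∑ d ∈ rs (a * q), (if a ∣ d - b then z else 0) = N q * z := by
  have h := cb_count ha hq b z
  rw [← Complex.ofReal_inj]
  push_cast
  rw [← h]
  exact Finset.sum_congr rfl fun d _ => by split_ifs <;> simp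

theorem norm_qq_three {u : O} (hu : IsUnit u) : ‖qq (3 * u)‖ ≤ 2.21 * ‖qq 1‖ := by
  choose γ g1 g2 g3 using ce_gam hu
  have hμ : 3 * u ≠ 0 := mul_ne_zero (by decide) hu.ne_zero
  obtain ⟨C, hC⟩ := ce_asymp hμ γ g1 g2
  have h1 := ce_norm (fun a ha => by
    rw [isCoprime_mul_unit_right_left hu]; exact ha.coprime_three.symm) hC
  have h2 := ce_one_norm
  have hN : N (3 * u) = 9 := by rw [N_mul, N_unit hu, N_ofNat]; norm_num
  have hN' : N (9 * (3 * u)) = 729 := by rw [N_mul, hN, N_ofNat]; norm_num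
  have hpi := Real.pi_pos
  have h3 := h1.le.trans (norm_sum_le_of_le (n := fun y => 1 / 729 * (0.482 *
      (0.232 + (if lam ∣ y - 0 then 0.25 else 0) + (if 3 ∣ y - 0 then 0.52 else 0)) *
      (‖sg0‖ * (3 * π)))) _ fun y _ => by
    have hc := N_pos (g1 y)
    rw [norm_mul, norm_mul, norm_mul, norm_mul, norm_psi, mul_one, hN', hN, Complex.norm_real,
      Complex.norm_real, Real.norm_of_nonneg (by positivity), Real.norm_of_nonneg (by positivity),
      show 27 * N (γ y 1 0) / 9 = 3 * N (γ y 1 0) by ring, Real.mul_rpow (by norm_num) hc.le,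
      one_div, show (3 * π : ℂ) = ((3 * π : ℝ) : ℂ) by push_cast; rfl, Complex.norm_real,
      Real.norm_of_nonneg (by positivity)]
    gcongr
    · exact ce_rpow (by norm_num) (by norm_num) (by norm_num)
    · exact g3 y
    · exact norm_rho_zero_le _)
  rw [← Finset.mul_sum, ← Finset.sum_mul, ← Finset.mul_sum, Finset.sum_add_distrib,
    Finset.sum_add_distrib, Finset.sum_const, card_rs (mul_ne_zero cd_nine hμ), nsmul_eq_mul,
    show ((Nm (9 * (3 * u)) : ℕ) : ℝ) = 729 from hN'] at h3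
  have c1 := ce_count (a := lam) (q := -lam * 9 * u) prime_lam.ne_zero
    (mul_ne_zero (by decide) hu.ne_zero) 0 0.25
  have c2 := ce_count (a := 3) (q := 9 * u) (by decide) (mul_ne_zero cd_nine hu.ne_zero) 0 0.52
  rw [show lam * (-lam * 9 * u) = 9 * (3 * u) by linear_combination -9 * u * lam_sq, N_mul, N_mul,
    N_neg, N_lam, N_ofNat, N_unit hu] at c1
  rw [show 3 * (9 * u) = 9 * (3 * u) by ring, N_mul, N_ofNat, N_unit hu] at c2
  rw [c1, c2] at h3
  have hW : 0 < zp2 * B0 / 9 := by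
    have := zp2_pos'
    have := B0_pos
    positivity
  refine (pow_le_pow_iff_left₀ (norm_nonneg _) (by positivity) two_ne_zero).1
    (le_of_mul_le_mul_right ?_ hW)
  rw [mul_pow, mul_assoc, h2]
  refine h3.trans ?_
  have : 0 ≤ π * ‖sg0‖ := by positivity
  nlinarith

theorem norm_qq_le {m : O} (hm : m ≠ 0) :
    ‖qq m‖ ≤ (if 3 ∣ m.re then 2.21 else 1) * ‖qq 1‖ := by
  obtain ⟨u, k, y, hu, hy, rfl⟩ := exists_unit_lam_prim hm
  have h0 := norm_nonneg (qq 1)
  have h1 : ‖qq (u * lam ^ k * y)‖ ≤ ‖qq (u * lam ^ (k % 3))‖ := by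
    rw [show u * lam ^ k * y = u * lam ^ (k % 3) * y * (lam ^ (k / 3)) ^ 3 by
      conv_lhs => rw [← Nat.mod_add_div k 3]
      ring, qq_cube _ (pow_ne_zero _ prime_lam.ne_zero), qq_mul hy (by
        rw [isCoprime_mul_unit_left_left hu]
        exact ((prime_lam.irreducible.coprime_iff_not_dvd).2 hy.not_lam_dvd).pow_left),
      norm_mul, norm_mul]
    exact mul_le_of_le_one_left (norm_nonneg _)
      (mul_le_one₀ (norm_th_le y) (norm_nonneg _) (norm_sym3_le _ _))
  have h2 : ‖qq 1‖ ≤ (if 3 ∣ (u * lam ^ k * y).re then 2.21 else 1) * ‖qq 1‖ := by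
    split_ifs <;> linarith
  refine h1.trans ?_
  obtain h | h | h : k % 3 = 0 ∨ k % 3 = 1 ∨ k % 3 = 2 := by omega
  · rw [h, pow_zero, mul_one]
    by_cases h3 : 3 ∣ u.im
    · rcases (cc_unit_im hu).1 h3 with rfl | rfl
      · exact h2
      · rwa [show qq (-1) = qq 1 by rw [← qq_cube 1 (k := -1) (by decide)]; congr 1]
    · rw [qq_im h3, norm_zero]
      exact h0.trans h2
  · rw [h, pow_one, qq_im (by
      rcases unit_cases hu with rfl | rfl | rfl | rfl | rfl | rfl <;> decide), norm_zero]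
    exact h0.trans h2
  · rw [h, lam_sq, show u * -3 = 3 * -u by ring, if_pos]
    · exact norm_qq_three hu.neg
    · refine ((intCast_dvd_iff 3 _).1 ⟨-(u * lam ^ (k - 2) * y), ?_⟩).1
      rw [show k = k - 2 + 2 by omega, pow_add, lam_sq]
      push_cast
      ring

end

end Vale.Agent.P006
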