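import Vale.Agent.P006.CS

namespace Vale.Agent.P006

open Vale.Agent.P026 Complex MeasureTheory Filter Topology
open scoped Classical ComplexConjugate Real MatrixGroups

noncomputable section

theorem er_tw (c d : O) : tw Phi1 SS (c, d) = Phi1 (-d, c) := by
  have := tw_TS 0 c d
  rwa [Tm_zero, one_mul, zero_mul, add_zero] at this

theorem er_three_ne : (3 : O) ≠ 0 := fun h => sr_nine_ne (by linear_combination 3 * h)

theorem er_g3 (h n : O) : g3 h n = ∑ x ∈ rs n, sym3 x n * psi (toC (h * x) / toC n) := by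
  unfold g3
  simp only [map_mul]

theorem er_per (n : O) : Per n (fun x => sym3 x n) := fun _ _ h => sym3_congr h

theorem er_scale {c t : O} (hc : c ≠ 0) (ht : IsCoprime t c) (h : O) :
    g3 h c = sym3 t c * g3 (h * t) c := by
  rw [er_g3, er_g3, ← sum_rs_mul hc ht (sr_per hc (er_per c)), Finset.mul_sum]
  refine Finset.sum_congr rfl fun x _ => ?_
  rw [sym3_mul_left, mul_assoc h]
  ring

theorem er_cube {c t : O} (hc : c ≠ 0) (ht : IsCoprime t c) (h : O) :
    g3 (h * t ^ 3) c = g3 h c := by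
  rw [er_scale hc (ht.pow_left (m := 3)) h, sym3_pow_left, sym3_cube ht, one_mul]

theorem er_lam_cop {c : O} (hc : Prim c) : IsCoprime lam c :=
  prime_lam.irreducible.coprime_iff_not_dvd.2 hc.not_lam_dvd

theorem er_cop9 {c : O} (hc : Prim c) : IsCoprime (9 : O) c := by
  have := (hc.coprime_three.pow_right (n := 2)).symm
  rwa [show (3 : O) ^ 2 = 9 by norm_num] at this

theorem er_cnt : ∑ x ∈ rs (9 : O), (if (3 : O) ∣ x then (1 : ℂ) else 0) = 9 := by
  have hper : Per (3 * 3) (fun x => if (3 : O) ∣ x then (1 : ℂ) else 0) := by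
    intro x y hxy
    have hd : (3 : O) ∣ x - y := (dvd_mul_right _ _).trans hxy
    have : (3 : O) ∣ x ↔ (3 : O) ∣ y :=
      ⟨fun h => by simpa using dvd_sub h hd, fun h => by simpa using dvd_add hd h⟩
    simp only [this]
  rw [show (9 : O) = 3 * 3 by norm_num, sum_rs_split er_three_ne er_three_ne hper,
    ← sum_class er_three_ne 0 9]
  refine Finset.sum_congr rfl fun x _ => ?_
  have : ∀ i, (3 : O) ∣ x + 3 * i ↔ (3 : O) ∣ 0 - x := fun i => by
    rw [dvd_add_left (dvd_mul_right 3 i), zero_sub, dvd_neg]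
  simp only [this]
  rw [dr_const er_three_ne, N_ofNat]
  split_ifs <;> norm_num

theorem S_SS (n : O) {c : O} (hc : c ≠ 0) :
    Ssum 9 (tw Phi1 SS) (3 * n) c = if Prim c then 9 * g3 (lam * n) c else 0 := by
  split_ifs with hP
  swap
  · rw [Ssum]
    refine Finset.sum_eq_zero fun d _ => ?_
    rw [er_tw, Phi1, if_neg (fun h => hP h.2), zero_mul]
  have hper := sr_per (n := 3 * n) (mul_ne_zero sr_nine_ne hc) (sr_Phi_per SS c)
  have l1 := sym3_cube (er_lam_cop hP)
  have e9 : sym3 9 c = sym3 lam c := by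
    rw [show (9 : O) = lam ^ 4 by linear_combination (3 - lam ^ 2) * lam_sq, sym3_pow_left]
    linear_combination sym3 lam c * l1
  rw [sr_Ssum, sum_rs_crt sr_nine_ne hc (er_cop9 hP) hper,
    er_scale hc (er_lam_cop hP).neg_left, er_g3, ← er_cnt, Finset.mul_sum, Finset.sum_mul_sum]
  refine Finset.sum_congr rfl fun x1 _ => Finset.sum_congr rfl fun x2 _ => ?_
  rw [sr_psi_crt sr_nine_ne hc, er_tw, Phi1]
  have e1 : (3 : O) ∣ -(x1 * c + x2 * 9) ↔ (3 : O) ∣ x1 := by
    rw [dvd_neg, dvd_add_left ⟨x2 * 3, by ring⟩]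
    exact ⟨fun h => hP.coprime_three.symm.dvd_of_dvd_mul_right h, fun h => h.mul_right _⟩
  simp only [e1, hP, and_true]
  split_ifs with h3
  · obtain ⟨y, rfl⟩ := h3
    have e2 : psi (toC (3 * n * (3 * y)) / toC 9) = 1 := by
      have := psi_congr sr_nine_ne (x := 3 * n * (3 * y)) (y := 0) ⟨n * y, by ring⟩
      rwa [map_zero, zero_div, psi_zero] at this
    rw [e2, kub_sym3_neg, kub_sym3_neg, sym3_congr (x := 3 * y * c + x2 * 9) (y := x2 * 9)
      ⟨3 * y, by ring⟩, sym3_mul_left, e9,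
      show lam * n * -lam = 3 * n by linear_combination (-n) * lam_sq]
    ring
  · simp

theorem rho_SS_three {n : O} (hn : ¬ (3 : O) ∣ n) : rho SS n = 0 := by
  refine (rho_out.res SS n).unique (isRes_zero.congr fun s _ => ?_)
  rw [Dser]
  refine (tsum_zero.symm.trans (tsum_congr fun c => ?_))
  split_ifs with hc
  swap
  · rfl
  have e : 9 * c = 3 * c * 3 := by ring
  rw [sr_Ssum, e, sr_vanish (mul_ne_zero er_three_ne hc) er_three_ne _ hn, mul_zero]
  intro x y hxy
  have hd : (3 : O) ∣ x - y := (dvd_mul_right _ _).trans hxy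
  have : (3 : O) ∣ x ↔ (3 : O) ∣ y :=
    ⟨fun h => by simpa using dvd_sub h hd, fun h => by simpa using dvd_add hd h⟩
  simp only [er_tw, Phi1, dvd_neg, this, kub_sym3_neg]
  rw [sym3_congr ((dvd_mul_left _ _).trans hxy)]

theorem er_qq_cop (n : O) {t : O} (ht : ∀ c, Prim c → IsCoprime t c) :
    qq (n * t ^ 3) = qq n := by
  refine (rho_out.res SS _).unique ((rho_out.res SS _).congr fun s _ => ?_)
  refine tsum_congr fun c => ?_
  split_ifs with hc
  · rw [S_SS _ hc, S_SS _ hc]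
    split_ifs with hP
    · rw [← mul_assoc lam, er_cube hc (ht c hP)]
    · rfl
  · rfl

theorem qq_cube (n : O) {k : O} (hk : k ≠ 0) : qq (n * k ^ 3) = qq n := by
  obtain ⟨u, j, y, hu, hy, rfl⟩ := exists_unit_lam_prim hk
  rw [← er_qq_cop n (t := u * lam ^ j) fun c hc =>
    IsCoprime.mul_left ⟨hu.unit⁻¹.1, 0, by simp⟩ (er_lam_cop hc).pow_left]
  unfold qq
  rw [← rho_cube rho_out SS (3 * (n * (u * lam ^ j) ^ 3)) hy]
  congr 1
  ring

theorem qq_sq {n p : O} (hp : Prime p) (hP : Prim p) (hn : ¬ p ∣ n) : qq (n * p ^ 2) = 0 := by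
  unfold qq
  rw [← mul_assoc]
  exact rho_sq rho_out SS hp hP fun h => hn (hP.coprime_three.dvd_of_dvd_mul_left h)

theorem qq_mul {n a : O} (ha : Prim a) (hn : IsCoprime n a) :
    qq (n * a) = th a * sym3 n a * qq n := by
  unfold qq
  rw [← mul_assoc, rho_th good_SS ha (ha.coprime_three.symm.mul_left hn),
    show 9 * (3 * n) = 3 ^ 3 * n by ring, sym3_mul_left, sym3_pow_left,
    sym3_cube ha.coprime_three.symm, one_mul]

theorem g3_nonsq {h c : O} (hc : Prim c) (hh : IsCoprime c h) (hs : ¬ Squarefree c) :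
    g3 (lam * h) c = 0 := by
  rw [squarefree_iff_irreducible_sq_not_dvd_of_ne_zero hc.ne_zero] at hs
  push Not at hs
  obtain ⟨p, hp, w, hw⟩ := hs
  have hp' := hp.prime
  have hpc : p ∣ c := ⟨p * w, by rw [hw]; ring⟩
  have hw0 : p * w ≠ 0 := fun h0 => hc.ne_zero (by rw [hw]; linear_combination p * h0)
  have e : c = p * w * p := by rw [hw]; ring
  have hn : ¬ p ∣ lam * h := fun hd => hp.not_isUnit
    (((er_lam_cop hc).symm.mul_right hh).isUnit_of_dvd' hpc hd)
  rw [er_g3, e]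
  refine sr_vanish hw0 hp'.ne_zero (fun x y hxy => ?_) hn
  rw [sym3_mul_right _ hw0 hp'.ne_zero, sym3_mul_right _ hw0 hp'.ne_zero, sym3_congr hxy,
    sym3_congr ((dvd_mul_right _ _).trans hxy)]

theorem er_mul {a b : O} (ha : Prim a) (hb : Prim b) (hab : IsCoprime a b) (h : O) :
    g3 h (a * b) = g3 (h * b) a * g3 h b := by
  have h1 := er_scale ha.ne_zero hab.symm h
  have h2 : g3 h (a * b) = sym3 b a ^ 2 * (g3 h a * g3 h b) := by
    have hne := mul_ne_zero ha.ne_zero hb.ne_zero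
    rw [er_g3, er_g3, er_g3, sum_rs_crt ha.ne_zero hb.ne_zero hab (sr_per hne (er_per _)),
      Finset.sum_mul_sum, Finset.mul_sum]
    refine Finset.sum_congr rfl fun x1 _ => ?_
    rw [Finset.mul_sum]
    refine Finset.sum_congr rfl fun x2 _ => ?_
    rw [sr_psi_crt ha.ne_zero hb.ne_zero, sym3_mul_right _ ha.ne_zero hb.ne_zero,
      sym3_congr (x := x1 * b + x2 * a) (y := x1 * b) ⟨x2, by ring⟩,
      sym3_congr (x := x1 * b + x2 * a) (y := x2 * a) ⟨x1, by ring⟩, sym3_mul_left,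
      sym3_mul_left, cubic_recip ha hb]
    ring
  rw [h2, h1]
  linear_combination g3 (h * b) a * g3 h b * sym3_cube hab.symm

theorem er_van {p h : O} (hp : Prime p) {j k : ℕ} (hn : ¬ p ^ j ∣ h) (hk : j < k) :
    g3 h (p ^ k) = 0 := by
  obtain ⟨i, rfl⟩ : ∃ i, k = i + 1 + j := ⟨k - j - 1, by omega⟩
  rw [er_g3]
  simp only [sym3_pow_right _ hp.ne_zero]
  rw [pow_add p]
  refine sr_vanish (pow_ne_zero _ hp.ne_zero) (pow_ne_zero _ hp.ne_zero) (fun x y hxy => ?_) hn
  rw [sym3_congr ((dvd_pow_self p (by omega)).trans hxy)]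

theorem er_p1 {p : O} (hp : Prime p) (hP : Prim p) (h : O) : g3 (h * p) p = 0 := by
  rw [g3_twist hp hP, sym3_congr (x := h * p) (y := 0) ⟨h, by ring⟩,
    (sym3_eq_zero_iff hp.ne_zero).2 (fun h => hp.not_isUnit (isCoprime_zero_left.1 h))]
  simp

theorem er_p2 {p : O} (hp : Prime p) (h : O) :
    g3 (h * p) (p ^ 2) = ((N p : ℝ) : ℂ) * conj (g3 h p) := by
  have h0 := hp.ne_zero
  have hc := toC_ne_zero h0
  have e : ∀ x, sym3 x (p ^ 2) * psi (toC (h * p * x) / toC (p ^ 2)) =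
      sym3 x p ^ 2 * psi (toC (h * x) / toC p) := fun x => by
    rw [sym3_pow_right _ h0]
    congr 2
    simp only [map_mul, map_pow]
    field_simp
  have hper : Per p (fun x => sym3 x p ^ 2 * psi (toC (h * x) / toC p)) :=
    sr_per h0 fun x y hxy => by simp only [sym3_congr hxy]
  have e1 : g3 h p = g3 (h * -1) p := by
    rw [er_scale h0 (isCoprime_one_left.neg_left) h, sym3_neg_one, one_mul]
  rw [er_g3]
  simp only [e]
  rw [sq p, sum_rs_split h0 h0 (hper.mono (dvd_mul_right p p)), e1, er_g3, map_sum,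
    Finset.mul_sum]
  refine Finset.sum_congr rfl fun x _ => ?_
  have e2 : ∀ j, sym3 (x + p * j) p ^ 2 * psi (toC (h * (x + p * j)) / toC p) =
      sym3 x p ^ 2 * psi (toC (h * x) / toC p) := fun j => hper _ _ ⟨j, by ring⟩
  simp only [e2]
  rw [dr_const h0, map_mul (starRingEnd ℂ), conj_sym3, ← psi_neg]
  congr 3
  simp only [map_mul, map_neg, map_one]
  ring

theorem er_p3 {p h : O} (hp : Prime p) (hn : ¬ p ∣ h) :
    g3 (h * p ^ 2) (p ^ 3) = -((N p : ℝ) : ℂ) ^ 2 := by
  rw [er_g3]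
  simp only [sr_sym3_pow hp (k := 3) dvd_rfl (by norm_num)]
  rw [sr_ram hp 2 (dvd_mul_left _ _), if_neg (sr_not_cube hp hn)]
  ring

/-- terms of the sifted series -/
def erA (n : O) (S : Finset O) (s : ℂ) (c : O) : ℂ :=
  if Prim c ∧ ∀ q ∈ S, ¬ q ∣ c then ((N c : ℝ) : ℂ) ^ (-s) * g3 (lam * n) c else 0

theorem er_A0 (n : O) (s : ℂ) (c : O) :
    erA n ∅ s c = 9⁻¹ * drA 9 (tw Phi1 SS) (3 * n) s c := by
  unfold erA drA
  by_cases hc : c = 0
  · rw [if_neg (fun h => h.1.ne_zero hc), if_neg (not_not.2 hc), mul_zero]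
  · rw [if_pos hc, S_SS _ hc]
    by_cases hP : Prim c
    · rw [if_pos ⟨hP, by simp⟩, if_pos hP]; ring
    · rw [if_neg (fun h => hP h.1), if_neg hP]; ring

theorem er_sum (n : O) (S : Finset O) {s : ℂ} (hs : 3 < s.re) : Summable (erA n S s) := by
  refine Summable.of_norm_bounded ((dr_sumA sr_nine_ne (dr_bd SS) (3 * n) hs).mul_left 9⁻¹).norm
    fun c => ?_
  rw [← er_A0]
  unfold erA
  by_cases h : Prim c ∧ ∀ q ∈ S, ¬ q ∣ c
  · rw [if_pos h, if_pos ⟨h.1, by simp⟩]
  · rw [if_neg h, norm_zero]; exact norm_nonneg _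

theorem er_ins (n p : O) (S : Finset O) (s : ℂ) (c : O) :
    erA n (insert p S) s c = if ¬ p ∣ c then erA n S s c else 0 := by
  unfold erA
  by_cases h : p ∣ c <;> simp [h]

theorem er_step {p : O} {S : Finset O} (hp : Prime p) (hP : Prim p)
    (hS : ∀ q ∈ S, Prime q ∧ ¬ q ∣ p) (n : O) (s : ℂ) {c : O} (hc : ¬ p ∣ c) (k : ℕ) :
    erA n S s (c * p ^ k) = (((N p : ℝ) : ℂ) ^ (-s)) ^ k * g3 (lam * n) (p ^ k) *
      erA (n * p ^ k) S s c := by
  unfold erA
  have e : (Prim (c * p ^ k) ∧ ∀ q ∈ S, ¬ q ∣ c * p ^ k) ↔ (Prim c ∧ ∀ q ∈ S, ¬ q ∣ c) := by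
    refine ⟨fun h => ⟨(mul_comm c _ ▸ h.1).of_mul (hP.pow k),
      fun q hq hd => h.2 q hq (hd.mul_right _)⟩,
      fun h => ⟨h.1.mul (hP.pow k), fun q hq hd => ?_⟩⟩
    rcases (hS q hq).1.dvd_or_dvd hd with h1 | h1
    · exact h.2 q hq h1
    · exact (hS q hq).2 ((hS q hq).1.dvd_of_dvd_pow h1)
  simp only [e]
  split_ifs with h
  · rw [dr_cpow, er_mul h.1 (hP.pow k) (sr_cop hp hc).symm.pow_right, mul_assoc lam]
    ring
  · simp

theorem er_two {p : O} {S : Finset O} (hp : Prime p) (hP : Prim p)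
    (hS : ∀ q ∈ S, Prime q ∧ ¬ q ∣ p) (n : O) {s : ℂ} (hs : 3 < s.re) {j : ℕ} (hj : 1 ≤ j)
    (hz : ∀ k, 1 ≤ k → k ≠ j → g3 (lam * n) (p ^ k) = 0) :
    ∑' c, erA n S s c = ∑' c, erA n (insert p S) s c +
      (((N p : ℝ) : ℂ) ^ (-s)) ^ j * g3 (lam * n) (p ^ j) *
        ∑' c, erA (n * p ^ j) (insert p S) s c := by
  have hq := pow_ne_zero j hp.ne_zero
  have hpq : p ∣ p ^ j := dvd_pow_self p (by omega)
  have hA := er_sum n S hs
  have hB := er_sum n (insert p S) hs
  have z0 : ∀ m T, erA m T s 0 = 0 := fun m T => if_neg fun h => h.1.ne_zero rfl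
  have h1 : ∑' c, erA n S s (c * p ^ j) = ∑' c, (erA n S s c - erA n (insert p S) s c) := by
    rw [← Function.Injective.tsum_eq (g := fun c : O => c * p ^ j) (mul_left_injective₀ hq)
      (f := fun c => erA n S s c - erA n (insert p S) s c)]
    · apply tsum_congr
      intro c
      rw [er_ins, if_neg (not_not.2 (hpq.mul_left c)), sub_zero]
    · intro c hc
      rw [Function.mem_support, er_ins] at hc
      by_cases h1 : p ∣ c
      · rw [if_neg (not_not.2 h1), sub_zero] at hc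
        have hc0 : c ≠ 0 := fun h => hc (h ▸ z0 n S)
        obtain ⟨c', k, hc', rfl⟩ := dr_decomp hp hc0
        have k0 : k ≠ 0 := by
          rintro rfl
          exact hc' (by simpa using h1)
        by_cases hk : k = j
        · exact ⟨c', by rw [hk]⟩
        · rw [er_step hp hP hS n s hc', hz k (by omega) hk] at hc
          simp at hc
      · rw [if_pos h1, sub_self] at hc
        exact absurd rfl hc
  have h2 : ∀ c, erA n S s (c * p ^ j) = (((N p : ℝ) : ℂ) ^ (-s)) ^ j * g3 (lam * n) (p ^ j) *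
      erA (n * p ^ j) (insert p S) s c := fun c => by
    rw [er_ins]
    by_cases h : p ∣ c
    · rw [if_neg (not_not.2 h), mul_zero]
      by_cases hc0 : c = 0
      · rw [hc0, zero_mul, z0]
      obtain ⟨c', k, hc', rfl⟩ := dr_decomp hp hc0
      have k0 : k ≠ 0 := by
        rintro rfl
        exact hc' (by simpa using h)
      rw [mul_assoc, ← pow_add, er_step hp hP hS n s hc', hz _ (by omega) (by omega)]
      simp
    · rw [if_pos h, er_step hp hP hS n s h]
  rw [tsum_congr h2, tsum_mul_left, hA.tsum_sub hB] at h1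
  linear_combination -h1

theorem er_per3 {p : O} (hp : Prime p) (S : Finset O) (n : O) (s : ℂ) (c : O) :
    erA (n * p ^ 3) (insert p S) s c = erA n (insert p S) s c := by
  unfold erA
  split_ifs with h
  · rw [← mul_assoc lam, er_cube h.1.ne_zero (sr_cop hp (h.2 p (Finset.mem_insert_self _ _)))]
  · rfl

theorem er_key {p n : O} (hp : Prime p) (hP : Prim p) (hn : ¬ p ∣ n) :
    g3 (lam * n) p * conj (g3 (lam * n) p) = ((N p : ℝ) : ℂ) ∧
    ((N p : ℝ) : ℂ) * (((N p : ℝ) : ℂ) ^ (-(4 / 3 : ℂ)) * g3 (lam * n) p * qq (n * p)) = qq n := by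
  have hN := N_pos hp.ne_zero
  have hcop := (sr_cop hp hn).symm
  obtain ⟨a, ha⟩ : ∃ a : ℝ, a = N p ^ (1 / 6 : ℝ) := ⟨_, rfl⟩
  have a0 : 0 < a := ha ▸ Real.rpow_pos_of_pos hN _
  have e6 : N p = a ^ 6 := by
    rw [ha, ← Real.rpow_natCast, ← Real.rpow_mul hN.le]; norm_num
  have e3 : ‖toC p‖ = a ^ 3 := by
    rw [norm_toC, e6, show a ^ 6 = (a ^ 3) ^ 2 by ring, Real.sqrt_sq (by positivity)]
  have e8 : ((N p : ℝ) : ℂ) ^ (-(4 / 3 : ℂ)) = (((a : ℂ)) ^ 8)⁻¹ := by
    have : N p ^ (-(4 / 3) : ℝ) = (a ^ 8)⁻¹ := by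
      rw [ha, ← Real.rpow_natCast, ← Real.rpow_mul hN.le, ← Real.rpow_neg hN.le]; norm_num
    have e := Complex.ofReal_cpow hN.le (-(4 / 3) : ℝ)
    rw [this] at e
    push_cast at e
    exact e.symm
  have hac : (a : ℂ) ≠ 0 := by exact_mod_cast a0.ne'
  have c2 := Complex.mul_conj' (sym3 n p)
  have c3 := Complex.mul_conj' (G0 p)
  rw [norm_sym3 hcop] at c2
  rw [norm_G0 hP hp.squarefree] at c3
  push_cast at c2 c3
  have eg : g3 (lam * n) p = conj (sym3 n p) * G0 p * (a : ℂ) ^ 3 := by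
    rw [G0, e3, er_scale hp.ne_zero hcop lam]
    push_cast
    field_simp
    linear_combination (-g3 (lam * n) p) * c2
  have et := th_eq hP hp.squarefree prim_one
  rw [one_pow, mul_one, Real.rpow_neg hN.le, ← ha] at et
  rw [qq_mul hP hcop, et, e8, eg, e6]
  simp only [map_mul, map_pow, Complex.conj_conj, Complex.conj_ofReal]
  push_cast
  constructor
  · linear_combination (a : ℂ) ^ 6 * (G0 p * conj (G0 p) * c2 + c3)
  · field_simp
    linear_combination qq n * (G0 p * conj (G0 p) * c2 + c3)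

theorem er_ind (S : Finset O) : (∀ q ∈ S, Prime q ∧ Prim q) → ∀ n : O, n ≠ 0 →
    IsRes (fun s => ∑' c, erA n S s c)
      (((∏ p ∈ S, (N p / (N p + 1)) : ℝ) : ℂ) * qq n / 9) := by
  induction S using Finset.induction_on with
  | empty =>
    intro _ n _
    have := ((rho_out.res SS (3 * n)).const_mul 9⁻¹).congr
      (D' := fun s => ∑' c, erA n ∅ s c) fun s _ => by
        simp only [er_A0]
        rw [tsum_mul_left, dr_Dser]
    convert this using 1
    simp [qq, div_eq_inv_mul]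
  | insert p S hpS ih =>
    intro hS n hn
    obtain ⟨hp, hP⟩ := hS p (Finset.mem_insert_self _ _)
    have ih' := ih fun q hq => hS q (Finset.mem_insert_of_mem hq)
    have hS' : ∀ q ∈ S, Prime q ∧ ¬ q ∣ p := fun q hq => by
      obtain ⟨h1, h2⟩ := hS q (Finset.mem_insert_of_mem hq)
      exact ⟨h1, fun hd => hpS ((h2.eq_of_associated hP
        ((h1.irreducible.associated_of_dvd hp.irreducible) hd)) ▸ hq)⟩
    obtain ⟨n0, n1, n2⟩ := thr_ne hp hP
    rw [Finset.prod_insert hpS]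
    push_cast at ih' ⊢
    set K : ℂ := ∏ q ∈ S, (((N q : ℝ) : ℂ) / (((N q : ℝ) : ℂ) + 1)) with hK
    have hd : ∀ (j : ℕ) (z : ℂ), DifferentiableOn ℂ
        (fun s : ℂ => (((N p : ℝ) : ℂ) ^ (-s)) ^ j * z) {s | 1 < s.re} := fun j z =>
      Differentiable.differentiableOn
        (((Differentiable.const_cpow (by fun_prop) (Or.inl n0)).pow j).mul_const _)
    have e2 : ∀ s : ℂ, ((N p : ℝ) : ℂ) ^ ((2 : ℂ) - 3 * s) =
        ((N p : ℝ) : ℂ) ^ 2 * (((N p : ℝ) : ℂ) ^ (-s)) ^ 3 := fun s => by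
      have := dr_cpow3 hp.ne_zero 2 s
      push_cast at this
      exact this
    have ev : 1 - (((N p : ℝ) : ℂ) ^ 2)⁻¹ = (((N p : ℝ) : ℂ) - 1) * (((N p : ℝ) : ℂ) + 1) /
      ((N p : ℝ) : ℂ) ^ 2 := by field_simp; ring
    have ev0 : 1 - ((N p : ℝ) : ℂ) ^ ((2 : ℂ) - 3 * (4 / 3)) ≠ 0 := by
      rw [thr_val2, ev]; exact div_ne_zero (mul_ne_zero n2 n1) (pow_ne_zero _ n0)
    have hl : ∀ m, ¬ p ∣ m → ¬ p ∣ lam * m := fun m hm hd =>
      hm ((er_lam_cop hP).symm.dvd_of_dvd_mul_left hd)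
    have red : ∀ m : O, ¬ p ∣ m → ∀ e, e < 3 → IsRes (fun s => ∑' c, erA (m * p ^ e) (insert p S) s c)
        (((N p : ℝ) : ℂ) / (((N p : ℝ) : ℂ) + 1) * K * qq (m * p ^ e) / 9) := by
      intro m hm
      have hm0 := sr_ne hm
      obtain ⟨k1, k2⟩ := er_key hp hP hm
      have t0 : ∀ s : ℂ, 3 < s.re → _ := fun s hs => er_two hp hP hS' m hs (j := 1) le_rfl
        fun k h1 h2 => er_van hp (j := 1) (by rw [pow_one]; exact hl m hm) (by omega)
      have t1 : ∀ s : ℂ, 3 < s.re → _ := fun s hs => er_two hp hP hS' (m * p) hs (j := 2)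
        (by norm_num) fun k h1 h2 => by
          rw [← mul_assoc]
          by_cases hk : k = 1
          · rw [hk, pow_one, er_p1 hp hP]
          · refine er_van hp (j := 2) (fun h => hl m hm ?_) (by omega)
            rwa [sq, mul_dvd_mul_iff_right hp.ne_zero] at h
      have t2 : ∀ s : ℂ, 3 < s.re → _ := fun s hs => er_two hp hP hS' (m * p ^ 2) hs (j := 3)
        (by norm_num) fun k h1 h2 => by
          rw [← mul_assoc]
          by_cases hk : k = 1
          · rw [hk, pow_one, sq, ← mul_assoc, er_p1 hp hP]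
          by_cases hk2 : k = 2
          · rw [hk2, show lam * m * p ^ 2 = lam * m * p * p by ring, er_p2 hp, er_p1 hp hP]
            simp
          · exact er_van hp (j := 3) (sr_not_cube hp (hl m hm)) (by omega)
      simp only [pow_one] at t0
      simp only [show m * p * p ^ 2 = m * p ^ 3 by ring, er_per3 hp, ← mul_assoc lam,
        er_p2 hp] at t1
      simp only [er_per3 hp, ← mul_assoc lam, er_p3 hp (hl m hm)] at t2
      have r0 := ih' m hm0
      have r1 := ih' (m * p) (mul_ne_zero hm0 hp.ne_zero)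
      have hd1 := hd 1 (g3 (lam * m) p)
      simp only [pow_one] at hd1
      have a0 : IsRes (fun s => ∑' c, erA m (insert p S) s c)
          (((N p : ℝ) : ℂ) / (((N p : ℝ) : ℂ) + 1) * K * qq m / 9) := by
        have := ((r0.sub (r1.mul hd1)).congr
          (D' := fun s => (1 - ((N p : ℝ) : ℂ) ^ ((2 : ℂ) - 3 * s)) *
            ∑' c, erA m (insert p S) s c) fun s hs => by
          rw [t0 s hs, t1 s hs, e2]
          linear_combination (-((N p : ℝ) : ℂ) * (((N p : ℝ) : ℂ) ^ (-s)) ^ 3 *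
            ∑' c, erA m (insert p S) s c) * k1).of_mul (thr_diff n0 2) ev0
        convert this using 1
        rw [thr_val2, ev, ← k2]
        field_simp
      intro e he
      interval_cases e
      · simpa using a0
      · have g0 : ((N p : ℝ) : ℂ) ^ (-(4 / 3 : ℂ)) * g3 (lam * m) p ≠ 0 := by
          refine mul_ne_zero (by simp [n0]) fun h => n0 ?_
          rw [← k1, h, zero_mul]
        have := ((r0.sub a0).congr
          (D' := fun s => ((N p : ℝ) : ℂ) ^ (-s) * g3 (lam * m) p *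
            ∑' c, erA (m * p) (insert p S) s c) fun s hs => by
          rw [t0 s hs]; ring).of_mul hd1 g0
        rw [pow_one]
        convert this using 1
        rw [eq_div_iff g0, ← k2]
        field_simp
        ring
      · have r2 := ih' (m * p ^ 2) (mul_ne_zero hm0 (pow_ne_zero _ hp.ne_zero))
        have := (r2.congr (D' := fun s => (1 - ((N p : ℝ) : ℂ) ^ ((2 : ℂ) - 3 * s)) *
            ∑' c, erA (m * p ^ 2) (insert p S) s c) fun s hs => by
          rw [t2 s hs, e2]; ring).of_mul (thr_diff n0 2) ev0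
        convert this using 1
        rw [qq_sq hp hP hm]
        simp
    obtain ⟨m, k, hm, rfl⟩ := dr_decomp hp hn
    induction k using Nat.strong_induction_on with
    | _ k ihk =>
      by_cases hk : k < 3
      · exact red m hm k hk
      · obtain ⟨i, rfl⟩ : ∃ i, k = i + 3 := ⟨k - 3, by omega⟩
        have := ihk i (by omega) (mul_ne_zero (sr_ne hm) (pow_ne_zero _ hp.ne_zero))
        rw [pow_add, ← mul_assoc, qq_cube _ hp.ne_zero]
        simpa only [er_per3 hp] using this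

theorem er_res {n r : O} (hn : n ≠ 0) (hr : r ≠ 0) :
    IsRes (Es n r) (((∏ p ∈ pf r, (N p / (N p + 1)) : ℝ) : ℂ) * qq n / 9) := by
  refine (er_ind (pf r) (fun q hq => ⟨((mem_pf hr).1 hq).1, ((mem_pf hr).1 hq).2.1⟩) n hn).congr
    fun s _ => tsum_congr fun c => ?_
  unfold erA
  by_cases hc : Prim c
  · simp only [hc, true_and, coprime_iff_pf hc hr]
  · simp [hc]

end

end Vale.Agent.P006
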