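import Vale.Agent.P006.ConstC
import Vale.Agent.P006.ConstD
import Vale.Agent.P006.ER

namespace Vale.Agent.P006

open Vale.Agent.P026 Complex MeasureTheory Filter Topology
open scoped Classical ComplexConjugate Real MatrixGroups

noncomputable section

/-- Bessel-smoothed sum of the coefficients on the class `μ * primary` -/
def HH (μ : O) (x : ℝ) : ℂ :=
  ∑' a : O, (if Prim a then qq (μ * a) else 0) * bb (N a * x) (4 / 3)

theorem ce_conj_bb {x : ℝ} (hx : 0 ≤ x) : conj (bb x (4 / 3)) = bb x (4 / 3) := by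
  obtain ⟨b, hb, -⟩ := bb_real
  rw [(hb x hx).1, conj_ofReal]

theorem ce_conj_cpow (n : O) (w : ℂ) :
    conj (((N n : ℝ) : ℂ) ^ (-conj w)) = ((N n : ℝ) : ℂ) ^ (-w) := by
  have h : ((N n : ℝ) : ℂ).arg ≠ π := by
    rw [Complex.arg_ofReal_of_nonneg (N_nonneg n)]
    exact Real.pi_ne_zero.symm
  rw [← map_neg, ← Complex.conj_cpow _ _ h, conj_ofReal]

theorem ce_dir {μ : O} (hμ : ∀ a, Prim a → IsCoprime μ a) {s : ℂ} (hs : 3 < s.re) :
    ∑' n : O, (if Prim n then conj (qq (μ * n)) else 0) * ((N n : ℝ) : ℂ) ^ (-(s - 2 / 3)) =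
      conj (qq μ) / 9 * (((1 - (3 : ℂ) ^ (-(3 * s - 2))) * riemannZeta (3 * s - 2) *
        DirichletCharacter.LFunction chi3D (3 * s - 2)) * Dser 9 (tw Phi1 SS) (3 * μ) s) := by
  set w := s - 2 / 3 with hw
  have hF : Summable fun m : O => ‖sym3 μ m * ((N m : ℝ) : ℂ) ^ (-conj w)‖ := by
    refine Summable.of_norm_bounded_eventually (summable_N_rpow (s := w.re) (by
      simp [hw]; linarith)) ?_
    filter_upwards [eventually_cofinite_ne 0] with n hn
    rw [norm_norm, norm_mul, Complex.norm_cpow_eq_rpow_re_of_pos (N_pos hn), neg_re, conj_re]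
    exact mul_le_of_le_one_left (Real.rpow_nonneg (N_nonneg _) _) (norm_sym3_le _ _)
  have h1 := congrArg conj (tsum_th hF).2
  rw [← zeta_prim (s := 3 * s - 2) (by simp; linarith)]
  simp only [Complex.conj_tsum] at h1
  have e1 : ∀ n : O, (if Prim n then conj (qq (μ * n)) else 0) * ((N n : ℝ) : ℂ) ^ (-w) =
      conj (qq μ) * conj (if Prim n then th n * (sym3 μ n * ((N n : ℝ) : ℂ) ^ (-conj w))
        else 0) := fun n => by
    split_ifs with hn
    · rw [qq_mul hn (hμ n hn)]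
      simp only [map_mul, ce_conj_cpow]
      ring
    · simp
  have e2 : ∀ e a : O, conj (if Prim e ∧ Prim a ∧ Squarefree a then
      conj (G0 a) * ((N a ^ (-(1 / 6) : ℝ) : ℝ) : ℂ) *
        (sym3 μ (a * e ^ 3) * ((N (a * e ^ 3) : ℝ) : ℂ) ^ (-conj w)) else 0) =
      1 / 9 * ((if Prim e then ((N e : ℝ) : ℂ) ^ (-(3 * s - 2)) else 0) *
        (if a ≠ 0 then ((N a : ℝ) : ℂ) ^ (-s) * Ssum 9 (tw Phi1 SS) (3 * μ) a else 0)) := by
    intro e a
    by_cases he : Prim e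
    swap
    · simp [he]
    by_cases ha : Prim a
    swap
    · by_cases ha0 : a = 0
      · simp [ha0, ha0 ▸ ha]
      · simp [ha, S_SS μ ha0]
    rw [if_pos he, if_pos ha.ne_zero, S_SS μ ha.ne_zero, if_pos ha]
    by_cases hq : Squarefree a
    swap
    · rw [g3_nonsq ha (hμ a ha).symm hq]
      simp [hq]
    have g0 : ((N e : ℝ) : ℂ) ≠ 0 := by exact_mod_cast (N_pos he.ne_zero).ne'
    have g1 : ((N a : ℝ) : ℂ) ≠ 0 := by exact_mod_cast (N_pos ha.ne_zero).ne'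
    have g2 : ((‖toC a‖ : ℝ) : ℂ) = ((N a : ℝ) : ℂ) ^ (1 / 2 : ℂ) := by
      rw [norm_toC, Real.sqrt_eq_rpow, Complex.ofReal_cpow (N_nonneg _)]
      norm_num
    have g3' : g3 (lam * μ) a = conj (sym3 μ a) * G0 a * ((N a : ℝ) : ℂ) ^ (1 / 2 : ℂ) := by
      have : ((‖toC a‖ : ℝ) : ℂ) ≠ 0 := by
        exact_mod_cast (norm_pos_iff.2 (toC_ne_zero ha.ne_zero)).ne'
      rw [← g2, G0, g3_twist' ha hq (lam * μ), g3_twist' ha hq lam, sym3_mul_left, map_mul]
      field_simp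
    rw [if_pos ⟨he, ha, hq⟩, g3', sym3_mul_right _ ha.ne_zero (he.pow 3).ne_zero,
      sym3_pow_right _ he.ne_zero, sym3_cube (hμ e he)]
    simp only [map_mul, ce_conj_cpow, conj_conj, conj_ofReal, mul_one]
    rw [zk2_cpow_mul, pow_three, zk2_cpow_mul, zk2_cpow_mul, Complex.ofReal_cpow (N_nonneg _),
      show -(3 * s - 2) = -w + (-w + -w) by rw [hw]; ring, Complex.cpow_add _ _ g0,
      Complex.cpow_add _ _ g0, show -s = ((-(1 / 6) : ℝ) : ℂ) + -w + -(1 / 2) by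
        rw [hw]; push_cast; ring, Complex.cpow_add _ _ g1, Complex.cpow_add _ _ g1,
      Complex.cpow_neg _ (1 / 2)]
    have g4 : ((N a : ℝ) : ℂ) ^ (1 / 2 : ℂ) ≠ 0 := by simp [g1]
    field_simp
  simp only [e1, e2, tsum_mul_left, tsum_mul_right] at h1 ⊢
  rw [h1, Dser]
  ring

theorem ce_sq {μ : O} (hμ : ∀ a, Prim a → IsCoprime μ a) {K : ℂ} {C : ℝ}
    (h : ∀ x : ℝ, 0 < x → x ≤ 1 → ‖HH μ x - K * ((x ^ (-(2 / 3) : ℝ) : ℝ) : ℂ)‖ ≤ C) :
    conj (qq μ) / 9 * (zp2 * qq μ) = conj K / (Complex.I * (B0 : ℂ)) := by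
  have h1 := res_of_asymp (u := fun n => if Prim n then conj (qq (μ * n)) else 0) (A := ‖qq μ‖)
    (K := conj K) (C := C) (fun n => by
      split_ifs with hn
      · rw [RCLike.norm_conj, qq_mul hn (hμ n hn), norm_mul, norm_mul]
        exact mul_le_of_le_one_left (norm_nonneg _)
          (mul_le_one₀ (norm_th_le n) (norm_nonneg _) (norm_sym3_le _ _))
      · simp) (if_neg fun h0 => h0.ne_zero rfl) (fun x hx hx1 => by
      refine le_of_eq_of_le ?_ (h x hx hx1)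
      rw [← Complex.norm_conj]
      congr 1
      rw [map_sub, map_mul, conj_conj, conj_ofReal, Complex.conj_tsum, HH]
      congr 1
      refine tsum_congr fun n => ?_
      rw [map_mul, ce_conj_bb (mul_nonneg (N_nonneg n) hx.le)]
      split_ifs <;> simp)
  have hL := DirichletCharacter.differentiable_LFunction chi3D_ne_one
  have hd : DifferentiableOn ℂ (fun s : ℂ => (1 - (3 : ℂ) ^ (-(3 * s - 2))) *
      riemannZeta (3 * s - 2) * DirichletCharacter.LFunction chi3D (3 * s - 2)) {s | 1 < s.re} := by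
    intro s hs
    have hs' : 1 < s.re := hs
    have d0 : DifferentiableAt ℂ (fun s : ℂ => 3 * s - 2) s := by fun_prop
    have d3 : DifferentiableAt ℂ (fun s : ℂ => riemannZeta (3 * s - 2)) s :=
      (differentiableAt_riemannZeta fun h => by
        have := congrArg re h
        simp at this
        linarith).comp s d0
    exact ((((d0.neg.const_cpow (Or.inl (by norm_num))).const_sub 1).mul d3).mul
      ((hL _).comp s d0)).differentiableWithinAt
  have h2 := (((rho_out.res SS (3 * μ)).mul hd).const_mul (conj (qq μ) / 9)).congr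
    fun s hs => (ce_dir hμ hs).symm
  have hz := zeta_prim (s := 2) (by norm_num)
  rw [← zp2_cast] at hz
  rw [← h2.unique h1, show (3 : ℂ) * (4 / 3) - 2 = 2 by norm_num, ← hz]
  rfl

theorem ce_proj {μ : O} (hμ : μ ≠ 0) {x : ℝ} (hx : 0 < x) : HH μ x =
    ∑ y ∈ rs (9 * μ), (((N (9 * μ))⁻¹ : ℝ) : ℂ) * psi (-(toC y / 3)) *
      ∑' n : O, rho SS n * psi (toC n * toC y / (9 * toC μ)) *
        bb (N n * (x / (9 * N μ))) (4 / 3) := by
  have h9 : 9 * μ ≠ 0 := mul_ne_zero cd_nine hμ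
  have hN := N_pos hμ
  have hμ' := toC_ne_zero hμ
  have hs : ∀ y : O, Summable fun n : O => rho SS n * psi (toC n * toC y / (9 * toC μ)) *
      bb (N n * (x / (9 * N μ))) (4 / 3) := fun y =>
    rho_summable SS (fun n => (norm_psi _).le) (by positivity)
  simp only [← tsum_mul_left]
  rw [← Summable.tsum_finsetSum fun y _ => (hs y).mul_left _]
  have e : ∀ n : O, ∑ y ∈ rs (9 * μ), (((N (9 * μ))⁻¹ : ℝ) : ℂ) * psi (-(toC y / 3)) *
      (rho SS n * psi (toC n * toC y / (9 * toC μ)) * bb (N n * (x / (9 * N μ))) (4 / 3)) =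
      if 9 * μ ∣ n - 3 * μ then rho SS n * bb (N n * (x / (9 * N μ))) (4 / 3) else 0 := by
    intro n
    have h1 := sum_psi h9 (n - 3 * μ)
    have h2 : ∀ y : O, psi (toC (n - 3 * μ) * toC y / toC (9 * μ)) =
        psi (-(toC y / 3)) * psi (toC n * toC y / (9 * toC μ)) := fun y => by
      rw [← psi_add]
      congr 1
      simp only [map_sub, map_mul, map_ofNat]
      field_simp
      ring
    have h3 : ((N (9 * μ) : ℝ) : ℂ) ≠ 0 := by exact_mod_cast (N_pos h9).ne'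
    simp only [h2] at h1
    calc _ = (((N (9 * μ))⁻¹ : ℝ) : ℂ) * (rho SS n * bb (N n * (x / (9 * N μ))) (4 / 3)) *
          ∑ y ∈ rs (9 * μ), psi (-(toC y / 3)) * psi (toC n * toC y / (9 * toC μ)) := by
          rw [Finset.mul_sum]
          exact Finset.sum_congr rfl fun y _ => by ring
      _ = _ := by
          rw [h1]
          split_ifs
          · push_cast
            field_simp
          · simp
  simp only [e]
  symm
  rw [← Function.Injective.tsum_eq (g := fun a : O => 3 * (μ * a))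
    (fun a b h => mul_left_cancel₀ hμ (mul_left_cancel₀ (by decide : (3 : O) ≠ 0) h)), HH]
  · refine tsum_congr fun a => ?_
    have : 9 * μ ∣ 3 * (μ * a) - 3 * μ ↔ Prim a := by
      rw [show 3 * (μ * a) - 3 * μ = 3 * μ * (a - 1) by ring, show 9 * μ = 3 * μ * 3 by ring,
        mul_dvd_mul_iff_left (mul_ne_zero (by decide) hμ)]
      rfl
    simp only [this]
    rw [show N (3 * (μ * a)) * (x / (9 * N μ)) = N a * x by
      rw [N_mul, N_mul, N_ofNat]; field_simp; ring]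
    split_ifs
    · rfl
    · simp
  · intro n hn
    by_contra hr
    refine hn (if_neg ?_)
    rintro ⟨k, hk⟩
    exact hr ⟨1 + 3 * k, by simp only; linear_combination -hk⟩

theorem ce_asymp {μ : O} (hμ : μ ≠ 0) (γ : O → SLO) (h1 : ∀ y, γ y 1 0 ≠ 0)
    (h2 : ∀ y, γ y 0 0 * μ = y * γ y 1 0) : ∃ C : ℝ, ∀ x : ℝ, 0 < x → x ≤ 1 →
    ‖HH μ x - (∑ y ∈ rs (9 * μ), (((N (9 * μ))⁻¹ : ℝ) : ℂ) * psi (-(toC y / 3)) *
      ((((27 * N (γ y 1 0) / N μ) ^ (-(2 / 3) : ℝ) : ℝ) : ℂ) * (rho (γ y) 0 * (3 * π)))) *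
      ((x ^ (-(2 / 3) : ℝ) : ℝ) : ℂ)‖ ≤ C := by
  obtain ⟨C, hC⟩ := rho_tail
  have hN := N_pos hμ
  refine ⟨∑ y ∈ rs (9 * μ), (N (9 * μ))⁻¹ * ((27 * N (γ y 1 0) / N μ) ^ (-(2 / 3) : ℝ) *
    (|C| * ((243 * N (γ y 1 0)) ^ 2 / (9 * N μ)) ^ 2)), fun x hx hx1 => ?_⟩
  rw [ce_proj hμ hx, Finset.sum_mul, ← Finset.sum_sub_distrib]
  refine norm_sum_le_of_le _ fun y _ => ?_
  have hc := N_pos (h1 y)
  have hv := vor_base SS (γ y) (h1 y) (x := x / (9 * N μ)) (by positivity)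
  have e : ∀ n : O, toC n * toC (γ y 0 0) / (9 * toC (γ y 1 0)) = toC n * toC y / (9 * toC μ) := by
    intro n
    have := congrArg toC (h2 y)
    have g1 := toC_ne_zero hμ
    have g2 := toC_ne_zero (h1 y)
    rw [map_mul, map_mul] at this
    field_simp
    linear_combination toC n * this
  simp only [e, rho_S] at hv
  set X := ((243 * N (γ y 1 0)) ^ 2 * (x / (9 * N μ)))⁻¹ with hX
  have hX0 : 0 < X := by positivity
  have ht := hC (γ y) (omc (γ y 1 0) (γ y 1 1)) X (fun n => (norm_psi _).le)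
    (by simp [omc, psi_zero]) hX0
  simp only [div_eq_mul_inv (N _) (_ ^ 2 * _), ← hX] at hv
  rw [hv, show 243 * N (γ y 1 0) * (x / (9 * N μ)) = 27 * N (γ y 1 0) / N μ * x by
    field_simp; norm_num, Real.mul_rpow (by positivity) hx.le]
  set T := ∑' n : O, rho (γ y) n * omc (γ y 1 0) (γ y 1 1) n * bb (N n * X) (4 / 3)
  set a := (27 * N (γ y 1 0) / N μ) ^ (-(2 / 3) : ℝ) with ha
  have ha0 : 0 ≤ a := by positivity
  have h9 := N_nonneg (9 * μ)
  rw [show (((N (9 * μ))⁻¹ : ℝ) : ℂ) * psi (-(toC y / 3)) *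
      (((a * x ^ (-(2 / 3) : ℝ) : ℝ) : ℂ) * T) - (((N (9 * μ))⁻¹ : ℝ) : ℂ) * psi (-(toC y / 3)) *
      ((a : ℂ) * (rho (γ y) 0 * (3 * π))) * ((x ^ (-(2 / 3) : ℝ) : ℝ) : ℂ) =
      psi (-(toC y / 3)) * ((((N (9 * μ))⁻¹ * (a * x ^ (-(2 / 3) : ℝ)) : ℝ) : ℂ) *
      (T - rho (γ y) 0 * (3 * π))) by push_cast; ring, norm_mul, norm_psi, one_mul, norm_mul,
    Complex.norm_real, Real.norm_of_nonneg (by positivity), mul_assoc, mul_assoc]
  refine mul_le_mul_of_nonneg_left (mul_le_mul_of_nonneg_left ?_ ha0) (inv_nonneg.2 h9)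
  have e2 : X ^ (-2 : ℝ) = ((243 * N (γ y 1 0)) ^ 2 / (9 * N μ)) ^ 2 * x ^ (2 : ℝ) := by
    rw [Real.rpow_neg hX0.le, hX, Real.rpow_two, Real.rpow_two]
    field_simp
  have e3 : x ^ (-(2 / 3) : ℝ) * x ^ (2 : ℝ) ≤ 1 := by
    rw [← Real.rpow_add hx]
    exact Real.rpow_le_one hx.le hx1 (by norm_num)
  calc _ ≤ x ^ (-(2 / 3) : ℝ) * (|C| * X ^ (-2 : ℝ)) := by
        gcongr
        exact ht.trans (by gcongr; exact le_abs_self C)
    _ = |C| * ((243 * N (γ y 1 0)) ^ 2 / (9 * N μ)) ^ 2 * (x ^ (-(2 / 3) : ℝ) * x ^ (2 : ℝ)) := by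
        rw [e2]; ring
    _ ≤ _ := mul_le_of_le_one_right (by positivity) e3

end

end Vale.Agent.P006
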