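import Vale.Agent.P026.Defs2
import Vale.Agent.P026.ThC
import Vale.Agent.P026.Kub

namespace Vale.Agent.P006

open Vale.Agent.P026 Complex MeasureTheory Filter Topology
open scoped Classical ComplexConjugate Real MatrixGroups

noncomputable section

/-- normalised cubic Gauss sum (`psi (lam * x) = e (Tr x)`) -/
def G0 (n : O) : ℂ := g3 lam n / (‖toC n‖ : ℂ)
/-- the same, supported on odd primary squarefree elements -/
def G (n : O) : ℂ := if NN n then G0 n else 0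

theorem ex_rho : ∃ ρ, ThetaOut 9 Phi1 ρ :=
  theta_machine (m := 9) (by decide) (mulS_kap0 dvd_rfl) (equi_Phi1 dvd_rfl)
/-- Fourier coefficients of the cubic theta function at all cusps -/
def rho : SLO → O → ℂ := ex_rho.choose
theorem rho_out : ThetaOut 9 Phi1 rho := ex_rho.choose_spec

def SS : SLO := ⟨!![0, -1; 1, 0], by simp [Matrix.det_fin_two]⟩
def qq (n : O) : ℂ := rho SS (3 * n)
def zp2 : ℝ := ∑' n : O, if Prim n then N n ^ (-2 : ℝ) else 0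
/-- mean value constant of `G n * conj (sym3 r n) * N n ^ (1/6)` -/
def cc (r : O) : ℂ := Complex.I * qq r * (zp2 : ℂ) / (kap : ℂ)
def cst : ℝ := (2 * π) ^ (2 / 3 : ℝ) / (3 * Real.Gamma (2 / 3))

/-- the 27 elements `ω ^ i * λ ^ j * (-2) ^ e` -/
def XI : Finset O :=
  (Finset.range 3 ×ˢ Finset.range 3 ×ˢ Finset.range 3).image
    (fun t => om ^ t.1 * lam ^ t.2.1 * (-2) ^ t.2.2)
/-- cube-free representative `ξ * h1 * h2 ^ 2` -/
def cf (t : O × O × O) : O := t.1 * t.2.1 * t.2.2 ^ 2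
def MI (R : ℝ) : Finset (O × O × O) :=
  (XI ×ˢ ballN R ×ˢ ballN R).filter (fun t => IsCoprime t.2.1 t.2.2 ∧ N (cf t) ≤ R)
/-- quadruples `((ξ, h1, h2), k)` with `N (ξ h1 h2 ^ 2 k ^ 3) ≤ H` -/
def Quad (H : ℝ) : Finset ((O × O × O) × O) :=
  (MI H ×ˢ ballO H).filter (fun t => N (cf t.1 * t.2 ^ 3) ≤ H)

/-- the model for `G` built from cubic characters of conductor at most `R` -/
def mdl (R : ℝ) (n : O) : ℂ :=
  if NN n then ∑ t ∈ MI R, (if t.2.2 ∣ n then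
    G t.2.2 * cc (t.1 * t.2.1) * sym3 (cf t) (n / t.2.2) *
      ((N (n / t.2.2) ^ (-(1 / 6) : ℝ) : ℝ) : ℂ) else 0) else 0
def del (R : ℝ) (n : O) : ℂ := G n - mdl R n

/-- Gaussian weight of width `1 / K` in `log x` -/
def WK (K : ℝ) (w : ℂ) (x : ℝ) : ℂ :=
  Complex.exp (w * (Real.log x : ℂ) - (K : ℂ) ^ 2 * (Real.log x : ℂ) ^ 2)

/-- operator norm bound for the kernel `D (a * b)` -/
def OpN (D : O → ℂ) (A B μ : ℝ) : Prop :=
  ∀ β : O → ℂ, ∑ a ∈ ballN A, ‖∑ b ∈ ballN B, β b * D (a * b)‖ ^ 2 ≤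
    μ * ∑ b ∈ ballN B, ‖β b‖ ^ 2

/-- odd primary primes of norm at most `y` -/
def PP (y : ℝ) : Finset O := (ballN y).filter Prime
/-- primes in the window `[X ^ (1/3 - 2η), X ^ (1/3 + η))` -/
def Win (X η : ℝ) : Finset O :=
  (PP (X ^ (1 / 3 + η))).filter (fun p => X ^ (1 / 3 - 2 * η) ≤ N p ∧ N p < X ^ (1 / 3 + η))

/-- Mellin representation on the line `re s = σ` with `L¹` mass at most `M` -/
def MRep (F : ℝ → ℂ) (σ M : ℝ) : Prop :=
  ∃ m : ℝ → ℂ, Integrable m ∧ ∫ τ, ‖m τ‖ ≤ M ∧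
    ∀ x : ℝ, 0 < x → F x = ∫ τ : ℝ, m τ * (x : ℂ) ^ (-(σ + τ * Complex.I))

def IsCube (h : O) : Prop := ∃ k : O, h = k ^ 3

/-- character direction -/
def S1 (β : O → ℂ) (l h : O) (y : ℝ) : ℂ :=
  ∑ m ∈ ballN (y / N l), β (l * m) * sym3 h m
/-- Gauss sum direction -/
def S2 (β : O → ℂ) (l h : O) (y : ℝ) : ℂ :=
  ∑ m ∈ ballN (y / N l), β (l * m) * G m * sym3 h m

/-- theta coefficients on primary elements -/
def th (a : O) : ℂ :=
  ∑ d ∈ (ballO (N a)).filter (fun d => Prim d ∧ d ^ 3 ∣ a),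
    (if Prim (a / d ^ 3) ∧ Squarefree (a / d ^ 3) then
      conj (G0 (a / d ^ 3)) * ((N (a / d ^ 3) ^ (-(1 / 6) : ℝ) : ℝ) : ℂ) else 0)

/-- the scaling laws that give twisted multiplicativity -/
def Good (σ : SLO) : Prop :=
  ∀ t c d : O, Prim t → tw Phi1 σ (c, t * d) = sym3 c t * tw Phi1 σ (c, d) ∧
    tw Phi1 σ (t * c, d) = sym3 d t * tw Phi1 σ (c, d)

end

end Vale.Agent.P006
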