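import Vale.Agent.P006.Defs

namespace Vale.Agent.P006

open Vale.Agent.P026 Complex MeasureTheory Filter Topology
open scoped Classical ComplexConjugate Real MatrixGroups

noncomputable section

/-- primary prime divisors -/
def pf (r : O) : Finset O := (ballO (N r)).filter (fun p => Prime p ∧ Prim p ∧ p ∣ r)
/-- Gauss sum series over primary `c` coprime to `r` -/
def Es (n r : O) (s : ℂ) : ℂ :=
  ∑' c : O, if Prim c ∧ IsCoprime c r then ((N c : ℝ) : ℂ) ^ (-s) * g3 (lam * n) c else 0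
def lower (y : O) : SLO := ⟨!![1, 0; y, 1], by simp [Matrix.det_fin_two]⟩
def b0r : ℝ := Real.Gamma (1 / 3) * (2 * π) ^ (4 / 3 : ℝ) / Real.Gamma (2 / 3)
/-- Mellin transform of `WK K 0` at the real point `s` -/
def Fh (K s : ℝ) : ℝ := √π / K * Real.exp (s ^ 2 / (4 * K ^ 2))

/-- Voronoi transfer from the Bessel kernel to the weight `WK K a`, dual weight `FS` -/
def VT (K a : ℝ) (FS : ℝ → ℂ) : Prop :=
  ∀ (u u' : O → ℂ) (Cc Bd : ℝ), 0 < Cc →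
    (∀ R : ℝ, 1 ≤ R → ∑ n ∈ ballO R, ‖u n‖ ^ 2 ≤ Bd * R ^ (2 / 3 : ℝ)) →
    (∀ R : ℝ, 1 ≤ R → ∑ n ∈ ballO R, ‖u' n‖ ^ 2 ≤ Bd * R ^ (2 / 3 : ℝ)) →
    (∀ x : ℝ, 0 < x → ∑' n : O, u n * bb (N n * x) (4 / 3) =
      (((Cc * x) ^ (-(2 / 3) : ℝ) : ℝ) : ℂ) * ∑' n : O, u' n * bb (N n / (Cc ^ 2 * x)) (4 / 3)) →
    ∀ Y : ℝ, 0 < Y → ∑' n : O, (if n ≠ 0 then u n * WK K a (N n / Y) else 0) =
      (((Y / Cc) ^ (2 / 3 : ℝ) : ℝ) : ℂ) * (u' 0 * ((b0r * Fh K (2 / 3 + a) : ℝ) : ℂ) +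
        ∑' n : O, (if n ≠ 0 then u' n * FS (N n * Y / Cc ^ 2) else 0))

/-- the nonzero frequencies of the dual sum -/
def Vd (FS : ℝ → ℂ) (σ : SLO) (ω : O → ℂ) (d : O) (L : ℝ) : ℂ :=
  ∑' n : O, if n ≠ 0 ∧ d ∣ n then rho σ n * ω n * FS (N n / L) else 0
def omc (c y n : O) : ℂ := psi (-(toC n * toC y / (9 * toC c)))

def mth (k : O) : ℂ := conj (cc k) * ((kap / 9 * ∏ p ∈ pf k, (1 - (N p)⁻¹) : ℝ) : ℂ)
/-- density of primary squarefree elements coprime to `k` -/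
def dens (k : O) : ℝ := kap / 9 / zp2 * ∏ p ∈ pf k, (N p / (N p + 1))
def TT (K a : ℝ) (k : O) (y : ℝ) : ℂ :=
  ∑' m : O, if Prim m then th m * sym3 k m * WK K a (N m / y) else 0
def PhiI (A Y K D : ℝ) : ℝ :=
  A * Y + K ^ (16 / 5 : ℝ) * (D ^ 2 * A ^ (4 / 3 : ℝ) * Y ^ (1 / 3 : ℝ) +
    D ^ (2 / 5 : ℝ) * A ^ (4 / 15 : ℝ) * Y ^ (13 / 15 : ℝ)) + Y ^ 2 / D ^ 3 +
    A ^ (2 / 3 : ℝ) * Y ^ (5 / 3 : ℝ) / D ^ 2

end

end Vale.Agent.P006
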