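import Vale.Agent.P006.Defs
import Vale.Agent.P026.Lat

namespace Vale.Agent.P006

open Vale.Agent.P026 Complex MeasureTheory Filter Topology
open scoped Classical ComplexConjugate Real MatrixGroups

noncomputable section

/-- dyadic decomposition of a sum of nonnegative terms -/
theorem dyad {ε : ℝ} (hε : 0 < ε) : ∃ C : ℝ, 0 < C ∧ ∀ {ι : Type} (s : Finset ι) (ν f : ι → ℝ)
    (T P : ℝ), 1 ≤ T → 0 ≤ P → (∀ i ∈ s, 1 ≤ ν i ∧ ν i ≤ T) →
    (∀ D : ℝ, 1 ≤ D → D ≤ T → ∑ i ∈ s.filter (fun i => D ≤ ν i ∧ ν i ≤ 2 * D), f i ≤ P) →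
    (∀ i ∈ s, 0 ≤ f i) → ∑ i ∈ s, f i ≤ C * T ^ ε * P := by
  refine ⟨1 + 2 / ε, by positivity, fun {ι} s ν f T P hT hP hν h hf => ?_⟩
  set J := Nat.log 2 ⌊T⌋₊ with hJ
  have hT0 : ⌊T⌋₊ ≠ 0 := (Nat.floor_pos.2 hT).ne'
  have h2J : (2 : ℝ) ^ J ≤ T := by
    have : ((2 ^ J : ℕ) : ℝ) ≤ ⌊T⌋₊ := by exact_mod_cast Nat.pow_log_le_self 2 hT0
    push_cast at this
    exact this.trans (Nat.floor_le (by linarith))
  have h1 : ∑ i ∈ s, f i ≤ ∑ j ∈ Finset.range (J + 1), P := by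
    rw [← Finset.sum_fiberwise_of_maps_to (s := s) (t := Finset.range (J + 1))
      (g := fun i => Nat.log 2 ⌊ν i⌋₊) fun i hi => Finset.mem_range.2 (Nat.lt_succ_of_le
        (Nat.log_mono_right (Nat.floor_le_floor (hν i hi).2)))]
    refine Finset.sum_le_sum fun j hj => le_trans ?_ (h (2 ^ j) (one_le_pow₀ one_le_two)
      ((pow_le_pow_right₀ one_le_two (Nat.lt_succ_iff.1 (Finset.mem_range.1 hj))).trans h2J))
    refine Finset.sum_le_sum_of_subset_of_nonneg (fun i hi' => ?_) fun i hi _ =>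
      hf i (Finset.mem_filter.1 hi).1
    obtain ⟨hi, rfl⟩ := Finset.mem_filter.1 hi'
    have h0 : ⌊ν i⌋₊ ≠ 0 := (Nat.floor_pos.2 (hν i hi).1).ne'
    refine Finset.mem_filter.2 ⟨hi, ?_, ?_⟩
    · have : ((2 ^ Nat.log 2 ⌊ν i⌋₊ : ℕ) : ℝ) ≤ ⌊ν i⌋₊ := by
        exact_mod_cast Nat.pow_log_le_self 2 h0
      push_cast at this
      exact this.trans (Nat.floor_le (by linarith [(hν i hi).1]))
    · have a1 : ⌊ν i⌋₊ + 1 ≤ 2 ^ (Nat.log 2 ⌊ν i⌋₊ + 1) := Nat.lt_pow_succ_log_self one_lt_two _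
      have a2 : ((⌊ν i⌋₊ + 1 : ℕ) : ℝ) ≤ ((2 ^ (Nat.log 2 ⌊ν i⌋₊ + 1) : ℕ) : ℝ) := by
        exact_mod_cast a1
      push_cast at a2
      have := Nat.lt_floor_add_one (ν i)
      rw [pow_succ] at a2
      linarith
  rw [Finset.sum_const, Finset.card_range, nsmul_eq_mul] at h1
  refine h1.trans (mul_le_mul_of_nonneg_right ?_ hP)
  have h3 : (J : ℝ) * Real.log 2 ≤ Real.log T := by
    rw [← Real.log_pow]; exact Real.log_le_log (by positivity) h2J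
  have h4 := Real.log_le_rpow_div (by linarith : 0 ≤ T) hε
  have h5 : 1 ≤ T ^ ε := Real.one_le_rpow hT hε.le
  have h6 : (1 / 2 : ℝ) < Real.log 2 := by linarith [Real.log_two_gt_d9]
  have h7 : (J : ℝ) ≤ 2 * (T ^ ε / ε) := by nlinarith [(Nat.cast_nonneg J : (0 : ℝ) ≤ J)]
  push_cast
  rw [add_mul, one_mul, div_mul_eq_mul_div, mul_div_assoc]
  linarith

theorem rp {x : ℝ} (hx : 0 < x) (n m : ℕ) {r : ℝ} (h : n * r = m) : (x ^ n) ^ r = x ^ m := by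
  rw [← Real.rpow_natCast, ← Real.rpow_mul hx.le, h, Real.rpow_natCast]

theorem exists_root {x : ℝ} (hx : 1 ≤ x) {n : ℕ} (hn : n ≠ 0) : ∃ a : ℝ, 1 ≤ a ∧ x = a ^ n :=
  ⟨x ^ ((n : ℝ)⁻¹), Real.one_le_rpow hx (by positivity),
    (Real.rpow_inv_natCast_pow (by linarith) hn).symm⟩

end

end Vale.Agent.P006
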