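import Mathlib

namespace Vale.Agent.P006

open Complex MeasureTheory Filter Topology
open scoped Classical Real

noncomputable section

theorem pr_gb {w : ℂ} (hw : |w.re| ≤ 4) (v : ℝ) :
    ‖Complex.exp (w * v - (v : ℂ) ^ 2)‖ ≤ Real.exp (4 * |v| - v ^ 2) := by
  rw [Complex.norm_exp]
  apply Real.exp_le_exp.2
  have h1 : (w * v - (v : ℂ) ^ 2).re = w.re * v - v ^ 2 := by
    simp [pow_two]
  rw [h1]
  have : w.re * v ≤ 4 * |v| := by
    calc w.re * v ≤ |w.re * v| := le_abs_self _
      _ = |w.re| * |v| := abs_mul _ _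
      _ ≤ 4 * |v| := by gcongr
  linarith

theorem pr_gb2 {w : ℂ} (hw : |w.re| ≤ 4) (v : ℝ) :
    ‖(w - 2 * v) * Complex.exp (w * v - (v : ℂ) ^ 2)‖ * Real.exp (2 * |v|) ≤
      (1 + ‖w‖) * Real.exp 32 * Real.exp (-(1 / 2) * v ^ 2) := by
  have h1 : ‖w - 2 * (v : ℂ)‖ ≤ (1 + ‖w‖) * Real.exp (2 * |v|) := by
    have a1 : ‖w - 2 * (v : ℂ)‖ ≤ ‖w‖ + 2 * |v| := by
      refine (norm_sub_le _ _).trans ?_
      simp
    have a2 := Real.add_one_le_exp (2 * |v|)
    have a3 := abs_nonneg v
    have a4 := norm_nonneg w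
    nlinarith [mul_nonneg a4 a3]
  have h2 := pr_gb hw v
  have h3 : Real.exp (2 * |v|) * Real.exp (4 * |v| - v ^ 2) * Real.exp (2 * |v|) ≤
      Real.exp 32 * Real.exp (-(1 / 2) * v ^ 2) := by
    rw [← Real.exp_add, ← Real.exp_add, ← Real.exp_add]
    apply Real.exp_le_exp.2
    have : v ^ 2 = |v| ^ 2 := (sq_abs v).symm
    nlinarith [sq_nonneg (|v| - 8)]
  rw [norm_mul]
  calc _ ≤ ((1 + ‖w‖) * Real.exp (2 * |v|)) * Real.exp (4 * |v| - v ^ 2) * Real.exp (2 * |v|) := by
        gcongr
    _ = (1 + ‖w‖) * (Real.exp (2 * |v|) * Real.exp (4 * |v| - v ^ 2) * Real.exp (2 * |v|)) := by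
        ring
    _ ≤ (1 + ‖w‖) * (Real.exp 32 * Real.exp (-(1 / 2) * v ^ 2)) := by gcongr
    _ = _ := by ring

theorem pr_gauss {ι : Type*} (s : Finset ι) (x : ι → ℝ) (c : ι → ℂ) (w k : ℂ) (E : ℝ)
    (hw : |w.re| ≤ 4)
    (hA : ∀ v, ‖∑ i ∈ s.filter (fun i => x i ≤ v), c i - k‖ ≤ E * Real.exp (2 * |v|)) :
    ‖∑ i ∈ s, c i * Complex.exp (w * x i - (x i : ℂ) ^ 2)‖ ≤
      3 * Real.exp 32 * (1 + ‖w‖) * E := by
  set f : ℝ → ℂ := fun v => Complex.exp (w * v - (v : ℂ) ^ 2) with hf
  set f' : ℝ → ℂ := fun v => (w - 2 * v) * Complex.exp (w * v - (v : ℂ) ^ 2) with hf'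
  have hE : 0 ≤ E := by
    have := (norm_nonneg _).trans (hA 0)
    simpa using this
  have hd : ∀ v, HasDerivAt f (f' v) v := by
    intro v
    have h1 : HasDerivAt (fun z : ℂ => Complex.exp (w * z - z ^ 2))
        (Complex.exp (w * v - (v : ℂ) ^ 2) * (w * 1 - (2 : ℕ) * (v : ℂ) ^ (2 - 1))) (v : ℂ) :=
      (((hasDerivAt_id (v : ℂ)).const_mul w).sub (hasDerivAt_pow 2 (v : ℂ))).cexp
    have h2 := h1.comp_ofReal
    refine h2.congr_deriv ?_
    simp only [hf']; push_cast; ring
  have hG : Integrable (fun v : ℝ => (1 + ‖w‖) * Real.exp 32 * Real.exp (-(1 / 2) * v ^ 2)) :=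
    (integrable_exp_neg_mul_sq (by norm_num)).const_mul _
  have hc' : Continuous f' := by simp only [hf']; fun_prop
  have hc : Continuous f := by simp only [hf]; fun_prop
  have one_le : ∀ v : ℝ, 1 ≤ Real.exp (2 * |v|) := fun v => Real.one_le_exp (by positivity)
  have hi' : Integrable f' := by
    refine hG.mono' hc'.aestronglyMeasurable (Eventually.of_forall fun v => ?_)
    exact (le_mul_of_one_le_right (norm_nonneg _) (one_le v)).trans (pr_gb2 hw v)
  have hi : Integrable f := by
    refine ((integrable_exp_neg_mul_sq (b := 1 / 2) (by norm_num)).const_mul (Real.exp 8)).mono'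
      hc.aestronglyMeasurable (Eventually.of_forall fun v => ?_)
    refine (pr_gb hw v).trans ?_
    rw [← Real.exp_add]
    apply Real.exp_le_exp.2
    have : v ^ 2 = |v| ^ 2 := (sq_abs v).symm
    nlinarith [sq_nonneg (|v| - 4)]
  have h0 : ∫ v, f' v = 0 := integral_eq_zero_of_hasDerivAt_of_integrable hd hi' hi
  have hlim : Tendsto f atTop (𝓝 0) :=
    tendsto_zero_of_hasDerivAt_of_integrableOn_Ioi (a := 0) (fun v _ => hd v) hi'.integrableOn
      hi.integrableOn
  have hint : ∀ i, Integrable (fun v => f' v * (if x i ≤ v then c i else 0)) := by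
    intro i
    have : (fun v => f' v * (if x i ≤ v then c i else 0)) =
        (Set.Ici (x i)).indicator (fun v => f' v * c i) := by
      funext v
      by_cases h : x i ≤ v <;> simp [Set.indicator, h]
    rw [this]
    exact (hi'.mul_const _).indicator measurableSet_Ici
  have hone : ∀ i, ∫ v, f' v * (if x i ≤ v then c i else 0) = -(c i * f (x i)) := by
    intro i
    have : (fun v => f' v * (if x i ≤ v then c i else 0)) =
        (Set.Ici (x i)).indicator (fun v => f' v * c i) := by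
      funext v
      by_cases h : x i ≤ v <;> simp [Set.indicator, h]
    rw [this, integral_indicator measurableSet_Ici, integral_Ici_eq_integral_Ioi, integral_mul_const,
      integral_Ioi_of_hasDerivAt_of_tendsto' (fun v _ => hd v) hi'.integrableOn hlim]
    ring
  have key : ∑ i ∈ s, c i * f (x i) =
      -∫ v, f' v * (∑ i ∈ s.filter (fun i => x i ≤ v), c i - k) := by
    have e : ∀ v, f' v * (∑ i ∈ s.filter (fun i => x i ≤ v), c i - k) =
        ∑ i ∈ s, f' v * (if x i ≤ v then c i else 0) - f' v * k := by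
      intro v
      rw [Finset.sum_filter, mul_sub, Finset.mul_sum]
    simp only [e]
    rw [integral_sub (integrable_finset_sum _ fun i _ => hint i) (hi'.mul_const _),
      integral_finset_sum _ fun i _ => hint i, integral_mul_const, h0]
    simp only [hone, Finset.sum_neg_distrib, zero_mul, sub_zero, neg_neg]
  change ‖∑ i ∈ s, c i * f (x i)‖ ≤ _
  rw [key, norm_neg]
  have hb : ‖∫ v, f' v * (∑ i ∈ s.filter (fun i => x i ≤ v), c i - k)‖ ≤
      ∫ v : ℝ, (1 + ‖w‖) * Real.exp 32 * Real.exp (-(1 / 2) * v ^ 2) * E := by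
    refine norm_integral_le_of_norm_le (hG.mul_const E) (Eventually.of_forall fun v => ?_)
    rw [norm_mul]
    calc _ ≤ ‖f' v‖ * (E * Real.exp (2 * |v|)) := by gcongr; exact hA v
      _ = ‖f' v‖ * Real.exp (2 * |v|) * E := by ring
      _ ≤ _ := mul_le_mul_of_nonneg_right (pr_gb2 hw v) hE
  refine hb.trans ?_
  rw [integral_mul_const, integral_const_mul, integral_gaussian]
  have : √(π / (1 / 2)) ≤ 3 := by
    rw [Real.sqrt_le_left (by norm_num)]
    have := Real.pi_lt_four
    linarith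
  calc _ ≤ (1 + ‖w‖) * Real.exp 32 * 3 * E := by gcongr
    _ = _ := by ring

theorem pr_abel {ι : Type*} (s : Finset ι) (x c : ι → ℝ) (f f' : ℝ → ℝ) {a b : ℝ} (hab : a ≤ b)
    (hx : ∀ i ∈ s, a ≤ x i ∧ x i ≤ b) (hd : ∀ t ∈ Set.Icc a b, HasDerivAt f (f' t) t)
    (hc : ContinuousOn f' (Set.Icc a b)) :
    IntervalIntegrable (fun t => f' t * ∑ i ∈ s.filter (fun i => x i ≤ t), c i) volume a b ∧
    ∑ i ∈ s, c i * f (x i) = f b * ∑ i ∈ s, c i -
      ∫ t in a..b, f' t * ∑ i ∈ s.filter (fun i => x i ≤ t), c i := by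
  have hI : IntegrableOn f' (Set.Icc a b) := hc.integrableOn_Icc
  have hind : ∀ i, (fun t => f' t * (if x i ≤ t then c i else 0)) =
      (Set.Ici (x i)).indicator (fun t => f' t * c i) := by
    intro i
    funext v
    by_cases h : x i ≤ v <;> simp [Set.indicator, h]
  have hint : ∀ i, IntervalIntegrable (fun t => f' t * (if x i ≤ t then c i else 0)) volume a b := by
    intro i
    rw [hind, intervalIntegrable_iff_integrableOn_Icc_of_le hab]
    exact Integrable.indicator (hI.mul_const _) measurableSet_Ici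
  have hone : ∀ i ∈ s, ∫ t in a..b, f' t * (if x i ≤ t then c i else 0) =
      (f b - f (x i)) * c i := by
    intro i hi
    obtain ⟨h1, h2⟩ := hx i hi
    rw [hind, intervalIntegral.integral_of_le hab, ← integral_Icc_eq_integral_Ioc,
      integral_indicator measurableSet_Ici, Measure.restrict_restrict measurableSet_Ici]
    have : Set.Ici (x i) ∩ Set.Icc a b = Set.Icc (x i) b := by
      ext t
      simp only [Set.mem_inter_iff, Set.mem_Ici, Set.mem_Icc]
      constructor
      · rintro ⟨u1, -, u3⟩; exact ⟨u1, u3⟩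
      · rintro ⟨u1, u3⟩; exact ⟨u1, h1.trans u1, u3⟩
    rw [this, integral_Icc_eq_integral_Ioc, ← intervalIntegral.integral_of_le h2,
      intervalIntegral.integral_mul_const,
      intervalIntegral.integral_eq_sub_of_hasDerivAt (f := f)]
    · intro t ht
      rw [Set.uIcc_of_le h2] at ht
      exact hd t ⟨h1.trans ht.1, ht.2⟩
    · rw [intervalIntegrable_iff_integrableOn_Icc_of_le h2]
      exact hI.mono_set (Set.Icc_subset_Icc h1 le_rfl)
  have e : (fun t => f' t * ∑ i ∈ s.filter (fun i => x i ≤ t), c i) =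
      fun t => ∑ i ∈ s, f' t * (if x i ≤ t then c i else 0) := by
    funext t
    rw [Finset.sum_filter, Finset.mul_sum]
  rw [e]
  refine ⟨?_, ?_⟩
  · have := IntervalIntegrable.sum s (fun i _ => hint i)
    have e2 : (∑ i ∈ s, fun t => f' t * if x i ≤ t then c i else 0) =
        fun t => ∑ i ∈ s, f' t * (if x i ≤ t then c i else 0) := by
      funext t; simp only [Finset.sum_apply]
    rwa [e2] at this
  · rw [intervalIntegral.integral_finset_sum fun i _ => hint i, Finset.sum_congr rfl hone,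
      Finset.mul_sum, ← Finset.sum_sub_distrib]
    exact Finset.sum_congr rfl fun i _ => by ring

end

end Vale.Agent.P006
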