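import Vale.Agent.P006.QG
import Vale.Agent.P006.PR1
import Vale.Agent.P026.Lat

namespace Vale.Agent.P006

open Vale.Agent.P026 Complex MeasureTheory Filter Topology
open scoped Classical ComplexConjugate Real MatrixGroups

noncomputable section

theorem pr_mem {y : ℝ} {p : O} : p ∈ PP y ↔ NN p ∧ N p ≤ y ∧ Prime p := by
  simp only [PP, Finset.mem_filter, mem_ballN, and_assoc]

theorem pr_four {y : ℝ} {p : O} (h : p ∈ PP y) : 4 ≤ N p :=
  four_le_N_of_prime (pr_mem.1 h).2.2 (pr_mem.1 h).1.1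

theorem pr_empty {y : ℝ} (h : y < 1) : PP y = ∅ := by
  apply Finset.eq_empty_of_forall_notMem
  intro p hp
  have := pr_four hp
  have := (pr_mem.1 hp).2.1
  linarith

theorem pr_le (Z t : ℝ) : (PP Z).filter (fun p => N p ≤ t) = PP (min Z t) := by
  ext p
  simp only [Finset.mem_filter, pr_mem, le_min_iff]
  tauto

theorem pr_lt_iff (p : O) (t : ℝ) : N p < t ↔ N p ≤ (⌈t⌉ : ℝ) - 1 := by
  have h1 : N p = ((Nm p : ℤ) : ℝ) := by simp [N]
  rw [h1, ← Int.lt_ceil]
  constructor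
  · intro h
    have : (Nm p : ℤ) ≤ ⌈t⌉ - 1 := by omega
    exact_mod_cast this
  · intro h
    have : (Nm p : ℤ) ≤ ⌈t⌉ - 1 := by exact_mod_cast h
    omega

theorem pr_lt (Z t : ℝ) : (PP Z).filter (fun p => ¬ t ≤ N p) = PP (min Z ((⌈t⌉ : ℝ) - 1)) := by
  rw [← pr_le]
  simp only [not_le, pr_lt_iff]

theorem pr_sub {M : Type*} [AddCommGroup M] (Z y t : ℝ) (c : O → M) :
    ∑ p ∈ ((PP Z).filter (fun p => y ≤ N p)).filter (fun p => N p ≤ t), c p =
      ∑ p ∈ PP (min Z t), c p - ∑ p ∈ PP (min (min Z t) ((⌈y⌉ : ℝ) - 1)), c p := by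
  rw [Finset.filter_comm, pr_le, ← pr_lt, eq_sub_iff_add_eq,
    Finset.sum_filter_add_sum_filter_not]

theorem pr_qg : ∃ δ : ℝ, 0 < δ ∧ δ ≤ 1 / 2 ∧ ∃ C : ℝ, 0 < C ∧ ∀ y : ℝ, 0 ≤ y →
    |∑ p ∈ PP y, Real.log (N p) - y| ≤ C * y ^ (1 - δ) := by
  obtain ⟨δ, hδ, C, hC, h⟩ := qg_one
  refine ⟨min δ (1 / 2), lt_min hδ (by norm_num), min_le_right _ _, C + 1, by linarith, ?_⟩
  intro y hy
  have hm := min_le_right δ (1 / 2)
  have hm' := min_le_left δ (1 / 2)
  have hm0 : 0 < min δ (1 / 2) := lt_min hδ (by norm_num)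
  have hp : 0 ≤ y ^ (1 - min δ (1 / 2)) := Real.rpow_nonneg hy _
  by_cases h1 : 1 ≤ y
  · have h2 : y ^ (1 - δ) ≤ y ^ (1 - min δ (1 / 2)) :=
      Real.rpow_le_rpow_of_exponent_le h1 (by linarith)
    refine (h y h1).trans ?_
    nlinarith
  · push Not at h1
    rw [pr_empty h1, Finset.sum_empty, zero_sub, abs_neg, abs_of_nonneg hy]
    have h2 : y ≤ y ^ (1 - min δ (1 / 2)) := by
      rcases hy.eq_or_lt with h0 | h0
      · rw [← h0] at hp ⊢; exact hp
      · conv_lhs => rw [← Real.rpow_one y]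
        exact Real.rpow_le_rpow_of_exponent_ge h0 h1.le (by linarith)
    nlinarith

theorem pr_qc : ∃ δ : ℝ, 0 < δ ∧ δ ≤ 1 / 2 ∧ ∃ C : ℝ, 0 < C ∧ ∀ (Z y t : ℝ) (h : O),
    y ≤ Z → y ≤ t → 0 ≤ t → h ≠ 0 → N h ≤ Z → ¬ IsCube h →
    ‖∑ p ∈ PP y, sym3 h p‖ ≤ C * t ^ (1 - δ) * Real.log (Z + 2) ^ 2 := by
  obtain ⟨δ, hδ, C, hC, h⟩ := qg_char
  refine ⟨min δ (1 / 2), lt_min hδ (by norm_num), min_le_right _ _, C, hC, ?_⟩
  intro Z y t k hyZ hyt ht hk hkZ hc
  have hm := min_le_right δ (1 / 2)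
  have hm' := min_le_left δ (1 / 2)
  by_cases h1 : 1 ≤ y
  · refine (h Z y k h1 hyZ hk hkZ hc).trans ?_
    have h2 : y ^ (1 - δ) ≤ t ^ (1 - min δ (1 / 2)) :=
      (Real.rpow_le_rpow_of_exponent_le h1 (by linarith)).trans
        (Real.rpow_le_rpow (by linarith) hyt (by linarith))
    gcongr
  · push Not at h1
    rw [pr_empty h1, Finset.sum_empty, norm_zero]
    positivity

theorem pr_WK {S : ℝ} (hS : 1 ≤ S) (w : ℂ) (x : ℝ) :
    WK S w x = Complex.exp (w / S * ((S * Real.log x : ℝ) : ℂ) - ((S * Real.log x : ℝ) : ℂ) ^ 2) := by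
  have : (S : ℂ) ≠ 0 := by exact_mod_cast (by linarith : S ≠ 0)
  unfold WK
  congr 1
  push_cast
  field_simp

theorem pr_key {S B v : ℝ} (hS : 1 ≤ S) (hB : 0 < B) {x : ℝ} (hx : 0 < x) :
    S * Real.log (x / B) ≤ v ↔ x ≤ B * Real.exp (v / S) := by
  rw [← le_div_iff₀' (by linarith), Real.log_le_iff_le_exp (div_pos hx hB), div_le_iff₀' hB]

theorem pr_pow {S B v δ : ℝ} (hS : 1 ≤ S) (hB : 0 < B) (hδ : 0 < δ) (hδ' : δ ≤ 1 / 2) :
    (B * Real.exp (v / S)) ^ (1 - δ) ≤ B ^ (1 - δ) * Real.exp (2 * |v|) := by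
  rw [Real.mul_rpow hB.le (Real.exp_pos _).le, ← Real.exp_mul]
  have h1 : v / S * (1 - δ) ≤ 2 * |v| := by
    have a1 : v / S ≤ |v| := by
      refine (le_abs_self _).trans ?_
      rw [abs_div, abs_of_pos (by linarith : 0 < S)]
      exact div_le_self (abs_nonneg _) hS
    have a2 := abs_nonneg v
    nlinarith
  gcongr

theorem pr_exp1 (y : ℝ) : |Real.exp y - 1| ≤ |y| * Real.exp |y| := by
  rcases le_total 0 y with h | h
  · rw [abs_of_nonneg h, abs_of_nonneg (sub_nonneg.2 (Real.one_le_exp h))]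
    have h1 := Real.add_one_le_exp (-y)
    have h2 : Real.exp (-y) * Real.exp y = 1 := by rw [← Real.exp_add]; simp
    have h3 := Real.exp_pos y
    nlinarith
  · rw [abs_of_nonpos h, abs_of_nonpos (sub_nonpos.2 (Real.exp_le_one_iff.2 h))]
    have h1 := Real.add_one_le_exp y
    have h2 : 1 ≤ Real.exp (-y) := Real.one_le_exp (by linarith)
    nlinarith

theorem pr_normWK (S a x : ℝ) :
    ‖WK S a x‖ = Real.exp (a * Real.log x - S ^ 2 * Real.log x ^ 2) := by
  unfold WK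
  rw [Complex.norm_exp]
  congr 1
  simp [pow_two]

theorem pr_WK_real (S a x : ℝ) : WK S a x = ((‖WK S a x‖ : ℝ) : ℂ) := by
  rw [pr_normWK]
  unfold WK
  push_cast
  rfl

theorem pr_WK_le {S a : ℝ} (hS : 1 ≤ S) (ha : |a| ≤ 4) (x : ℝ) : ‖WK S a x‖ ≤ Real.exp 4 := by
  rw [pr_normWK]
  apply Real.exp_le_exp.2
  have h1 : a * Real.log x ≤ 4 * |Real.log x| := by
    calc _ ≤ |a * Real.log x| := le_abs_self _
      _ = |a| * |Real.log x| := abs_mul _ _
      _ ≤ _ := by gcongr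
  have h2 : Real.log x ^ 2 = |Real.log x| ^ 2 := (sq_abs _).symm
  have h3 : 1 ≤ S ^ 2 := one_le_pow₀ hS
  nlinarith [sq_nonneg (|Real.log x| - 2), sq_nonneg (Real.log x)]

theorem pr_thin0 : ∃ δ : ℝ, 0 < δ ∧ δ ≤ 1 / 2 ∧ ∃ C : ℝ, 0 < C ∧ ∀ (B S Z a : ℝ), 2 ≤ B → 1 ≤ S →
    |a| ≤ 4 → ∑ p ∈ PP Z, Real.log (N p) * ‖WK S a (N p / B)‖ ≤ C * (B / S + B ^ (1 - δ)) := by
  obtain ⟨δ, hδ, hδ', C, hC, h⟩ := pr_qg
  refine ⟨δ, hδ, hδ', 15 * Real.exp 32 * (1 + 2 * C), by positivity, ?_⟩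
  intro B S Z a hB hS ha
  have hB0 : 0 < B := by linarith
  have hS0 : 0 < S := by linarith
  have hp := Real.rpow_nonneg hB0.le (1 - δ)
  by_cases hZ : Z < 0
  · rw [pr_empty (by linarith), Finset.sum_empty]; positivity
  push Not at hZ
  have hw : ‖((a : ℂ) / S)‖ ≤ 4 := by
    rw [norm_div, Complex.norm_real, Complex.norm_real, Real.norm_eq_abs, Real.norm_eq_abs,
      abs_of_pos hS0]
    exact (div_le_self (abs_nonneg _) hS).trans ha
  have key := pr_gauss (PP Z) (fun p => S * Real.log (N p / B)) (fun p => (Real.log (N p) : ℂ))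
    ((a : ℂ) / S) ((∑ p ∈ PP (min Z B), Real.log (N p) : ℝ) : ℂ) (B / S + 2 * C * B ^ (1 - δ))
    ((Complex.abs_re_le_norm _).trans hw) (by
      intro v
      have e : (PP Z).filter (fun p => S * Real.log (N p / B) ≤ v) =
          PP (min Z (B * Real.exp (v / S))) := by
        rw [← pr_le]
        refine Finset.filter_congr fun p hp => pr_key hS hB0 ?_
        have := pr_four hp; linarith
      rw [e, ← Complex.ofReal_sum, ← Complex.ofReal_sub, Complex.norm_real, Real.norm_eq_abs]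
      set t := B * Real.exp (v / S) with ht
      have ht0 : 0 < t := by positivity
      have h1 := h (min Z t) (le_min hZ ht0.le)
      have h2 := h (min Z B) (le_min hZ hB0.le)
      have h3 : (min Z t) ^ (1 - δ) ≤ B ^ (1 - δ) * Real.exp (2 * |v|) :=
        (Real.rpow_le_rpow (le_min hZ ht0.le) (min_le_right _ _) (by linarith)).trans
          (pr_pow hS hB0 hδ hδ')
      have one_le : 1 ≤ Real.exp (2 * |v|) := Real.one_le_exp (by positivity)
      have h4 : (min Z B) ^ (1 - δ) ≤ B ^ (1 - δ) * Real.exp (2 * |v|) :=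
        (Real.rpow_le_rpow (le_min hZ hB0.le) (min_le_right _ _) (by linarith)).trans
          (le_mul_of_one_le_right hp one_le)
      have h5 : |min Z t - min Z B| ≤ |t - B| := by
        have := abs_min_sub_min_le_max Z t Z B
        simpa using this
      have h6 : |t - B| ≤ B / S * Real.exp (2 * |v|) := by
        have a1 : t - B = B * (Real.exp (v / S) - 1) := by rw [ht]; ring
        have a2 := pr_exp1 (v / S)
        have a3 : |v / S| = |v| / S := by rw [abs_div, abs_of_pos hS0]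
        have a4 : Real.exp |v / S| ≤ Real.exp |v| := by
          rw [a3]; exact Real.exp_le_exp.2 (div_le_self (abs_nonneg _) hS)
        have a5 : |v| ≤ Real.exp |v| := by linarith [Real.add_one_le_exp |v|]
        have a6 : Real.exp (2 * |v|) = Real.exp |v| * Real.exp |v| := by
          rw [← Real.exp_add]; ring_nf
        rw [a1, abs_mul, abs_of_pos hB0, a6]
        calc _ ≤ B * (|v| / S * Real.exp |v|) := by
              refine mul_le_mul_of_nonneg_left (a2.trans ?_) hB0.le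
              rw [a3] at a4 ⊢
              gcongr
          _ ≤ B * (Real.exp |v| / S * Real.exp |v|) := by gcongr
          _ = _ := by ring
      have h7 := abs_le.1 h1
      have h8 := abs_le.1 h2
      have h9 := abs_le.1 (h5.trans h6)
      have h10 := mul_le_mul_of_nonneg_left h3 hC.le
      have h11 := mul_le_mul_of_nonneg_left h4 hC.le
      rw [abs_le]
      constructor <;> nlinarith)
  have e : ∑ p ∈ PP Z, (Real.log (N p) : ℂ) * Complex.exp ((a : ℂ) / S *
      ((S * Real.log (N p / B) : ℝ) : ℂ) - ((S * Real.log (N p / B) : ℝ) : ℂ) ^ 2) =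
      ((∑ p ∈ PP Z, Real.log (N p) * ‖WK S a (N p / B)‖ : ℝ) : ℂ) := by
    rw [Complex.ofReal_sum]
    refine Finset.sum_congr rfl fun p _ => ?_
    rw [← pr_WK hS, Complex.ofReal_mul, ← pr_WK_real]
  rw [e, Complex.norm_real, Real.norm_eq_abs] at key
  refine (le_abs_self _).trans (key.trans ?_)
  have h1 : 0 ≤ B / S := by positivity
  calc _ ≤ 3 * Real.exp 32 * (1 + 4) * ((1 + 2 * C) * (B / S + B ^ (1 - δ))) := by
        gcongr
        nlinarith [mul_nonneg hC.le h1]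
    _ = _ := by ring

theorem pr_thin : ∃ δ : ℝ, 0 < δ ∧ ∃ C : ℝ, 0 < C ∧ ∀ (B S Z a : ℝ), 2 ≤ B → 1 ≤ S → |a| ≤ 4 →
    ∑ p ∈ PP Z, ‖WK S a (N p / B)‖ ≤ C * (B / (S * Real.log B) + B ^ (1 - δ)) := by
  obtain ⟨δ, hδ, hδ', C, hC, h⟩ := pr_thin0
  obtain ⟨C1, hC1, hc⟩ := card_ballO_le
  refine ⟨δ, hδ, 4 * C + Real.exp 4 * C1, by positivity, ?_⟩
  intro B S Z a hB hS ha
  have hB0 : 0 < B := by linarith
  have hl2 : (1 / 2 : ℝ) ≤ Real.log B := by
    have := Real.log_two_gt_d9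
    have := Real.log_le_log (by norm_num) hB
    linarith
  have hl : 0 < Real.log B := by linarith
  have hp := Real.rpow_nonneg hB0.le (1 - δ)
  have hpt : ∀ p ∈ PP Z, ‖WK S a (N p / B)‖ ≤
      2 / Real.log B * (Real.log (N p) * ‖WK S a (N p / B)‖) +
        (if N p ≤ √B then Real.exp 4 else 0) := by
    intro p hp
    have h4 := pr_four hp
    have hlp : 0 ≤ Real.log (N p) := Real.log_nonneg (by linarith)
    split_ifs with hb
    · have := pr_WK_le hS ha (N p / B)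
      have : 0 ≤ 2 / Real.log B * (Real.log (N p) * ‖WK S a (N p / B)‖) := by positivity
      linarith
    · push Not at hb
      have h1 : Real.log B / 2 ≤ Real.log (N p) := by
        rw [← Real.log_sqrt hB0.le]
        exact Real.log_le_log (Real.sqrt_pos.2 hB0) hb.le
      have h2 : 1 ≤ 2 / Real.log B * Real.log (N p) := by
        rw [div_mul_eq_mul_div, le_div_iff₀ hl]; linarith
      rw [add_zero, ← mul_assoc]
      exact le_mul_of_one_le_left (norm_nonneg _) h2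
  refine (Finset.sum_le_sum hpt).trans ?_
  rw [Finset.sum_add_distrib, ← Finset.mul_sum, ← Finset.sum_filter, Finset.sum_const,
    nsmul_eq_mul]
  have h1 : (((PP Z).filter (fun p => N p ≤ √B)).card : ℝ) ≤ C1 * B ^ (1 - δ) := by
    have a1 : (PP Z).filter (fun p => N p ≤ √B) ⊆ ballO √B := by
      intro p hp
      rw [Finset.mem_filter] at hp
      exact mem_ballO.2 ⟨(pr_mem.1 hp.1).2.2.ne_zero, hp.2⟩
    have a2 : √B ≤ B ^ (1 - δ) := by
      rw [Real.sqrt_eq_rpow]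
      exact Real.rpow_le_rpow_of_exponent_le (by linarith) (by linarith)
    calc _ ≤ ((ballO √B).card : ℝ) := by exact_mod_cast Finset.card_le_card a1
      _ ≤ C1 * √B := hc _ (Real.sqrt_nonneg _)
      _ ≤ _ := by gcongr
  have h2 := h B S Z a hB hS ha
  have h3 : 2 / Real.log B ≤ 4 := by rw [div_le_iff₀ hl]; linarith
  have h4 : 0 ≤ B / (S * Real.log B) := by positivity
  have h5 : 2 / Real.log B * (C * (B / S + B ^ (1 - δ))) =
      2 * C * (B / (S * Real.log B)) + 2 / Real.log B * (C * B ^ (1 - δ)) := by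
    field_simp
  have h6 : 2 / Real.log B * (C * B ^ (1 - δ)) ≤ 4 * (C * B ^ (1 - δ)) := by gcongr
  have h7 := mul_le_mul_of_nonneg_left h2 (by positivity : 0 ≤ 2 / Real.log B)
  have h8 := mul_le_mul_of_nonneg_right h1 (Real.exp_pos 4).le
  have h9 : 0 ≤ Real.exp 4 * C1 * (B / (S * Real.log B)) := by positivity
  have h10 : 0 ≤ C * (B / (S * Real.log B)) := by positivity
  nlinarith

theorem pr_mertens : ∃ δ : ℝ, 0 < δ ∧ ∃ C : ℝ, 0 < C ∧ ∀ z1 z : ℝ, 2 ≤ z1 → z1 ≤ z →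
    ∑ p ∈ (PP z).filter (fun p => z1 ≤ N p), (N p)⁻¹ ≤
      Real.log (Real.log z / Real.log z1) + C * z1 ^ (-δ) := by
  obtain ⟨δ, hδ, hδ', C, hC, h⟩ := pr_qg
  set D := 2 * C + 1 with hD
  have hD0 : 0 < D := by positivity
  refine ⟨δ, hδ, D * (2 + 4 / δ), by positivity, ?_⟩
  intro z1 z hz1 hz
  set f : ℝ → ℝ := fun t => (t * Real.log t)⁻¹ with hf
  set f' : ℝ → ℝ := fun t => -(Real.log t + 1) / (t * Real.log t) ^ 2 with hf'
  have hlog : ∀ t : ℝ, 2 ≤ t → 0.69 ≤ Real.log t := by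
    intro t ht
    have := Real.log_two_gt_d9
    have := Real.log_le_log (by norm_num) ht
    linarith
  have hd : ∀ t : ℝ, 2 ≤ t → HasDerivAt f (f' t) t := by
    intro t ht
    have hl := hlog t ht
    have h1 : HasDerivAt (fun t => t * Real.log t) (Real.log t + 1) t :=
      Real.hasDerivAt_mul_log (by linarith)
    exact h1.inv (by positivity)
  have hc : ContinuousOn f' (Set.Icc z1 z) := by
    intro t ht
    have h2 : 2 ≤ t := hz1.trans ht.1
    have hl := hlog t h2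
    have h0 : t ≠ 0 := by linarith
    refine ContinuousAt.continuousWithinAt ?_
    simp only [hf']
    exact ((Real.continuousAt_log h0).add continuousAt_const).neg.div
      ((continuousAt_id.mul (Real.continuousAt_log h0)).pow 2) (by positivity)
  set s := (PP z).filter (fun p => z1 ≤ N p) with hs
  obtain ⟨hI, he⟩ := pr_abel s N (fun p => Real.log (N p)) f f' hz
    (fun p hp => ⟨(Finset.mem_filter.1 hp).2, (pr_mem.1 (Finset.mem_filter.1 hp).1).2.1⟩)
    (fun t ht => hd t (hz1.trans ht.1)) hc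
  have e1 : ∑ p ∈ s, (N p)⁻¹ = ∑ p ∈ s, Real.log (N p) * f (N p) := by
    refine Finset.sum_congr rfl fun p hp => ?_
    have h4 := pr_four (Finset.mem_filter.1 hp).1
    have := hlog (N p) (by linarith)
    simp only [hf]
    field_simp
  have hA : ∀ t, z1 ≤ t → t ≤ z → ∑ p ∈ s.filter (fun p => N p ≤ t), Real.log (N p) ≤
      (t - z1) + D * t ^ (1 - δ) := by
    intro t h1 h2
    have c1 : (⌈z1⌉ : ℝ) - 1 < z1 := by linarith [Int.ceil_lt_add_one z1]
    have c2 : z1 ≤ (⌈z1⌉ : ℝ) := Int.le_ceil z1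
    rw [hs, pr_sub, min_eq_right h2, min_eq_right (by linarith)]
    have a1 := abs_le.1 (h t (by linarith))
    have a2 := abs_le.1 (h ((⌈z1⌉ : ℝ) - 1) (by linarith))
    have a3 : ((⌈z1⌉ : ℝ) - 1) ^ (1 - δ) ≤ t ^ (1 - δ) :=
      Real.rpow_le_rpow (by linarith) (by linarith) (by linarith)
    have a4 : 1 ≤ t ^ (1 - δ) := Real.one_le_rpow (by linarith) (by linarith)
    have a5 := mul_le_mul_of_nonneg_left a3 hC.le
    rw [hD]
    nlinarith
  have hA0 : ∀ t, 0 ≤ ∑ p ∈ s.filter (fun p => N p ≤ t), Real.log (N p) := by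
    intro t
    refine Finset.sum_nonneg fun p hp => Real.log_nonneg ?_
    have h4 := pr_four (Finset.mem_filter.1 (Finset.mem_filter.1 hp).1).1
    linarith
  set G : ℝ → ℝ := fun t => Real.log (Real.log t) - f t * (t - z1) - 4 * D / δ * t ^ (-δ) with hG
  set g : ℝ → ℝ := fun t => -(f' t * (t - z1)) + 4 * D * t ^ (-δ - 1) with hg
  have hGd : ∀ t : ℝ, 2 ≤ t → HasDerivAt G (g t) t := by
    intro t ht
    have hl := hlog t ht
    have h0 : t ≠ 0 := by linarith
    have h1 : HasDerivAt (fun t => Real.log (Real.log t)) (t⁻¹ / Real.log t) t :=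
      (Real.hasDerivAt_log h0).log (by linarith)
    have h2 := (hd t ht).mul ((hasDerivAt_id t).sub_const z1)
    have h3 := (Real.hasDerivAt_rpow_const (x := t) (p := -δ) (Or.inl h0)).const_mul (4 * D / δ)
    refine ((h1.sub h2).sub h3).congr_deriv ?_
    simp only [hg, hf, id]
    field_simp
    ring
  have hgc : ContinuousOn g (Set.Icc z1 z) := by
    refine ((hc.mul (continuousOn_id.sub continuousOn_const)).neg).add
      (continuousOn_const.mul (continuousOn_id.rpow_const fun t ht => Or.inl ?_))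
    have := ht.1
    simp only [id]; linarith
  have hgI : IntervalIntegrable g volume z1 z := by
    rw [intervalIntegrable_iff_integrableOn_Icc_of_le hz]
    exact hgc.integrableOn_Icc
  have hint : ∫ t in z1..z, g t = G z - G z1 :=
    intervalIntegral.integral_eq_sub_of_hasDerivAt
      (fun t ht => hGd t (by rw [Set.uIcc_of_le hz] at ht; exact hz1.trans ht.1)) hgI
  have hmono : ∫ t in z1..z, -(f' t * ∑ p ∈ s.filter (fun p => N p ≤ t), Real.log (N p)) ≤
      ∫ t in z1..z, g t := by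
    refine intervalIntegral.integral_mono_on hz hI.neg hgI fun t ht => ?_
    have h2 : 2 ≤ t := hz1.trans ht.1
    have hl := hlog t h2
    have ht0 : 0 < t := by linarith
    have a1 : 0 ≤ -f' t := by
      simp only [hf', neg_div, neg_neg]; positivity
    have a2 : -f' t ≤ 4 / t ^ 2 := by
      simp only [hf', neg_div, neg_neg]
      rw [div_le_div_iff₀ (by positivity) (by positivity)]
      have : Real.log t + 1 ≤ 4 * Real.log t ^ 2 := by nlinarith
      calc _ ≤ (4 * Real.log t ^ 2) * t ^ 2 := by gcongr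
        _ = _ := by ring
    have a3 : t ^ (-δ - 1) = t ^ (1 - δ) / t ^ 2 := by
      rw [eq_div_iff (by positivity), ← Real.rpow_natCast, ← Real.rpow_add ht0]
      congr 1; push_cast; ring
    have a4 := mul_le_mul_of_nonneg_left (hA t ht.1 ht.2) a1
    have a5 : -f' t * (D * t ^ (1 - δ)) ≤ 4 / t ^ 2 * (D * t ^ (1 - δ)) := by gcongr
    have a6 : 4 / t ^ 2 * (D * t ^ (1 - δ)) = 4 * D * t ^ (-δ - 1) := by rw [a3]; ring
    simp only [hg]
    linarith
  rw [intervalIntegral.integral_neg, hint] at hmono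
  have hz0 : 0 < z := by linarith
  have hlz := hlog z (hz1.trans hz)
  have hlz1 := hlog z1 hz1
  have hall : s.filter (fun p => N p ≤ z) = s :=
    Finset.filter_true_of_mem fun p hp => (pr_mem.1 (Finset.mem_filter.1 hp).1).2.1
  have b1 := hA z hz le_rfl
  rw [hall] at b1
  have b2 : 0 ≤ f z := by simp only [hf]; positivity
  have b3 := mul_le_mul_of_nonneg_left b1 b2
  have b4 : f z * (D * z ^ (1 - δ)) ≤ D * (2 * z1 ^ (-δ)) := by
    have c1 : z ^ (1 - δ) = z * z ^ (-δ) := by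
      rw [sub_eq_add_neg, Real.rpow_add hz0, Real.rpow_one]
    have c2 : z ^ (-δ) ≤ z1 ^ (-δ) := Real.rpow_le_rpow_of_nonpos (by linarith) hz (by linarith)
    have c3 : f z * (D * z ^ (1 - δ)) = D * ((Real.log z)⁻¹ * z ^ (-δ)) := by
      rw [c1]; simp only [hf]; field_simp
    have c4 : (Real.log z)⁻¹ ≤ 2 := by
      rw [inv_le_comm₀ (by linarith) (by norm_num)]; linarith
    rw [c3]
    gcongr
  have b5 : 0 ≤ 4 * D / δ * z ^ (-δ) := by positivity
  rw [e1, he, Real.log_div (by linarith) (by linarith)]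
  simp only [hG, sub_self, mul_zero, sub_zero] at hmono
  have b6 : D * (2 + 4 / δ) * z1 ^ (-δ) = D * (2 * z1 ^ (-δ)) + 4 * D / δ * z1 ^ (-δ) := by ring
  rw [b6]
  linarith

theorem pr_s1 : ∃ δ : ℝ, 0 < δ ∧ ∃ C : ℝ, 0 < C ∧ ∀ X : ℝ, 1 ≤ X →
    |∑ p ∈ PP X, Real.log (N p) * N p ^ (-(1 / 6) : ℝ) - 6 / 5 * X ^ (5 / 6 : ℝ)| ≤
      C * X ^ (5 / 6 - δ) := by
  obtain ⟨δ, hδ, hδ', C, hC, h⟩ := pr_qg
  refine ⟨δ, hδ, 2 * C + 1, by positivity, ?_⟩
  intro X hX
  have hX0 : 0 < X := by linarith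
  set f : ℝ → ℝ := fun t => t ^ (-(1 / 6) : ℝ) with hf
  set f' : ℝ → ℝ := fun t => -(1 / 6) * t ^ (-(1 / 6) - 1 : ℝ) with hf'
  have hcr : ∀ a : ℝ, ContinuousOn (fun t : ℝ => t ^ a) (Set.Icc 1 X) := fun a =>
    continuousOn_id.rpow_const fun t ht => Or.inl (by have := ht.1; simp only [id]; linarith)
  have hir : ∀ a : ℝ, IntervalIntegrable (fun t : ℝ => t ^ a) volume 1 X := by
    intro a
    rw [intervalIntegrable_iff_integrableOn_Icc_of_le hX]
    exact (hcr a).integrableOn_Icc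
  obtain ⟨hI, he⟩ := pr_abel (PP X) N (fun p => Real.log (N p)) f f' hX
    (fun p hp => ⟨by linarith [pr_four hp], (pr_mem.1 hp).2.1⟩)
    (fun t ht => Real.hasDerivAt_rpow_const (Or.inl (by have := ht.1; linarith)))
    (continuousOn_const.mul (hcr _))
  change |∑ p ∈ PP X, Real.log (N p) * f (N p) - _| ≤ _
  rw [he]
  have i1 : ∫ t in (1 : ℝ)..X, t ^ (-(1 / 6) : ℝ) = 6 / 5 * (X ^ (5 / 6 : ℝ) - 1) := by
    rw [integral_rpow (Or.inl (by norm_num)), Real.one_rpow]
    norm_num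
    ring
  have i2 : ∫ t in (1 : ℝ)..X, t ^ (-(1 / 6) - δ : ℝ) ≤ 3 * X ^ (5 / 6 - δ) := by
    rw [integral_rpow (Or.inl (by linarith)), Real.one_rpow,
      show -(1 / 6) - δ + 1 = 5 / 6 - δ by ring, div_le_iff₀ (by linarith)]
    have := Real.rpow_nonneg hX0.le (5 / 6 - δ)
    nlinarith
  have hdiff : |∫ t in (1 : ℝ)..X, (f' t * ∑ p ∈ (PP X).filter (fun p => N p ≤ t), Real.log (N p) +
      1 / 6 * t ^ (-(1 / 6) : ℝ))| ≤ ∫ t in (1 : ℝ)..X, C / 6 * t ^ (-(1 / 6) - δ : ℝ) := by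
    rw [← Real.norm_eq_abs]
    refine intervalIntegral.norm_integral_le_of_norm_le hX (Eventually.of_forall fun t ht => ?_)
      ((hir _).const_mul _)
    have ht0 : 0 < t := by linarith [ht.1]
    rw [pr_le, min_eq_right ht.2, Real.norm_eq_abs]
    have a1 : t ^ (-(1 / 6) : ℝ) = t ^ (-(1 / 6) - 1 : ℝ) * t := by
      rw [← Real.rpow_add_one ht0.ne']; congr 1; ring
    have a2 : t ^ (-(1 / 6) - δ : ℝ) = t ^ (-(1 / 6) - 1 : ℝ) * t ^ (1 - δ) := by
      rw [← Real.rpow_add ht0]; congr 1; ring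
    have a3 : f' t * ∑ p ∈ PP t, Real.log (N p) + 1 / 6 * t ^ (-(1 / 6) : ℝ) =
        -(1 / 6 * t ^ (-(1 / 6) - 1 : ℝ) * (∑ p ∈ PP t, Real.log (N p) - t)) := by
      rw [a1]; simp only [hf']; ring
    have a4 := Real.rpow_nonneg ht0.le (-(1 / 6) - 1 : ℝ)
    rw [a3, abs_neg, abs_mul, abs_of_nonneg (by positivity), a2]
    calc _ ≤ 1 / 6 * t ^ (-(1 / 6) - 1 : ℝ) * (C * t ^ (1 - δ)) := by
          gcongr; exact h t ht0.le
      _ = _ := by ring
  rw [intervalIntegral.integral_add hI ((hir _).const_mul _), intervalIntegral.integral_const_mul,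
    intervalIntegral.integral_const_mul, i1] at hdiff
  have b1 : f X * X = X ^ (5 / 6 : ℝ) := by
    simp only [hf]; rw [← Real.rpow_add_one hX0.ne']; congr 1; ring
  have b2 : f X * X ^ (1 - δ) = X ^ (5 / 6 - δ) := by
    simp only [hf]; rw [← Real.rpow_add hX0]; congr 1; ring
  have b0 : 0 ≤ f X := Real.rpow_nonneg hX0.le _
  have b3 : |f X * ∑ p ∈ PP X, Real.log (N p) - X ^ (5 / 6 : ℝ)| ≤ C * X ^ (5 / 6 - δ) := by
    rw [← b1, ← mul_sub, abs_mul, abs_of_nonneg b0, ← b2]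
    calc _ ≤ f X * (C * X ^ (1 - δ)) := by gcongr; exact h X hX0.le
      _ = _ := by ring
  have b4 : 1 ≤ X ^ (5 / 6 - δ) := Real.one_le_rpow hX (by linarith)
  have b5 := abs_le.1 b3
  have b6 := abs_le.1 hdiff
  have b7 := mul_le_mul_of_nonneg_left i2 (by positivity : 0 ≤ C / 6)
  have b8 := mul_pos hC (lt_of_lt_of_le one_pos b4)
  rw [abs_le]
  constructor <;> nlinarith

theorem pr_s1_lim : Tendsto (fun X : ℝ =>
    (∑ p ∈ PP X, Real.log (N p) * N p ^ (-(1 / 6) : ℝ)) / X ^ (5 / 6 : ℝ)) atTop (𝓝 (6 / 5)) := by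
  obtain ⟨δ, hδ, C, hC, h⟩ := pr_s1
  rw [tendsto_iff_norm_sub_tendsto_zero]
  have h0 : Tendsto (fun X : ℝ => C * X ^ (-δ)) atTop (𝓝 0) := by
    simpa using (tendsto_rpow_neg_atTop hδ).const_mul C
  refine squeeze_zero' (Eventually.of_forall fun _ => norm_nonneg _) ?_ h0
  filter_upwards [eventually_ge_atTop 1] with X hX
  have hX0 : 0 < X := by linarith
  have hp : 0 < X ^ (5 / 6 : ℝ) := Real.rpow_pos_of_pos hX0 _
  have e : (∑ p ∈ PP X, Real.log (N p) * N p ^ (-(1 / 6) : ℝ)) / X ^ (5 / 6 : ℝ) - 6 / 5 =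
      (∑ p ∈ PP X, Real.log (N p) * N p ^ (-(1 / 6) : ℝ) - 6 / 5 * X ^ (5 / 6 : ℝ)) /
        X ^ (5 / 6 : ℝ) := by field_simp
  rw [e, Real.norm_eq_abs, abs_div, abs_of_pos hp, div_le_iff₀ hp, mul_assoc,
    ← Real.rpow_add hX0, show -δ + 5 / 6 = 5 / 6 - δ by ring]
  exact h X hX

theorem pr_asymp : Tendsto (fun X : ℝ =>
    (∑ p ∈ PP X, N p ^ (-(1 / 6) : ℝ)) / (X ^ (5 / 6 : ℝ) / Real.log X)) atTop (𝓝 (6 / 5)) := by
  have hS := pr_s1_lim
  obtain ⟨C, hC, hc⟩ := sum_N_rpow_le (a := -(1 / 6)) (by norm_num)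
  rw [tendsto_order]
  constructor
  · intro a ha
    filter_upwards [hS.eventually (lt_mem_nhds ha), eventually_ge_atTop 2] with X h1 hX
    have hX0 : 0 < X := by linarith
    have hp : 0 < X ^ (5 / 6 : ℝ) := Real.rpow_pos_of_pos hX0 _
    refine h1.trans_le ?_
    rw [div_div_eq_mul_div, Finset.sum_mul]
    refine div_le_div_of_nonneg_right (Finset.sum_le_sum fun p hp => ?_) hp.le
    rw [mul_comm]
    have := pr_four hp
    have := (pr_mem.1 hp).2.1
    have : 0 ≤ N p ^ (-(1 / 6) : ℝ) := Real.rpow_nonneg (by linarith) _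
    gcongr
  · intro b hb
    set e : ℝ := 1 - (6 / 5) / ((6 / 5 + b) / 2) with he
    have hb2 : 6 / 5 < (6 / 5 + b) / 2 := by linarith
    have he0 : 0 < e := by
      rw [he, sub_pos, div_lt_one (by linarith)]; exact hb2
    have he1 : 0 < 1 - e := by rw [he]; ring_nf; positivity
    have hlim : (6 / 5) / (1 - e) + C * 0 < b := by
      have : (6 / 5) / (1 - e) = (6 / 5 + b) / 2 := by
        rw [he]; field_simp; ring
      rw [this]; linarith
    have h0 : Tendsto (fun X : ℝ => Real.log X / X ^ (5 / 6 * e)) atTop (𝓝 0) :=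
      (isLittleO_log_rpow_atTop (by positivity)).tendsto_div_nhds_zero
    have h1 := (hS.div_const (1 - e)).add (h0.const_mul C)
    filter_upwards [h1.eventually (gt_mem_nhds hlim), eventually_ge_atTop 2] with X h2 hX
    have hX0 : 0 < X := by linarith
    have hp : 0 < X ^ (5 / 6 : ℝ) := Real.rpow_pos_of_pos hX0 _
    have hl : 0 < Real.log X := Real.log_pos (by linarith)
    refine lt_of_le_of_lt ?_ h2
    have hpt : ∀ p ∈ PP X, N p ^ (-(1 / 6) : ℝ) * Real.log X ≤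
        Real.log (N p) * N p ^ (-(1 / 6) : ℝ) / (1 - e) +
          (if N p ≤ X ^ (1 - e) then N p ^ (-(1 / 6) : ℝ) else 0) * Real.log X := by
      intro p hp
      have h4 := pr_four hp
      have a0 : 0 ≤ N p ^ (-(1 / 6) : ℝ) := Real.rpow_nonneg (by linarith) _
      have hlp : 0 ≤ Real.log (N p) := Real.log_nonneg (by linarith)
      split_ifs with hb
      · have : 0 ≤ Real.log (N p) * N p ^ (-(1 / 6) : ℝ) / (1 - e) := by positivity
        linarith
      · push Not at hb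
        have a1 : (1 - e) * Real.log X ≤ Real.log (N p) := by
          rw [← Real.log_rpow hX0]
          exact Real.log_le_log (Real.rpow_pos_of_pos hX0 _) hb.le
        rw [zero_mul, add_zero, le_div_iff₀ he1]
        nlinarith
    have hs : ∑ p ∈ PP X, (if N p ≤ X ^ (1 - e) then N p ^ (-(1 / 6) : ℝ) else 0) ≤
        C * (X ^ (5 / 6 : ℝ) / X ^ (5 / 6 * e)) := by
      rw [← Finset.sum_filter, ← Real.rpow_sub hX0]
      calc _ ≤ ∑ n ∈ ballO (X ^ (1 - e)), N n ^ (-(1 / 6) : ℝ) := by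
            refine Finset.sum_le_sum_of_subset_of_nonneg ?_ fun n _ _ =>
              Real.rpow_nonneg (Nat.cast_nonneg _) _
            intro p hp
            rw [Finset.mem_filter] at hp
            exact mem_ballO.2 ⟨(pr_mem.1 hp.1).2.2.ne_zero, hp.2⟩
        _ ≤ _ := hc _ (Real.rpow_nonneg hX0.le _)
        _ = _ := by
            rw [← Real.rpow_mul hX0.le]; congr 2; ring
    rw [div_div_eq_mul_div, Finset.sum_mul, div_le_iff₀ hp]
    refine (Finset.sum_le_sum hpt).trans ?_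
    rw [Finset.sum_add_distrib, ← Finset.sum_div, ← Finset.sum_mul]
    have hq : 0 < X ^ (5 / 6 * e) := Real.rpow_pos_of_pos hX0 _
    have := mul_le_mul_of_nonneg_right hs hl.le
    refine (add_le_add le_rfl this).trans (le_of_eq ?_)
    field_simp

/-- twisted Gaussian prime sums -/
theorem pr_char : ∃ δ : ℝ, 0 < δ ∧ ∃ C : ℝ, 0 < C ∧ ∀ (Z B S y1 y2 τ a : ℝ) (h : O),
    1 ≤ B → B ≤ Z → 1 ≤ S → |a| ≤ 4 → y2 ≤ Z → h ≠ 0 → N h ≤ Z → ¬ IsCube h →
    ‖∑ p ∈ (PP y2).filter (fun p => y1 ≤ N p),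
        sym3 h p * WK S (a + τ * Complex.I) (N p / B)‖ ≤
      C * (1 + |τ|) * B ^ (1 - δ) * Real.log (Z + 2) ^ 2 := by
  obtain ⟨δ, hδ, hδ', C, hC, h⟩ := pr_qc
  refine ⟨δ, hδ, 30 * Real.exp 32 * C, by positivity, ?_⟩
  intro Z B S y1 y2 τ a k hB hBZ hS ha hy hk hkZ hc
  have hB0 : 0 < B := by linarith
  have hS0 : 0 < S := by linarith
  have hp := Real.rpow_nonneg hB0.le (1 - δ)
  have hre : |(((a : ℂ) + τ * Complex.I) / S).re| ≤ 4 := by
    rw [Complex.div_ofReal_re, abs_div, abs_of_pos hS0]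
    refine (div_le_self (abs_nonneg _) hS).trans ?_
    simpa using ha
  have hw : ‖((a : ℂ) + τ * Complex.I) / S‖ ≤ 4 + |τ| := by
    rw [norm_div, Complex.norm_real, Real.norm_eq_abs, abs_of_pos hS0]
    refine (div_le_self (norm_nonneg _) hS).trans ((norm_add_le _ _).trans ?_)
    simpa using ha
  have key := pr_gauss ((PP y2).filter (fun p => y1 ≤ N p)) (fun p => S * Real.log (N p / B))
    (fun p => sym3 k p) (((a : ℂ) + τ * Complex.I) / S) 0
    (2 * C * B ^ (1 - δ) * Real.log (Z + 2) ^ 2) hre (by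
      intro v
      have e : ((PP y2).filter (fun p => y1 ≤ N p)).filter
          (fun p => S * Real.log (N p / B) ≤ v) =
          ((PP y2).filter (fun p => y1 ≤ N p)).filter (fun p => N p ≤ B * Real.exp (v / S)) := by
        refine Finset.filter_congr fun p hp => pr_key hS hB0 ?_
        have := pr_four (Finset.mem_filter.1 hp).1; linarith
      rw [e, pr_sub, sub_zero]
      set t := B * Real.exp (v / S) with ht
      have ht0 : 0 < t := by positivity
      have h1 := h Z (min y2 t) t k ((min_le_left _ _).trans hy) (min_le_right _ _) ht0.le hk hkZ hc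
      have h2 := h Z (min (min y2 t) ((⌈y1⌉ : ℝ) - 1)) t k
        ((min_le_left _ _).trans ((min_le_left _ _).trans hy))
        ((min_le_left _ _).trans (min_le_right _ _)) ht0.le hk hkZ hc
      have h3 : t ^ (1 - δ) ≤ B ^ (1 - δ) * Real.exp (2 * |v|) := pr_pow hS hB0 hδ hδ'
      calc _ ≤ _ := norm_sub_le _ _
        _ ≤ 2 * (C * t ^ (1 - δ) * Real.log (Z + 2) ^ 2) := by linarith
        _ ≤ 2 * (C * (B ^ (1 - δ) * Real.exp (2 * |v|)) * Real.log (Z + 2) ^ 2) := by gcongr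
        _ = _ := by ring)
  simp only [← pr_WK hS] at key
  refine key.trans ?_
  have := abs_nonneg τ
  calc _ ≤ 3 * Real.exp 32 * (5 * (1 + |τ|)) * (2 * C * B ^ (1 - δ) * Real.log (Z + 2) ^ 2) := by
        gcongr; linarith
    _ = _ := by ring

end

end Vale.Agent.P006
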