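import Mathlib

open MeasureTheory Filter Set

namespace Vale.Agent.P006.SG

noncomputable section

/-- Gaussian sum in the logarithmic variable. -/
def F (a : ℕ → ℂ) (S y : ℝ) : ℂ :=
  ∑' n : ℕ, a n * ((Real.exp (-(S ^ 2 * (Real.log n - y) ^ 2)) : ℝ) : ℂ)

def zz (n : ℕ) : ℝ := ((n : ℝ) ^ (3 / 2 : ℝ))⁻¹

lemma zz_summable : Summable zz := Real.summable_nat_rpow_inv.2 (by norm_num)

lemma zz_nonneg (n : ℕ) : 0 ≤ zz n := by unfold zz; positivity

def ZZ : ℝ := ∑' n, zz n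

lemma ZZ_nonneg : 0 ≤ ZZ := tsum_nonneg zz_nonneg

section
variable {a : ℕ → ℂ} {B : ℝ}

lemma gauss_le (hB : ∀ n, ‖a n‖ ≤ B) (h0 : a 0 = 0) {β : ℝ} (hβ : 0 < β) (y : ℝ) (n : ℕ) :
    ‖a n‖ * Real.exp (-(β * (Real.log n - y) ^ 2)) ≤
      B * Real.exp (9 / (16 * β)) * Real.exp (3 / 2 * y) * zz n := by
  have hB0 : 0 ≤ B := le_trans (norm_nonneg _) (hB 0)
  rcases Nat.eq_zero_or_pos n with rfl | hn
  · rw [h0, norm_zero, zero_mul]
    have := zz_nonneg 0
    positivity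
  · have hn' : (0 : ℝ) < n := by exact_mod_cast hn
    have hz : zz n = Real.exp (-(3 / 2 * Real.log n)) := by
      unfold zz
      rw [Real.rpow_def_of_pos hn', ← Real.exp_neg]; congr 1; ring
    rw [hz, mul_assoc, mul_assoc, ← Real.exp_add, ← Real.exp_add]
    apply mul_le_mul (hB n) _ (by positivity) hB0
    apply Real.exp_le_exp.2
    have h1 : 0 ≤ β * ((Real.log n - y) - 3 / (4 * β)) ^ 2 := by positivity
    have h2 : β * ((Real.log n - y) - 3 / (4 * β)) ^ 2 =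
        β * (Real.log n - y) ^ 2 - 3 / 2 * (Real.log n - y) + 9 / (16 * β) := by
      field_simp; ring
    linarith

lemma gauss_summable (hB : ∀ n, ‖a n‖ ≤ B) (h0 : a 0 = 0) {β : ℝ} (hβ : 0 < β) (y : ℝ) :
    Summable fun n : ℕ => ‖a n‖ * Real.exp (-(β * (Real.log n - y) ^ 2)) :=
  Summable.of_nonneg_of_le (fun n => by positivity) (gauss_le hB h0 hβ y)
    (zz_summable.mul_left _)

lemma gauss_tsum_le (hB : ∀ n, ‖a n‖ ≤ B) (h0 : a 0 = 0) {β : ℝ} (hβ : 0 < β) (y : ℝ) :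
    ∑' n : ℕ, ‖a n‖ * Real.exp (-(β * (Real.log n - y) ^ 2)) ≤
      B * Real.exp (9 / (16 * β)) * Real.exp (3 / 2 * y) * ZZ := by
  unfold ZZ
  rw [← tsum_mul_left]
  exact (gauss_summable hB h0 hβ y).tsum_le_tsum (gauss_le hB h0 hβ y) (zz_summable.mul_left _)

lemma F_crude (hB : ∀ n, ‖a n‖ ≤ B) (h0 : a 0 = 0) {S : ℝ} (hS : 1 ≤ S) (y : ℝ) :
    ‖F a S y‖ ≤ B * Real.exp 1 * ZZ * Real.exp (3 / 2 * y) := by
  have hB0 : 0 ≤ B := le_trans (norm_nonneg _) (hB 0)
  have hβ : 0 < S ^ 2 := by positivity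
  have h1 : ‖F a S y‖ ≤ ∑' n : ℕ, ‖a n‖ * Real.exp (-(S ^ 2 * (Real.log n - y) ^ 2)) := by
    unfold F
    refine tsum_of_norm_bounded (gauss_summable hB h0 hβ y).hasSum (fun n => ?_)
    rw [norm_mul, Complex.norm_real, Real.norm_of_nonneg (Real.exp_pos _).le]
  refine h1.trans ((gauss_tsum_le hB h0 hβ y).trans ?_)
  have h2 : Real.exp (9 / (16 * S ^ 2)) ≤ Real.exp 1 := by
    apply Real.exp_le_exp.2
    rw [div_le_one (by positivity)]
    nlinarith
  have := ZZ_nonneg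
  calc B * Real.exp (9 / (16 * S ^ 2)) * Real.exp (3 / 2 * y) * ZZ
      ≤ B * Real.exp 1 * Real.exp (3 / 2 * y) * ZZ := by gcongr
    _ = _ := by ring

/-- the constant of the Gaussian convolution identity -/
def KK : ℝ := 3 / 4 * √(Real.pi / (16 / 3))

lemma KK_pos : 0 < KK := by
  unfold KK
  have := Real.pi_pos
  positivity

lemma conv_id (s : ℝ) :
    ∫ w : ℝ, w * Real.exp (-(4 / 3) * w ^ 2) * Real.exp (-(4 * (s - w) ^ 2)) =
      KK * (s * Real.exp (-s ^ 2)) := by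
  have h1 : ∀ w : ℝ, w * Real.exp (-(4 / 3) * w ^ 2) * Real.exp (-(4 * (s - w) ^ 2)) =
      Real.exp (-s ^ 2) * ((fun v : ℝ => v * Real.exp (-(16 / 3) * v ^ 2) +
        3 / 4 * s * Real.exp (-(16 / 3) * v ^ 2)) (w + -(3 / 4 * s))) := by
    intro w
    have : Real.exp (-(4 / 3) * w ^ 2) * Real.exp (-(4 * (s - w) ^ 2)) =
        Real.exp (-s ^ 2) * Real.exp (-(16 / 3) * (w + -(3 / 4 * s)) ^ 2) := by
      rw [← Real.exp_add, ← Real.exp_add]; congr 1; ring
    simp only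
    rw [mul_assoc, this]; ring
  simp_rw [h1]
  rw [integral_const_mul, integral_add_right_eq_self (fun v : ℝ => v * Real.exp (-(16 / 3) * v ^ 2) +
        3 / 4 * s * Real.exp (-(16 / 3) * v ^ 2)),
    integral_add (integrable_mul_exp_neg_mul_sq (by norm_num))
      ((integrable_exp_neg_mul_sq (by norm_num)).const_mul _), integral_const_mul,
    integral_gaussian]
  have h2 : ∫ v : ℝ, v * Real.exp (-(16 / 3) * v ^ 2) = 0 := by
    have := integral_neg_eq_self (fun v : ℝ => v * Real.exp (-(16 / 3) * v ^ 2)) volume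
    simp only [neg_mul, even_two, Even.neg_pow] at this
    rw [integral_neg] at this
    simp only [neg_mul]
    linarith
  rw [h2]; unfold KK; ring

/-- first-moment Gaussian sum -/
def E (a : ℕ → ℂ) (T x : ℝ) : ℂ :=
  ∑' n : ℕ, a n * (((Real.log n - x) * Real.exp (-(T ^ 2 * (Real.log n - x) ^ 2)) : ℝ) : ℂ)

lemma abs_mul_exp_le (w : ℝ) : |w| * Real.exp (-(4 / 3) * w ^ 2) ≤ Real.exp (-(1 / 3) * w ^ 2) := by
  have h1 : |w| ≤ Real.exp (w ^ 2) := by
    have := Real.add_one_le_exp (w ^ 2)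
    nlinarith [sq_abs w, sq_nonneg (|w| - 1), abs_nonneg w]
  calc |w| * Real.exp (-(4 / 3) * w ^ 2) ≤ Real.exp (w ^ 2) * Real.exp (-(4 / 3) * w ^ 2) := by
        gcongr
    _ = _ := by rw [← Real.exp_add]; congr 1; ring

lemma E_eq (hB : ∀ n, ‖a n‖ ≤ B) (h0 : a 0 = 0) {T : ℝ} (hT : 1 ≤ T) (x : ℝ) :
    ((KK * T : ℝ) : ℂ) * E a T x =
      ∫ w : ℝ, ((w * Real.exp (-(4 / 3) * w ^ 2) : ℝ) : ℂ) * F a (2 * T) (x + w / T) := by
  have hT0 : 0 < T := by linarith
  set G : ℕ → ℝ → ℂ := fun n w => a n * ((w * Real.exp (-(4 / 3) * w ^ 2) *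
    Real.exp (-(4 * (T * (Real.log n - x) - w) ^ 2)) : ℝ) : ℂ) with hG
  have hbd : ∀ n w, ‖G n w‖ ≤ ‖a n‖ * Real.exp (-(4 / 25 * (Real.log n - x) ^ 2)) *
      Real.exp (-(1 / 6) * w ^ 2) := by
    intro n w
    simp only [hG]
    rw [norm_mul, Complex.norm_real, Real.norm_eq_abs, abs_mul, abs_mul,
      abs_of_pos (Real.exp_pos _), abs_of_pos (Real.exp_pos _), mul_assoc ‖a n‖]
    apply mul_le_mul_of_nonneg_left _ (norm_nonneg _)
    calc |w| * Real.exp (-(4 / 3) * w ^ 2) * Real.exp (-(4 * (T * (Real.log n - x) - w) ^ 2))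
        ≤ Real.exp (-(1 / 3) * w ^ 2) * Real.exp (-(4 * (T * (Real.log n - x) - w) ^ 2)) := by
          gcongr; exact abs_mul_exp_le w
      _ ≤ _ := by
          rw [← Real.exp_add, ← Real.exp_add]
          apply Real.exp_le_exp.2
          have h1 : (Real.log n - x) ^ 2 ≤ (T * (Real.log n - x)) ^ 2 := by
            rw [mul_pow]
            have : 1 ≤ T ^ 2 := by nlinarith
            nlinarith [sq_nonneg (Real.log n - x)]
          nlinarith [sq_nonneg (25 * w - 24 * (T * (Real.log n - x)))]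
  have hint : ∀ n, Integrable (G n) := by
    intro n
    refine Integrable.mono' ((integrable_exp_neg_mul_sq (b := 1 / 6) (by norm_num)).const_mul
      (‖a n‖ * Real.exp (-(4 / 25 * (Real.log n - x) ^ 2)))) ?_ (Eventually.of_forall (hbd n))
    simp only [hG]
    fun_prop
  have hsum : Summable fun n => ∫ w, ‖G n w‖ := by
    refine Summable.of_nonneg_of_le (fun n => integral_nonneg fun w => norm_nonneg _)
      (fun n => ?_) ((gauss_summable hB h0 (β := 4 / 25) (by norm_num) x).mul_right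
        (√(Real.pi / (1 / 6))))
    rw [← integral_gaussian, ← integral_const_mul]
    exact integral_mono (hint n).norm
      ((integrable_exp_neg_mul_sq (b := 1 / 6) (by norm_num)).const_mul _) (hbd n)
  have hs := hasSum_integral_of_summable_integral_norm hint hsum
  have h1 : ∀ n, ∫ w, G n w = ((KK * T : ℝ) : ℂ) * (a n *
      (((Real.log n - x) * Real.exp (-(T ^ 2 * (Real.log n - x) ^ 2)) : ℝ) : ℂ)) := by
    intro n
    simp only [hG]
    rw [integral_const_mul, integral_complex_ofReal, conv_id, mul_pow]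
    push_cast; ring
  have h2 : ∀ w, ∑' n, G n w =
      ((w * Real.exp (-(4 / 3) * w ^ 2) : ℝ) : ℂ) * F a (2 * T) (x + w / T) := by
    intro w
    unfold F
    rw [← tsum_mul_left]
    congr 1; ext n
    simp only [hG]
    have : 4 * (T * (Real.log n - x) - w) ^ 2 = (2 * T) ^ 2 * (Real.log n - (x + w / T)) ^ 2 := by
      field_simp; ring
    rw [this]; push_cast; ring
  simp_rw [h1, h2] at hs
  rw [← hs.tsum_eq, tsum_mul_left]
  rfl

/-- hypothesis in the logarithmic variable -/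
def Hyp (a : ℕ → ℂ) (c ε κ y0 : ℝ) : Prop :=
  ∀ y, y0 ≤ y → ∀ S : ℝ, 1 ≤ S → S ≤ Real.exp (y / 6) * y ^ 3 →
    ‖F a S y‖ ≤ ε * S ^ (-c) * Real.exp (5 / 6 * y) / y + Real.exp ((5 / 6 - κ) * y)

lemma F_shift (hB : ∀ n, ‖a n‖ ≤ B) (h0 : a 0 = 0) {c ε κ y0 : ℝ} (hc : 0 < c) (hε : 0 < ε)
    (hκ : 0 < κ) (hκ1 : κ ≤ 1 / 3) (H : Hyp a c ε κ y0) {x : ℝ} (hx : 32 ≤ x) (hx0 : 2 * y0 ≤ x)
    {T : ℝ} (hT : 1 ≤ T) (hT2 : T ≤ Real.exp (x / 6) * x ^ 2) (w : ℝ) :
    ‖F a (2 * T) (x + w / T)‖ ≤ Real.exp (2 * |w| + w ^ 2) *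
      (2 * ε * T ^ (-c) * Real.exp (5 / 6 * x) / x + Real.exp ((5 / 6 - κ) * x) +
        B * Real.exp 1 * ZZ * Real.exp (3 / 2 * x - x ^ 2 / 4)) := by
  have hB0 : 0 ≤ B := le_trans (norm_nonneg _) (hB 0)
  have hZ := ZZ_nonneg
  have hT0 : 0 < T := by linarith
  have hwT : |w / T| ≤ |w| := by
    rw [abs_div, abs_of_pos hT0]; exact div_le_self (abs_nonneg _) hT
  have hw1 := abs_le.1 hwT
  have hw0 := abs_nonneg w
  by_cases hw : |w| ≤ x / 2
  · set y := x + w / T with hy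
    have hy2 : x / 2 ≤ y := by linarith [hw1.1]
    have hcon : 2 * T ≤ Real.exp (y / 6) * y ^ 3 := by
      have hy3 : (x / 2) ^ 3 ≤ y ^ 3 := by gcongr
      by_cases hTx : T ≤ x
      · have : 1 ≤ Real.exp (y / 6) := Real.one_le_exp (by linarith)
        have h4 : 2 * x ≤ (x / 2) ^ 3 := by nlinarith
        nlinarith
      · push Not at hTx
        have h5 : |w / T| ≤ 1 / 2 := by
          rw [abs_div, abs_of_pos hT0, div_le_iff₀ hT0]; linarith
        have h6 : Real.exp (x / 6) * (1 / 2) ≤ Real.exp (y / 6) := by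
          have h7 : (1 / 2 : ℝ) ≤ Real.exp (-(1 / 12)) := by
            have := Real.add_one_le_exp (-(1 / 12) : ℝ); linarith
          calc Real.exp (x / 6) * (1 / 2) ≤ Real.exp (x / 6) * Real.exp (-(1 / 12)) := by gcongr
            _ = Real.exp (x / 6 + -(1 / 12)) := by rw [Real.exp_add]
            _ ≤ _ := by
              apply Real.exp_le_exp.2
              have := (abs_le.1 h5).1
              linarith
        have h8 : 4 * x ^ 2 ≤ (x / 2) ^ 3 := by nlinarith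
        have h9 : 0 < Real.exp (x / 6) := Real.exp_pos _
        calc 2 * T ≤ Real.exp (x / 6) * (1 / 2) * (4 * x ^ 2) := by linarith
          _ ≤ Real.exp (y / 6) * y ^ 3 := by
            apply mul_le_mul h6 (h8.trans hy3) (by positivity) (by positivity)
    have h1 := H y (by linarith) (2 * T) (by linarith) hcon
    have h2 : (2 * T) ^ (-c) ≤ T ^ (-c) :=
      Real.rpow_le_rpow_of_nonpos hT0 (by linarith) (by linarith)
    have h3 : Real.exp (5 / 6 * y) ≤ Real.exp (2 * |w| + w ^ 2) * Real.exp (5 / 6 * x) := by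
      rw [← Real.exp_add]; apply Real.exp_le_exp.2; nlinarith [hw1.2, sq_nonneg w]
    have h4 : Real.exp ((5 / 6 - κ) * y) ≤
        Real.exp (2 * |w| + w ^ 2) * Real.exp ((5 / 6 - κ) * x) := by
      rw [← Real.exp_add]; apply Real.exp_le_exp.2
      have : (5 / 6 - κ) * (w / T) ≤ (5 / 6 - κ) * |w| := by gcongr; linarith; exact hw1.2
      nlinarith [sq_nonneg w]
    have h5 : ε * (2 * T) ^ (-c) * Real.exp (5 / 6 * y) / y ≤
        Real.exp (2 * |w| + w ^ 2) * (2 * ε * T ^ (-c) * Real.exp (5 / 6 * x) / x) := by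
      have hx' : 0 < x := by linarith
      calc ε * (2 * T) ^ (-c) * Real.exp (5 / 6 * y) / y
          ≤ ε * T ^ (-c) * (Real.exp (2 * |w| + w ^ 2) * Real.exp (5 / 6 * x)) / (x / 2) := by
            gcongr
        _ = _ := by field_simp
    have h6 : 0 ≤ Real.exp (2 * |w| + w ^ 2) *
      (B * Real.exp 1 * ZZ * Real.exp (3 / 2 * x - x ^ 2 / 4)) := by positivity
    nlinarith
  · push Not at hw
    have h1 := F_crude hB h0 (S := 2 * T) (by linarith) (x + w / T)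
    have h2 : Real.exp (3 / 2 * (x + w / T)) ≤
        Real.exp (2 * |w| + w ^ 2) * Real.exp (3 / 2 * x - x ^ 2 / 4) := by
      rw [← Real.exp_add]; apply Real.exp_le_exp.2
      have : (x / 2) ^ 2 ≤ w ^ 2 := by rw [← sq_abs w]; gcongr
      nlinarith [hw1.2]
    have h3 : 0 ≤ Real.exp (2 * |w| + w ^ 2) *
      (2 * ε * T ^ (-c) * Real.exp (5 / 6 * x) / x + Real.exp ((5 / 6 - κ) * x)) := by
      have : 0 < x := by linarith
      positivity
    have h4 : B * Real.exp 1 * ZZ * Real.exp (3 / 2 * (x + w / T)) ≤ B * Real.exp 1 * ZZ *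
      (Real.exp (2 * |w| + w ^ 2) * Real.exp (3 / 2 * x - x ^ 2 / 4)) := by gcongr
    nlinarith

def C2 : ℝ := Real.exp 14 * √(Real.pi / (1 / 6)) / KK

lemma C2_nonneg : 0 ≤ C2 := by unfold C2; have := KK_pos; positivity

lemma E_bound (hB : ∀ n, ‖a n‖ ≤ B) (h0 : a 0 = 0) {T x M : ℝ} (hT : 1 ≤ T) (hM : 0 ≤ M)
    (h : ∀ w, ‖F a (2 * T) (x + w / T)‖ ≤ Real.exp (2 * |w| + w ^ 2) * M) :
    ‖E a T x‖ ≤ C2 * M / T := by
  have hT0 : 0 < T := by linarith
  have hK := KK_pos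
  have h1 := E_eq hB h0 hT x
  have h2 : ‖∫ w : ℝ, ((w * Real.exp (-(4 / 3) * w ^ 2) : ℝ) : ℂ) * F a (2 * T) (x + w / T)‖ ≤
      ∫ w : ℝ, Real.exp 14 * M * Real.exp (-(1 / 6) * w ^ 2) := by
    refine norm_integral_le_of_norm_le
      ((integrable_exp_neg_mul_sq (b := 1 / 6) (by norm_num)).const_mul _)
      (Eventually.of_forall fun w => ?_)
    rw [norm_mul, Complex.norm_real, Real.norm_eq_abs, abs_mul, abs_of_pos (Real.exp_pos _)]
    have h3 : |w| ≤ Real.exp |w| := by linarith [Real.add_one_le_exp |w|]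
    calc |w| * Real.exp (-(4 / 3) * w ^ 2) * ‖F a (2 * T) (x + w / T)‖
        ≤ Real.exp |w| * Real.exp (-(4 / 3) * w ^ 2) * (Real.exp (2 * |w| + w ^ 2) * M) := by
          gcongr; exact h w
      _ = M * Real.exp (|w| + -(4 / 3) * w ^ 2 + (2 * |w| + w ^ 2)) := by
          simp only [Real.exp_add]; ring
      _ ≤ M * Real.exp (14 + -(1 / 6) * w ^ 2) := by
          apply mul_le_mul_of_nonneg_left _ hM
          apply Real.exp_le_exp.2
          nlinarith [sq_abs w, sq_nonneg (|w| - 9)]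
      _ = _ := by rw [Real.exp_add]; ring
  rw [← h1, integral_const_mul, integral_gaussian, norm_mul, Complex.norm_real,
    Real.norm_of_nonneg (by positivity)] at h2
  unfold C2
  rw [le_div_iff₀ hT0, div_mul_eq_mul_div, le_div_iff₀ hK]
  linarith

/-- Gaussian distribution function -/
def Phi (s : ℝ) : ℝ := (√Real.pi)⁻¹ * ∫ v in Iic (-s), Real.exp (-1 * v ^ 2)

lemma gint : Integrable fun v : ℝ => Real.exp (-1 * v ^ 2) :=
  integrable_exp_neg_mul_sq (by norm_num)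

lemma sqrt_pi_pos : 0 < √Real.pi := Real.sqrt_pos.2 Real.pi_pos

lemma Phi_sub (u T : ℝ) : Phi (T * u) = Phi u -
    (√Real.pi)⁻¹ * ∫ t in (1 : ℝ)..T, u * Real.exp (-(t ^ 2 * u ^ 2)) := by
  unfold Phi
  have h1 := intervalIntegral.integral_Iic_sub_Iic (a := -u) (b := -(T * u))
    (f := fun v : ℝ => Real.exp (-1 * v ^ 2)) (μ := volume) gint.integrableOn gint.integrableOn
  have h2 := intervalIntegral.smul_integral_comp_mul_right (a := 1) (b := T)
    (fun v : ℝ => Real.exp (-1 * v ^ 2)) (-u)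
  simp only [one_mul, mul_neg, smul_eq_mul] at h2
  have h3 : ∫ t in (1 : ℝ)..T, u * Real.exp (-(t ^ 2 * u ^ 2)) =
      u * ∫ t in (1 : ℝ)..T, Real.exp (-1 * (-(t * u)) ^ 2) := by
    rw [← intervalIntegral.integral_const_mul]
    congr 1; ext t; congr 2; ring
  rw [h3]
  have h4 : ∫ v in Iic (-(T * u)), Real.exp (-1 * v ^ 2) =
      (∫ v in Iic (-u), Real.exp (-1 * v ^ 2)) -
        u * ∫ t in (1 : ℝ)..T, Real.exp (-1 * (-(t * u)) ^ 2) := by linarith
  rw [h4]; ring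

lemma shift_Iic (f : ℝ → ℝ) (u : ℝ) :
    ∫ v in Iic (0 : ℝ), f (v + -u) = ∫ v in Iic (-u), f v := by
  rw [← integral_indicator measurableSet_Iic, ← integral_indicator measurableSet_Iic,
    ← integral_add_right_eq_self (indicator (Iic (-u)) f) (-u)]
  congr 1; ext v
  simp only [indicator, mem_Iic]
  by_cases h : v ≤ 0
  · rw [if_pos h, if_pos (by linarith)]
  · rw [if_neg h, if_neg (by intro h'; apply h; linarith)]

lemma Phi_eq (u : ℝ) :
    Phi u = (√Real.pi)⁻¹ * ∫ v in Iic (0 : ℝ), Real.exp (-(1 ^ 2 * (u - v) ^ 2)) := by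
  unfold Phi
  rw [← shift_Iic]
  congr 2; ext v; congr 1; ring

lemma Phi_nonneg (s : ℝ) : 0 ≤ Phi s := by
  unfold Phi
  have := sqrt_pi_pos
  apply mul_nonneg (by positivity)
  exact setIntegral_nonneg measurableSet_Iic fun v _ => (Real.exp_pos _).le

lemma Phi_le (s : ℝ) (hs : 0 ≤ s) : Phi s ≤ Real.exp (-s ^ 2) := by
  rw [Phi_eq]
  have hp := sqrt_pi_pos
  have h1 : ∫ v in Iic (0 : ℝ), Real.exp (-(1 ^ 2 * (s - v) ^ 2)) ≤
      ∫ v in Iic (0 : ℝ), Real.exp (-s ^ 2) * Real.exp (-1 * v ^ 2) := by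
    refine integral_mono_of_nonneg (Eventually.of_forall fun v => (Real.exp_pos _).le)
      (gint.const_mul _).integrableOn ?_
    filter_upwards [ae_restrict_mem measurableSet_Iic] with v hv
    rw [← Real.exp_add]; apply Real.exp_le_exp.2
    have : v ≤ 0 := hv
    nlinarith
  have h2 : ∫ v in Iic (0 : ℝ), Real.exp (-s ^ 2) * Real.exp (-1 * v ^ 2) ≤
      ∫ v, Real.exp (-s ^ 2) * Real.exp (-1 * v ^ 2) :=
    setIntegral_le_integral (gint.const_mul _) (Eventually.of_forall fun v => by positivity)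
  rw [integral_const_mul (μ := volume), integral_gaussian, div_one] at h2
  rw [inv_mul_le_iff₀ hp]
  linarith

lemma Phi_add (s : ℝ) : Phi s + Phi (-s) = 1 := by
  unfold Phi
  have hp := sqrt_pi_pos
  have h1 := integral_add_compl (μ := volume) (measurableSet_Iic (a := -s)) gint
  rw [compl_Iic, integral_gaussian, div_one] at h1
  have h2 := integral_comp_neg_Ioi (-s) (fun v : ℝ => Real.exp (-1 * v ^ 2))
  simp only [even_two, Even.neg_pow] at h2
  rw [← mul_add, ← h2, h1]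
  field_simp

lemma Phi_ind (s : ℝ) : |(if s ≤ 0 then (1 : ℝ) else 0) - Phi s| ≤ Real.exp (-s ^ 2) := by
  split_ifs with h
  · have h1 := Phi_add s
    have h2 := Phi_le (-s) (by linarith)
    have h3 := Phi_nonneg (-s)
    rw [neg_sq] at h2
    rw [abs_le]; constructor <;> linarith [Real.exp_pos (-s ^ 2)]
  · have h2 := Phi_le s (by linarith)
    have h3 := Phi_nonneg s
    rw [abs_le]; constructor <;> linarith [Real.exp_pos (-s ^ 2)]

/-- smoothed sum -/
def A (a : ℕ → ℂ) (T x : ℝ) : ℂ := ∑' n : ℕ, a n * ((Phi (T * (Real.log n - x)) : ℝ) : ℂ)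

lemma base_hasSum (hB : ∀ n, ‖a n‖ ≤ B) (h0 : a 0 = 0) (x : ℝ) :
    HasSum (fun n : ℕ => a n * ((Phi (Real.log n - x) : ℝ) : ℂ))
      ((((√Real.pi)⁻¹ : ℝ) : ℂ) * ∫ v in Iic (0 : ℝ), F a 1 (x + v)) := by
  have hB0 : 0 ≤ B := le_trans (norm_nonneg _) (hB 0)
  set G : ℕ → ℝ → ℂ := fun n v => a n *
    ((Real.exp (-(1 ^ 2 * (Real.log n - (x + v)) ^ 2)) : ℝ) : ℂ) with hG
  have hbd : ∀ n v, ‖G n v‖ ≤ B * Real.exp (9 / (16 * 1 ^ 2)) * Real.exp (3 / 2 * x) * zz n *
      Real.exp (3 / 2 * v) := by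
    intro n v
    have := gauss_le hB h0 (β := 1 ^ 2) (by norm_num) (x + v) n
    simp only [hG]
    rw [norm_mul, Complex.norm_real, Real.norm_of_nonneg (Real.exp_pos _).le]
    refine this.trans (le_of_eq ?_)
    rw [mul_add, Real.exp_add]; ring
  have hi := integrableOn_exp_mul_Iic (a := 3 / 2) (by norm_num) 0
  have hint : ∀ n, Integrable (G n) (volume.restrict (Iic 0)) := by
    intro n
    refine Integrable.mono' (hi.const_mul _) ?_ (Eventually.of_forall (hbd n))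
    simp only [hG]
    fun_prop
  have hsum : Summable fun n => ∫ v in Iic (0 : ℝ), ‖G n v‖ := by
    refine Summable.of_nonneg_of_le (fun n => integral_nonneg fun w => norm_nonneg _)
      (fun n => ?_) ((zz_summable.mul_left
        (B * Real.exp (9 / (16 * 1 ^ 2)) * Real.exp (3 / 2 * x))).mul_right
        (∫ v in Iic (0 : ℝ), Real.exp (3 / 2 * v)))
    rw [← integral_const_mul]
    exact integral_mono (hint n).norm (hi.const_mul _) (hbd n)
  have hs := (hasSum_integral_of_summable_integral_norm hint hsum).mul_left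
    (((√Real.pi)⁻¹ : ℝ) : ℂ)
  have key : (fun n : ℕ => a n * ((Phi (Real.log n - x) : ℝ) : ℂ)) =
      fun n => (((√Real.pi)⁻¹ : ℝ) : ℂ) * ∫ v in Iic (0 : ℝ), G n v := by
    funext n
    simp only [hG]
    rw [integral_const_mul, integral_complex_ofReal, Phi_eq]
    have : ∀ v : ℝ, Real.log n - (x + v) = Real.log n - x - v := fun v => by ring
    simp_rw [this]
    push_cast; ring
  rw [key]; exact hs

lemma abs_le_exp_half (u : ℝ) : |u| ≤ Real.exp (1 / 2 * u ^ 2) := by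
  have := Real.add_one_le_exp (1 / 2 * u ^ 2)
  nlinarith [sq_abs u, sq_nonneg (|u| - 1)]

lemma step_hasSum (hB : ∀ n, ‖a n‖ ≤ B) (h0 : a 0 = 0) (x : ℝ) {T : ℝ} (hT : 1 ≤ T) :
    HasSum (fun n : ℕ => a n * ((∫ t in (1 : ℝ)..T, (Real.log n - x) *
      Real.exp (-(t ^ 2 * (Real.log n - x) ^ 2)) : ℝ) : ℂ)) (∫ t in (1 : ℝ)..T, E a t x) := by
  set G : ℕ → ℝ → ℂ := fun n t => a n *
    (((Real.log n - x) * Real.exp (-(t ^ 2 * (Real.log n - x) ^ 2)) : ℝ) : ℂ) with hG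
  have hbd : ∀ n, ∀ t ∈ Ioc 1 T, ‖G n t‖ ≤ ‖a n‖ * Real.exp (-(1 / 2 * (Real.log n - x) ^ 2)) := by
    intro n t ht
    simp only [hG]
    rw [norm_mul, Complex.norm_real, Real.norm_eq_abs, abs_mul, abs_of_pos (Real.exp_pos _)]
    apply mul_le_mul_of_nonneg_left _ (norm_nonneg _)
    calc |Real.log n - x| * Real.exp (-(t ^ 2 * (Real.log n - x) ^ 2))
        ≤ Real.exp (1 / 2 * (Real.log n - x) ^ 2) * Real.exp (-(t ^ 2 * (Real.log n - x) ^ 2)) := by
          gcongr; exact abs_le_exp_half _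
      _ ≤ _ := by
          rw [← Real.exp_add]; apply Real.exp_le_exp.2
          have : 1 ≤ t ^ 2 := by nlinarith [ht.1]
          nlinarith [sq_nonneg (Real.log n - x)]
  have hint : ∀ n, Integrable (G n) (volume.restrict (Ioc 1 T)) := by
    intro n
    have : Continuous (G n) := by simp only [hG]; fun_prop
    exact this.integrableOn_Ioc
  have hsum : Summable fun n => ∫ t in Ioc 1 T, ‖G n t‖ := by
    refine Summable.of_nonneg_of_le (fun n => integral_nonneg fun w => norm_nonneg _)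
      (fun n => ?_) ((gauss_summable hB h0 (β := 1 / 2) (by norm_num) x).mul_left
        (volume.real (Ioc 1 T)))
    rw [← smul_eq_mul, ← setIntegral_const]
    exact setIntegral_mono_on (hint n).norm (continuous_const.integrableOn_Ioc)
      measurableSet_Ioc (hbd n)
  have hs := hasSum_integral_of_summable_integral_norm hint hsum
  rw [intervalIntegral.integral_of_le hT]
  have key : (fun n : ℕ => a n * ((∫ t in (1 : ℝ)..T, (Real.log n - x) *
      Real.exp (-(t ^ 2 * (Real.log n - x) ^ 2)) : ℝ) : ℂ)) = fun n => ∫ t in Ioc 1 T, G n t := by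
    funext n
    simp only [hG]
    rw [integral_const_mul, integral_complex_ofReal, intervalIntegral.integral_of_le hT]
  rw [key]; exact hs

lemma A_hasSum (hB : ∀ n, ‖a n‖ ≤ B) (h0 : a 0 = 0) (x : ℝ) {T : ℝ} (hT : 1 ≤ T) :
    HasSum (fun n : ℕ => a n * ((Phi (T * (Real.log n - x)) : ℝ) : ℂ))
      ((((√Real.pi)⁻¹ : ℝ) : ℂ) * (∫ v in Iic (0 : ℝ), F a 1 (x + v)) -
        (((√Real.pi)⁻¹ : ℝ) : ℂ) * ∫ t in (1 : ℝ)..T, E a t x) := by
  have h := (base_hasSum hB h0 x).sub ((step_hasSum hB h0 x hT).mul_left (((√Real.pi)⁻¹ : ℝ) : ℂ))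
  have key : (fun n : ℕ => a n * ((Phi (T * (Real.log n - x)) : ℝ) : ℂ)) = fun n : ℕ =>
      a n * ((Phi (Real.log n - x) : ℝ) : ℂ) - (((√Real.pi)⁻¹ : ℝ) : ℂ) *
        (a n * ((∫ t in (1 : ℝ)..T, (Real.log n - x) *
          Real.exp (-(t ^ 2 * (Real.log n - x) ^ 2)) : ℝ) : ℂ)) := by
    funext n
    rw [Phi_sub]
    push_cast; ring
  rw [key]; exact h

lemma inv_sqrt_pi_le : (√Real.pi)⁻¹ ≤ 1 := by
  apply inv_le_one_of_one_le₀
  rw [Real.one_le_sqrt]; linarith [Real.pi_gt_three]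

lemma base_bound (hB : ∀ n, ‖a n‖ ≤ B) (h0 : a 0 = 0) {c ε κ y0 : ℝ} (hε : 0 < ε)
    (hκ1 : κ ≤ 1 / 3) (H : Hyp a c ε κ y0) {x : ℝ} (hx : 32 ≤ x) (hx0 : 4 * y0 ≤ x) :
    ‖∫ v in Iic (0 : ℝ), F a 1 (x + v)‖ ≤
      2 * (4 * ε * Real.exp (5 / 6 * x) / x + Real.exp ((5 / 6 - κ) * x) +
        B * Real.exp 1 * ZZ * Real.exp (3 / 4 * x)) := by
  have hB0 : 0 ≤ B := le_trans (norm_nonneg _) (hB 0)
  have hZ := ZZ_nonneg
  have hx' : 0 < x := by linarith
  have hi := integrableOn_exp_mul_Iic (a := 1 / 2) (by norm_num) 0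
  set M := 4 * ε * Real.exp (5 / 6 * x) / x + Real.exp ((5 / 6 - κ) * x) +
        B * Real.exp 1 * ZZ * Real.exp (3 / 4 * x) with hM
  have h1 : ‖∫ v in Iic (0 : ℝ), F a 1 (x + v)‖ ≤ ∫ v in Iic (0 : ℝ), M * Real.exp (1 / 2 * v) := by
    refine norm_integral_le_of_norm_le (hi.const_mul _) ?_
    filter_upwards [ae_restrict_mem measurableSet_Iic] with v hv
    have hv0 : v ≤ 0 := hv
    by_cases hw : -(3 * x / 4) ≤ v
    · have hy3 : (1 : ℝ) ≤ Real.exp ((x + v) / 6) * (x + v) ^ 3 := by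
        have : 1 ≤ Real.exp ((x + v) / 6) := Real.one_le_exp (by linarith)
        have h2 : 1 ≤ (x + v) ^ 3 := one_le_pow₀ (by linarith)
        nlinarith
      have h1 := H (x + v) (by linarith) 1 le_rfl hy3
      rw [Real.one_rpow, mul_one] at h1
      have h3 : Real.exp (5 / 6 * (x + v)) ≤ Real.exp (5 / 6 * x) * Real.exp (1 / 2 * v) := by
        rw [← Real.exp_add]; apply Real.exp_le_exp.2; linarith
      have h4 : Real.exp ((5 / 6 - κ) * (x + v)) ≤
          Real.exp ((5 / 6 - κ) * x) * Real.exp (1 / 2 * v) := by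
        rw [← Real.exp_add]; apply Real.exp_le_exp.2; nlinarith
      have h5 : ε * Real.exp (5 / 6 * (x + v)) / (x + v) ≤
          4 * ε * Real.exp (5 / 6 * x) / x * Real.exp (1 / 2 * v) := by
        calc ε * Real.exp (5 / 6 * (x + v)) / (x + v)
            ≤ ε * (Real.exp (5 / 6 * x) * Real.exp (1 / 2 * v)) / (x / 4) := by
              gcongr; linarith
          _ = _ := by field_simp
      have h6 : 0 ≤ B * Real.exp 1 * ZZ * Real.exp (3 / 4 * x) * Real.exp (1 / 2 * v) := by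
        positivity
      rw [hM]; nlinarith
    · push Not at hw
      have h1 := F_crude hB h0 (S := 1) le_rfl (x + v)
      have h2 : Real.exp (3 / 2 * (x + v)) ≤ Real.exp (3 / 4 * x) * Real.exp (1 / 2 * v) := by
        rw [← Real.exp_add]; apply Real.exp_le_exp.2; linarith
      have h4 : B * Real.exp 1 * ZZ * Real.exp (3 / 2 * (x + v)) ≤ B * Real.exp 1 * ZZ *
        (Real.exp (3 / 4 * x) * Real.exp (1 / 2 * v)) := by gcongr
      have h3 : 0 ≤ (4 * ε * Real.exp (5 / 6 * x) / x + Real.exp ((5 / 6 - κ) * x)) *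
        Real.exp (1 / 2 * v) := by positivity
      rw [hM]; nlinarith
  rw [integral_const_mul, integral_exp_mul_Iic (by norm_num)] at h1
  simp only [mul_zero, Real.exp_zero] at h1
  linarith

lemma step_bound {T x P Q c : ℝ} (hc : 0 < c) (hT : 1 ≤ T) (hP : 0 ≤ P)
    (h : ∀ t, 1 ≤ t → t ≤ T → ‖E a t x‖ ≤ (P * t ^ (-c) + Q) / t) :
    ‖∫ t in (1 : ℝ)..T, E a t x‖ ≤ P / c + Q * Real.log T := by
  have hcont : ContinuousOn (fun t : ℝ => t ^ (-c - 1)) (uIcc 1 T) := by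
    apply ContinuousOn.rpow_const continuousOn_id
    intro t ht; left
    rw [uIcc_of_le hT] at ht
    have := ht.1
    simp only [id]; linarith
  have hcont2 : ContinuousOn (fun t : ℝ => t⁻¹) (uIcc 1 T) := by
    apply ContinuousOn.inv₀ continuousOn_id
    intro t ht
    rw [uIcc_of_le hT] at ht
    have := ht.1
    simp only [id]; linarith
  have i1 := hcont.intervalIntegrable (μ := volume)
  have i2 := hcont2.intervalIntegrable (μ := volume)
  have h1 : ‖∫ t in (1 : ℝ)..T, E a t x‖ ≤ ∫ t in (1 : ℝ)..T, (P * t ^ (-c - 1) + Q * t⁻¹) := by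
    refine intervalIntegral.norm_integral_le_of_norm_le hT (Eventually.of_forall fun t ht => ?_)
      ((i1.const_mul P).add (i2.const_mul Q))
    refine (h t ht.1.le ht.2).trans (le_of_eq ?_)
    have ht0 : 0 < t := by linarith [ht.1]
    rw [Real.rpow_sub_one ht0.ne']; field_simp
  have hn : (0 : ℝ) ∉ uIcc 1 T := by
    rw [uIcc_of_le hT]; intro h'; linarith [h'.1]
  rw [intervalIntegral.integral_add (i1.const_mul P) (i2.const_mul Q),
    intervalIntegral.integral_const_mul, intervalIntegral.integral_const_mul,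
    integral_inv hn, integral_rpow (Or.inr ⟨by linarith, hn⟩), div_one, Real.one_rpow] at h1
  have h2 : 0 ≤ T ^ (-c - 1 + 1) := by positivity
  have h3 : (T ^ (-c - 1 + 1) - 1) / (-c - 1 + 1) ≤ 1 / c := by
    have : (T ^ (-c - 1 + 1) - 1) / (-c - 1 + 1) = (1 - T ^ (-c - 1 + 1)) / c := by
      have : -c - 1 + 1 = -c := by ring
      rw [this]; field_simp; ring
    rw [this]; gcongr; linarith
  have h4 : P * ((T ^ (-c - 1 + 1) - 1) / (-c - 1 + 1)) ≤ P / c := by
    calc _ ≤ P * (1 / c) := by gcongr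
      _ = _ := by ring
  linarith

lemma count_near {x δ : ℝ} (hδ : 0 ≤ δ) (hδ1 : δ ≤ 1) (s : Finset ℕ)
    (hs : ∀ n ∈ s, n ≠ 0 ∧ |Real.log n - x| ≤ δ) : (s.card : ℝ) ≤ 4 * δ * Real.exp x + 1 := by
  have hsub : s ⊆ Finset.Icc ⌈Real.exp (x - δ)⌉₊ ⌊Real.exp (x + δ)⌋₊ := by
    intro n hn
    obtain ⟨h0, h1⟩ := hs n hn
    have hn' : (0 : ℝ) < n := by exact_mod_cast Nat.pos_of_ne_zero h0
    have h2 := abs_le.1 h1
    rw [Finset.mem_Icc]
    constructor
    · apply Nat.ceil_le.2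
      rw [← Real.exp_log hn']; apply Real.exp_le_exp.2; linarith [h2.1]
    · apply Nat.le_floor
      rw [← Real.exp_log hn']; apply Real.exp_le_exp.2; linarith [h2.2]
  have h1 : (s.card : ℝ) ≤ (Finset.Icc ⌈Real.exp (x - δ)⌉₊ ⌊Real.exp (x + δ)⌋₊).card := by
    exact_mod_cast Finset.card_le_card hsub
  have hE := Real.exp_pos x
  have h2 : Real.exp (x + δ) ≤ Real.exp x * (1 + 2 * δ) := by
    rw [Real.exp_add]
    gcongr
    have := Real.abs_exp_sub_one_le (x := δ) (by rw [abs_of_nonneg hδ]; exact hδ1)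
    rw [abs_of_nonneg hδ] at this
    linarith [(abs_le.1 this).2]
  have h3 : Real.exp x * (1 - δ) ≤ Real.exp (x - δ) := by
    rw [sub_eq_add_neg x, Real.exp_add]
    gcongr
    linarith [Real.add_one_le_exp (-δ)]
  rw [Nat.card_Icc] at h1
  have h4 : (⌊Real.exp (x + δ)⌋₊ : ℝ) ≤ Real.exp (x + δ) := Nat.floor_le (Real.exp_pos _).le
  have h5 : Real.exp (x - δ) ≤ (⌈Real.exp (x - δ)⌉₊ : ℝ) := Nat.le_ceil _
  rcases le_total ⌈Real.exp (x - δ)⌉₊ (⌊Real.exp (x + δ)⌋₊ + 1) with h | h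
  · rw [Nat.cast_sub h] at h1
    push_cast at h1
    nlinarith
  · rw [Nat.sub_eq_zero_of_le h] at h1
    simp only [Nat.cast_zero] at h1
    nlinarith

lemma thin_sum (hB : ∀ n, ‖a n‖ ≤ B) (h0 : a 0 = 0) {x δ T : ℝ} (hδ : 0 ≤ δ) (hδ1 : δ ≤ 1)
    (hT : 1 ≤ T) :
    ∑' n : ℕ, ‖a n‖ * Real.exp (-(T ^ 2 * (Real.log n - x) ^ 2)) ≤
      B * (4 * δ * Real.exp x + 1) +
        Real.exp (-((T ^ 2 - 1) * δ ^ 2)) * (B * Real.exp 1 * ZZ * Real.exp (3 / 2 * x)) := by
  classical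
  have hB0 : 0 ≤ B := le_trans (norm_nonneg _) (hB 0)
  have hZ := ZZ_nonneg
  refine Real.tsum_le_of_sum_le (fun n => by positivity) (fun s => ?_)
  rw [← Finset.sum_filter_add_sum_filter_not s (fun n : ℕ => n ≠ 0 ∧ |Real.log n - x| ≤ δ)]
  apply add_le_add
  · calc _ ≤ ∑ _n ∈ s.filter (fun n : ℕ => n ≠ 0 ∧ |Real.log n - x| ≤ δ), B := by
          apply Finset.sum_le_sum
          intro n _
          have : Real.exp (-(T ^ 2 * (Real.log n - x) ^ 2)) ≤ 1 := by
            apply Real.exp_le_one_iff.2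
            have : 0 ≤ T ^ 2 * (Real.log n - x) ^ 2 := by positivity
            linarith
          calc _ ≤ B * 1 := by gcongr; exact hB n
            _ = B := mul_one B
      _ ≤ _ := by
          rw [Finset.sum_const, nsmul_eq_mul, mul_comm]
          gcongr
          exact count_near hδ hδ1 _ (fun n hn => (Finset.mem_filter.1 hn).2)
  · have hs1 := gauss_summable hB h0 (β := 1) one_pos x
    have hs2 := gauss_tsum_le hB h0 (β := 1) one_pos x
    calc _ ≤ ∑ n ∈ s.filter (fun n : ℕ => ¬(n ≠ 0 ∧ |Real.log n - x| ≤ δ)),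
          Real.exp (-((T ^ 2 - 1) * δ ^ 2)) *
            (‖a n‖ * Real.exp (-(1 * (Real.log n - x) ^ 2))) := by
          apply Finset.sum_le_sum
          intro n hn
          have h1 := (Finset.mem_filter.1 hn).2
          by_cases hn0 : n = 0
          · subst hn0; rw [h0]; simp
          · have h2 : δ ≤ |Real.log n - x| := by
              by_contra h3; exact h1 ⟨hn0, by linarith⟩
            have h3 : δ ^ 2 ≤ (Real.log n - x) ^ 2 := by rw [← sq_abs (Real.log n - x)]; gcongr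
            rw [mul_left_comm, ← Real.exp_add]
            apply mul_le_mul_of_nonneg_left _ (norm_nonneg _)
            apply Real.exp_le_exp.2
            have : 0 ≤ T ^ 2 - 1 := by nlinarith
            nlinarith
      _ ≤ _ := by
          rw [← Finset.mul_sum]
          apply mul_le_mul_of_nonneg_left _ (Real.exp_pos _).le
          refine (hs1.sum_le_tsum _ (fun n _ => by positivity)).trans (hs2.trans ?_)
          have : Real.exp (9 / (16 * 1)) ≤ Real.exp 1 := Real.exp_le_exp.2 (by norm_num)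
          calc _ ≤ B * Real.exp 1 * Real.exp (3 / 2 * x) * ZZ := by gcongr
            _ = _ := by ring

lemma sharp_diff (hB : ∀ n, ‖a n‖ ≤ B) (h0 : a 0 = 0) {x T : ℝ} (hT : 1 ≤ T) {s : ℂ}
    (hs : HasSum (fun n : ℕ => a n * ((Phi (T * (Real.log n - x)) : ℝ) : ℂ)) s) :
    ‖∑ n ∈ Finset.range (⌊Real.exp x⌋₊ + 1), a n - s‖ ≤
      ∑' n : ℕ, ‖a n‖ * Real.exp (-(T ^ 2 * (Real.log n - x) ^ 2)) := by
  have hT0 : 0 < T := by linarith
  have h1 : HasSum (fun n : ℕ => a n * (((if T * (Real.log n - x) ≤ 0 then (1 : ℝ) else 0 : ℝ)) : ℂ))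
      (∑ n ∈ Finset.range (⌊Real.exp x⌋₊ + 1), a n) := by
    have key : ∀ n : ℕ, n ≠ 0 →
        (T * (Real.log n - x) ≤ 0 ↔ n ∈ Finset.range (⌊Real.exp x⌋₊ + 1)) := by
      intro n hn
      have hn' : (0 : ℝ) < n := by exact_mod_cast Nat.pos_of_ne_zero hn
      rw [Finset.mem_range, Nat.lt_succ_iff, Nat.le_floor_iff (Real.exp_pos _).le,
        ← Real.log_le_iff_le_exp hn']
      constructor
      · intro h; by_contra h'; push Not at h'; nlinarith
      · intro h; nlinarith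
    have h2 : ∑ n ∈ Finset.range (⌊Real.exp x⌋₊ + 1), a n = ∑ n ∈ Finset.range (⌊Real.exp x⌋₊ + 1),
        a n * (((if T * (Real.log n - x) ≤ 0 then (1 : ℝ) else 0 : ℝ)) : ℂ) := by
      apply Finset.sum_congr rfl
      intro n hn
      by_cases hn0 : n = 0
      · subst hn0; rw [h0]; simp
      · rw [if_pos ((key n hn0).2 hn)]; simp
    rw [h2]
    apply hasSum_sum_of_ne_finset_zero
    intro n hn
    by_cases hn0 : n = 0
    · subst hn0; rw [h0]; simp
    · rw [if_neg (fun h => hn ((key n hn0).1 h))]; simp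
  have h3 := h1.sub hs
  rw [← h3.tsum_eq]
  refine tsum_of_norm_bounded (gauss_summable hB h0 (by positivity) x).hasSum (fun n => ?_)
  rw [← mul_sub, norm_mul, ← Complex.ofReal_sub, Complex.norm_real, Real.norm_eq_abs]
  apply mul_le_mul_of_nonneg_left _ (norm_nonneg _)
  refine (Phi_ind _).trans (le_of_eq ?_)
  rw [mul_pow]

lemma quant (hB : ∀ n, ‖a n‖ ≤ B) (h0 : a 0 = 0) {c ε κ y0 : ℝ} (hc : 0 < c) (hε : 0 < ε)
    (hκ : 0 < κ) (hκ1 : κ ≤ 1 / 12) (H : Hyp a c ε κ y0) {x : ℝ} (hx : 32 ≤ x) (hx0 : 4 * y0 ≤ x) :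
    ‖∑ n ∈ Finset.range (⌊Real.exp x⌋₊ + 1), a n‖ ≤
      (8 + 2 * C2 / c) * ε * Real.exp (5 / 6 * x) / x +
      (2 + C2) * (1 + B * Real.exp 1 * ZZ) * (x * Real.exp ((5 / 6 - κ) * x)) +
      B * (8 * √x / x ^ 2 * Real.exp (5 / 6 * x) + 1 + Real.exp 2 * ZZ) := by
  have hB0 : 0 ≤ B := le_trans (norm_nonneg _) (hB 0)
  have hZ := ZZ_nonneg
  have hC := C2_nonneg
  have hx' : 0 < x := by linarith
  set T := Real.exp (x / 6) * x ^ 2 with hT
  have hE1 : 1 ≤ Real.exp (x / 6) := Real.one_le_exp (by linarith)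
  have hx2 : x ^ 2 ≤ T := by rw [hT]; nlinarith [sq_nonneg x]
  have hT1 : 1 ≤ T := by nlinarith
  have hT0 : 0 < T := by linarith
  have hy0 : 2 * y0 ≤ x := by linarith
  have hA := A_hasSum hB h0 x hT1
  have h1 := sharp_diff hB h0 hT1 hA
  have hsq : √x ≤ x := by
    rw [Real.sqrt_le_left hx'.le]; nlinarith
  have hsq0 : 0 ≤ √x := Real.sqrt_nonneg x
  have hδ1 : 2 * √x / T ≤ 1 := by rw [div_le_one hT0]; nlinarith
  have h2 := thin_sum hB h0 (x := x) (δ := 2 * √x / T) (by positivity) hδ1 hT1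
  have h3 := base_bound hB h0 hε (by linarith) H hx hx0
  set D := B * Real.exp 1 * ZZ with hD
  have hD0 : 0 ≤ D := by positivity
  set Q := Real.exp ((5 / 6 - κ) * x) with hQ
  have hQ0 : 0 < Q := Real.exp_pos _
  have hq1 : Real.exp (3 / 2 * x - x ^ 2 / 4) ≤ Q := by
    apply Real.exp_le_exp.2; nlinarith
  have hq2 : Real.exp (3 / 4 * x) ≤ Q := by
    apply Real.exp_le_exp.2; nlinarith
  have h4 := step_bound (a := a) (x := x) (P := C2 * (2 * ε * Real.exp (5 / 6 * x) / x))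
    (Q := C2 * (Q + D * Q)) hc hT1 (by positivity) (fun t ht ht' => by
      have := E_bound hB h0 ht (by positivity)
        (F_shift hB h0 hc hε hκ (by linarith) H hx hy0 ht ht')
      refine this.trans ?_
      have ht0 : 0 < t := by linarith
      apply div_le_div_of_nonneg_right _ ht0.le
      have h5 : D * Real.exp (3 / 2 * x - x ^ 2 / 4) ≤ D * Q := by gcongr
      have h6 : C2 * (2 * ε * Real.exp (5 / 6 * x) / x) * t ^ (-c) =
        C2 * (2 * ε * t ^ (-c) * Real.exp (5 / 6 * x) / x) := by ring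
      rw [h6, ← mul_add]
      apply mul_le_mul_of_nonneg_left _ hC
      linarith)
  have hlog : Real.log T ≤ x := by
    rw [Real.log_le_iff_le_exp hT0, hT]
    have h5 : x ^ 2 ≤ Real.exp (5 / 6 * x) := by
      have h6 := Real.pow_div_factorial_le_exp (5 / 6 * x) (by positivity) 3
      simp only [Nat.factorial, Nat.succ_eq_add_one, Nat.reduceAdd, mul_one, Nat.reduceMul,
        Nat.cast_ofNat] at h6
      nlinarith [sq_nonneg x]
    calc Real.exp (x / 6) * x ^ 2 ≤ Real.exp (x / 6) * Real.exp (5 / 6 * x) := by gcongr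
      _ = _ := by rw [← Real.exp_add]; congr 1; ring
  have h5 : 4 * (2 * √x / T) * Real.exp x = 8 * √x / x ^ 2 * Real.exp (5 / 6 * x) := by
    have : Real.exp x = Real.exp (x / 6) * Real.exp (5 / 6 * x) := by
      rw [← Real.exp_add]; congr 1; ring
    rw [this, hT]; field_simp; ring
  have h6 : Real.exp (-((T ^ 2 - 1) * (2 * √x / T) ^ 2)) * (D * Real.exp (3 / 2 * x)) ≤
      B * (Real.exp 2 * ZZ) := by
    have e1 : (T ^ 2 - 1) * (2 * √x / T) ^ 2 = 4 * x - (2 * √x / T) ^ 2 := by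
      have e0 : T ^ 2 * (2 * √x / T) ^ 2 = 4 * x := by
        rw [div_pow, mul_pow 2, Real.sq_sqrt hx'.le]; field_simp; ring
      rw [sub_mul, one_mul, e0]
    have e2 : (2 * √x / T) ^ 2 ≤ 1 := pow_le_one₀ (by positivity) hδ1
    have e3 : Real.exp (-((T ^ 2 - 1) * (2 * √x / T) ^ 2)) * Real.exp (3 / 2 * x) * Real.exp 1 ≤
        Real.exp 2 := by
      rw [← Real.exp_add, ← Real.exp_add]; apply Real.exp_le_exp.2; rw [e1]; linarith
    calc _ = B * ((Real.exp (-((T ^ 2 - 1) * (2 * √x / T) ^ 2)) * Real.exp (3 / 2 * x) *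
          Real.exp 1) * ZZ) := by rw [hD]; ring
      _ ≤ _ := by gcongr
  have hp := inv_sqrt_pi_le
  have hp0 : 0 ≤ (√Real.pi)⁻¹ := by positivity
  have h7 : ‖(((√Real.pi)⁻¹ : ℝ) : ℂ) * (∫ v in Iic (0 : ℝ), F a 1 (x + v)) -
      (((√Real.pi)⁻¹ : ℝ) : ℂ) * ∫ t in (1 : ℝ)..T, E a t x‖ ≤
      ‖∫ v in Iic (0 : ℝ), F a 1 (x + v)‖ + ‖∫ t in (1 : ℝ)..T, E a t x‖ := by
    refine (norm_sub_le _ _).trans (add_le_add ?_ ?_) <;>
    · rw [norm_mul, Complex.norm_real, Real.norm_of_nonneg hp0]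
      exact mul_le_of_le_one_left (norm_nonneg _) hp
  have h8 := norm_le_norm_sub_add (∑ n ∈ Finset.range (⌊Real.exp x⌋₊ + 1), a n)
    ((((√Real.pi)⁻¹ : ℝ) : ℂ) * (∫ v in Iic (0 : ℝ), F a 1 (x + v)) -
      (((√Real.pi)⁻¹ : ℝ) : ℂ) * ∫ t in (1 : ℝ)..T, E a t x)
  have h9 : C2 * (Q + D * Q) * Real.log T ≤ C2 * (Q + D * Q) * x := by gcongr
  have h10 : D * Real.exp (3 / 4 * x) ≤ D * Q := by gcongr
  have h11 : Q + D * Q ≤ (Q + D * Q) * x :=
    le_mul_of_one_le_right (by positivity) (by linarith)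
  rw [h5] at h2
  have e4 : (8 + 2 * C2 / c) * ε * Real.exp (5 / 6 * x) / x =
    2 * (4 * ε * Real.exp (5 / 6 * x) / x) + C2 * (2 * ε * Real.exp (5 / 6 * x) / x) / c := by
    field_simp; ring
  have e5 : (2 + C2) * (1 + D) * (x * Q) = 2 * ((Q + D * Q) * x) + C2 * (Q + D * Q) * x := by ring
  have e6 : B * (8 * √x / x ^ 2 * Real.exp (5 / 6 * x) + 1 + Real.exp 2 * ZZ) =
    B * (8 * √x / x ^ 2 * Real.exp (5 / 6 * x) + 1) + B * (Real.exp 2 * ZZ) := by ring
  rw [e4, e5, e6]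
  linarith

lemma small1 {κ δ : ℝ} (hκ : 0 < κ) (hδ : 0 < δ) :
    ∀ᶠ x : ℝ in atTop, x * Real.exp ((5 / 6 - κ) * x) ≤ δ * (Real.exp (5 / 6 * x) / x) := by
  have h := (tendsto_rpow_mul_exp_neg_mul_atTop_nhds_zero 2 κ hκ).eventually
    (eventually_le_nhds hδ)
  filter_upwards [h, eventually_gt_atTop 0] with x hx hx0
  rw [Real.rpow_two] at hx
  have : x * Real.exp ((5 / 6 - κ) * x) =
      x ^ 2 * Real.exp (-κ * x) * (Real.exp (5 / 6 * x) / x) := by
    have : Real.exp ((5 / 6 - κ) * x) = Real.exp (-κ * x) * Real.exp (5 / 6 * x) := by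
      rw [← Real.exp_add]; congr 1; ring
    rw [this]; field_simp
  rw [this]
  gcongr

lemma small2 {δ : ℝ} (hδ : 0 < δ) :
    ∀ᶠ x : ℝ in atTop, √x / x ^ 2 * Real.exp (5 / 6 * x) ≤ δ * (Real.exp (5 / 6 * x) / x) := by
  filter_upwards [eventually_ge_atTop ((δ ^ 2)⁻¹), eventually_gt_atTop 0] with x hx hx0
  have h1 : √x ≤ δ * x := by
    rw [Real.sqrt_le_left (by positivity), mul_pow]
    have : 1 ≤ δ ^ 2 * x := by
      rw [← div_le_iff₀' (by positivity), one_div]; exact hx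
    nlinarith
  calc √x / x ^ 2 * Real.exp (5 / 6 * x) ≤ δ * x / x ^ 2 * Real.exp (5 / 6 * x) := by gcongr
    _ = _ := by field_simp

lemma main_log (hB : ∀ n, ‖a n‖ ≤ B) (h0 : a 0 = 0) {c : ℝ} (hc : 0 < c)
    (H : ∀ ε > (0 : ℝ), ∃ κ > (0 : ℝ), ∃ y0, Hyp a c ε κ y0) {δ : ℝ} (hδ : 0 < δ) :
    ∀ᶠ x : ℝ in atTop,
      ‖∑ n ∈ Finset.range (⌊Real.exp x⌋₊ + 1), a n‖ ≤ δ * (Real.exp (5 / 6 * x) / x) := by
  have hB0 : 0 ≤ B := le_trans (norm_nonneg _) (hB 0)
  have hZ := ZZ_nonneg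
  have hC := C2_nonneg
  set K1 := 8 + 2 * C2 / c with hK1
  have hK1' : 0 < K1 := by positivity
  set K2 := (2 + C2) * (1 + B * Real.exp 1 * ZZ) + B * (1 + Real.exp 2 * ZZ) with hK2
  have hK2' : 0 < K2 := by positivity
  obtain ⟨κ, hκ, y0, hy⟩ := H (δ / 3 / K1) (by positivity)
  have hκ' : 0 < min κ (1 / 12) := lt_min hκ (by norm_num)
  have H' : Hyp a c (δ / 3 / K1) (min κ (1 / 12)) (max y0 0) := by
    intro y h1 S h2 h3
    refine (hy y ((le_max_left _ _).trans h1) S h2 h3).trans ?_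
    have h4 : 0 ≤ y := (le_max_right _ _).trans h1
    gcongr
    exact min_le_left _ _
  filter_upwards [eventually_ge_atTop 32, eventually_ge_atTop (4 * max y0 0),
    small1 hκ' (δ := δ / 3 / K2) (by positivity),
    small2 (δ := δ / 3 / (8 * B + 1)) (by positivity)] with x h1 h2 h3 h4
  have h5 := quant hB h0 hc (by positivity) hκ' (min_le_right _ _) H' h1 h2
  have hx0 : 0 < x := by linarith
  set W := Real.exp (5 / 6 * x) / x with hW
  have hW0 : 0 < W := by positivity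
  set Q := x * Real.exp ((5 / 6 - min κ (1 / 12)) * x) with hQ
  have hQ1 : 1 ≤ Q := by
    have : 1 ≤ Real.exp ((5 / 6 - min κ (1 / 12)) * x) := by
      apply Real.one_le_exp
      have := min_le_right κ (1 / 12)
      nlinarith
    rw [hQ]; nlinarith
  have e1 : K1 * (δ / 3 / K1) * Real.exp (5 / 6 * x) / x = δ / 3 * W := by
    rw [hW]; field_simp
  have e2 : K2 * Q ≤ δ / 3 * W := by
    calc K2 * Q ≤ K2 * (δ / 3 / K2 * W) := by gcongr
      _ = _ := by field_simp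
  have e3 : B * (8 * √x / x ^ 2 * Real.exp (5 / 6 * x)) ≤ δ / 3 * W := by
    calc B * (8 * √x / x ^ 2 * Real.exp (5 / 6 * x))
        = 8 * B * (√x / x ^ 2 * Real.exp (5 / 6 * x)) := by ring
      _ ≤ (8 * B + 1) * (δ / 3 / (8 * B + 1) * W) := by gcongr; linarith
      _ = _ := by field_simp
  have e4 : B * (1 + Real.exp 2 * ZZ) ≤ B * (1 + Real.exp 2 * ZZ) * Q :=
    le_mul_of_one_le_right (by positivity) hQ1
  rw [e1] at h5
  rw [hK2] at e2
  nlinarith

/-- A uniform bound for log-Gaussian weighted sums gives the bound for the sharp cutoff. -/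
theorem sharp_of_gauss (hB : ∀ n, ‖a n‖ ≤ B) (h0 : a 0 = 0) {c : ℝ} (hc : 0 < c)
    (H : ∀ ε > (0 : ℝ), ∃ κ : ℝ, 0 < κ ∧ ∃ X0 : ℝ, ∀ X S : ℝ, X0 ≤ X → 1 ≤ S →
      S ≤ X ^ (1 / 6 + 1 / 1000 : ℝ) →
      ‖∑' n : ℕ, a n * ((Real.exp (-(S ^ 2 * Real.log (n / X) ^ 2)) : ℝ) : ℂ)‖ ≤
        ε * S ^ (-c) * X ^ (5 / 6 : ℝ) / Real.log X + X ^ (5 / 6 - κ)) :
    Tendsto (fun X : ℝ => (∑ n ∈ Finset.range (⌊X⌋₊ + 1), a n) /
      ((X ^ (5 / 6 : ℝ) / Real.log X : ℝ) : ℂ)) atTop (nhds 0) := by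
  have H' : ∀ ε > (0 : ℝ), ∃ κ > (0 : ℝ), ∃ y0, Hyp a c ε κ y0 := by
    intro ε hε
    obtain ⟨κ, hκ, X0, hX⟩ := H ε hε
    have h1 := (tendsto_rpow_mul_exp_neg_mul_atTop_nhds_zero 3 (1 / 1000)
      (by norm_num)).eventually (eventually_le_nhds one_pos)
    obtain ⟨y0, hy0⟩ := eventually_atTop.1 (h1.and (Real.tendsto_exp_atTop.eventually_ge_atTop X0))
    refine ⟨κ, hκ, y0, fun y hy S hS hS' => ?_⟩
    obtain ⟨g1, g2⟩ := hy0 y hy
    have e : ∀ r : ℝ, Real.exp y ^ r = Real.exp (r * y) := fun r => by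
      rw [← Real.exp_mul, mul_comm]
    have g3 : S ≤ Real.exp y ^ (1 / 6 + 1 / 1000 : ℝ) := by
      rw [e]
      have g4 : y ^ 3 ≤ Real.exp (1 / 1000 * y) := by
        have g5 : y ^ (3 : ℝ) = y ^ 3 := by exact_mod_cast Real.rpow_natCast y 3
        rw [g5, neg_mul, Real.exp_neg, ← div_eq_mul_inv, div_le_one (Real.exp_pos _)] at g1
        exact g1
      calc S ≤ Real.exp (y / 6) * Real.exp (1 / 1000 * y) := hS'.trans (by gcongr)
        _ = _ := by rw [← Real.exp_add]; congr 1; ring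
    have h2 := hX (Real.exp y) S g2 hS g3
    rw [e, e, Real.log_exp] at h2
    refine le_trans (le_of_eq ?_) h2
    unfold F
    congr 2; funext n
    rcases Nat.eq_zero_or_pos n with rfl | hn
    · rw [h0, zero_mul, zero_mul]
    · have hn' : (n : ℝ) ≠ 0 := by exact_mod_cast hn.ne'
      rw [Real.log_div hn' (Real.exp_pos y).ne', Real.log_exp]
  rw [NormedAddGroup.tendsto_nhds_zero]
  intro δ hδ
  have h1 := Real.tendsto_log_atTop.eventually (main_log hB h0 hc H' (half_pos hδ))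
  filter_upwards [h1, eventually_gt_atTop 1] with X hX hX1
  have hX0 : 0 < X := by linarith
  have hL := Real.log_pos hX1
  have e : Real.exp (5 / 6 * Real.log X) = X ^ (5 / 6 : ℝ) := by
    rw [Real.rpow_def_of_pos hX0, mul_comm]
  rw [Real.exp_log hX0, e] at hX
  have hW : 0 < X ^ (5 / 6 : ℝ) / Real.log X := by positivity
  rw [norm_div, Complex.norm_real, Real.norm_of_nonneg hW.le, div_lt_iff₀ hW]
  nlinarith

end
end
end Vale.Agent.P006.SG
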