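import Mathlib

namespace Vale.Agent.P006.Stmt

noncomputable section

/-- Eisenstein integers `a + b ω` with `ω ^ 2 = -1 - ω` -/
abbrev Eis : Type := QuadraticAlgebra ℤ (-1) (-1)

def omegaE : Eis := ⟨0, 1⟩

def omegaC : ℂ := Complex.exp (2 * Real.pi * Complex.I / 3)

/-- the embedding into the complex numbers -/
def emb (z : Eis) : ℂ := (z.re : ℂ) + (z.im : ℂ) * omegaC

/-- the norm `N (a + b ω) = a ^ 2 - a b + b ^ 2` -/
def normE (z : Eis) : ℕ := (z.re ^ 2 - z.re * z.im + z.im ^ 2).toNat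

def e (x : ℂ) : ℂ := Complex.exp (2 * Real.pi * Complex.I * x)

def tr (z : ℂ) : ℂ := z + (starRingEnd ℂ) z

def PrimaryPrime (p : Eis) : Prop := Prime p ∧ (3 : Eis) ∣ p - 1

open Classical in
/-- cubic residue symbol -/
def chi (p v : Eis) : ℂ :=
  if p ∣ v then 0 else
    ∑ j ∈ Finset.range 3, if p ∣ v ^ ((normE p - 1) / 3) - omegaE ^ j then omegaC ^ j else 0

/-- normalised cubic Gauss sum -/
def gauss (p : Eis) : ℂ :=
  1 / ((√(normE p : ℝ) : ℝ) : ℂ) *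
    ∑ᶠ v : Eis ⧸ Ideal.span {p}, chi p v.out * e (tr (emb v.out / emb p))

def cstar : ℝ := (2 * Real.pi) ^ (2 / 3 : ℝ) / (3 * Real.Gamma (2 / 3))

def primesUpTo (X : ℝ) : Set Eis := {p | PrimaryPrime p ∧ (normE p : ℝ) ≤ X}

def firstMoment (X : ℝ) : ℂ := ∑ᶠ p ∈ primesUpTo X, gauss p

end

end Vale.Agent.P006.Stmt
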