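import Vale.Agent.P006.UU
import Vale.Agent.P006.PR
import Vale.Agent.P006.Bas
import Vale.Agent.P006.Sep
import Vale.Agent.P006.Stmt
import Vale.Agent.P006.SharpGauss
import Vale.Agent.P026.Zk2

namespace Vale.Agent.P006

open Vale.Agent.P026 Complex MeasureTheory Filter Topology
open scoped Classical ComplexConjugate Real MatrixGroups

noncomputable section

theorem fin_omC : Stmt.omegaC = omC := by
  have h : (2 * Real.pi * Complex.I / 3 : ℂ) = ((2 * π / 3 : ℝ) : ℂ) * Complex.I := by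
    push_cast; ring
  have hc : Real.cos (2 * π / 3) = -1 / 2 := by
    rw [show 2 * π / 3 = π - π / 3 by ring, Real.cos_pi_sub, Real.cos_pi_div_three]; ring
  have hs : Real.sin (2 * π / 3) = √3 / 2 := by
    rw [show 2 * π / 3 = π - π / 3 by ring, Real.sin_pi_sub, Real.sin_pi_div_three]
  rw [Stmt.omegaC, h, Complex.exp_mul_I, ← Complex.ofReal_cos, ← Complex.ofReal_sin, hc, hs]
  apply Complex.ext <;> simp [omC]

theorem fin_emb (z : O) : Stmt.emb z = toC z := by
  rw [Stmt.emb, fin_omC]; rfl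

theorem fin_norm (z : O) : Stmt.normE z = Nm z := by
  have h := Nm_cast z
  rw [Stmt.normE, ← h]; simp

theorem fin_e (z : ℂ) : Stmt.e (Stmt.tr z) = psi (toC lam * z) := by
  rw [Stmt.e, Stmt.tr, psi, toC_lam, kap]
  congr 1
  have h3 : ((√3 : ℝ) : ℂ) ≠ 0 := by exact_mod_cast (by positivity : (√3 : ℝ) ≠ 0)
  simp only [map_mul, Complex.conj_ofReal, Complex.conj_I]
  push_cast
  field_simp
  ring

theorem fin_chi {p : O} (hp : Prime p) (hP : Prim p) (v : O) : Stmt.chi p v = sym3 v p := by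
  rw [Stmt.chi, fin_norm, fin_omC]
  by_cases hv : p ∣ v
  · rw [if_pos hv, sym3_prime hp, sym3p, if_pos hv]
  rw [if_neg hv]
  have hom : Stmt.omegaE = om := rfl
  have hcube : ∀ j : ℕ, (om ^ j) ^ 3 = 1 := fun j => by
    rw [← pow_mul, mul_comm, pow_mul, om_cube, one_pow]
  have key : ∀ j : ℕ, p ∣ v ^ ((Nm p - 1) / 3) - om ^ j → sym3 v p = omC ^ j := fun j hj => by
    rw [sym3_eq_of hp hP (hcube j) hj, map_pow, toC_om]
  obtain ⟨ζ, h1, h2⟩ := sym3_spec hp hP v
  have hne : sym3 v p ≠ 0 := fun h => (sym3_eq_zero_iff hp.ne_zero).1 h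
    ((hp.irreducible.coprime_iff_not_dvd.2 hv).symm)
  have hex : ∃ j < 3, sym3 v p = omC ^ j := by
    rcases sym3_cases v p with h | h | h | h
    · exact absurd h hne
    · exact ⟨0, by norm_num, by simpa using h⟩
    · exact ⟨1, by norm_num, by simpa using h⟩
    · exact ⟨2, by norm_num, h⟩
  obtain ⟨j, hj, hj'⟩ := hex
  have hζ : ζ = om ^ j := toC_inj (by rw [h1, hj', map_pow, toC_om])
  have hprim : IsPrimitiveRoot omC 3 := by
    have : Fact (Nat.Prime 3) := ⟨Nat.prime_three⟩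
    exact (IsPrimitiveRoot.iff_orderOf.2 (orderOf_eq_prime omC_cube omC_ne_one))
  rw [Finset.sum_eq_single j, hom, if_pos (hζ ▸ h2), hj']
  · intro i hi hij
    rw [hom, if_neg]
    intro hd
    exact hij (hprim.pow_inj (Finset.mem_range.1 hi) hj ((key i hd).symm.trans hj'))
  · intro h; exact absurd (Finset.mem_range.2 hj) h

theorem fin_gauss {p : O} (hp : Prime p) (hP : Prim p) : Stmt.gauss p = G0 p := by
  have hfin := finite_quot hp.ne_zero
  have := Fintype.ofFinite (O ⧸ Ideal.span {p})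
  rw [Stmt.gauss, finsum_eq_sum_of_fintype, G0, g3, norm_toC, fin_norm, one_div, div_eq_inv_mul]
  congr 1
  have hper : Per p (fun x => sym3 x p * psi (toC lam * toC x / toC p)) := fun x y h => by
    have h2 := psi_congr hp.ne_zero (x := lam * x) (y := lam * y)
      (by rw [← mul_sub]; exact h.mul_left _)
    simp only [map_mul] at h2
    simp only [sym3_congr h, h2]
  rw [sum_rs_eq_of_complete hp.ne_zero Finset.univ (fun v : O ⧸ Ideal.span {p} => v.out) ?_ ?_ hper]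
  · refine Finset.sum_congr rfl fun v _ => ?_
    rw [fin_chi hp hP, fin_e, fin_emb, fin_emb, mul_div_assoc]
  · intro i _ j _ h
    rw [← Ideal.Quotient.mk_out i, ← Ideal.Quotient.mk_out j]
    exact Ideal.Quotient.eq.2 (Ideal.mem_span_singleton.2 h)
  · intro x
    refine ⟨Ideal.Quotient.mk _ x, Finset.mem_univ _, ?_⟩
    exact Ideal.mem_span_singleton.1 (Ideal.Quotient.eq.1 (Ideal.Quotient.mk_out _).symm)

theorem fin_set (X : ℝ) : Stmt.primesUpTo X =
    ((ballO X).filter (fun p => Prime p ∧ Prim p) : Finset O) := by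
  ext p
  simp only [Stmt.primesUpTo, Stmt.PrimaryPrime, Set.mem_setOf_eq, Finset.coe_filter, mem_ballO,
    fin_norm]
  constructor
  · rintro ⟨⟨h1, h2⟩, h3⟩; exact ⟨⟨h1.ne_zero, h3⟩, h1, h2⟩
  · rintro ⟨⟨-, h3⟩, h1, h2⟩; exact ⟨⟨h1, h2⟩, h3⟩

theorem fin_moment {X : ℝ} (hX : 4 ≤ X) :
    Stmt.firstMoment X = G0 (-2) + ∑ p ∈ PP X, G p := by
  rw [Stmt.firstMoment, fin_set, finsum_mem_coe_finset]
  have h2 : Prime (-2 : O) := prime_two.neg
  have hN : N (-2 : O) = 4 := by rw [N_neg, N_ofNat]; norm_num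
  have hset : (ballO X).filter (fun p => Prime p ∧ Prim p) = insert (-2) (PP X) := by
    ext p
    simp only [Finset.mem_filter, mem_ballO, Finset.mem_insert, PP, mem_ballN]
    constructor
    · rintro ⟨⟨-, h3⟩, h1, hP⟩
      by_cases ho : OddO p
      · exact Or.inr ⟨⟨⟨hP, h1.squarefree, ho⟩, h3⟩, h1⟩
      · left
        have hd : (-2 : O) ∣ p := neg_dvd.2 (not_not.1 ho)
        exact (prim_neg_two.eq_of_associated hP (h2.associated_of_dvd h1 hd)).symm
    · rintro (rfl | ⟨⟨⟨hP, -, -⟩, h3⟩, h1⟩)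
      · exact ⟨⟨h2.ne_zero, hN ▸ hX⟩, h2, prim_neg_two⟩
      · exact ⟨⟨h1.ne_zero, h3⟩, h1, hP⟩
  have hnot : (-2 : O) ∉ PP X := fun h => by
    simp only [PP, Finset.mem_filter, mem_ballN] at h
    exact h.1.1.2.2 (dvd_neg.2 dvd_rfl)
  rw [hset, Finset.sum_insert hnot, fin_gauss h2 prim_neg_two]
  congr 1
  refine Finset.sum_congr rfl fun p hp => ?_
  simp only [PP, Finset.mem_filter, mem_ballN] at hp
  rw [fin_gauss hp.2 hp.1.1.1, G, if_pos hp.1.1]

def finS (n : ℕ) : Finset O := (PP n).filter (fun p => Nm p = n)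

theorem mem_finS {n : ℕ} {p : O} : p ∈ finS n ↔ (NN p ∧ Prime p) ∧ Nm p = n := by
  simp only [finS, PP, Finset.mem_filter, mem_ballN]
  constructor
  · rintro ⟨⟨⟨h1, -⟩, h2⟩, h3⟩; exact ⟨⟨h1, h2⟩, h3⟩
  · rintro ⟨⟨h1, h2⟩, h3⟩; exact ⟨⟨⟨h1, by rw [N, h3]⟩, h2⟩, h3⟩

theorem card_finS (n : ℕ) : (finS n).card ≤ 2 := by
  rcases (finS n).eq_empty_or_nonempty with h | ⟨q, hq⟩
  · simp [h]
  have hsub : finS n ⊆ {q, star q} := fun p hp => by
    obtain ⟨⟨hN, hp1⟩, hp2⟩ := mem_finS.1 hp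
    obtain ⟨⟨hN', hq1⟩, hq2⟩ := mem_finS.1 hq
    have hd : p ∣ q * star q := by
      rw [mul_star_eq, hq2, ← hp2, ← mul_star_eq]; exact dvd_mul_right _ _
    have hs : Prime (star q) := (MulEquiv.prime_iff (starRingAut (R := O)).toMulEquiv).2 hq1
    rcases hp1.dvd_or_dvd hd with h | h
    · simp [hN.1.eq_of_associated hN'.1 (hp1.associated_of_dvd hq1 h)]
    · simp [hN.1.eq_of_associated hN'.1.star (hp1.associated_of_dvd hs h)]
  exact (Finset.card_le_card hsub).trans Finset.card_le_two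

def finK (p : O) : ℂ := G p - (cst : ℂ) * ((N p ^ (-(1 / 6) : ℝ) : ℝ) : ℂ)

theorem norm_finK {p : O} (hp : p ≠ 0) : ‖finK p‖ ≤ 1 + |cst| := by
  refine (norm_sub_le _ _).trans (add_le_add (norm_G_le p) ?_)
  rw [norm_mul, Complex.norm_real, Complex.norm_real, Real.norm_eq_abs, Real.norm_eq_abs,
    abs_of_nonneg (Real.rpow_nonneg (N_nonneg p) _)]
  exact mul_le_of_le_one_right (abs_nonneg _)
    (Real.rpow_le_one_of_one_le_of_nonpos (one_le_N hp) (by norm_num))

theorem fin_K : Tendsto (fun X : ℝ => (∑ p ∈ PP X, finK p) /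
    ((X ^ (5 / 6 : ℝ) / Real.log X : ℝ) : ℂ)) atTop (𝓝 0) := by
  obtain ⟨c, hc, H⟩ := uu
  have hB : ∀ n : ℕ, ‖∑ p ∈ finS n, finK p‖ ≤ 2 * (1 + |cst|) := fun n => by
    refine (norm_sum_le _ _).trans ((Finset.sum_le_card_nsmul _ _ (1 + |cst|) fun p hp =>
      norm_finK (mem_finS.1 hp).1.2.ne_zero).trans ?_)
    rw [nsmul_eq_mul]
    have : ((finS n).card : ℝ) ≤ 2 := by exact_mod_cast card_finS n
    exact mul_le_mul_of_nonneg_right this (by positivity)
  have h0 : ∑ p ∈ finS 0, finK p = 0 := Finset.sum_eq_zero fun p hp =>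
    absurd (Nm_eq_zero.1 (mem_finS.1 hp).2) (mem_finS.1 hp).1.2.ne_zero
  have key := SG.sharp_of_gauss (a := fun n => ∑ p ∈ finS n, finK p) hB h0 hc fun ε hε => by
    obtain ⟨κ, hκ, X0, hX⟩ := H ε hε
    refine ⟨κ, hκ, max X0 1, fun X S h1 h2 h3 => ?_⟩
    have hX1 : 1 ≤ X := (le_max_right _ _).trans h1
    obtain ⟨C, -, hC⟩ := sum_WK_thin one_pos 0
    have hs := (hC S X 0 h2 hX1 (by simp)).1
    have hsum : Summable (fun p : O => if NN p ∧ Prime p then
        finK p * WK S 0 (N p / X) else 0) := by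
      refine Summable.of_norm_bounded (hs.mul_left (1 + |cst|)) fun p => ?_
      by_cases hp : NN p ∧ Prime p
      · rw [if_pos hp, if_pos hp.2.ne_zero, norm_mul]
        exact mul_le_mul_of_nonneg_right (norm_finK hp.2.ne_zero) (norm_nonneg _)
      · rw [if_neg hp, norm_zero]; positivity
    have e := zk2_fib hsum Nm finS (fun p hp => if_neg fun h => hp (mem_finS.2 ⟨h, rfl⟩))
      (fun n p hp => (mem_finS.1 hp).2)
    have h4 := hX X S ((le_max_left _ _).trans h1) h2 h3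
    change ‖∑' p : O, (if NN p ∧ Prime p then finK p * WK S 0 (N p / X) else 0)‖ ≤ _ at h4
    rw [e] at h4
    convert h4 using 3
    funext n
    rw [Finset.sum_mul]
    refine Finset.sum_congr rfl fun p hp => ?_
    rw [if_pos (mem_finS.1 hp).1, WK, N, (mem_finS.1 hp).2]
    push_cast
    congr 2
    ring
  refine key.congr' ?_
  filter_upwards [eventually_ge_atTop (0 : ℝ)] with X hX
  congr 1
  rw [← Finset.sum_fiberwise_of_maps_to (s := PP X) (t := Finset.range (⌊X⌋₊ + 1)) (g := Nm)]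
  · refine Finset.sum_congr rfl fun n hn => Finset.sum_congr ?_ fun _ _ => rfl
    ext p
    rw [mem_finS]
    simp only [PP, Finset.mem_filter, mem_ballN]
    have hn' : (n : ℝ) ≤ X := (Nat.le_floor_iff hX).1 (Nat.lt_succ_iff.1 (Finset.mem_range.1 hn))
    constructor
    · rintro ⟨⟨h1, h2⟩, h3⟩; exact ⟨⟨⟨h1, by rw [N, h3]; exact hn'⟩, h2⟩, h3⟩
    · rintro ⟨⟨⟨h1, -⟩, h2⟩, h3⟩; exact ⟨⟨h1, h2⟩, h3⟩
  · intro p hp
    simp only [PP, Finset.mem_filter, mem_ballN] at hp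
    exact Finset.mem_range.2 (Nat.lt_succ_iff.2 (Nat.le_floor hp.1.2))

theorem fin_main : (fun X : ℝ => Stmt.firstMoment X -
      ((6 / 5 * Stmt.cstar * X ^ (5 / 6 : ℝ) / Real.log X : ℝ) : ℂ)) =o[atTop]
    (fun X : ℝ => X ^ (5 / 6 : ℝ) / Real.log X) := by
  have hcs : Stmt.cstar = cst := rfl
  have hinf : Tendsto (fun X : ℝ => (X ^ (5 / 6 : ℝ) / Real.log X)⁻¹) atTop (𝓝 0) := by
    simp only [inv_div]
    exact (isLittleO_log_rpow_atTop (by norm_num : (0 : ℝ) < 5 / 6)).tendsto_div_nhds_zero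
  have h1 : Tendsto (fun X : ℝ => G0 (-2) * (((X ^ (5 / 6 : ℝ) / Real.log X)⁻¹ : ℝ) : ℂ))
      atTop (𝓝 0) := by
    have := (Complex.continuous_ofReal.tendsto 0).comp hinf
    simpa using this.const_mul (G0 (-2))
  have h2 : Tendsto (fun X : ℝ => (cst : ℂ) *
      ((((∑ p ∈ PP X, N p ^ (-(1 / 6) : ℝ)) / (X ^ (5 / 6 : ℝ) / Real.log X) - 6 / 5 : ℝ)) : ℂ))
      atTop (𝓝 0) := by
    have h := pr_asymp.sub_const (6 / 5)
    rw [sub_self] at h
    have := (Complex.continuous_ofReal.tendsto 0).comp h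
    simpa using this.const_mul (cst : ℂ)
  have h3 := (h1.add fin_K).add h2
  rw [add_zero, add_zero] at h3
  have hpos : ∀ᶠ X : ℝ in atTop, 0 < X ^ (5 / 6 : ℝ) / Real.log X := by
    filter_upwards [eventually_gt_atTop (1 : ℝ)] with X hX
    exact div_pos (Real.rpow_pos_of_pos (by linarith) _) (Real.log_pos hX)
  rw [← Complex.isLittleO_ofReal_right]
  refine (Asymptotics.isLittleO_iff_tendsto' ?_).2 (h3.congr' ?_)
  · filter_upwards [hpos] with X hX h
    exact absurd (by exact_mod_cast h) hX.ne'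
  · filter_upwards [hpos, eventually_ge_atTop (4 : ℝ)] with X hX h4
    have hne : (((X ^ (5 / 6 : ℝ) / Real.log X : ℝ)) : ℂ) ≠ 0 := by exact_mod_cast hX.ne'
    have e1 : ∑ p ∈ PP X, finK p = ∑ p ∈ PP X, G p -
        (cst : ℂ) * ((∑ p ∈ PP X, N p ^ (-(1 / 6) : ℝ) : ℝ) : ℂ) := by
      simp only [finK, Finset.sum_sub_distrib, Complex.ofReal_sum, Finset.mul_sum]
    rw [fin_moment h4, hcs, e1, mul_div_assoc (6 / 5 * cst)]
    generalize X ^ (5 / 6 : ℝ) / Real.log X = T at hne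
    push_cast
    field_simp
    ring

end

end Vale.Agent.P006
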