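import Vale.Agent.P006.ER

namespace Vale.Agent.P006

open Vale.Agent.P026 Complex MeasureTheory Filter Topology
open scoped Classical ComplexConjugate Real MatrixGroups

noncomputable section

theorem mm_prime {x a : O} (ha : Prim a) (h : ¬ IsCoprime x a) :
    ∃ p, Prime p ∧ Prim p ∧ p ∣ x ∧ p ∣ a := by
  rw [isCoprime_iff_no_prime (Or.inr ha.ne_zero)] at h
  push Not at h
  obtain ⟨p, hp, h1, h2⟩ := h
  obtain ⟨u, hu, hP⟩ := exists_prim_assoc (x := p) fun h => ha.not_lam_dvd (h.trans h2)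
  have hA : Associated p (u * p) := (associated_unit_mul_left p u hu).symm
  exact ⟨u * p, hA.prime hp, hP, hA.symm.dvd.trans h1, hA.symm.dvd.trans h2⟩

theorem mm_not_dvd {p a ξ : O} (hp : Prime p) (ha : NN a) (hpa : p ∣ a) (hξ : ξ ∈ XI) :
    ¬ p ∣ ξ := fun h => by
  have h6 := hp.dvd_of_dvd_pow (h.trans (XI_dvd hξ))
  rw [show (6 : O) = 2 * 3 by norm_num] at h6
  rcases hp.dvd_or_dvd h6 with h2 | h3
  · exact hp.not_unit ((oddO_iff_coprime.1 ha.2.2).isUnit_of_dvd' hpa h2)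
  · exact hp.not_unit (ha.1.coprime_three.isUnit_of_dvd' hpa h3)

theorem mm_dvd {n a : O} (hn : NN n) (h : ∀ p, Prime p → Prim p → p ∣ n → p ∣ a) : n ∣ a := by
  refine NN.induction (P := fun n => (∀ p, Prime p → Prim p → p ∣ n → p ∣ a) → n ∣ a)
    (fun _ => one_dvd _) (fun p n hp hP _ hpn ih h => ?_) n hn h
  exact (hp.coprime_iff_not_dvd.2 hpn).mul_dvd (h p hp hP.1 (dvd_mul_right _ _))
    (ih fun q hq hQ hd => h q hq hQ (hd.mul_left _))

theorem mm {R : ℝ} {t : O × O × O} (ht : t ∈ MI R) {k a : O} (hk : k ≠ 0) (ha : NN a) :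
    G a * cc (8 * a * (cf t * k ^ 3)) =
      if t.2.2 ∣ a then G t.2.2 * cc (t.1 * t.2.1) * sym3 (cf t) (a / t.2.2) *
        ((N (a / t.2.2) ^ (-(1 / 6) : ℝ) : ℝ) : ℂ) else 0 := by
  obtain ⟨ξ, h1, h2⟩ := t
  obtain ⟨hξ, n1, n2, h12, -⟩ := mem_MI.1 ht
  simp only [cf] at *
  have e0 : qq (8 * a * (ξ * h1 * h2 ^ 2 * k ^ 3)) = qq (a * (ξ * h1 * h2 ^ 2)) := by
    rw [← qq_cube (a * (ξ * h1 * h2 ^ 2)) (k := 2 * k) (mul_ne_zero prime_two.ne_zero hk)]
    congr 1; ring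
  rw [cc, cc, e0]
  split_ifs with hd
  · obtain ⟨b, rfl⟩ := hd
    have hb : Prim b := ha.1.of_mul n2.1
    obtain ⟨-, nb, hcb⟩ := (nn_mul_iff n2.1 hb).1 ha
    rw [mul_div_cancel_left₀ _ n2.ne_zero,
      show h2 * b * (ξ * h1 * h2 ^ 2) = ξ * h1 * b * h2 ^ 3 by ring, qq_cube _ n2.ne_zero,
      sym3_mul_left (ξ * h1), sym3_pow_left, G_mul n2.1 hb, conj_sym3]
    by_cases hc : IsCoprime (ξ * h1) b
    · have e1 := th_eq hb nb.2.1 prim_one
      rw [one_pow, mul_one] at e1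
      have c3 := Complex.mul_conj' (G0 b)
      rw [norm_G0 hb nb.2.1] at c3
      push_cast at c3
      rw [qq_mul hb hc, e1, G, G, if_pos nb, if_pos n2]
      linear_combination G0 h2 * sym3 h2 b ^ 2 * (Complex.I * qq (ξ * h1) * (zp2 : ℂ) / (kap : ℂ)) *
        sym3 (ξ * h1) b * ((N b ^ (-(1 / 6) : ℝ) : ℝ) : ℂ) * c3
    · obtain ⟨p, hp, hP, p1, p2⟩ := mm_prime hb hc
      have p3 := (hp.dvd_or_dvd p1).resolve_left (mm_not_dvd hp nb p2 hξ)
      obtain ⟨h', rfl⟩ := p3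
      obtain ⟨b', rfl⟩ := p2
      rw [(sym3_eq_zero_iff hb.ne_zero).2 hc,
        show ξ * (p * h') * (p * b') = ξ * h' * b' * p ^ 2 by ring, qq_sq hp hP]
      · simp
      · intro hh
        rcases hp.dvd_or_dvd hh with hh | hh
        · rcases hp.dvd_or_dvd hh with hh | hh
          · exact mm_not_dvd hp nb (dvd_mul_right _ _) hξ hh
          · exact hp.not_unit (n1.2.1 p (mul_dvd_mul_left p hh))
        · exact hp.not_unit (nb.2.1 p (mul_dvd_mul_left p hh))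
  · have := mt (mm_dvd n2) hd
    push Not at this
    obtain ⟨p, hp, hP, p1, p2⟩ := this
    obtain ⟨h', rfl⟩ := p1
    rw [show a * (ξ * h1 * (p * h') ^ 2) = a * ξ * h1 * h' ^ 2 * p ^ 2 by ring, qq_sq hp hP]
    · simp
    · intro hh
      rcases hp.dvd_or_dvd hh with hh | hh
      · rcases hp.dvd_or_dvd hh with hh | hh
        · rcases hp.dvd_or_dvd hh with hh | hh
          · exact p2 hh
          · exact mm_not_dvd hp n2 (dvd_mul_right _ _) hξ hh
        · exact hp.not_unit (h12.isUnit_of_dvd' hh (dvd_mul_right _ _))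
      · exact hp.not_unit (n2.2.1 p (mul_dvd_mul_left p (hp.dvd_of_dvd_pow hh)))

theorem norm_cc_mul : ∃ C : ℝ, 0 < C ∧ ∀ a h : O, NN a → h ≠ 0 →
    ‖cc (8 * a * h)‖ ≤ C * N h * N a ^ (-(1 / 6) : ℝ) := by
  obtain ⟨C, hC, H⟩ := norm_cc_le
  refine ⟨C, hC, fun a h ha hh => ?_⟩
  obtain ⟨t, ht, k, hk, e⟩ := exists_cf hh
  have h1 := congrArg norm (mm ht hk ha)
  obtain ⟨hξ, n1, n2, -, hN⟩ := mem_MI.1 ht
  have a0 := N_pos ha.ne_zero
  have b0 := N_pos hh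
  rw [norm_mul, norm_G ha, one_mul, ← e] at h1
  rw [h1]
  split_ifs with hd
  · obtain ⟨b, rfl⟩ := hd
    have hb : b ≠ 0 := right_ne_zero_of_mul ha.ne_zero
    have x0 := mul_ne_zero (XI_ne_zero hξ) n1.ne_zero
    have c1 := one_le_N x0
    have c2 := one_le_N n2.ne_zero
    have c3 := N_pos hb
    rw [cf, N_mul, N_pow] at hN
    rw [mul_div_cancel_left₀ _ n2.ne_zero, norm_mul, norm_mul, norm_mul, norm_G n2, one_mul,
      Complex.norm_real, Real.norm_of_nonneg (by positivity), N_mul,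
      Real.mul_rpow (by positivity) c3.le, ← mul_assoc]
    refine mul_le_mul_of_nonneg_right ?_ (by positivity)
    have d1 : N (t.1 * t.2.1) ^ (1 / 3 : ℝ) ≤ N (t.1 * t.2.1) := by
      simpa using Real.rpow_le_rpow_of_exponent_le c1 (by norm_num : (1 / 3 : ℝ) ≤ 1)
    have d2 : (N t.2.2 ^ 2)⁻¹ ≤ N t.2.2 ^ (-(1 / 6) : ℝ) := by
      rw [← Real.rpow_natCast, ← Real.rpow_neg (by positivity)]
      exact Real.rpow_le_rpow_of_exponent_le c2 (by norm_num)
    calc ‖cc (t.1 * t.2.1)‖ * ‖sym3 (cf t) b‖ ≤ C * N (t.1 * t.2.1) * 1 :=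
          mul_le_mul ((H _ x0).trans (by gcongr)) (norm_sym3_le _ _) (norm_nonneg _) (by positivity)
      _ = C * (N (t.1 * t.2.1) * N t.2.2 ^ 2) * (N t.2.2 ^ 2)⁻¹ := by field_simp
      _ ≤ _ := by gcongr
  · rw [norm_zero]; positivity

end

end Vale.Agent.P006
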