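import Vale.Agent.P006.N1
import Vale.Agent.P006.CT
import Vale.Agent.P006.MM

namespace Vale.Agent.P006

open Vale.Agent.P026 Complex MeasureTheory Filter Topology
open scoped Classical ComplexConjugate Real MatrixGroups

noncomputable section

theorem gs_split {f : O → ℂ} (hf : Summable fun d => if Prim d then f d else 0) (D : ℝ) :
    ∑' d, (if Prim d then f d else 0) = ∑ d ∈ (ballO D).filter Prim, f d +
      ∑' d, (if Prim d ∧ D < N d then f d else 0) := by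
  have h2 : Summable fun d => if Prim d ∧ D < N d then f d else 0 :=
    (hf.indicator {d | D < N d}).congr fun d => by
      by_cases h : D < N d <;> simp [Set.indicator, h]
  have h1 := hasSum_sum_of_ne_finset_zero (s := (ballO D).filter Prim) (L := .unconditional _)
    (f := fun d => if d ∈ (ballO D).filter Prim then f d else 0) fun d hd => if_neg hd
  rw [Finset.sum_congr rfl fun d hd => if_pos hd] at h1
  rw [← h1.tsum_eq, ← h1.summable.tsum_add h2]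
  refine tsum_congr fun d => ?_
  by_cases h : Prim d
  · by_cases h' : D < N d
    · simp [h, h', mem_ballO, not_le.2 h']
    · simp [h, h', mem_ballO, not_lt.1 h', h.ne_zero]
  · simp [h]

theorem gs_main_term {k : O} (hk : k ≠ 0) :
    Summable (fun d : O => if Prim d then mu d * sym3 k (d ^ 3) * ((N d ^ (-2 : ℝ) : ℝ) : ℂ) else 0) ∧
    conj (cc k) * (dens k : ℂ) = mth k *
      ∑' d : O, (if Prim d then mu d * sym3 k (d ^ 3) * ((N d ^ (-2 : ℝ) : ℝ) : ℂ) else 0) := by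
  constructor
  · refine Summable.of_norm_bounded (summable_N_rpow (s := 2) (by norm_num)) fun d => ?_
    have := Real.rpow_nonneg (N_nonneg d) (-2)
    split_ifs
    · rw [norm_mul, norm_mul, Complex.norm_real, Real.norm_of_nonneg this]
      exact mul_le_of_le_one_left this (mul_le_one₀ (norm_mu_le _) (norm_nonneg _) (norm_sym3_le _ _))
    · simpa using this
  have : ∀ d : O, (if Prim d then mu d * sym3 k (d ^ 3) * ((N d ^ (-2 : ℝ) : ℝ) : ℂ) else 0) =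
      if Prim d ∧ IsCoprime d k then mu d * ((N d ^ (-2 : ℝ) : ℝ) : ℂ) else 0 := fun d => by
    by_cases h : Prim d
    · rw [if_pos h, sym3_pow_right _ h.ne_zero]
      by_cases h' : IsCoprime d k
      · rw [sym3_cube h'.symm, if_pos ⟨h, h'⟩, mul_one]
      · rw [(sym3_eq_zero_iff h.ne_zero).2 fun e => h' e.symm, if_neg fun e => h' e.2]; simp
    · simp [h]
  rw [tsum_congr this, mu_cop hk, mth, mul_assoc, ← ofReal_mul, dens, mul_inv,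
    ← Finset.prod_inv_distrib]
  congr 2
  have : ∏ p ∈ pf k, (N p / (N p + 1)) =
      (∏ p ∈ pf k, (1 - (N p)⁻¹)) * ∏ p ∈ pf k, (1 - (N p ^ 2)⁻¹)⁻¹ := by
    rw [← Finset.prod_mul_distrib]
    refine Finset.prod_congr rfl fun p hp => ?_
    obtain ⟨p1, p2, -⟩ := (mem_pf hk).1 hp
    have h4 := four_le_N_of_prime p1 p2
    have h5 : N p ^ 2 - 1 ≠ 0 := by nlinarith
    have h6 : N p ≠ 0 := by linarith
    have h7 : N p + 1 ≠ 0 := by linarith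
    field_simp
    ring
  rw [this]; ring

theorem gs_dec {K : ℝ} (hK : 1 ≤ K) {b h : O} (hk : 8 * b * h ≠ 0) {y : ℝ} (hy : 0 < y) (D : ℝ) :
    ‖∑' m : O, G m * conj (sym3 (b * h) m) * WK K 0 (N m / y) -
        cc (8 * b * h) * ((dens (8 * b * h) * Fh K (5 / 6) * y ^ (5 / 6 : ℝ) : ℝ) : ℂ)‖ =
    y ^ (1 / 6 : ℝ) * ‖∑ d ∈ (ballO D).filter Prim, mu d * sym3 (8 * b * h) (d ^ 3) *
        (TT K (1 / 6 : ℝ) (8 * b * h) (y / N d ^ 3) - mth (8 * b * h) *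
          ((Fh K (2 / 3 + 1 / 6) * (y / N d ^ 3) ^ (2 / 3 : ℝ) : ℝ) : ℂ)) +
      ∑' d : O, (if Prim d ∧ D < N d then mu d * sym3 (8 * b * h) (d ^ 3) *
        TT K (1 / 6 : ℝ) (8 * b * h) (y / N d ^ 3) else 0) -
      mth (8 * b * h) * ((Fh K (5 / 6) * y ^ (2 / 3 : ℝ) : ℝ) : ℂ) * ∑' d : O, (if Prim d ∧ D < N d
        then mu d * sym3 (8 * b * h) (d ^ 3) * ((N d ^ (-2 : ℝ) : ℝ) : ℂ) else 0)‖ := by
  obtain ⟨s1, e1⟩ := cube_sieve hK (b * h) hy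
  obtain ⟨s2, e2⟩ := gs_main_term hk
  rw [← mul_assoc] at s1 e1
  rw [gs_split s1 D] at e1
  rw [gs_split s2 D] at e2
  have c1 : conj (∑' m : O, G m * conj (sym3 (b * h) m) * WK K 0 (N m / y)) =
      ∑' m : O, conj (G m) * sym3 (b * h) m * WK K 0 (N m / y) := by
    rw [Complex.conj_tsum]
    refine tsum_congr fun m => ?_
    simp only [map_mul, conj_conj, WK, ← Complex.exp_conj, map_sub, map_pow, conj_ofReal, map_zero]
  have c2 : y ^ (5 / 6 : ℝ) = y ^ (1 / 6 : ℝ) * y ^ (2 / 3 : ℝ) := by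
    rw [← Real.rpow_add hy]; norm_num
  have c4 : ∀ z : ℂ, y ^ (1 / 6 : ℝ) * ‖z‖ = ‖((y ^ (1 / 6 : ℝ) : ℝ) : ℂ) * z‖ := fun z => by
    rw [norm_mul, Complex.norm_real, Real.norm_of_nonneg (Real.rpow_nonneg hy.le (1 / 6))]
  rw [← Complex.norm_conj, map_sub, c1, e1, map_mul, conj_ofReal, c2, c4]
  congr 1
  have c3 : ∀ d ∈ (ballO D).filter Prim, mu d * sym3 (8 * b * h) (d ^ 3) *
      (TT K (1 / 6 : ℝ) (8 * b * h) (y / N d ^ 3) - mth (8 * b * h) *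
        ((Fh K (2 / 3 + 1 / 6) * (y / N d ^ 3) ^ (2 / 3 : ℝ) : ℝ) : ℂ)) =
      mu d * sym3 (8 * b * h) (d ^ 3) * TT K (1 / 6 : ℝ) (8 * b * h) (y / N d ^ 3) -
        mth (8 * b * h) * ((Fh K (5 / 6) * y ^ (2 / 3 : ℝ) : ℝ) : ℂ) *
          (mu d * sym3 (8 * b * h) (d ^ 3) * ((N d ^ (-2 : ℝ) : ℝ) : ℂ)) := fun d hd => by
    have d0 := N_pos (Finset.mem_filter.1 hd).2.ne_zero
    have : (y / N d ^ 3) ^ (2 / 3 : ℝ) = y ^ (2 / 3 : ℝ) * N d ^ (-2 : ℝ) := by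
      rw [Real.div_rpow hy.le (by positivity), rp d0 3 2 (by norm_num), Real.rpow_neg d0.le,
        div_eq_mul_inv]
      norm_num
    rw [this, show (2 / 3 + 1 / 6 : ℝ) = 5 / 6 by norm_num]
    push_cast; ring
  rw [Finset.sum_congr rfl c3, Finset.sum_sub_distrib, ← Finset.mul_sum]
  push_cast
  linear_combination (-(((y ^ (1 / 6 : ℝ) : ℝ) : ℂ) * (Fh K (5 / 6) : ℂ) *
    ((y ^ (2 / 3 : ℝ) : ℝ) : ℂ))) * e2

theorem gs_head : ∃ c0 : ℝ, 0 < c0 ∧ ∀ ε > (0 : ℝ), ∃ C : ℝ, 0 < C ∧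
    ∀ (Z A Y K D : ℝ) (h : O) (y : O → ℝ),
    1 ≤ A → A ≤ Z → Y ≤ Z → 1 ≤ K → K ≤ Z → 1 ≤ D → D ^ 3 ≤ Y → h ≠ 0 → N h ≤ Z →
    (∀ b, Y / 2 ≤ y b ∧ y b ≤ Y) →
    ∑ b ∈ ballN A, ‖∑ d ∈ (ballO D).filter Prim, mu d * sym3 (8 * b * h) (d ^ 3) *
        (TT K (1 / 6 : ℝ) (8 * b * h) (y b / N d ^ 3) - mth (8 * b * h) *
          ((Fh K (2 / 3 + 1 / 6) * (y b / N d ^ 3) ^ (2 / 3 : ℝ) : ℝ) : ℂ))‖ ^ 2 ≤
      C * Z ^ ε * N h ^ c0 * (A * Y ^ (2 / 3 : ℝ) + K ^ (16 / 5 : ℝ) *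
        (D ^ 2 * A ^ (4 / 3 : ℝ) + D ^ (2 / 5 : ℝ) * A ^ (4 / 15 : ℝ) * Y ^ (8 / 15 : ℝ))) := by
  obtain ⟨c0, hc0, H⟩ := nt1
  refine ⟨c0, hc0, fun ε hε => ?_⟩
  obtain ⟨C1, c1, H1⟩ := H (ε / 3) (by positivity)
  obtain ⟨C2, c2, H2⟩ := sum_inv_N_le (ε := ε / 3) (by positivity)
  refine ⟨C2 ^ 2 * C1, by positivity, fun Z A Y K D h y hA hAZ hYZ hK hKZ hD hDY hh hhZ hy => ?_⟩
  have hZ : 1 ≤ Z := hA.trans hAZ
  have hY : 1 ≤ Y := (one_le_pow₀ hD).trans hDY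
  have hDZ : D ≤ Z := (le_self_pow₀ hD (by norm_num)).trans (hDY.trans hYZ)
  have n0 := N_pos hh
  set F := (ballO D).filter Prim with hF
  have hL : ∑ d ∈ F, (N d)⁻¹ ≤ C2 * Z ^ (ε / 3) :=
    (Finset.sum_le_sum_of_subset_of_nonneg (Finset.filter_subset _ _) fun d _ _ =>
      inv_nonneg.2 (N_nonneg d)).trans ((H2 D hD).trans (by gcongr))
  obtain ⟨T, hT⟩ : ∃ T : O → O → ℂ, T = fun b d => TT K (1 / 6 : ℝ) (8 * b * h) (y b / N d ^ 3) -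
    mth (8 * b * h) * ((Fh K (2 / 3 + 1 / 6) * (y b / N d ^ 3) ^ (2 / 3 : ℝ) : ℝ) : ℂ) := ⟨_, rfl⟩
  obtain ⟨Φ, hΦ⟩ : ∃ Φ, Φ = A * Y ^ (2 / 3 : ℝ) + K ^ (16 / 5 : ℝ) *
    (D ^ 2 * A ^ (4 / 3 : ℝ) + D ^ (2 / 5 : ℝ) * A ^ (4 / 15 : ℝ) * Y ^ (8 / 15 : ℝ)) := ⟨_, rfl⟩
  have Φ0 : 0 ≤ Φ := by rw [hΦ]; positivity
  have dF : ∀ d ∈ F, 1 ≤ N d ∧ N d ≤ D := fun d hd =>
    ⟨one_le_N (Finset.mem_filter.1 hd).2.ne_zero, (mem_ballO.1 (Finset.mem_filter.1 hd).1).2⟩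
  have s1 : ∀ b ∈ ballN A, ‖∑ d ∈ F, mu d * sym3 (8 * b * h) (d ^ 3) * T b d‖ ^ 2 ≤
      C2 * Z ^ (ε / 3) * ∑ d ∈ F, N d * ‖T b d‖ ^ 2 := fun b _ => by
    refine (pow_le_pow_left₀ (norm_nonneg _) (norm_sum_le _ _) 2).trans
      ((Finset.sum_sq_le_sum_mul_sum_of_sq_le_mul F (f := fun d => (N d)⁻¹)
        (g := fun d => N d * ‖T b d‖ ^ 2) (fun d _ => inv_nonneg.2 (N_nonneg d))
        (fun d _ => mul_nonneg (N_nonneg d) (sq_nonneg _)) fun d hd => ?_).trans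
        (mul_le_mul_of_nonneg_right hL (Finset.sum_nonneg fun d _ =>
          mul_nonneg (N_nonneg d) (sq_nonneg _))))
    have := (dF d hd).1
    rw [← mul_assoc, inv_mul_cancel₀ (by linarith), one_mul, norm_mul, norm_mul]
    exact pow_le_pow_left₀ (by positivity) (mul_le_of_le_one_left (norm_nonneg _)
      (mul_le_one₀ (norm_mu_le _) (norm_nonneg _) (norm_sym3_le _ _))) 2
  have s2 : ∀ d ∈ F, ∑ b ∈ ballN A, N d * ‖T b d‖ ^ 2 ≤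
      (N d)⁻¹ * (C1 * Z ^ (ε / 3) * N h ^ c0 * Φ) := fun d hd => by
    obtain ⟨d1, d2⟩ := dF d hd
    have d0 : 0 < N d := by linarith
    have d3 : 1 ≤ N d ^ 3 := one_le_pow₀ d1
    have v := H1 Z A (Y / N d ^ 3) K (1 / 6) h (fun b => y b / N d ^ 3) hA hAZ
      ((one_le_div (by positivity)).2 ((pow_le_pow_left₀ d0.le d2 3).trans hDY))
      ((div_le_self (by linarith) d3).trans hYZ) hK hKZ (by rw [abs_of_pos] <;> norm_num) hh hhZ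
      fun b => ⟨by rw [div_right_comm]; gcongr; exact (hy b).1, by gcongr; exact (hy b).2⟩
    rw [← Finset.mul_sum, hT]
    refine (mul_le_mul_of_nonneg_left v d0.le).trans ?_
    have e1 : (Y / N d ^ 3) ^ (2 / 3 : ℝ) = Y ^ (2 / 3 : ℝ) / N d ^ 2 := by
      rw [Real.div_rpow (by linarith) (by positivity), rp d0 3 2 (by norm_num)]
    have e2 : N d ^ 2 * (Y / N d ^ 3) ^ (8 / 15 : ℝ) = N d ^ (2 / 5 : ℝ) * Y ^ (8 / 15 : ℝ) := by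
      rw [Real.div_rpow (by linarith) (by positivity), ← Real.rpow_natCast, ← Real.rpow_natCast,
        ← Real.rpow_mul d0.le, mul_div_left_comm, ← Real.rpow_sub d0, mul_comm]
      norm_num
    calc _ = (N d)⁻¹ * (C1 * Z ^ (ε / 3) * N h ^ c0 * (A * Y ^ (2 / 3 : ℝ) + K ^ (16 / 5 : ℝ) *
          (N d ^ 2 * A ^ (4 / 3 : ℝ) +
            A ^ (4 / 15 : ℝ) * (N d ^ 2 * (Y / N d ^ 3) ^ (8 / 15 : ℝ))))) := by
          rw [e1]; field_simp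
      _ ≤ _ := by
          rw [e2, hΦ, mul_left_comm (A ^ (4 / 15 : ℝ)), ← mul_assoc (N d ^ (2 / 5 : ℝ))]
          gcongr
  have e : Z ^ ε = Z ^ (ε / 3) * Z ^ (ε / 3) * Z ^ (ε / 3) := by
    rw [← Real.rpow_add (by linarith), ← Real.rpow_add (by linarith)]; congr 1; ring
  calc _ = ∑ b ∈ ballN A, ‖∑ d ∈ F, mu d * sym3 (8 * b * h) (d ^ 3) * T b d‖ ^ 2 := by rw [hT]
    _ ≤ C2 * Z ^ (ε / 3) * ∑ d ∈ F, ∑ b ∈ ballN A, N d * ‖T b d‖ ^ 2 := by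
        rw [Finset.sum_comm, Finset.mul_sum]; exact Finset.sum_le_sum s1
    _ ≤ C2 * Z ^ (ε / 3) * (C2 * Z ^ (ε / 3) * (C1 * Z ^ (ε / 3) * N h ^ c0 * Φ)) := by
        refine mul_le_mul_of_nonneg_left ((Finset.sum_le_sum s2).trans ?_) (by positivity)
        rw [← Finset.sum_mul]
        exact mul_le_mul_of_nonneg_right hL (by positivity)
    _ = _ := by rw [e, hΦ]; ring

theorem gs_tail : ∃ C : ℝ, 0 < C ∧ ∀ (A Y K D : ℝ) (h : O) (y : O → ℝ),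
    1 ≤ A → 1 ≤ K → 1 ≤ D → h ≠ 0 → (∀ b, 0 < y b ∧ y b ≤ Y) →
    ∑ b ∈ ballN A, ‖mth (8 * b * h) * ((Fh K (5 / 6) * y b ^ (2 / 3 : ℝ) : ℝ) : ℂ) *
      ∑' d : O, (if Prim d ∧ D < N d
        then mu d * sym3 (8 * b * h) (d ^ 3) * ((N d ^ (-2 : ℝ) : ℝ) : ℂ) else 0)‖ ^ 2 ≤
      C * N h ^ 2 * (A ^ (2 / 3 : ℝ) * Y ^ (4 / 3 : ℝ) / D ^ 2) := by
  obtain ⟨C1, c1, H1⟩ := norm_cc_mul
  obtain ⟨C2, c2, H2⟩ := lat_tail_one (s := 2) (by norm_num)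
  obtain ⟨C3, c3, H3⟩ := sum_N_rpow_le (a := -(1 / 3)) (by norm_num)
  have k0 := kap_pos
  refine ⟨(C1 * (kap / 9) * (√π * Real.exp 1) * C2) ^ 2 * C3, by positivity,
    fun A Y K D h y hA hK hD hh hy => ?_⟩
  have n0 := N_pos hh
  have Y0 : 0 < Y := (hy 0).1.trans_le (hy 0).2
  have s1 : ∀ b ∈ ballN A, ‖mth (8 * b * h) * ((Fh K (5 / 6) * y b ^ (2 / 3 : ℝ) : ℝ) : ℂ) *
      ∑' d : O, (if Prim d ∧ D < N d
        then mu d * sym3 (8 * b * h) (d ^ 3) * ((N d ^ (-2 : ℝ) : ℝ) : ℂ) else 0)‖ ^ 2 ≤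
      (C1 * (kap / 9) * (√π * Real.exp 1) * C2) ^ 2 * N h ^ 2 * (Y ^ (4 / 3 : ℝ) / D ^ 2) *
        N b ^ (-(1 / 3) : ℝ) := fun b hb => by
    have nb := (mem_ballN.1 hb).1
    have b0 := N_pos nb.ne_zero
    have hk : 8 * b * h ≠ 0 := mul_ne_zero (mul_ne_zero (by decide) nb.ne_zero) hh
    have t1 : ‖mth (8 * b * h)‖ ≤ C1 * N h * N b ^ (-(1 / 6) : ℝ) * (kap / 9) := by
      have q : ∀ p ∈ pf (8 * b * h), 0 ≤ 1 - (N p)⁻¹ ∧ 1 - (N p)⁻¹ ≤ 1 := fun p hp =>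
        ⟨sub_nonneg.2 (inv_le_one_of_one_le₀ (one_le_N ((mem_pf hk).1 hp).1.ne_zero)),
          sub_le_self _ (inv_nonneg.2 (N_nonneg _))⟩
      have q0 := Finset.prod_nonneg fun p hp => (q p hp).1
      rw [mth, norm_mul, Complex.norm_conj, Complex.norm_real, Real.norm_of_nonneg (by positivity)]
      exact mul_le_mul (H1 b h nb hh) (mul_le_of_le_one_right (by positivity)
        (Finset.prod_le_one (fun p hp => (q p hp).1) fun p hp => (q p hp).2)) (by positivity)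
        (by positivity)
    have t2 : ‖((Fh K (5 / 6) * y b ^ (2 / 3 : ℝ) : ℝ) : ℂ)‖ ≤
        √π * Real.exp 1 * Y ^ (2 / 3 : ℝ) := by
      have := (hy b).1
      rw [Complex.norm_real, Real.norm_eq_abs, abs_mul, abs_of_nonneg (Real.rpow_nonneg this.le _)]
      exact mul_le_mul (Fh_le hK (by rw [abs_of_pos] <;> norm_num)) (by gcongr; exact (hy b).2)
        (by positivity) (by positivity)
    have t3 : ‖∑' d : O, (if Prim d ∧ D < N d then mu d * sym3 (8 * b * h) (d ^ 3) *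
        ((N d ^ (-2 : ℝ) : ℝ) : ℂ) else 0)‖ ≤ C2 * D⁻¹ := by
      obtain ⟨q1, q2⟩ := H2 D (by linarith)
      rw [show (1 - 2 : ℝ) = -1 by norm_num, Real.rpow_neg_one] at q2
      refine (tsum_of_norm_bounded q1.hasSum fun d => ?_).trans q2
      have := Real.rpow_nonneg (N_nonneg d) (-2)
      by_cases h1 : Prim d ∧ D < N d
      · rw [if_pos h1, if_pos h1.2, norm_mul, norm_mul, Complex.norm_real, Real.norm_of_nonneg this]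
        exact mul_le_of_le_one_left this
          (mul_le_one₀ (norm_mu_le _) (norm_nonneg _) (norm_sym3_le _ _))
      · rw [if_neg h1, norm_zero]; split_ifs <;> positivity
    have e1 : N b ^ (-(1 / 3) : ℝ) = (N b ^ (-(1 / 6) : ℝ)) ^ 2 := by
      rw [← Real.rpow_natCast, ← Real.rpow_mul b0.le]; norm_num
    have e2 : Y ^ (4 / 3 : ℝ) = (Y ^ (2 / 3 : ℝ)) ^ 2 := by
      rw [← Real.rpow_natCast, ← Real.rpow_mul Y0.le]; norm_num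
    rw [norm_mul, norm_mul, e1, e2]
    refine (pow_le_pow_left₀ (by positivity) (mul_le_mul (mul_le_mul t1 t2 (norm_nonneg _)
      (by positivity)) t3 (norm_nonneg _) (by positivity)) 2).trans_eq ?_
    field_simp
  refine (Finset.sum_le_sum s1).trans ?_
  rw [← Finset.mul_sum]
  refine (mul_le_mul_of_nonneg_left ((Finset.sum_le_sum_of_subset_of_nonneg (fun b hb =>
    mem_ballO.2 ⟨(mem_ballN.1 hb).1.ne_zero, (mem_ballN.1 hb).2⟩) fun b _ _ =>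
      Real.rpow_nonneg (N_nonneg b) _).trans (H3 A (by linarith))) (by positivity)).trans_eq ?_
  rw [show (1 + -(1 / 3) : ℝ) = 2 / 3 by norm_num]
  ring

theorem gs_alg {A Y K D : ℝ} (hA : 1 ≤ A) (hY : 1 ≤ Y) (hK : 1 ≤ K) (hD : 1 ≤ D) :
    ∃ E : ℝ, 1 ≤ E ∧ E ^ 3 ≤ Y ∧ 0 ≤ PhiI A Y K D ∧
    Y ^ (1 / 3 : ℝ) * (A * Y ^ (2 / 3 : ℝ) + K ^ (16 / 5 : ℝ) * (E ^ 2 * A ^ (4 / 3 : ℝ) +
      E ^ (2 / 5 : ℝ) * A ^ (4 / 15 : ℝ) * Y ^ (8 / 15 : ℝ))) ≤ PhiI A Y K D ∧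
    Y ^ (1 / 3 : ℝ) * (A * Y ^ (2 / 3 : ℝ) + Y ^ (5 / 3 : ℝ) / E ^ 3 +
      A ^ (2 / 3 : ℝ) * Y ^ (4 / 3 : ℝ) / E ^ 2) ≤ 3 * PhiI A Y K D ∧
    Y ^ (1 / 3 : ℝ) * (A ^ (2 / 3 : ℝ) * Y ^ (4 / 3 : ℝ) / E ^ 2) ≤ PhiI A Y K D := by
  have Y0 : 0 < Y := by linarith
  obtain ⟨r, r1, hr⟩ := exists_root hY (n := 3) (by norm_num)
  have r0 : 0 < r := by linarith
  have e1 : Y ^ (1 / 3 : ℝ) = r := by rw [hr, rp r0 3 1 (by norm_num), pow_one]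
  have e2 : Y ^ (2 / 3 : ℝ) = r ^ 2 := by rw [hr, rp r0 3 2 (by norm_num)]
  have e4 : Y ^ (4 / 3 : ℝ) = r ^ 4 := by rw [hr, rp r0 3 4 (by norm_num)]
  have e5 : Y ^ (5 / 3 : ℝ) = r ^ 5 := by rw [hr, rp r0 3 5 (by norm_num)]
  have e6 : Y ^ (13 / 15 : ℝ) = r * Y ^ (8 / 15 : ℝ) := by
    rw [← e1, ← Real.rpow_add Y0]; norm_num
  obtain ⟨E, E1, ED, Er, hE⟩ : ∃ E : ℝ, 1 ≤ E ∧ E ≤ D ∧ E ≤ r ∧ (E = D ∨ E = r) :=
    ⟨min D r, le_min hD r1, min_le_left _ _, min_le_right _ _, min_choice _ _⟩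
  have A23 : A ^ (2 / 3 : ℝ) ≤ A := Real.rpow_le_self_of_one_le hA (by norm_num)
  have P1 : 0 ≤ K ^ (16 / 5 : ℝ) * (D ^ 2 * A ^ (4 / 3 : ℝ) * r +
      D ^ (2 / 5 : ℝ) * A ^ (4 / 15 : ℝ) * (r * Y ^ (8 / 15 : ℝ))) := by positivity
  have P2 : 0 ≤ Y ^ 2 / D ^ 3 := by positivity
  have P3 : 0 ≤ A ^ (2 / 3 : ℝ) * r ^ 5 / D ^ 2 := by positivity
  have P0 : 0 ≤ A * Y := by positivity
  have q0 : r * (A * r ^ 2) = A * Y := by rw [hr]; ring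
  have q1 : r * (K ^ (16 / 5 : ℝ) * (E ^ 2 * A ^ (4 / 3 : ℝ) +
      E ^ (2 / 5 : ℝ) * A ^ (4 / 15 : ℝ) * Y ^ (8 / 15 : ℝ))) ≤ K ^ (16 / 5 : ℝ) *
      (D ^ 2 * A ^ (4 / 3 : ℝ) * r + D ^ (2 / 5 : ℝ) * A ^ (4 / 15 : ℝ) * (r * Y ^ (8 / 15 : ℝ))) :=
    calc _ ≤ r * (K ^ (16 / 5 : ℝ) * (D ^ 2 * A ^ (4 / 3 : ℝ) +
        D ^ (2 / 5 : ℝ) * A ^ (4 / 15 : ℝ) * Y ^ (8 / 15 : ℝ))) := by gcongr
      _ = _ := by ring
  have q3 : r * (A ^ (2 / 3 : ℝ) * r ^ 4 / E ^ 2) ≤ A * Y + A ^ (2 / 3 : ℝ) * r ^ 5 / D ^ 2 := by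
    rcases hE with rfl | rfl
    · have : r * (A ^ (2 / 3 : ℝ) * r ^ 4 / E ^ 2) = A ^ (2 / 3 : ℝ) * r ^ 5 / E ^ 2 := by ring
      linarith
    · have : E * (A ^ (2 / 3 : ℝ) * E ^ 4 / E ^ 2) = A ^ (2 / 3 : ℝ) * Y := by rw [hr]; field_simp
      have : A ^ (2 / 3 : ℝ) * Y ≤ A * Y := by gcongr
      linarith
  have q2 : r * (r ^ 5 / E ^ 3) ≤ A * Y + Y ^ 2 / D ^ 3 := by
    rcases hE with rfl | rfl
    · have : r * (r ^ 5 / E ^ 3) = Y ^ 2 / E ^ 3 := by rw [hr]; ring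
      linarith
    · have : E * (E ^ 5 / E ^ 3) = Y := by rw [hr]; field_simp
      have : Y ≤ A * Y := le_mul_of_one_le_left Y0.le hA
      linarith
  refine ⟨E, E1, by rw [hr]; gcongr, ?_⟩
  rw [PhiI, e1, e2, e4, e5, e6, mul_add r, mul_add r, mul_add r, q0]
  exact ⟨by linarith, by linarith, by linarith, by linarith⟩

theorem gs_main : ∃ c0 : ℝ, 0 < c0 ∧ ∀ ε > (0 : ℝ), ∃ C : ℝ, 0 < C ∧
    ∀ (Z A Y K D : ℝ) (h : O) (y : O → ℝ),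
    1 ≤ A → A ≤ Z → 1 ≤ Y → Y ≤ Z → 1 ≤ K → K ≤ Z → 1 ≤ D → h ≠ 0 → N h ≤ Z →
    (∀ b, Y / 2 ≤ y b ∧ y b ≤ Y) →
    ∑ b ∈ ballN A, ‖∑' m : O, G m * conj (sym3 (b * h) m) * WK K 0 (N m / y b) -
        cc (8 * b * h) * ((dens (8 * b * h) * Fh K (5 / 6) * y b ^ (5 / 6 : ℝ) : ℝ) : ℂ)‖ ^ 2 ≤
      C * Z ^ ε * N h ^ c0 * PhiI A Y K D := by
  obtain ⟨c0, hc0, H⟩ := gs_head
  refine ⟨c0 + 2, by positivity, fun ε hε => ?_⟩
  obtain ⟨C1, c1, H1⟩ := H ε hε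
  obtain ⟨C2, c2, H2⟩ := ct hε
  obtain ⟨C3, c3, H3⟩ := gs_tail
  refine ⟨3 * (C1 + 3 * C2 + C3), by positivity,
    fun Z A Y K D h y hA hAZ hY hYZ hK hKZ hD hh hhZ hy => ?_⟩
  have hZ : 1 ≤ Z := hA.trans hAZ
  have Y0 : 0 < Y := by linarith
  have n1 := one_le_N hh
  have y0 : ∀ b, 0 < y b ∧ y b ≤ Y := fun b => ⟨by linarith [(hy b).1], (hy b).2⟩
  obtain ⟨E, E1, EY, Φ0, q1, q2, q3⟩ := gs_alg hA hY hK hD
  have r0 : 0 ≤ Y ^ (1 / 3 : ℝ) := by positivity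
  have u1 := mul_le_mul_of_nonneg_left
    (H1 Z A Y K E h y hA hAZ hYZ hK hKZ E1 EY hh hhZ hy) r0
  have u2 := mul_le_mul_of_nonneg_left
    (H2 Z A Y K E (1 / 6) h y hA hAZ hY hYZ hK E1 (by rw [abs_of_pos] <;> norm_num) y0) r0
  have u3 := mul_le_mul_of_nonneg_left (H3 A Y K E h y hA hK E1 hh y0) r0
  have z1 : 1 ≤ Z ^ ε := Real.one_le_rpow hZ hε.le
  have h1 : N h ^ c0 ≤ N h ^ (c0 + 2) := Real.rpow_le_rpow_of_exponent_le n1 (by linarith)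
  have h2 : N h ^ 2 ≤ N h ^ (c0 + 2) := by
    rw [← Real.rpow_natCast]; exact Real.rpow_le_rpow_of_exponent_le n1 (by norm_num; linarith)
  have h3 : 1 ≤ N h ^ (c0 + 2) := Real.one_le_rpow n1 (by linarith)
  have w2 : ∀ u v w : ℂ, ‖u + v - w‖ ^ 2 ≤ 3 * (‖u‖ ^ 2 + ‖v‖ ^ 2 + ‖w‖ ^ 2) := fun u v w => by
    have := (norm_sub_le (u + v) w).trans (add_le_add (norm_add_le u v) le_rfl)
    refine (pow_le_pow_left₀ (norm_nonneg _) this 2).trans ?_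
    nlinarith [sq_nonneg (‖u‖ - ‖v‖), sq_nonneg (‖u‖ - ‖w‖), sq_nonneg (‖v‖ - ‖w‖)]
  have w1 : ∀ b, (y b ^ (1 / 6 : ℝ)) ^ 2 ≤ Y ^ (1 / 3 : ℝ) := fun b => by
    rw [← Real.rpow_natCast, ← Real.rpow_mul (y0 b).1.le]
    norm_num
    exact Real.rpow_le_rpow (y0 b).1.le (hy b).2 (by norm_num)
  rw [Finset.sum_congr rfl fun b hb => by
    rw [gs_dec hK (mul_ne_zero (mul_ne_zero (by decide) (mem_ballN.1 hb).1.ne_zero) hh) (y0 b).1 E,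
      mul_pow]]
  refine (Finset.sum_le_sum fun b _ => mul_le_mul (w1 b) (w2 _ _ _) (sq_nonneg _) r0).trans ?_
  rw [← Finset.mul_sum, ← Finset.mul_sum, Finset.sum_add_distrib, Finset.sum_add_distrib,
    mul_left_comm, mul_add (Y ^ (1 / 3 : ℝ)), mul_add (Y ^ (1 / 3 : ℝ))]
  refine (mul_le_mul_of_nonneg_left (add_le_add (add_le_add u1 u2) u3) (by norm_num)).trans ?_
  rw [mul_left_comm (Y ^ (1 / 3 : ℝ)), mul_left_comm (Y ^ (1 / 3 : ℝ)),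
    mul_left_comm (Y ^ (1 / 3 : ℝ)) (C3 * _)]
  calc _ ≤ 3 * (C1 * Z ^ ε * N h ^ (c0 + 2) * PhiI A Y K D +
        C2 * (Z ^ ε * N h ^ (c0 + 2)) * (3 * PhiI A Y K D) +
        C3 * (Z ^ ε * N h ^ (c0 + 2)) * PhiI A Y K D) := by
        refine mul_le_mul_of_nonneg_left (add_le_add (add_le_add
          (mul_le_mul (by gcongr) q1 (by positivity) (by positivity))
          (mul_le_mul ?_ q2 (by positivity) (by positivity)))
          (mul_le_mul ?_ q3 (by positivity) (by positivity))) (by norm_num)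
        · exact mul_le_mul_of_nonneg_left (le_mul_of_one_le_right (by positivity) h3) c2.le
        · exact mul_le_mul_of_nonneg_left
            (h2.trans (le_mul_of_one_le_left (by positivity) z1)) c3.le
    _ = _ := by ring

end

end Vale.Agent.P006
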