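import Vale.Agent.P026.VorW

namespace Vale.Agent.P006

open Vale.Agent.P026 Complex MeasureTheory Filter Topology
open scoped Classical ComplexConjugate Real MatrixGroups FourierTransform

noncomputable section

/-- entire functions with integrable bounds in every vertical strip -/
structure GtOk (G : ℂ → ℂ) (g : ℝ → ℝ) : Prop where
  diff : Differentiable ℂ G
  int : Integrable g
  lim : Tendsto g (cocompact ℝ) (𝓝 0)
  bd : ∀ a b : ℝ, ∃ C : ℝ, ∀ s : ℂ, a ≤ s.re → s.re ≤ b → ‖G s‖ ≤ C * g s.im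

def gtPhi (G : ℂ → ℂ) (x : ℝ) : ℂ :=
  ∫ τ : ℝ, G ((0 : ℝ) + τ * Complex.I) * (x : ℂ) ^ (-((0 : ℝ) + τ * Complex.I))

variable {G : ℂ → ℂ} {g : ℝ → ℝ}

theorem GtOk.line (h : GtOk G g) (σ : ℝ) : Integrable fun τ : ℝ => G (σ + τ * Complex.I) := by
  obtain ⟨C, hC⟩ := h.bd σ σ
  exact gamB_line (fun s _ => h.diff s) (h.int.const_mul C) fun s hs => hC s hs.ge hs.le

theorem GtOk.shift (h : GtOk G g) {a b : ℝ} (hab : a ≤ b) {x : ℝ} (hx : 0 < x) :
    ∫ τ : ℝ, G (a + τ * Complex.I) * (x : ℂ) ^ (-(a + τ * Complex.I)) =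
      ∫ τ : ℝ, G (b + τ * Complex.I) * (x : ℂ) ^ (-(b + τ * Complex.I)) := by
  obtain ⟨C, hC⟩ := h.bd a b
  exact shift_strip (F := fun s => G s * (x : ℂ) ^ (-s)) hab
    (fun s _ _ => (h.diff s).mul (vw_cpow_diff hx s))
    ((h.int.const_mul C).mul_const (x ^ (-a) + x ^ (-b)))
    (by simpa using (h.lim.const_mul _).mul_const _) fun s k1 k2 => by
      rw [norm_mul]
      exact mul_le_mul (hC s k1 k2) (vw_cpow_le hx k1 k2) (norm_nonneg _)
        ((norm_nonneg _).trans (hC s k1 k2))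

theorem GtOk.phi_eq (h : GtOk G g) (σ : ℝ) {x : ℝ} (hx : 0 < x) :
    gtPhi G x = ∫ τ : ℝ, G (σ + τ * Complex.I) * (x : ℂ) ^ (-(σ + τ * Complex.I)) := by
  rcases le_total 0 σ with k | k
  · exact h.shift k hx
  · exact (h.shift k hx).symm

theorem GtOk.phi_le (h : GtOk G g) (σ : ℝ) : ∃ C : ℝ, ∀ x : ℝ, 0 < x →
    ‖gtPhi G x‖ * x ^ σ ≤ C := by
  refine ⟨∫ τ : ℝ, ‖G (σ + τ * Complex.I)‖, fun x hx => ?_⟩
  rw [h.phi_eq σ hx, ← le_div_iff₀ (Real.rpow_pos_of_pos hx _), div_eq_mul_inv,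
    ← Real.rpow_neg hx.le, ← integral_mul_const]
  refine (norm_integral_le_integral_norm _).trans (le_of_eq ?_)
  congr 1
  ext τ
  rw [norm_mul, Complex.norm_cpow_eq_rpow_re_of_pos hx]
  simp

theorem GtOk.phi_meas (h : GtOk G g) : Measurable (gtPhi G) := by
  have hc := h.diff.continuous.measurable
  have : Measurable fun p : ℝ × ℝ =>
      G ((0 : ℝ) + p.2 * Complex.I) * (p.1 : ℂ) ^ (-((0 : ℝ) + p.2 * Complex.I)) := by fun_prop
  exact this.stronglyMeasurable.integral_prod_right'.measurable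

theorem GtOk.phi_int (h : GtOk G g) (c : ℝ) :
    IntegrableOn (fun x : ℝ => ‖gtPhi G x‖ * x ^ c) (Set.Ioi 0) := by
  obtain ⟨C1, h1⟩ := h.phi_le c
  obtain ⟨C2, h2⟩ := h.phi_le (c + 2)
  have := h.phi_meas
  refine (integrable_inv_one_add_sq.const_mul (C1 + C2)).integrableOn.mono'
    (Measurable.aestronglyMeasurable (by fun_prop))
    ((ae_restrict_mem measurableSet_Ioi).mono fun x hx => ?_)
  have hx' : 0 < x := hx
  have k1 := h1 x hx'
  have k2 := h2 x hx'
  rw [Real.rpow_add hx', Real.rpow_two] at k2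
  rw [Real.norm_of_nonneg (by positivity), ← div_eq_mul_inv, le_div_iff₀ (by positivity)]
  linarith

theorem GtOk.phi_conv (h : GtOk G g) (s : ℂ) : MellinConvergent (gtPhi G) s := by
  have := h.phi_meas
  refine (h.phi_int (s.re - 1)).mono' (Measurable.aestronglyMeasurable (by fun_prop))
    ((ae_restrict_mem measurableSet_Ioi).mono fun x hx => le_of_eq ?_)
  rw [norm_smul, Complex.norm_cpow_eq_rpow_re_of_pos hx, mul_comm]
  simp

theorem GtOk.phi_mellin (h : GtOk G g) (c : ℝ) : mellin (gtPhi G) c = 2 * π * G c := by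
  have h2π : (2 * π : ℝ) ≠ 0 := by simp
  set f : ℝ → ℂ := fun y => G (c + 2 * π * y * Complex.I) with hf
  have fi : Integrable f := by
    refine ((h.line c).comp_mul_left' h2π).congr (ae_of_all _ fun y => ?_)
    simp [hf]
  have fc : Continuous f := h.diff.continuous.comp (by fun_prop)
  have e : ∀ u : ℝ, Real.exp (-c * u) • gtPhi G (Real.exp (-u)) = (2 * π : ℂ) * 𝓕⁻ f u := by
    intro u
    have hx := Real.exp_pos (-u)
    have h1 := mellinInv_eq_fourierInv c G hx
    rw [Real.log_exp, neg_neg, mellinInv] at h1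
    simp only [smul_eq_mul, real_smul, mul_comm _ (G _)] at h1
    rw [← h.phi_eq c hx] at h1
    have h2 : ((Real.exp (-u) : ℝ) : ℂ) ^ (-c : ℂ) = ((Real.exp (-c * u) : ℝ) : ℂ)⁻¹ := by
      rw [← ofReal_neg, ← ofReal_cpow hx.le, ← Real.exp_mul, ← ofReal_inv, ← Real.exp_neg]
      congr 2; ring
    have h3 : ((Real.exp (-c * u) : ℝ) : ℂ) ≠ 0 := ofReal_ne_zero.2 (Real.exp_pos _).ne'
    have h4 : (π : ℂ) ≠ 0 := by simp
    rw [h2] at h1
    rw [real_smul]
    generalize ((Real.exp (-c * u) : ℝ) : ℂ) = E at h1 h3 ⊢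
    push_cast at h1
    field_simp at h1
    exact (mul_comm _ _).trans h1
  have gi : Integrable (𝓕⁻ f) := by
    obtain ⟨C1, h1⟩ := h.phi_le (c + 1)
    obtain ⟨C2, h2⟩ := h.phi_le (c - 1)
    have hm := h.phi_meas
    have : Integrable fun u : ℝ => Real.exp (-c * u) • gtPhi G (Real.exp (-u)) := by
      refine (integrable_inv_one_add_sq.const_mul (2 * (C1 + C2))).mono'
        (Measurable.aestronglyMeasurable (by fun_prop)) (ae_of_all _ fun u => ?_)
      have k1 := h1 _ (Real.exp_pos (-u))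
      have k2 := h2 _ (Real.exp_pos (-u))
      rw [← Real.exp_mul, show -u * (c + 1) = -c * u + -u by ring, Real.exp_add] at k1
      rw [← Real.exp_mul, show -u * (c - 1) = -c * u + u by ring, Real.exp_add] at k2
      have k3 : 1 + u ^ 2 ≤ 2 * (Real.exp (-u) + Real.exp u) := by
        rcases le_total 0 u with k | k
        · nlinarith [Real.quadratic_le_exp_of_nonneg k, Real.add_one_le_exp (-u)]
        · nlinarith [Real.quadratic_le_exp_of_nonneg (neg_nonneg.2 k), Real.add_one_le_exp u]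
      rw [norm_smul, Real.norm_of_nonneg (Real.exp_pos _).le, ← div_eq_mul_inv,
        le_div_iff₀ (by positivity)]
      refine (mul_le_mul_of_nonneg_left k3 (by positivity)).trans ?_
      nlinarith
    simp only [e] at this
    have h4 : (2 * π : ℂ) ≠ 0 := by simp
    simpa only [inv_mul_cancel_left₀ h4] using this.const_mul (2 * π : ℂ)⁻¹
  have gi' : Integrable (𝓕 f) := by
    refine gi.comp_neg.congr (ae_of_all _ fun u => ?_)
    simp only [Real.fourierInv_eq_fourier_neg, neg_neg]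
  have k := fi.fourier_fourierInv_eq gi' (fc.continuousAt (x := 0))
  rw [mellin_eq_fourier]
  simp only [ofReal_re, ofReal_im, zero_div, e]
  rw [Real.fourier_eq'] at k ⊢
  simp only [inner_zero_right, mul_zero, ofReal_zero, zero_mul, Complex.exp_zero, one_smul] at k ⊢
  rw [integral_const_mul, k]
  simp [hf]

theorem GtOk.conv (h : GtOk G g) (σ : ℝ) {f : ℝ → ℂ} (hf : MellinConvergent f (-σ)) :
    ∫ x in Set.Ioi (0 : ℝ), gtPhi G x * ((x : ℂ)⁻¹ * f x) =
      ∫ τ : ℝ, G (σ + τ * Complex.I) * mellin f (-(σ + τ * Complex.I)) := by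
  have hp := (h.line σ).mul_prod hf
  have hc := h.diff.continuous.measurable
  have e : ∀ (τ : ℝ), ∀ x ∈ Set.Ioi (0 : ℝ), (x : ℂ) ^ (-(σ + τ * Complex.I) - 1) =
      (x : ℂ) ^ (-(τ * Complex.I)) * (x : ℂ) ^ (-(σ : ℂ) - 1) := fun τ x hx => by
    rw [← cpow_add _ _ (ofReal_ne_zero.2 (ne_of_gt hx))]
    congr 1; ring
  have hi : Integrable (fun p : ℝ × ℝ => G (σ + p.1 * Complex.I) *
      ((p.2 : ℂ) ^ (-(σ + p.1 * Complex.I) - 1) • f p.2))
      (volume.prod (volume.restrict (Set.Ioi 0))) := by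
    have ae : ∀ᵐ p : ℝ × ℝ ∂(volume.prod (volume.restrict (Set.Ioi (0 : ℝ)))), 0 < p.2 :=
      Measure.quasiMeasurePreserving_snd.ae (ae_restrict_mem measurableSet_Ioi)
    refine (hp.bdd_mul (c := 1) (f := fun p : ℝ × ℝ => (p.2 : ℂ) ^ (-(p.1 * Complex.I)))
      (Measurable.aestronglyMeasurable (by fun_prop)) (ae.mono fun p hp => ?_)).congr
      (ae.mono fun p hp => ?_)
    · rw [Complex.norm_cpow_eq_rpow_re_of_pos hp]; simp
    · simp only [e p.1 p.2 hp, smul_eq_mul]; ring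
  have := integral_integral_swap (f := fun (τ x : ℝ) => G (σ + τ * Complex.I) *
      ((x : ℂ) ^ (-(σ + τ * Complex.I) - 1) • f x)) hi
  simp only [mellin, ← integral_const_mul]
  rw [this]
  refine setIntegral_congr_fun measurableSet_Ioi fun x hx => ?_
  rw [h.phi_eq σ hx, ← integral_mul_const]
  congr 1
  ext τ
  rw [cpow_sub _ _ (ofReal_ne_zero.2 (ne_of_gt hx)), cpow_one, smul_eq_mul]
  ring

/-- interchange of sum and integral, with the zero term split off -/
theorem gt_swap {u : O → ℂ} (hu : Summable fun n : O => ‖u n‖ * N n ^ (-2 : ℝ)) {ψ : ℝ → ℂ}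
    {r : ℝ → ℝ} (hr : ContinuousOn r (Set.Ioi 0)) (hr0 : ∀ x, 0 < x → 0 < r x)
    (h1 : IntegrableOn ψ (Set.Ioi 0))
    (h2 : IntegrableOn (fun x => ‖ψ x‖ * r x ^ (-2 : ℝ)) (Set.Ioi 0)) :
    ∫ x in Set.Ioi (0 : ℝ), ψ x * ∑' n : O, u n * bb (N n * r x) (4 / 3) =
      u 0 * (bb 0 (4 / 3) * ∫ x in Set.Ioi (0 : ℝ), ψ x) + ∑' n : O,
        if n ≠ 0 then u n * ∫ x in Set.Ioi (0 : ℝ), ψ x * bb (N n * r x) (4 / 3) else 0 := by
  obtain ⟨C, hC, hb⟩ := bb_decay (a := 2) (by norm_num)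
  have hs : 1 < (4 / 3 : ℂ).re := by norm_num
  have bd : ∀ n : O, n ≠ 0 → ∀ x ∈ Set.Ioi (0 : ℝ), ‖u n * (ψ x * bb (N n * r x) (4 / 3))‖ ≤
      ‖u n‖ * N n ^ (-2 : ℝ) * C * (‖ψ x‖ * r x ^ (-2 : ℝ)) := fun n hn x hx => by
    have k := hb _ (mul_pos (N_pos hn) (hr0 x hx))
    rw [Real.mul_rpow (N_nonneg n) (hr0 x hx).le] at k
    rw [norm_mul, norm_mul]
    refine (mul_le_mul_of_nonneg_left (mul_le_mul_of_nonneg_left k (norm_nonneg _))
      (norm_nonneg _)).trans_eq (by ring)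
  have hi : ∀ n : O, IntegrableOn (fun x => u n * (ψ x * bb (N n * r x) (4 / 3))) (Set.Ioi 0) := by
    intro n
    by_cases hn : n = 0
    · simp only [hn, N_zero, zero_mul]
      exact (h1.mul_const _).const_mul _
    refine (h2.const_mul _).mono' ((h1.aestronglyMeasurable.mul
      (ContinuousOn.aestronglyMeasurable ?_ measurableSet_Ioi)).const_mul _)
      ((ae_restrict_mem measurableSet_Ioi).mono (bd n hn))
    exact (continuousOn_bb hs).comp (continuousOn_const.mul hr)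
      fun x hx => mul_nonneg (N_nonneg n) (hr0 x hx).le
  have hsum : Summable fun n : O =>
      ∫ x in Set.Ioi (0 : ℝ), ‖u n * (ψ x * bb (N n * r x) (4 / 3))‖ := by
    refine Summable.of_norm_bounded_eventually ((hu.mul_right C).mul_right
      (∫ x in Set.Ioi (0 : ℝ), ‖ψ x‖ * r x ^ (-2 : ℝ))) ?_
    refine (Set.finite_singleton (0 : O)).eventually_cofinite_notMem.mono fun n hn => ?_
    rw [Real.norm_of_nonneg (integral_nonneg fun x => norm_nonneg _), ← integral_const_mul]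
    exact setIntegral_mono_on (hi n).norm (h2.const_mul _) measurableSet_Ioi (bd n hn)
  have hsum' : Summable fun n : O =>
      ∫ x in Set.Ioi (0 : ℝ), u n * (ψ x * bb (N n * r x) (4 / 3)) :=
    Summable.of_norm_bounded hsum fun n => norm_integral_le_integral_norm _
  have key := integral_tsum_of_summable_integral_norm hi hsum
  rw [hsum'.tsum_eq_add_tsum_ite 0] at key
  simp only [← tsum_mul_left, mul_left_comm (ψ _)]
  rw [← key]
  congr 1
  · simp only [N_zero, zero_mul]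
    rw [integral_const_mul, integral_mul_const, mul_comm (bb _ _)]
  · refine tsum_congr fun n => ?_
    by_cases hn : n = 0
    · simp [hn]
    · rw [if_neg hn, if_pos hn, integral_const_mul]

end

end Vale.Agent.P006
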