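import Vale.Agent.P006.Defs2
import Vale.Agent.P006.Sep
import Vale.Agent.P026.Bes2
import Vale.Agent.P026.GamB
import Vale.Agent.P006.GTa

namespace Vale.Agent.P006

open Vale.Agent.P026 Complex MeasureTheory Filter Topology
open scoped Classical ComplexConjugate Real MatrixGroups

noncomputable section

theorem bb_mellin {s : ℂ} (hs : 0 < s.re) : MellinConvergent (fun x => bb x (4 / 3)) s ∧
    mellin (fun x => bb x (4 / 3)) s = π / Complex.Gamma (4 / 3) * (4 * π ^ 2 : ℂ) ^ (-s) *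
      Complex.Gamma s * Complex.Gamma (s + 1 / 3) := by
  obtain ⟨h1, h2⟩ := kk_mellin (s := s - 1 / 3) (by simp; linarith)
  have e : Set.EqOn (fun t : ℝ => (t : ℂ) ^ (s - 1 / 3 - 1) • kk t)
      (fun t : ℝ => (t : ℂ) ^ (s - 1) • bb t (4 / 3)) (Set.Ioi 0) := fun t ht => by
    have ht' : 0 < t := ht
    simp only [kk, smul_eq_mul]
    rw [ofReal_cpow ht'.le, ← mul_assoc, ← cpow_add _ _ (ofReal_ne_zero.2 ht'.ne')]
    congr 2
    push_cast
    ring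
  refine ⟨IntegrableOn.congr_fun h1 e measurableSet_Ioi, ?_⟩
  rw [mellin, setIntegral_congr_fun measurableSet_Ioi e] at h2
  rw [mellin, h2, show -(s - 1 / 3) - 1 / 3 = -s by ring, show s - 1 / 3 + 1 / 3 = s by ring,
    show s - 1 / 3 + 2 / 3 = s + 1 / 3 by ring]

theorem gt_bb_zero : bb 0 (4 / 3) = π * Complex.Gamma (1 / 3) / Complex.Gamma (4 / 3) := by
  rw [bb, Complex.Gamma_eq_integral (s := 1 / 3) (by norm_num), GammaIntegral, mul_div_right_comm]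
  congr 1
  refine setIntegral_congr_fun measurableSet_Ioi fun u _ => ?_
  simp only [mul_zero, zero_div, sub_zero]
  rw [mul_comm]
  congr 2
  ring

def gtB (s : ℂ) : ℂ := π / Complex.Gamma (4 / 3) * (4 * π ^ 2 : ℂ) ^ (-s) *
  Complex.Gamma s * Complex.Gamma (s + 1 / 3)
def gtR (s : ℂ) : ℂ := (π / Complex.Gamma (4 / 3))⁻¹ * (4 * π ^ 2 : ℂ) ^ s *
  (Complex.Gamma s)⁻¹ * (Complex.Gamma (s + 1 / 3))⁻¹
def gtF (K a : ℝ) (s : ℂ) : ℂ :=
  1 / (2 * π) * (((√π / K : ℝ) : ℂ) * Complex.exp ((s + a) ^ 2 / (4 * K ^ 2)))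
def gtG (K a : ℝ) (s : ℂ) : ℂ := gtF K a s * gtR s
def gtg (K τ : ℝ) : ℝ := Real.exp (-(1 / (8 * K ^ 2)) * τ ^ 2)

theorem gt_c0 : (π / Complex.Gamma (4 / 3) : ℂ) ≠ 0 :=
  div_ne_zero (by simp) (Complex.Gamma_ne_zero_of_re_pos (by norm_num))

theorem gt_RB {s : ℂ} (hs : 0 < s.re) : gtR s * gtB s = 1 := by
  have h0 := gt_c0
  have h1 := Complex.Gamma_ne_zero_of_re_pos hs
  have h2 := Complex.Gamma_ne_zero_of_re_pos (s := s + 1 / 3) (by simp; linarith)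
  have h3 : (4 * π ^ 2 : ℂ) ^ s ≠ 0 := by simp
  rw [gtR, gtB, cpow_neg]
  generalize Complex.Gamma (s + 1 / 3) = A at *
  generalize Complex.Gamma s = B at *
  generalize (4 * π ^ 2 : ℂ) ^ s = D at *
  generalize (π / Complex.Gamma (4 / 3) : ℂ) = E at *
  field_simp

theorem gt_normF {K : ℝ} (hK : 0 < K) (a : ℝ) (s : ℂ) : ‖gtF K a s‖ =
    1 / (2 * π) * (√π / K) * Real.exp ((s.re + a) ^ 2 / (4 * K ^ 2)) * gtg K s.im ^ 2 := by
  have hp := Real.pi_pos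
  have a1 : (1 / (2 * π) : ℂ) = ((1 / (2 * π) : ℝ) : ℂ) := by push_cast; rfl
  have a2 : (4 * K ^ 2 : ℂ) = ((4 * K ^ 2 : ℝ) : ℂ) := by push_cast; rfl
  rw [gtF, gtg, a1, a2, norm_mul, norm_mul, norm_real, norm_real, norm_exp, div_ofReal_re,
    Real.norm_of_nonneg (by positivity), Real.norm_of_nonneg (by positivity), mul_assoc,
    mul_assoc, ← Real.exp_nat_mul, ← Real.exp_add]
  congr 3
  simp [sq]
  ring

theorem gt_ok {K : ℝ} (hK : 0 < K) (a : ℝ) : GtOk (gtG K a) (gtg K) := by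
  have h8 : 0 < 1 / (8 * K ^ 2) := by positivity
  refine ⟨?_, integrable_exp_neg_mul_sq h8, ?_, fun A B => ?_⟩
  · have h := Complex.differentiable_one_div_Gamma
    refine Differentiable.mul (by unfold gtF; fun_prop) ((Differentiable.mul
      (Differentiable.const_mul (Differentiable.const_cpow (by fun_prop) (Or.inl vw_pi0)) _) h).mul
      (h.comp (f := fun s => s + 1 / 3) (by fun_prop)))
  · exact (tendsto_rpow_abs_mul_exp_neg_mul_sq_cocompact h8 0).congr fun τ => by simp [gtg]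
  obtain ⟨C, hC, h⟩ := inv_Gamma_le A (B + 1)
  refine ⟨1 / (2 * π) * (√π / K) * Real.exp ((|A| + |B| + |a|) ^ 2 / (4 * K ^ 2)) *
    (‖(π / Complex.Gamma (4 / 3))⁻¹‖ * (4 * π ^ 2) ^ B * C * C * Real.exp (8 * π ^ 2 * K ^ 2)),
    fun s h1 h2 => ?_⟩
  have hR : ‖gtR s‖ ≤ ‖(π / Complex.Gamma (4 / 3))⁻¹‖ * (4 * π ^ 2) ^ B *
      (C * Real.exp (π * |s.im|)) * (C * Real.exp (π * |s.im|)) := by
    rw [gtR, norm_mul, norm_mul, norm_mul, vw_pi, norm_cpow_eq_rpow_re_of_pos (by positivity)]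
    gcongr
    · exact vw_pi1
    · exact h s h1 (by linarith)
    · simpa using h (s + 1 / 3) (by simp; linarith) (by simp; linarith)
  have hE : gtg K s.im * (Real.exp (π * |s.im|) * Real.exp (π * |s.im|)) ≤
      Real.exp (8 * π ^ 2 * K ^ 2) := by
    rw [gtg, ← Real.exp_add, ← Real.exp_add, Real.exp_le_exp, ← sq_abs s.im]
    have : 0 ≤ (|s.im| - 8 * π * K ^ 2) ^ 2 / (8 * K ^ 2) := by positivity
    have e : (|s.im| - 8 * π * K ^ 2) ^ 2 / (8 * K ^ 2) = 1 / (8 * K ^ 2) * |s.im| ^ 2 -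
        2 * π * |s.im| + 8 * π ^ 2 * K ^ 2 := by field_simp; ring
    linarith
  have k1 : (s.re + a) ^ 2 ≤ (|A| + |B| + |a|) ^ 2 :=
    sq_le_sq' (by linarith [neg_abs_le A, neg_abs_le a, abs_nonneg B])
      (by linarith [le_abs_self B, le_abs_self a, abs_nonneg A])
  have hg : 0 < gtg K s.im := Real.exp_pos _
  rw [gtG, norm_mul, gt_normF hK]
  calc _ ≤ 1 / (2 * π) * (√π / K) * Real.exp ((|A| + |B| + |a|) ^ 2 / (4 * K ^ 2)) *
        gtg K s.im ^ 2 * (‖(π / Complex.Gamma (4 / 3))⁻¹‖ * (4 * π ^ 2) ^ B *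
      (C * Real.exp (π * |s.im|)) * (C * Real.exp (π * |s.im|))) := by gcongr
    _ = 1 / (2 * π) * (√π / K) * Real.exp ((|A| + |B| + |a|) ^ 2 / (4 * K ^ 2)) *
        (‖(π / Complex.Gamma (4 / 3))⁻¹‖ * (4 * π ^ 2) ^ B * C * C *
          (gtg K s.im * (Real.exp (π * |s.im|) * Real.exp (π * |s.im|)))) * gtg K s.im := by ring
    _ ≤ _ := by gcongr

theorem gt_WK {K : ℝ} (hK : 0 < K) (a : ℝ) {y : ℝ} (hy : 0 < y) :
    ∫ x in Set.Ioi (0 : ℝ), gtPhi (gtG K a) x * ((x : ℂ)⁻¹ * bb (y * x⁻¹) (4 / 3)) =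
      WK K a y := by
  have hc : MellinConvergent (fun x : ℝ => bb (y * x⁻¹) (4 / 3)) (-((2 : ℝ) : ℂ)) := by
    have := (MellinConvergent.comp_rpow (f := fun t : ℝ => bb (y * t) (4 / 3))
      (s := -((2 : ℝ) : ℂ)) (a := -1) (by norm_num)).2
      ((MellinConvergent.comp_mul_left hy).2 (bb_mellin (by norm_num)).1)
    simpa only [Real.rpow_neg_one] using this
  rw [(gt_ok hK a).conv 2 hc, WK_inv_mellin hK a 2 hy, ← integral_const_mul]
  congr 1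
  ext τ
  have k : 0 < (((2 : ℝ) : ℂ) + τ * Complex.I).re := by simp
  rw [mellin_comp_inv (fun t : ℝ => bb (y * t) (4 / 3)), neg_neg,
    mellin_comp_mul_left (fun t : ℝ => bb t (4 / 3)) _ hy, (bb_mellin k).2, ← gtB, gtG, gtF,
    smul_eq_mul]
  linear_combination (1 / (2 * π) * (((√π / K : ℝ) : ℂ) *
    Complex.exp ((((2 : ℝ) : ℂ) + τ * Complex.I + a) ^ 2 / (4 * K ^ 2))) *
      (y : ℂ) ^ (-(((2 : ℝ) : ℂ) + τ * Complex.I))) * gt_RB k

def gtFS (K a : ℝ) (y : ℝ) : ℂ := ∫ x in Set.Ioi (0 : ℝ), gtPhi (gtG K a) x *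
  ((x : ℂ)⁻¹ * ((x : ℂ) ^ (2 / 3 : ℂ) • bb (y * x) (4 / 3)))

theorem gt_FS {K : ℝ} (hK : 0 < K) (a : ℝ) {σ : ℝ} (hσ : 0 < σ) {y : ℝ} (hy : 0 < y) :
    gtFS K a y = ∫ τ : ℝ, gtG K a (2 / 3 - (σ + τ * Complex.I)) * gtB (σ + τ * Complex.I) *
      (y : ℂ) ^ (-(σ + τ * Complex.I)) := by
  have hc : MellinConvergent (fun x : ℝ => (x : ℂ) ^ (2 / 3 : ℂ) • bb (y * x) (4 / 3))
      (-((2 / 3 - σ : ℝ) : ℂ)) :=
    MellinConvergent.cpow_smul.2 ((MellinConvergent.comp_mul_left (f := fun t => bb t (4 / 3))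
      hy).2 (bb_mellin (by simpa using hσ)).1)
  rw [gtFS, (gt_ok hK a).conv _ hc, ← integral_neg_eq_self]
  congr 1
  ext τ
  have k : 0 < ((σ : ℂ) + τ * Complex.I).re := by simpa using hσ
  have e : (((2 / 3 - σ : ℝ) : ℂ) + ((-τ : ℝ) : ℂ) * Complex.I) =
      2 / 3 - (σ + τ * Complex.I) := by push_cast; ring
  rw [e, mellin_cpow_smul (fun t : ℝ => bb (y * t) (4 / 3)),
    show -(2 / 3 - ((σ : ℂ) + τ * Complex.I)) + 2 / 3 = σ + τ * Complex.I by ring,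
    mellin_comp_mul_left (fun t : ℝ => bb t (4 / 3)) _ hy, (bb_mellin k).2, ← gtB, smul_eq_mul]
  ring

theorem gt_rho1 {s : ℂ} (hs : s.re = 1 / 3) : ‖gtR (2 / 3 - s) * gtB s‖ = 1 := by
  have e1 : 2 / 3 - s = conj s := Complex.ext (by simp [hs]; norm_num) (by simp)
  have k : 0 < s.re := by rw [hs]; norm_num
  have e2 : ‖gtR (conj s)‖ = ‖gtR s‖ := by
    have : conj s + 1 / 3 = conj (s + 1 / 3) := by
      apply Complex.ext <;> simp
    rw [gtR, gtR, this, Gamma_conj, Gamma_conj, vw_pi]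
    simp only [norm_mul, norm_inv, RCLike.norm_conj,
      norm_cpow_eq_rpow_re_of_pos (by positivity : (0 : ℝ) < 4 * π ^ 2), conj_re]
  rw [e1, norm_mul, e2, ← norm_mul, gt_RB k, norm_one]

theorem gt_rho2 {s : ℂ} (hs : s.re = 1 / 3) :
    ‖gtR (2 / 3 - (s + 1)) * gtB (s + 1)‖ ≤ (1 + s.im ^ 2) ^ 2 := by
  have n0 : ∀ z : ℂ, z.re ≠ 0 → z ≠ 0 := fun z h h0 => h (by simp [h0])
  have z1 : s ≠ 0 := n0 _ (by rw [hs]; norm_num)
  have z2 : s + 1 / 3 ≠ 0 := n0 _ (by simp [hs])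
  have z3 : 2 / 3 - (s + 1) ≠ 0 := n0 _ (by simp [hs]; norm_num)
  have z4 : 2 / 3 - (s + 1) + 1 / 3 ≠ 0 := n0 _ (by simp [hs]; norm_num)
  have g1 := Complex.Gamma_add_one _ z1
  have g2 := Complex.Gamma_add_one _ z2
  have g3 := Complex.Gamma_add_one _ z3
  have g4 := Complex.Gamma_add_one _ z4
  rw [show 2 / 3 - (s + 1) + 1 = 2 / 3 - s by ring] at g3
  rw [show 2 / 3 - (s + 1) + 1 / 3 + 1 = 2 / 3 - s + 1 / 3 by ring] at g4
  have e : gtR (2 / 3 - (s + 1)) * gtB (s + 1) = ((4 * π ^ 2 : ℂ)⁻¹) ^ 2 *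
      (s * (s + 1 / 3)) ^ 2 * (gtR (2 / 3 - s) * gtB s) := by
    rw [gtR, gtR, gtB, gtB, g3, g4, g1, show s + 1 + 1 / 3 = s + 1 / 3 + 1 by ring, g2,
      show 2 / 3 - (s + 1) = 2 / 3 - s + -1 by ring, neg_add, cpow_add _ _ vw_pi0,
      cpow_add _ _ vw_pi0, cpow_neg_one, mul_inv _ (Complex.Gamma _),
      mul_inv _ (Complex.Gamma _)]
    have y3 : (2 / 3 - s + -1)⁻¹ * (s + 1 / 3) = -1 := by
      rw [show 2 / 3 - s + -1 = -(s + 1 / 3) by ring, inv_neg, neg_mul, inv_mul_cancel₀ z2]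
    have y4 : (2 / 3 - s + -1 + 1 / 3)⁻¹ * s = -1 := by
      rw [show 2 / 3 - s + -1 + 1 / 3 = -s by ring, inv_neg, neg_mul, inv_mul_cancel₀ z1]
    generalize (2 / 3 - s + -1)⁻¹ = X at *
    generalize (2 / 3 - s + -1 + 1 / 3)⁻¹ = Y at *
    generalize (Complex.Gamma (2 / 3 - s + -1))⁻¹ = A
    generalize (Complex.Gamma (2 / 3 - s + -1 + 1 / 3))⁻¹ = B
    have : (s * (s + 1 / 3)) ^ 2 * (X * Y) = s * (s + 1 / 3) := by
      linear_combination s * (s + 1 / 3) * (Y * s * y3 - y4)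
    linear_combination (-((π / Complex.Gamma (4 / 3))⁻¹ * (4 * π ^ 2 : ℂ) ^ (2 / 3 - s) * A * B *
      (π / Complex.Gamma (4 / 3)) * (4 * π ^ 2 : ℂ) ^ (-s) * Complex.Gamma s *
      Complex.Gamma (s + 1 / 3) * ((4 * π ^ 2 : ℂ)⁻¹) ^ 2)) * this
  rw [e, norm_mul, gt_rho1 hs, mul_one, norm_mul, norm_pow, norm_pow, norm_mul, mul_pow,
    Complex.sq_norm s, Complex.sq_norm (s + 1 / 3), vw_pi, ← ofReal_inv, norm_real,
    Real.norm_of_nonneg (by positivity)]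
  have a1 : (4 * π ^ 2)⁻¹ ^ 2 ≤ (1 : ℝ) :=
    pow_le_one₀ (by positivity) (inv_le_one_of_one_le₀ vw_pi1)
  have a2 : normSq s ≤ 1 + s.im ^ 2 := by rw [normSq_apply, hs]; nlinarith
  have a3 : normSq (s + 1 / 3) ≤ 1 + s.im ^ 2 := by
    rw [normSq_apply]; simp [hs]; nlinarith
  have := normSq_nonneg s
  have := normSq_nonneg (s + 1 / 3)
  rw [sq (1 + _), ← one_mul ((1 + _) * _)]
  gcongr

theorem gt_mrep {K a σ c : ℝ} (hK : 1 ≤ K) (ha : |a| ≤ 1) (hσ : 0 < σ) (hσ2 : σ ≤ 4 / 3)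
    (hb : ∀ τ : ℝ, ‖gtR (2 / 3 - (σ + τ * Complex.I)) * gtB (σ + τ * Complex.I)‖ * gtg K τ ≤ c) :
    MRep (gtFS K a) σ (Real.exp 1 * 2 * c) := by
  have K0 : 0 < K := by linarith
  have hp := Real.pi_pos
  have h8 : 0 < 1 / (8 * K ^ 2) := by positivity
  have c0 : 0 ≤ c := le_trans (mul_nonneg (norm_nonneg _) (Real.exp_pos _).le) (hb 0)
  have hg := (gt_ok K0 a).int.const_mul (1 / (2 * π) * (√π / K) * Real.exp 1 * c)
  have bd : ∀ τ : ℝ, ‖gtG K a (2 / 3 - (σ + τ * Complex.I)) * gtB (σ + τ * Complex.I)‖ ≤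
      1 / (2 * π) * (√π / K) * Real.exp 1 * c * gtg K τ := fun τ => by
    have e1 : (2 / 3 - (σ + τ * Complex.I) : ℂ).re = 2 / 3 - σ := by simp
    have e2 : gtg K (2 / 3 - (σ + τ * Complex.I) : ℂ).im = gtg K τ := by simp [gtg]
    have k1 : (2 / 3 - σ + a) ^ 2 / (4 * K ^ 2) ≤ 1 := by
      rw [div_le_one (by positivity)]
      have := abs_le.1 ha
      nlinarith
    have hg0 : 0 < gtg K τ := Real.exp_pos _
    rw [gtG, mul_assoc, norm_mul, gt_normF K0, e1, e2]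
    calc _ = 1 / (2 * π) * (√π / K) * Real.exp ((2 / 3 - σ + a) ^ 2 / (4 * K ^ 2)) *
          (‖gtR (2 / 3 - (σ + τ * Complex.I)) * gtB (σ + τ * Complex.I)‖ * gtg K τ) *
            gtg K τ := by ring
      _ ≤ _ := by gcongr; exact hb τ
  have hi : Integrable fun τ : ℝ =>
      gtG K a (2 / 3 - (σ + τ * Complex.I)) * gtB (σ + τ * Complex.I) := by
    refine gamB_line (F := fun s => gtG K a (2 / 3 - s) * gtB s) (fun s h => ?_) hg fun s h => ?_
    · have k : 0 < s.re := h ▸ hσ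
      exact (((gt_ok K0 a).diff _).comp s (f := fun s => 2 / 3 - s) (by fun_prop)).mul
        ((((DifferentiableAt.const_cpow (by fun_prop) (Or.inl vw_pi0)).const_mul _).mul
          (gamB_diff k)).mul
          ((gamB_diff (by simp; linarith)).comp s (f := fun s => s + 1 / 3) (by fun_prop)))
    · have := bd s.im
      rwa [← h, re_add_im] at this
  refine ⟨_, hi, (integral_mono hi.norm hg bd).trans ?_, fun x hx => gt_FS K0 a hσ hx⟩
  rw [integral_const_mul]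
  unfold gtg
  rw [integral_gaussian]
  have a3 : √(π / (1 / (8 * K ^ 2))) ≤ √π * (4 * K) := by
    rw [div_div_eq_mul_div, div_one, Real.sqrt_mul hp.le]
    gcongr
    rw [Real.sqrt_le_left (by positivity)]
    nlinarith
  calc _ ≤ 1 / (2 * π) * (√π / K) * Real.exp 1 * c * (√π * (4 * K)) := by gcongr
    _ = (√π * √π) / π * (Real.exp 1 * 2 * c) := by field_simp; ring
    _ = _ := by rw [Real.mul_self_sqrt hp.le, div_self hp.ne', one_mul]

theorem gt_b0 : bb 0 (4 / 3) * gtR (2 / 3) = (b0r : ℂ) := by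
  have h0 := Complex.Gamma_ne_zero_of_re_pos (s := 4 / 3) (by norm_num)
  have h1 : (π : ℂ) ≠ 0 := by simp
  have e : (4 * π ^ 2 : ℂ) ^ (2 / 3 : ℂ) = (((2 * π) ^ (4 / 3 : ℝ) : ℝ) : ℂ) := by
    rw [vw_pi, show (2 / 3 : ℂ) = ((2 / 3 : ℝ) : ℂ) by push_cast; rfl,
      ← ofReal_cpow (by positivity), show 4 * π ^ 2 = (2 * π) ^ (2 : ℝ) by
        rw [Real.rpow_two]; ring, ← Real.rpow_mul (by positivity)]
    norm_num
  rw [gt_bb_zero, gtR, b0r, e, show (2 / 3 + 1 / 3 : ℂ) = 1 by norm_num, Complex.Gamma_one,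
    ofReal_div, ofReal_mul, ← Complex.Gamma_ofReal, ← Complex.Gamma_ofReal]
  push_cast
  field_simp

theorem gt_vt {K : ℝ} (hK : 0 < K) (a : ℝ) : VT K a (gtFS K a) := by
  intro u u' Cc Bd hC hu hu' hfe Y hY
  have ok := gt_ok hK a
  have hm := ok.phi_meas
  have sm : ∀ v : O → ℂ, (∀ R : ℝ, 1 ≤ R → ∑ n ∈ ballO R, ‖v n‖ ^ 2 ≤ Bd * R ^ (2 / 3 : ℝ)) →
      Summable fun n : O => ‖v n‖ * N n ^ (-2 : ℝ) := fun v hv =>
    summable_of_sq_bound (Bd := |Bd|) (fun R hR => (hv R hR).trans (mul_le_mul (le_abs_self _)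
      (Real.rpow_le_self_of_one_le hR (by norm_num)) (by positivity) (abs_nonneg _))) one_lt_two
  have hc : 0 < Y / Cc ^ 2 := by positivity
  have i1 : IntegrableOn (fun x : ℝ => gtPhi (gtG K a) x * (x : ℂ)⁻¹) (Set.Ioi 0) := by
    simpa [MellinConvergent, cpow_neg_one, mul_comm] using ok.phi_conv 0
  have v1 : ∫ x in Set.Ioi (0 : ℝ), gtPhi (gtG K a) x * (x : ℂ)⁻¹ = 0 := by
    simpa [mellin, cpow_neg_one, mul_comm, gtG, gtR] using ok.phi_mellin 0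
  have e2 : Set.EqOn (fun x : ℝ => (x : ℂ) ^ (((2 / 3 : ℝ) : ℂ) - 1) • gtPhi (gtG K a) x)
      (fun x : ℝ => gtPhi (gtG K a) x * ((x : ℂ)⁻¹ * (x : ℂ) ^ (2 / 3 : ℂ))) (Set.Ioi 0) :=
    fun x hx => by
      simp only
      rw [cpow_sub _ _ (ofReal_ne_zero.2 (ne_of_gt hx)), cpow_one, smul_eq_mul]
      push_cast
      ring
  have i2 := IntegrableOn.congr_fun (ok.phi_conv ((2 / 3 : ℝ) : ℂ)) e2 measurableSet_Ioi
  have v2 := ok.phi_mellin (2 / 3)
  rw [mellin, setIntegral_congr_fun measurableSet_Ioi e2] at v2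
  have s1 := gt_swap (sm u hu) (r := fun x => Y⁻¹ * x⁻¹)
    (continuousOn_const.mul (continuousOn_inv₀.mono fun x hx => ne_of_gt hx))
    (fun x hx => by positivity) i1 (by
      refine IntegrableOn.congr_fun ((ok.phi_int 1).const_mul (Y ^ 2)) (fun x hx => ?_)
        measurableSet_Ioi
      have hx' : 0 < x := hx
      rw [norm_mul, norm_inv, norm_real, Real.norm_of_nonneg hx'.le, Real.rpow_one,
        Real.rpow_neg (by positivity), Real.rpow_two]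
      field_simp)
  have s2 := gt_swap (sm u' hu') (r := fun x => Y / Cc ^ 2 * x) (by fun_prop)
    (fun x hx => by positivity) i2 (by
      refine IntegrableOn.congr_fun ((ok.phi_int (2 / 3 - 3)).const_mul ((Y / Cc ^ 2) ^ 2)⁻¹)
        (fun x hx => ?_) measurableSet_Ioi
      have hx' : 0 < x := hx
      rw [norm_mul, norm_mul, norm_inv, norm_real, Real.norm_of_nonneg hx'.le,
        norm_cpow_eq_rpow_re_of_pos hx', Real.rpow_sub hx', Real.rpow_neg (by positivity),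
        Real.rpow_two, show (3 : ℝ) = ((3 : ℕ) : ℝ) by norm_num, Real.rpow_natCast]
      norm_num
      field_simp)
  rw [v1, mul_zero, mul_zero, zero_add] at s1
  rw [v2] at s2
  have t1 : ∑' n : O, (if n ≠ 0 then u n * WK K a (N n / Y) else 0) =
      ∑' n : O, if n ≠ 0 then u n * ∫ x in Set.Ioi (0 : ℝ), gtPhi (gtG K a) x * (x : ℂ)⁻¹ *
        bb (N n * (Y⁻¹ * x⁻¹)) (4 / 3) else 0 := tsum_congr fun n => by
    split_ifs with hn
    · rw [← gt_WK hK a (div_pos (N_pos hn) hY)]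
      simp only [div_eq_mul_inv (N n), mul_assoc]
    · rfl
  have t2 : ∑' n : O, (if n ≠ 0 then u' n * gtFS K a (N n * Y / Cc ^ 2) else 0) =
      ∑' n : O, if n ≠ 0 then u' n * ∫ x in Set.Ioi (0 : ℝ), gtPhi (gtG K a) x *
        ((x : ℂ)⁻¹ * (x : ℂ) ^ (2 / 3 : ℂ)) * bb (N n * (Y / Cc ^ 2 * x)) (4 / 3) else 0 :=
    tsum_congr fun n => by simp only [gtFS, smul_eq_mul, mul_div_assoc, mul_assoc]
  have t3 : ((b0r * Fh K (2 / 3 + a) : ℝ) : ℂ) =
      bb 0 (4 / 3) * (2 * π * gtG K a ((2 / 3 : ℝ) : ℂ)) := by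
    have h1 : (π : ℂ) ≠ 0 := by simp
    rw [ofReal_mul, ← gt_b0, gtG, gtF, Fh]
    push_cast
    field_simp
  rw [t1, t2, t3, ← s1, ← s2, ← integral_const_mul]
  refine setIntegral_congr_fun measurableSet_Ioi fun x hx => ?_
  have hx' : 0 < x := hx
  have q1 : ∀ n : O, N n / (Cc ^ 2 * (Y⁻¹ * x⁻¹)) = N n * (Y / Cc ^ 2 * x) := fun n => by
    field_simp
  have q2 : (Cc * (Y⁻¹ * x⁻¹)) ^ (-(2 / 3) : ℝ) = (Y / Cc) ^ (2 / 3 : ℝ) * x ^ (2 / 3 : ℝ) := by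
    rw [Real.rpow_neg (by positivity), ← Real.inv_rpow (by positivity),
      ← Real.mul_rpow (by positivity) hx'.le]
    congr 1
    field_simp
  rw [hfe _ (by positivity), q2, ofReal_mul, ofReal_cpow hx'.le]
  simp only [q1]
  push_cast
  ring

theorem gt_theta : ∃ M : ℝ, 0 < M ∧ ∀ K a : ℝ, 1 ≤ K → |a| ≤ 1 →
    ∃ FS : ℝ → ℂ, MRep FS (1 / 3) M ∧ MRep FS (4 / 3) (M * K ^ 4) ∧ VT K a FS := by
  refine ⟨Real.exp 1 * 2 * 256, by positivity, fun K a hK ha =>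
    ⟨gtFS K a, gt_mrep hK ha (by norm_num) (by norm_num) fun τ => ?_, ?_,
      gt_vt (by linarith) a⟩⟩
  · rw [gt_rho1 (by simp), one_mul]
    refine le_trans (Real.exp_le_one_iff.2 ?_) (by norm_num)
    have : 0 ≤ 1 / (8 * K ^ 2) * τ ^ 2 := by positivity
    linarith
  · rw [mul_assoc _ 256]
    refine gt_mrep hK ha (by norm_num) le_rfl fun τ => ?_
    have h := gt_rho2 (s := ((1 / 3 : ℝ) : ℂ) + τ * Complex.I) (by simp)
    rw [show ((1 / 3 : ℝ) : ℂ) + τ * Complex.I + 1 = ((4 / 3 : ℝ) : ℂ) + τ * Complex.I by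
      push_cast; ring] at h
    have e : (((1 / 3 : ℝ) : ℂ) + τ * Complex.I).im = τ := by simp
    rw [e] at h
    have K2 : 1 ≤ K ^ 2 := one_le_pow₀ hK
    set v := τ ^ 2 / (16 * K ^ 2) with hv
    have v0 : 0 ≤ v := by positivity
    have k1 : 1 + τ ^ 2 ≤ 16 * K ^ 2 * Real.exp v := by
      have := Real.add_one_le_exp v
      have e2 : τ ^ 2 = 16 * K ^ 2 * v := by rw [hv]; field_simp
      nlinarith
    have k2 : gtg K τ * Real.exp v ^ 2 = 1 := by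
      rw [gtg, ← Real.exp_nat_mul, ← Real.exp_add, Real.exp_eq_one_iff, hv]
      field_simp
      ring
    have hg : 0 < gtg K τ := Real.exp_pos _
    calc _ ≤ (16 * K ^ 2 * Real.exp v) ^ 2 * gtg K τ := by
          gcongr
          exact h.trans (by gcongr)
      _ = 256 * K ^ 4 * (gtg K τ * Real.exp v ^ 2) := by ring
      _ = _ := by rw [k2, mul_one]

end

end Vale.Agent.P006
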