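import Vale.Agent.P006.LQd

namespace Vale.Agent.P006

open Vale.Agent.P026 Complex MeasureTheory Filter Topology
open scoped Classical ComplexConjugate Real MatrixGroups

noncomputable section

theorem lal_empty {K : O → O → ℂ} {S T : Finset O} {D : ℝ} (hD : 0 ≤ D) (h : S = ∅ ∨ T = ∅) :
    OpB K S T D := by
  intro a
  have := mul_nonneg hD (nsq_nonneg T a)
  rcases h with rfl | rfl
  · simpa using this
  · simp [nsq]

theorem lal_tr {γ : ℝ} (h : PL γ) {ε : ℝ} (hε : 0 < ε) : ∃ C : ℝ, 0 < C ∧ ∀ Z H R : ℝ, 1 ≤ Z →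
    0 ≤ H → H ≤ Z → 0 ≤ R → R ≤ Z →
    OpB sym3 (ballN H) (ballN R) (C * Z ^ ε * (R + (H * R) ^ (2 / 3 : ℝ) + H ^ γ)) := by
  obtain ⟨C, hC, h⟩ := h ε hε
  refine ⟨C, hC, fun Z H R hZ a1 a2 a3 a4 => ?_⟩
  rcases lt_or_ge H 1 with k | k
  · exact lal_empty (by positivity) (Or.inl (qls_empty k))
  rcases lt_or_ge R 1 with k' | k'
  · exact lal_empty (by positivity) (Or.inr (qls_empty k'))
  rw [mul_comm H]
  exact opB_sym3_symm (by positivity) (h Z R H k' a4 k a2)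

theorem lal_log {x : ℝ} (hx : 1 ≤ x) : ∃ u : ℝ, 0 ≤ u ∧ x = Real.exp u :=
  ⟨Real.log x, Real.log_nonneg hx, (Real.exp_log (by linarith)).symm⟩

theorem lal_pw1 {γ H R x y : ℝ} (hγ : 1 ≤ γ) (hH : 1 ≤ H) (hR : 0 < R) (hx : 1 ≤ x) (hy : 1 ≤ y)
    (h : (x * y) ^ 3 ≤ H) :
    R + (H / (x ^ 2 * y ^ 3) * R) ^ (2 / 3 : ℝ) + (H / (x ^ 2 * y ^ 3)) ^ γ ≤
      R + ((H * R) ^ (2 / 3 : ℝ) + H ^ γ) * (x * y)⁻¹ := by
  obtain ⟨h, h0, rfl⟩ := lal_log hH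
  obtain ⟨u, u0, rfl⟩ := lal_log hx
  obtain ⟨v, v0, rfl⟩ := lal_log hy
  obtain ⟨r, rfl⟩ : ∃ r, R = Real.exp r := ⟨Real.log R, (Real.exp_log hR).symm⟩
  rw [add_mul, add_assoc]
  simp only [← Real.exp_nat_mul, ← Real.exp_add, ← Real.exp_sub, ← Real.exp_mul, ← Real.exp_neg]
  refine add_le_add le_rfl (add_le_add ?_ ?_) <;> rw [Real.exp_le_exp] <;> push_cast
  · linarith
  · nlinarith [mul_le_mul_of_nonneg_left hγ u0, mul_le_mul_of_nonneg_left hγ v0]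

theorem lal_pw2 {γ H R x y : ℝ} (hγ : 1 ≤ γ) (hH : 1 ≤ H) (hR : 0 < R) (hx : 1 ≤ x) (hy : 1 ≤ y)
    (h : (x * y) ^ 3 ≤ H) :
    R + (√(H / (x * y ^ 3)) * R) ^ (2 / 3 : ℝ) + √(H / (x * y ^ 3)) ^ γ ≤
      R + ((H * R) ^ (2 / 3 : ℝ) + H ^ γ) * (x * y)⁻¹ := by
  obtain ⟨h, h0, rfl⟩ := lal_log hH
  obtain ⟨u, u0, rfl⟩ := lal_log hx
  obtain ⟨v, v0, rfl⟩ := lal_log hy
  obtain ⟨r, rfl⟩ : ∃ r, R = Real.exp r := ⟨Real.log R, (Real.exp_log hR).symm⟩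
  rw [add_mul, add_assoc, Real.sqrt_eq_rpow]
  simp only [← Real.exp_nat_mul, ← Real.exp_add, ← Real.exp_sub, ← Real.exp_mul, ← Real.exp_neg,
    Real.exp_le_exp] at h ⊢
  push_cast at h
  refine add_le_add le_rfl (add_le_add ?_ ?_) <;> rw [Real.exp_le_exp] <;> push_cast
  · linarith
  · nlinarith [mul_le_mul_of_nonneg_left hγ u0, mul_le_mul_of_nonneg_left hγ v0,
      mul_le_mul_of_nonneg_left hγ h0]

/-- from squarefree rows to all rows -/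
theorem al_of_pl {γ : ℝ} (hγ : 1 ≤ γ) (h : PL γ) {ε : ℝ} (hε : 0 < ε) : ∃ C : ℝ, 0 < C ∧
    ∀ (Z H R : ℝ) (a : O → ℂ), 1 ≤ Z → 0 < H → H ≤ Z → 0 < R → R ≤ Z →
    HS a R H ≤ C * Z ^ ε * (H ^ (1 / 3 : ℝ) * R + (H * R) ^ (2 / 3 : ℝ) + H ^ γ) *
      nsq (ballN R) a := by
  obtain ⟨C1, hC1, h1⟩ := lal_tr h (half_pos hε)
  obtain ⟨C2, hC2, h2⟩ := lqd_pow (c := 0) (half_pos hε) (by norm_num)
  obtain ⟨C3, hC3, h3⟩ := lqd_inv (half_pos hε)
  refine ⟨54 * C1 * (C2 + C3), by positivity, fun Z H R a hZ a1 a2 a3 a4 => ?_⟩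
  have n0 := nsq_nonneg (ballN R) a
  rcases lt_or_ge H 1 with k | k
  · rw [HS, ballO_eq_empty k, Finset.sum_empty]; positivity
  set X := H ^ (1 / 3 : ℝ) with hX
  have X0 : 0 ≤ X := by positivity
  have XZ : X ≤ Z := lqd_third a1.le hZ a2
  set E := (H * R) ^ (2 / 3 : ℝ) + H ^ γ with hE
  have E0 : 0 ≤ E := by positivity
  set B := C1 * Z ^ (ε / 2) * ((C2 + C3) * Z ^ (ε / 2) * (X * R + E)) * nsq (ballN R) a with hB
  have hs : ∑ y ∈ lqdP X, C1 * Z ^ (ε / 2) * (R + E * (N y.1 * N y.2)⁻¹) * nsq (ballN R) a ≤ B := by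
    rw [← Finset.sum_mul, ← Finset.mul_sum, Finset.sum_add_distrib, ← Finset.mul_sum]
    have b2 := h2 Z X hZ X0 XZ
    have b3 := h3 Z X hZ XZ
    simp only [Real.rpow_zero, add_zero, Real.rpow_one] at b2
    have e : ∑ _y ∈ lqdP X, R = (∑ _y ∈ lqdP X, (1 : ℝ)) * R := by simp
    rw [e, hB]
    gcongr
    have z0 : 0 ≤ Z ^ (ε / 2) := by positivity
    calc _ ≤ C2 * Z ^ (ε / 2) * X * R + E * (C3 * Z ^ (ε / 2)) := by gcongr
      _ ≤ _ := by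
        nlinarith [mul_nonneg (mul_nonneg hC2.le z0) E0,
          mul_nonneg (mul_nonneg hC3.le z0) (mul_nonneg X0 a3.le)]
  have hle : ∀ x y : ℝ, 1 ≤ x → 1 ≤ y → H / (x * y) ≤ Z := fun x y hx hy =>
    (div_le_self a1.le (one_le_mul_of_one_le_of_one_le hx hy)).trans a2
  have s1 : ∑ x ∈ (Quad H).filter (fun x => N x.1.2.2 ≤ N x.1.2.1), FF a R x ≤ 27 * B := by
    refine (lqd_fix1 _ (FF_nonneg a R) (lqdP X) (fun y => ballN (H / (N y.1 ^ 2 * N y.2 ^ 3)))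
      fun x hx hp => ?_).trans (lqd_XI (by positivity) fun ξ _ => le_trans
        (Finset.sum_le_sum fun y hy => ?_) hs)
    · obtain ⟨-, b1, b2, b3, -, b4⟩ := lqd_mem hx
      obtain ⟨-, c1, c2, -, c3, -⟩ := mem_Quad.1 hx
      refine ⟨mem_lqdP.2 ⟨c2.ne_zero, c3, lqd_cube (by positivity) (le_trans ?_ b4)⟩,
        mem_ballN.2 ⟨c1, ?_⟩⟩
      · calc _ = N x.1.2.2 * N x.1.2.2 ^ 2 * N x.2 ^ 3 := by ring
          _ ≤ _ := by gcongr
      · rw [le_div_iff₀ (by positivity)]; linarith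
    · obtain ⟨c1, c2, c3⟩ := mem_lqdP.1 hy
      have d1 := one_le_N c1
      have d2 := one_le_N c2
      refine (lqd_ff1 (by positivity) (h1 Z _ R hZ (by positivity)
        (hle _ _ (one_le_pow₀ d1) (one_le_pow₀ d2)) a3.le a4) a ξ y.1 y.2).trans ?_
      refine mul_le_mul_of_nonneg_right (mul_le_mul_of_nonneg_left ?_ (by positivity)) n0
      refine lal_pw1 hγ k a3 d1 d2 ((pow_le_pow_left₀ (by positivity) c3 3).trans_eq ?_)
      rw [hX, ← Real.rpow_natCast, ← Real.rpow_mul a1.le]; norm_num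
  have s2 : ∑ x ∈ (Quad H).filter (fun x => ¬ N x.1.2.2 ≤ N x.1.2.1), FF a R x ≤ 27 * B := by
    refine (lqd_fix2 _ (FF_nonneg a R) (lqdP X) (fun y => ballN √(H / (N y.1 * N y.2 ^ 3)))
      fun x hx hp => ?_).trans (lqd_XI (by positivity) fun ξ _ => le_trans
        (Finset.sum_le_sum fun y hy => ?_) hs)
    · obtain ⟨-, b1, b2, b3, -, b4⟩ := lqd_mem hx
      obtain ⟨-, c1, c2, -, c3, -⟩ := mem_Quad.1 hx
      have hp' := (not_le.1 hp).le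
      refine ⟨mem_lqdP.2 ⟨c1.ne_zero, c3, lqd_cube (by positivity) (le_trans ?_ b4)⟩,
        mem_ballN.2 ⟨c2, Real.le_sqrt_of_sq_le ?_⟩⟩
      · calc _ = N x.1.2.1 * N x.1.2.1 ^ 2 * N x.2 ^ 3 := by ring
          _ ≤ _ := by gcongr
      · rw [le_div_iff₀ (by positivity)]; linarith
    · obtain ⟨c1, c2, c3⟩ := mem_lqdP.1 hy
      have d1 := one_le_N c1
      have d2 := one_le_N c2
      have d3 : √(H / (N y.1 * N y.2 ^ 3)) ≤ Z := by
        rw [Real.sqrt_le_left (by linarith)]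
        exact (hle _ _ d1 (one_le_pow₀ d2)).trans (by nlinarith)
      refine (lqd_ff2 (by positivity) (h1 Z _ R hZ (by positivity) d3 a3.le a4) a ξ y.1 y.2).trans ?_
      refine mul_le_mul_of_nonneg_right (mul_le_mul_of_nonneg_left ?_ (by positivity)) n0
      refine lal_pw2 hγ k a3 d1 d2 ((pow_le_pow_left₀ (by positivity) c3 3).trans_eq ?_)
      rw [hX, ← Real.rpow_natCast, ← Real.rpow_mul a1.le]; norm_num
  have e : Z ^ ε = Z ^ (ε / 2) * Z ^ (ε / 2) := by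
    rw [← Real.rpow_add (by linarith)]; congr 1; ring
  calc HS a R H ≤ ∑ x ∈ Quad H, FF a R x := quad_cover H fun _ => sq_nonneg _
    _ ≤ 27 * B + 27 * B := by
        rw [← Finset.sum_filter_add_sum_filter_not (Quad H) (fun x => N x.1.2.2 ≤ N x.1.2.1)]
        exact add_le_add s1 s2
    _ = _ := by rw [hB, e, hE]; ring

end

end Vale.Agent.P006
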