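import Vale.Agent.P006.LDefs
import Vale.Agent.P006.Bas
import Vale.Agent.P026.Dual
import Vale.Agent.P026.Gm
import Vale.Agent.P026.QLS

namespace Vale.Agent.P006

open Vale.Agent.P026 Complex MeasureTheory Filter Topology
open scoped Classical ComplexConjugate Real MatrixGroups

noncomputable section

theorem mem_ringN {a b : ℝ} {n : O} : n ∈ ringN a b ↔ NN n ∧ a < N n ∧ N n ≤ b := by
  simp only [ringN, Finset.mem_filter, mem_ballN]; tauto
theorem nsq_nonneg (T : Finset O) (a : O → ℂ) : 0 ≤ nsq T a :=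
  Finset.sum_nonneg fun _ _ => by positivity
theorem nT_nonneg (a : O → ℂ) (R : ℝ) (t : O × O × O) : 0 ≤ nT a R t :=
  Finset.sum_nonneg fun _ _ => by positivity
theorem OpB.dual {K : O → O → ℂ} {S T : Finset O} {D : ℝ} (hD : 0 ≤ D) (h : OpB K S T D) :
    OpB (fun n m => K m n) T S D :=
  fun a => duality T S (fun n m => K m n) hD h a
theorem OpB.mono {K : O → O → ℂ} {S T S' T' : Finset O} {D D' : ℝ} (h : OpB K S T D)
    (hS : S' ⊆ S) (hT : T' ⊆ T) (hD : D ≤ D') : OpB K S' T' D' := by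
  intro a
  have h1 := h fun n => if n ∈ T' then a n else 0
  have e1 : ∀ m, ∑ n ∈ T, (if n ∈ T' then a n else 0) * K m n = ∑ n ∈ T', a n * K m n := fun m => by
    simp only [ite_mul, zero_mul]
    rw [← Finset.sum_filter, Finset.filter_mem_eq_inter, Finset.inter_eq_right.2 hT]
  have e2 : nsq T (fun n => if n ∈ T' then a n else 0) = nsq T' a := by
    have : ∀ n, ‖if n ∈ T' then a n else 0‖ ^ 2 = if n ∈ T' then ‖a n‖ ^ 2 else 0 := fun n => by
      split_ifs <;> simp
    simp only [nsq, this]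
    rw [← Finset.sum_filter, Finset.filter_mem_eq_inter, Finset.inter_eq_right.2 hT]
  simp only [e1, e2] at h1
  calc _ ≤ ∑ m ∈ S, ‖∑ n ∈ T', a n * K m n‖ ^ 2 :=
        Finset.sum_le_sum_of_subset_of_nonneg hS fun _ _ _ => by positivity
    _ ≤ D * nsq T' a := h1
    _ ≤ _ := mul_le_mul_of_nonneg_right hD (nsq_nonneg _ _)
theorem OpB.congr {K K' : O → O → ℂ} {S T : Finset O} {D : ℝ} (h : OpB K S T D)
    (e : ∀ m ∈ S, ∀ n ∈ T, K' m n = K m n) : OpB K' S T D := by
  intro a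
  refine le_trans (le_of_eq ?_) (h a)
  refine Finset.sum_congr rfl fun m hm => ?_
  rw [Finset.sum_congr rfl fun n hn => by rw [e m hm n hn]]
theorem OpB.conj {K : O → O → ℂ} {S T : Finset O} {D : ℝ} (h : OpB K S T D) :
    OpB (fun m n => conj (K m n)) S T D := by
  intro a
  have h1 := h fun n => conj (a n)
  simp only [nsq, RCLike.norm_conj] at h1 ⊢
  refine le_trans (le_of_eq ?_) h1
  refine Finset.sum_congr rfl fun m _ => ?_
  rw [← RCLike.norm_conj, map_sum]
  simp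
/-- cubic reciprocity and duality -/
theorem opB_sym3_symm {M R D : ℝ} (hD : 0 ≤ D) (h : OpB sym3 (ballN M) (ballN R) D) :
    OpB sym3 (ballN R) (ballN M) D :=
  (h.dual hD).congr fun _ hm _ hn => cubic_recip (gm_prim hm) (gm_prim hn)
theorem opB_Kd_symm {Q D : ℝ} {S T : Finset O} (hD : 0 ≤ D) (h : OpB (Kd Q) S T D) :
    OpB (Kd Q) T S D :=
  (h.dual hD).congr fun m _ n _ => by simp only [Kd, mul_comm]
/-- a bound for vectors supported on a shell is a bound on the shell -/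
theorem opB_of_sh {K : O → O → ℂ} {S : Finset O} {R D : ℝ}
    (h : ∀ a, Sh a R → ∑ m ∈ S, ‖∑ n ∈ ballN R, a n * K m n‖ ^ 2 ≤ D * nsq (ballN R) a) :
    OpB K S (ringN (R / 2) R) D := by
  intro a
  have hT : ringN (R / 2) R ⊆ ballN R := Finset.filter_subset _ _
  have h1 := h (fun n => if n ∈ ringN (R / 2) R then a n else 0) (fun n hn => by
    by_cases k : n ∈ ringN (R / 2) R
    · exact mem_ringN.1 k
    · simp [k] at hn)
  have e1 : ∀ m, ∑ n ∈ ballN R, (if n ∈ ringN (R / 2) R then a n else 0) * K m n =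
      ∑ n ∈ ringN (R / 2) R, a n * K m n := fun m => by
    simp only [ite_mul, zero_mul]
    rw [← Finset.sum_filter, Finset.filter_mem_eq_inter, Finset.inter_eq_right.2 hT]
  have e2 : nsq (ballN R) (fun n => if n ∈ ringN (R / 2) R then a n else 0) =
      nsq (ringN (R / 2) R) a := by
    have : ∀ n, ‖if n ∈ ringN (R / 2) R then a n else 0‖ ^ 2 =
        if n ∈ ringN (R / 2) R then ‖a n‖ ^ 2 else 0 := fun n => by split_ifs <;> simp
    simp only [nsq, this]
    rw [← Finset.sum_filter, Finset.filter_mem_eq_inter, Finset.inter_eq_right.2 hT]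
  simpa only [e1, e2] using h1
/-- dyadic decomposition of the columns -/
theorem opB_of_shells {ε : ℝ} (hε : 0 < ε) : ∃ C : ℝ, 0 < C ∧
    ∀ (K : O → O → ℂ) (S : Finset O) (R D : ℝ), 1 ≤ R → 0 ≤ D →
      (∀ R', 1 ≤ R' → R' ≤ R → OpB K S (ringN (R' / 2) R') D) →
      OpB K S (ballN R) (C * R ^ ε * D) := by
  obtain ⟨C, hC, h⟩ := qls_log hε
  refine ⟨C, hC, fun K S R D hR hD H a => ?_⟩
  have hf : ∀ n ∈ ballN R, qls_j (R / N n) ∈ Finset.range (qls_j R + 1) := fun n hn => by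
    rw [Finset.mem_range, Nat.lt_succ_iff]
    exact qls_j_mono (div_le_self (by linarith) (one_le_N (mem_ballN.1 hn).1.ne_zero))
  have := dual_split S (ballN R) (Finset.range (qls_j R + 1)) (fun n => qls_j (R / N n)) hf K a
    (D := D) fun j hj => by
      rw [Finset.mem_range, Nat.lt_succ_iff] at hj
      have p2 : (0 : ℝ) < 2 ^ j := by positivity
      have h1 : (2 : ℝ) ^ j ≤ R := (pow_le_pow_right₀ (by norm_num) hj).trans (qls_j_le hR)
      have h2 := H (R / 2 ^ j) ((one_le_div p2).2 h1) (div_le_self (by linarith) (one_le_pow₀ (by norm_num))) a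
      have hs : ringN (R / 2 ^ j / 2) (R / 2 ^ j) = (ballN R).filter (fun n => qls_j (R / N n) = j) := by
        ext n
        rw [mem_ringN, Finset.mem_filter, mem_ballN]
        constructor
        · rintro ⟨k1, k2, k3⟩
          have n0 := N_pos k1.ne_zero
          have k4 : (2 : ℝ) ^ j ≤ R / N n := by
            rw [le_div_iff₀ n0]; rw [le_div_iff₀ p2] at k3; linarith
          have k5 : R / N n < 2 * 2 ^ j := by
            rw [div_lt_iff₀ n0]; rw [div_div, div_lt_iff₀ (by positivity)] at k2; linarith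
          refine ⟨⟨k1, k3.trans (div_le_self (by linarith) (one_le_pow₀ (by norm_num)))⟩, ?_⟩
          have a1 := qls_j_le ((one_le_pow₀ (by norm_num)).trans k4)
          have a2 := qls_lt_j (R / N n)
          have b1 : (2 : ℝ) ^ qls_j (R / N n) < 2 ^ (j + 1) := by rw [pow_succ]; linarith
          have b2 : (2 : ℝ) ^ j < 2 ^ (qls_j (R / N n) + 1) := by rw [pow_succ]; linarith
          have c1 := (pow_lt_pow_iff_right₀ (by norm_num : (1 : ℝ) < 2)).1 b1
          have c2 := (pow_lt_pow_iff_right₀ (by norm_num : (1 : ℝ) < 2)).1 b2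
          omega
        · rintro ⟨⟨k1, k2⟩, rfl⟩
          have n0 := N_pos k1.ne_zero
          have a1 := qls_j_le ((one_le_div n0).2 k2)
          have a2 := qls_lt_j (R / N n)
          refine ⟨k1, ?_, ?_⟩
          · rw [div_div, div_lt_iff₀ (by positivity)]; rw [div_lt_iff₀ n0] at a2; linarith
          · rw [le_div_iff₀ p2]; rw [le_div_iff₀ n0] at a1; linarith
      have e2 : ∀ n, ‖if qls_j (R / N n) = j then a n else 0‖ ^ 2 =
        if qls_j (R / N n) = j then ‖a n‖ ^ 2 else 0 := fun n => by split_ifs <;> simp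
      rw [hs] at h2
      simp only [nsq, Finset.sum_filter] at h2
      simpa only [e2, ite_mul, zero_mul] using h2
  refine this.trans ?_
  rw [Finset.card_range]
  exact mul_le_mul_of_nonneg_right (mul_le_mul_of_nonneg_right (h R hR) hD) (nsq_nonneg _ _)
theorem lbas_ring_empty {a b : ℝ} (h : b ≤ a) : ringN a b = ∅ :=
  Finset.eq_empty_of_forall_notMem fun n hn => by
    linarith [(mem_ringN.1 hn).2.1, (mem_ringN.1 hn).2.2]
/-- dyadic decomposition of the rows -/
theorem opB_ring_rows {K : O → O → ℂ} {T : Finset O} {a b D c : ℝ} (ha : 0 < a) (hc : 1 / 2 ≤ c)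
    (hD : 0 ≤ D) (h : ∀ H', a < H' → H' ≤ b → OpB K (ringN (H' / 2) H') T (D * H' ^ c))
    {H1 : ℝ} (h0 : 0 ≤ H1) (h1 : H1 ≤ b) : OpB K (ringN a H1) T (4 * D * H1 ^ c) := by
  have key : ∀ J : ℕ, ∀ H1 : ℝ, 0 ≤ H1 → H1 ≤ b → H1 ≤ 2 ^ J * a →
      OpB K (ringN a H1) T (4 * D * H1 ^ c) := by
    have z : ∀ H1 : ℝ, 0 ≤ H1 → H1 ≤ a → OpB K (ringN a H1) T (4 * D * H1 ^ c) := by
      intro H1 k0 k x
      rw [lbas_ring_empty k, Finset.sum_empty]
      exact mul_nonneg (by positivity) (nsq_nonneg _ _)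
    intro J
    induction J with
    | zero => intro H1 k0 _ k; exact z H1 k0 (by simpa using k)
    | succ J ih =>
      intro H1 k0 k1 k2 x
      rcases le_or_gt H1 a with k | k
      · exact z H1 k0 k x
      have i1 := ih (H1 / 2) (by linarith) (by linarith) (by rw [pow_succ] at k2; linarith) x
      have i2 := h H1 k k1 x
      have hs : ringN a H1 ⊆ ringN (H1 / 2) H1 ∪ ringN a (H1 / 2) := fun n hn => by
        rw [Finset.mem_union, mem_ringN, mem_ringN]
        have := mem_ringN.1 hn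
        rcases le_or_gt (N n) (H1 / 2) with q | q <;> tauto
      have hp : (H1 / 2) ^ c ≤ 3 / 4 * H1 ^ c := by
        rw [Real.div_rpow k0 (by norm_num), div_le_iff₀ (by positivity)]
        have e1 : (2 : ℝ) ^ (1 / 2 : ℝ) ≤ 2 ^ c := Real.rpow_le_rpow_of_exponent_le (by norm_num) hc
        have e2 : (4 / 3 : ℝ) ≤ 2 ^ (1 / 2 : ℝ) := by
          rw [← Real.sqrt_eq_rpow]; exact Real.le_sqrt_of_sq_le (by norm_num)
        have e3 : 0 ≤ H1 ^ c := Real.rpow_nonneg k0 _
        nlinarith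
      have n0 := nsq_nonneg T x
      calc _ ≤ ∑ m ∈ ringN (H1 / 2) H1 ∪ ringN a (H1 / 2), ‖∑ n ∈ T, x n * K m n‖ ^ 2 :=
            Finset.sum_le_sum_of_subset_of_nonneg hs fun _ _ _ => by positivity
        _ ≤ ∑ m ∈ ringN (H1 / 2) H1, ‖∑ n ∈ T, x n * K m n‖ ^ 2 +
            ∑ m ∈ ringN a (H1 / 2), ‖∑ n ∈ T, x n * K m n‖ ^ 2 := by
            rw [← Finset.sum_union_inter]
            exact le_add_of_nonneg_right (Finset.sum_nonneg fun _ _ => by positivity)
        _ ≤ D * H1 ^ c * nsq T x + 4 * D * (3 / 4 * H1 ^ c) * nsq T x := by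
            refine add_le_add i2 (i1.trans ?_); gcongr
        _ = _ := by ring
  obtain ⟨J, hJ⟩ := pow_unbounded_of_one_lt (H1 / a) (by norm_num : (1 : ℝ) < 2)
  exact key J H1 h0 h1 ((div_le_iff₀ ha).1 hJ.le)
theorem lbas_pr_ne {R : ℝ} {t : O × O × O} (ht : t ∈ trip R) : pr t ≠ 0 :=
  (mem_trip.1 ht).2.2.2.1.ne_zero
theorem nsq_aT_le {a : O → ℂ} {R : ℝ} (ha : Sh a R) {t : O × O × O} (ht : t ∈ trip R) {s : ℂ}
    (hs : |s.re| ≤ 1 / 2) : nsq (ballN (R / N (pr t))) (aT a R t s) ≤ 2 * nT a R t := by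
  have p1 := one_le_N (lbas_pr_ne ht)
  have hR : 1 ≤ R := p1.trans (mem_trip.1 ht).2.2.2.2
  unfold nsq nT
  rw [Finset.mul_sum]
  refine le_trans (Finset.sum_le_sum fun n _ => ?_) (Finset.sum_le_sum_of_subset_of_nonneg
    (ballN_mono (div_le_self (by linarith) p1)) fun _ _ _ => by positivity)
  by_cases h0 : a (pr t * n) = 0
  · simp [aT, h0]
  obtain ⟨-, k1, k2⟩ := ha _ h0
  set x := N (pr t * n) / R with hx
  have x1 : 1 / 2 < x := by rw [hx, lt_div_iff₀ (by linarith)]; linarith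
  have x2 : x ≤ 1 := by rw [hx, div_le_one (by linarith)]; exact k2
  have e1 : (x ^ s.re) ^ 2 ≤ 2 := by
    have : x ^ s.re ≤ x ^ (-(1 / 2) : ℝ) :=
      Real.rpow_le_rpow_of_exponent_ge (by linarith) x2 (by linarith [abs_le.1 hs])
    have h2 : (x ^ (-(1 / 2) : ℝ)) ^ 2 = x⁻¹ := by
      rw [← Real.rpow_natCast, ← Real.rpow_mul (by linarith)]; norm_num [Real.rpow_neg_one]
    have h3 : x⁻¹ ≤ 2 := by rw [inv_le_comm₀ (by linarith) (by norm_num)]; linarith
    exact (pow_le_pow_left₀ (Real.rpow_nonneg (by linarith) _) this 2).trans (h2 ▸ h3)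
  unfold aT
  rw [norm_mul, norm_mul, Complex.norm_cpow_eq_rpow_re_of_pos (by linarith), mul_pow, mul_pow]
  have e2 : ‖sym3 (lam ^ 2 * t.1 ^ 2 * t.2.1) n‖ ^ 2 ≤ 1 :=
    pow_le_one₀ (norm_nonneg _) (norm_sym3_le _ _)
  calc _ ≤ ‖a (pr t * n)‖ ^ 2 * 1 * 2 := by gcongr
    _ = _ := by ring
theorem sh_aT {a : O → ℂ} {R : ℝ} (ha : Sh a R) {t : O × O × O} (ht : t ∈ trip R) (s : ℂ)
    (g : O → ℂ) : Sh (fun n => if NN n then aT a R t s n * g n else 0) (R / N (pr t)) := by
  intro n hn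
  have p0 := N_pos (lbas_pr_ne ht)
  by_cases k : NN n
  · have h0 : a (pr t * n) ≠ 0 := fun h => hn (by simp [aT, h])
    obtain ⟨-, k1, k2⟩ := ha _ h0
    rw [N_mul] at k1 k2
    refine ⟨k, ?_, ?_⟩
    · rw [div_right_comm, div_lt_iff₀ p0]; linarith
    · rw [le_div_iff₀ p0]; linarith
  · simp [k] at hn
theorem sum_nT_le {ε : ℝ} (hε : 0 < ε) : ∃ C : ℝ, 0 < C ∧ ∀ (a : O → ℂ) (R : ℝ), 1 ≤ R → Sh a R →
    ∑ t ∈ trip R, nT a R t ≤ C * R ^ ε * nsq (ballN R) a := by
  obtain ⟨C, hC, h⟩ := sum_trip_le hε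
  refine ⟨C, hC, fun a R hR ha => le_trans (le_of_eq ?_)
    (h R (fun n => ‖a n‖ ^ 2) hR fun _ => by positivity)⟩
  refine Finset.sum_congr rfl fun t _ => Finset.sum_congr rfl fun n _ => ?_
  split_ifs with k
  · rfl
  · have : a (pr t * n) = 0 := by
      by_contra h0
      obtain ⟨k1, -, k2⟩ := ha _ h0
      exact k (mem_ballN.2 ⟨k1, k2⟩)
    simp [this]
theorem sym3_cube_left {c n : O} (hn : n ≠ 0) :
    sym3 (c ^ 3) n = if IsCoprime c n then 1 else 0 := by
  rw [sym3_pow_left]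
  split_ifs with k
  · exact sym3_cube k
  · rw [(sym3_eq_zero_iff hn).2 k]; simp
/-- Moebius inversion over the divisors of an arbitrary nonzero element -/
theorem sum_mu_divs' {c n : O} (hc : c ≠ 0) (hn : Prim n) (ho : OddO n) :
    ∑ j ∈ divs c, (if j ∣ n then mu j else 0) = if IsCoprime c n then 1 else 0 := by
  rw [← sum_mu_divs hn ho c, ← Finset.sum_filter, ← Finset.sum_filter]
  refine Finset.sum_congr ?_ fun _ _ => rfl
  ext j
  simp only [Finset.mem_filter, mem_divs hc, mem_divs hn.ne_zero]; tauto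
/-- reindexing over multiples -/
theorem sum_ballN_dvd {M : Type*} [AddCommMonoid M] (R : ℝ) {j : O} (hj : NN j) (φ : O → M) :
    ∑ n ∈ ballN R, (if j ∣ n then φ n else 0) =
      ∑ m ∈ ballN (R / N j), if NN (j * m) then φ (j * m) else 0 := by
  rw [gm_reindex R hj.1 φ, ← Finset.sum_filter, ← Finset.sum_filter]
  refine Finset.sum_congr ?_ fun _ _ => rfl
  ext m
  have j0 := N_pos hj.ne_zero
  have j1 := one_le_N hj.ne_zero
  simp only [Finset.mem_filter, mem_ballN, N_mul, le_div_iff₀ j0]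
  constructor
  · rintro ⟨⟨k1, -⟩, k2, k3⟩; exact ⟨⟨k1, by linarith⟩, k2⟩
  · rintro ⟨⟨k1, k2⟩, k3⟩
    exact ⟨⟨k1, by nlinarith [N_nonneg m]⟩, k3, by linarith⟩
theorem sum_pair_le {ε : ℝ} (hε : 0 < ε) : ∃ C : ℝ, 0 < C ∧ ∀ (R : ℝ) (f : ℝ → ℝ), 1 ≤ R →
    (∀ x, 0 ≤ f x) →
    ∑ x ∈ (ballO R ×ˢ ballO R).filter (fun x => N x.1 * N x.2 ≤ R), f (N x.1 * N x.2) ≤
      C * R ^ ε * ∑ n ∈ ballO R, f (N n) := by
  obtain ⟨C, hC, h⟩ := dv_le hε
  refine ⟨C, hC, fun R f hR hf => ?_⟩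
  set S := (ballO R ×ˢ ballO R).filter (fun x => N x.1 * N x.2 ≤ R) with hS
  have hm : ∀ x ∈ S, x.1 * x.2 ∈ ballO R := fun x hx => by
    rw [hS, Finset.mem_filter, Finset.mem_product, mem_ballO, mem_ballO] at hx
    exact mem_ballO.2 ⟨mul_ne_zero hx.1.1.1 hx.1.2.1, by rw [N_mul]; exact hx.2⟩
  rw [← Finset.sum_fiberwise_of_maps_to hm, Finset.mul_sum]
  refine Finset.sum_le_sum fun n hn => ?_
  obtain ⟨n0, nR⟩ := mem_ballO.1 hn
  rw [Finset.sum_congr rfl (g := fun _ => f (N n)) fun x hx => by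
    rw [← N_mul, (Finset.mem_filter.1 hx).2], Finset.sum_const, nsmul_eq_mul]
  refine mul_le_mul_of_nonneg_right ?_ (hf _)
  have inj : Set.InjOn (fun x : O × O => x.1) (S.filter (fun x => x.1 * x.2 = n)) := by
    intro x hx y hy e
    have e1 := (Finset.mem_filter.1 hx).2
    have e2 := (Finset.mem_filter.1 hy).2
    simp only at e
    have x0 : x.1 ≠ 0 := fun k => n0 (by rw [← e1, k, zero_mul])
    refine Prod.ext e (mul_left_cancel₀ x0 ?_)
    rw [e1, e, e2]
  rw [← Finset.card_image_of_injOn inj]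
  refine (card_le_dv n0 _ fun d hd => ?_).trans ((h n n0).trans ?_)
  · obtain ⟨x, hx, rfl⟩ := Finset.mem_image.1 hd
    exact ⟨x.2, (Finset.mem_filter.1 hx).2.symm⟩
  · gcongr; exact N_nonneg _
theorem lbas_ftc {R v : ℝ} (hR : 0 < R) (h1 : R / 2 < v) (h2 : v ≤ R) (s : ℂ) :
    ((v / R : ℝ) : ℂ) ^ s = 1 - ∫ u in Set.Ioc (R / 2) R,
      (if v ≤ u then (1 : ℂ) else 0) * (s * ((u / R : ℝ) : ℂ) ^ (s - 1) / R) := by
  have e : ∀ u : ℝ, (if v ≤ u then (1 : ℂ) else 0) * (s * ((u / R : ℝ) : ℂ) ^ (s - 1) / R) =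
      (Set.Ici v).indicator (fun u : ℝ => s * ((u / R : ℝ) : ℂ) ^ (s - 1) / R) u := fun u => by
    simp only [Set.indicator, Set.mem_Ici]; split_ifs <;> simp
  simp only [e]
  rw [setIntegral_indicator measurableSet_Ici]
  have e2 : Set.Ioc (R / 2) R ∩ Set.Ici v = Set.Icc v R := by
    ext u; simp only [Set.mem_inter_iff, Set.mem_Ioc, Set.mem_Ici, Set.mem_Icc]
    constructor
    · rintro ⟨⟨-, a⟩, b⟩; exact ⟨b, a⟩
    · rintro ⟨a, b⟩; exact ⟨⟨by linarith, b⟩, a⟩
  rw [e2, integral_Icc_eq_integral_Ioc, ← intervalIntegral.integral_of_le h2]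
  have hd : ∀ u ∈ Set.uIcc v R, HasDerivAt (fun u : ℝ => ((u / R : ℝ) : ℂ) ^ s)
      (s * ((u / R : ℝ) : ℂ) ^ (s - 1) / R) u := by
    intro u hu
    rw [Set.uIcc_of_le h2] at hu
    have u0 : 0 < u / R := div_pos (by linarith [hu.1]) hR
    have d1 : HasDerivAt (fun z : ℂ => (z / R) ^ s) (s * ((u : ℂ) / R) ^ (s - 1) * (1 / R)) u :=
      ((hasDerivAt_id (u : ℂ)).div_const (R : ℂ)).cpow_const (by
        left; simpa using u0)
    have := d1.comp_ofReal
    push_cast
    convert this using 1; ring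
  have hc : ContinuousOn (fun u : ℝ => s * ((u / R : ℝ) : ℂ) ^ (s - 1) / R) (Set.uIcc v R) := by
    intro u hu
    rw [Set.uIcc_of_le h2] at hu
    have u0 : 0 < u / R := div_pos (by linarith [hu.1]) hR
    refine ContinuousAt.continuousWithinAt ?_
    refine (continuousAt_const.mul (ContinuousAt.cpow (by fun_prop) continuousAt_const ?_)).div_const _
    left; simpa using u0
  rw [intervalIntegral.integral_eq_sub_of_hasDerivAt hd hc.intervalIntegrable, div_self hR.ne']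
  simp
/-- Abel summation on a shell -/
theorem abel_sh : ∃ C : ℝ, 0 < C ∧ ∀ (a g : O → ℂ) (R B0 : ℝ) (l : O) (s : ℂ), Sh a R → l ≠ 0 →
    |s.re| ≤ 1 → (∀ y : ℝ, ‖∑ m ∈ ballN (y / N l), a (l * m) * g m‖ ≤ B0) → ∀ y : ℝ,
    ‖∑ m ∈ ballN (y / N l), a (l * m) * g m * ((N (l * m) / R : ℝ) : ℂ) ^ s‖ ≤
      C * (1 + |s.im|) * B0 := by
  refine ⟨3, by norm_num, fun a g R B0 l s ha hl hs h y => ?_⟩
  have B : 0 ≤ B0 := (norm_nonneg _).trans (h 0)
  have l0 := N_pos hl
  rcases le_or_gt R 0 with hR | hR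
  · have : ∀ n, a n = 0 := fun n => by
      by_contra k
      linarith [(ha n k).2.2, N_pos (ha n k).1.ne_zero]
    simp only [this, zero_mul, Finset.sum_const_zero, norm_zero]; positivity
  set φ : ℝ → ℂ := fun u => s * ((u / R : ℝ) : ℂ) ^ (s - 1) / R with hφ
  have hc : ContinuousOn φ (Set.Icc (R / 2) R) := by
    intro u hu
    have u0 : 0 < u / R := div_pos (by linarith [hu.1]) hR
    refine ContinuousAt.continuousWithinAt ?_
    refine (continuousAt_const.mul (ContinuousAt.cpow (by fun_prop) continuousAt_const ?_)).div_const _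
    left; simpa using u0
  have hi : IntegrableOn φ (Set.Ioc (R / 2) R) :=
    (hc.integrableOn_Icc).mono_set Set.Ioc_subset_Icc_self
  have hi' : ∀ (v : ℝ) (c : ℂ), IntegrableOn (fun u => c * ((if v ≤ u then (1 : ℂ) else 0) * φ u))
      (Set.Ioc (R / 2) R) := fun v c => by
    refine Integrable.const_mul ?_ c
    refine hi.bdd_mul (c := 1) ?_ (Eventually.of_forall fun u => by split_ifs <;> simp)
    exact (Measurable.ite measurableSet_Ici measurable_const measurable_const).aestronglyMeasurable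
  have e : ∑ m ∈ ballN (y / N l), a (l * m) * g m * ((N (l * m) / R : ℝ) : ℂ) ^ s =
      ∑ m ∈ ballN (y / N l), a (l * m) * g m - ∫ u in Set.Ioc (R / 2) R,
        (∑ m ∈ ballN (min u y / N l), a (l * m) * g m) * φ u := by
    have e1 : ∀ u : ℝ, (∑ m ∈ ballN (min u y / N l), a (l * m) * g m) * φ u =
        ∑ m ∈ ballN (y / N l), a (l * m) * g m * ((if N (l * m) ≤ u then (1 : ℂ) else 0) * φ u) := by
      intro u
      simp only [← mul_assoc]
      rw [← Finset.sum_mul]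
      congr 1
      simp only [mul_ite, mul_one, mul_zero]
      rw [← Finset.sum_filter]
      refine Finset.sum_congr ?_ fun _ _ => rfl
      ext m
      simp only [Finset.mem_filter, mem_ballN, le_div_iff₀ l0, le_min_iff, N_mul, mul_comm (N l)]
      tauto
    simp only [e1]
    rw [integral_finsetSum _ fun m _ => hi' _ _, ← Finset.sum_sub_distrib]
    refine Finset.sum_congr rfl fun m _ => ?_
    by_cases k : a (l * m) = 0
    · simp [k]
    rw [lbas_ftc hR (ha _ k).2.1 (ha _ k).2.2 s, integral_const_mul]; ring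
  have hs1 : ‖s‖ ≤ 1 + |s.im| := (Complex.norm_le_abs_re_add_abs_im s).trans (by linarith)
  have hb : ∀ u ∈ Set.Ioc (R / 2) R, ‖(∑ m ∈ ballN (min u y / N l), a (l * m) * g m) * φ u‖ ≤
      B0 * ((1 + |s.im|) * 4 / R) := fun u hu => by
    have x1 : 1 / 2 < u / R := by rw [lt_div_iff₀ hR]; linarith [hu.1]
    have x2 : u / R ≤ 1 := (div_le_one hR).2 hu.2
    rw [norm_mul]
    refine mul_le_mul (h _) ?_ (norm_nonneg _) B
    rw [hφ]
    simp only [norm_div, norm_mul, Complex.norm_real, Real.norm_of_nonneg hR.le]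
    rw [Complex.norm_cpow_eq_rpow_re_of_pos (by linarith)]
    have : (u / R) ^ (s - 1).re ≤ 4 := by
      have a1 : (u / R) ^ (s - 1).re ≤ (u / R) ^ (-2 : ℝ) :=
        Real.rpow_le_rpow_of_exponent_ge (by linarith) x2 (by simp; linarith [abs_le.1 hs])
      have a2 : (u / R) ^ (-2 : ℝ) ≤ (1 / 2 : ℝ) ^ (-2 : ℝ) :=
        Real.rpow_le_rpow_of_nonpos (by norm_num) x1.le (by norm_num)
      have a3 : (1 / 2 : ℝ) ^ (-2 : ℝ) = 4 := by
        rw [Real.rpow_neg (by norm_num)]; norm_num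
      linarith
    gcongr
  have hI := norm_setIntegral_le_of_norm_le_const (μ := volume) (measure_Ioc_lt_top) hb
  rw [Real.volume_real_Ioc_of_le (by linarith)] at hI
  rw [e]
  refine (norm_sub_le _ _).trans ?_
  have e3 : B0 * ((1 + |s.im|) * 4 / R) * (R - R / 2) = 2 * (1 + |s.im|) * B0 := by
    field_simp; ring
  have := h y
  have := mul_nonneg (abs_nonneg s.im) B
  nlinarith

end

end Vale.Agent.P006
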