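import Vale.Agent.P006.LBas
import Vale.Agent.P026.PV

namespace Vale.Agent.P006

open Vale.Agent.P026 Complex MeasureTheory Filter Topology
open scoped Classical ComplexConjugate Real MatrixGroups

noncomputable section

theorem pl_two : PL 2 := by
  intro ε hε
  obtain ⟨C, hC, h⟩ := pv
  obtain ⟨C1, hC1, h1⟩ := dv_le (half_pos hε)
  obtain ⟨C2, hC2, h2⟩ := card_ballO_le
  refine ⟨C * (1 + C1 ^ 2 * C2), by positivity, fun Z M R a1 a2 a3 a4 a => ?_⟩
  have hZ : 1 ≤ Z := a1.trans a2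
  have hz : 1 ≤ Z ^ ε := Real.one_le_rpow hZ hε.le
  have := h 2 R M a (by norm_num) (by norm_num) (by linarith)
  have e : ∀ m, ∑ n ∈ ballN R, a n * chi6 m n ^ 2 = ∑ n ∈ ballN R, a n * sym3 m n := fun m =>
    Finset.sum_congr rfl fun n hn => by rw [chi6_sq m (mem_ballN.1 hn).1.ne_zero]
  simp only [e] at this
  have n0 := nsq_nonneg (ballN R) a
  have b1 : (∑ n ∈ ballN R, ‖a n‖ * dv n * √(N n)) ^ 2 ≤
      nsq (ballN R) a * (C1 ^ 2 * C2 * Z ^ ε * R ^ 2) := by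
    simp only [mul_assoc]
    refine (Finset.sum_mul_sq_le_sq_mul_sq _ _ _).trans (mul_le_mul_of_nonneg_left ?_ n0)
    have : ∀ n ∈ ballN R, (dv n * √(N n)) ^ 2 ≤ C1 ^ 2 * Z ^ ε * R := fun n hn => by
      obtain ⟨k1, k2⟩ := mem_ballN.1 hn
      have d1 : dv n ≤ C1 * Z ^ (ε / 2) := (h1 n k1.ne_zero).trans (by
        gcongr; exact N_nonneg _; linarith)
      have d2 : (Z ^ (ε / 2)) ^ 2 = Z ^ ε := by
        rw [← Real.rpow_natCast, ← Real.rpow_mul (by linarith)]; congr 1; push_cast; ring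
      rw [mul_pow, Real.sq_sqrt (N_nonneg _), ← d2, ← mul_pow]
      gcongr
      · exact N_nonneg _
      · exact div_dv_nonneg _
    refine (Finset.sum_le_card_nsmul _ _ _ this).trans ?_
    rw [nsmul_eq_mul]
    have c : ((ballN R).card : ℝ) ≤ C2 * R :=
      le_trans (by exact_mod_cast Finset.card_le_card (dual_sub R)) (h2 R (by linarith))
    calc _ ≤ C2 * R * (C1 ^ 2 * Z ^ ε * R) := by gcongr
      _ = _ := by ring
  have b2 : 0 ≤ (M * R) ^ (2 / 3 : ℝ) := by positivity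
  have b3 : R ^ (2 : ℝ) = R ^ 2 := by norm_cast
  rw [b3]
  calc _ ≤ ∑ m ∈ ballO M, ‖∑ n ∈ ballN R, a n * sym3 m n‖ ^ 2 :=
        Finset.sum_le_sum_of_subset_of_nonneg (dual_sub M) fun _ _ _ => by positivity
    _ ≤ C * (M * nsq (ballN R) a + nsq (ballN R) a * (C1 ^ 2 * C2 * Z ^ ε * R ^ 2)) :=
        this.trans (by gcongr; rfl)
    _ = C * (M + C1 ^ 2 * C2 * Z ^ ε * R ^ 2) * nsq (ballN R) a := by ring
    _ ≤ _ := by
        have e : C * (1 + C1 ^ 2 * C2) * Z ^ ε * (M + (M * R) ^ (2 / 3 : ℝ) + R ^ 2) =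
          C * ((1 + C1 ^ 2 * C2) * Z ^ ε * (M + (M * R) ^ (2 / 3 : ℝ) + R ^ 2)) := by ring
        rw [e]
        refine mul_le_mul_of_nonneg_right (mul_le_mul_of_nonneg_left ?_ hC.le) n0
        have : 0 ≤ C1 ^ 2 * C2 * Z ^ ε := by positivity
        nlinarith [mul_nonneg this b2, mul_nonneg this (by linarith : 0 ≤ M), sq_nonneg R,
          mul_le_mul_of_nonneg_right hz (by linarith : 0 ≤ M),
          mul_nonneg (by linarith : 0 ≤ Z ^ ε) (add_nonneg b2 (sq_nonneg R))]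

end

end Vale.Agent.P006
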