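import Vale.Agent.P026.Lat
import Vale.Agent.P026.Rs

namespace Vale.Agent.P006

open Vale.Agent.P026 Complex MeasureTheory Filter Topology
open scoped Classical ComplexConjugate Real MatrixGroups

noncomputable section

/-- the lattice cell containing `w` -/
def lcCell (k : O) : Set ℂ :=
  {w | ⌊w.re + w.im / √3⌋ = k.re ∧ ⌊2 * w.im / √3⌋ = k.im}

theorem lc_meas (k : O) : MeasurableSet (lcCell k) := by
  unfold lcCell
  refine MeasurableSet.inter ?_ ?_
  · exact measurableSet_eq_fun (by fun_prop) measurable_const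
  · exact measurableSet_eq_fun (by fun_prop) measurable_const

theorem lc_vol (k : O) : volume (lcCell k) = ENNReal.ofReal (√3 / 2) := by
  have h3 : (0 : ℝ) < √3 := by positivity
  have hp := Complex.volume_preserving_equiv_real_prod.symm
  rw [← hp.measure_preimage (lc_meas k).nullMeasurableSet, Measure.volume_eq_prod,
    Measure.prod_apply_symm (hp.measurable (lc_meas k))]
  have : ∀ y : ℝ, volume ((fun x : ℝ => (x, y)) ⁻¹'
      (Complex.measurableEquivRealProd.symm ⁻¹' lcCell k)) =
      (Set.Ico (k.im * √3 / 2) ((k.im + 1) * √3 / 2)).indicator (fun _ => 1) y := by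
    intro y
    by_cases hy : ⌊2 * y / √3⌋ = k.im
    · have h1 : (fun x : ℝ => (x, y)) ⁻¹' (Complex.measurableEquivRealProd.symm ⁻¹' lcCell k) =
          Set.Ico (k.re - y / √3) (k.re + 1 - y / √3) := by
        ext x
        simp only [lcCell, Set.mem_preimage, Complex.measurableEquivRealProd_symm_apply,
          Set.mem_ofPred_eq, hy, and_true, Set.mem_Ico]
        rw [Int.floor_eq_iff]
        constructor <;> rintro ⟨a, b⟩ <;> constructor <;> linarith
      rw [h1, Set.indicator_of_mem, Real.volume_Ico]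
      · norm_num
      · rw [Int.floor_eq_iff, le_div_iff₀ h3, div_lt_iff₀ h3] at hy
        constructor <;> linarith [hy.1, hy.2]
    · have h1 : (fun x : ℝ => (x, y)) ⁻¹' (Complex.measurableEquivRealProd.symm ⁻¹' lcCell k) =
          ∅ := by
        ext x
        simp only [lcCell, Set.mem_preimage, Complex.measurableEquivRealProd_symm_apply,
          Set.mem_ofPred_eq, hy, and_false, Set.mem_empty_iff_false]
      rw [h1, Set.indicator_of_notMem, measure_empty]
      intro h
      apply hy
      rw [Int.floor_eq_iff, le_div_iff₀ h3, div_lt_iff₀ h3]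
      constructor <;> linarith [h.1, h.2]
  simp only [this]
  rw [lintegral_indicator_const measurableSet_Ico, one_mul, Real.volume_Ico]
  congr 1
  ring

theorem lc_near {k : O} {w : ℂ} (h : w ∈ lcCell k) : ‖w - toC k‖ ≤ 1 := by
  obtain ⟨h1, h2⟩ := h
  have h3 : (0 : ℝ) < √3 := by positivity
  have h4 : √3 * √3 = 3 := Real.mul_self_sqrt (by norm_num)
  rw [Int.floor_eq_iff] at h1 h2
  set s : ℝ := w.re + w.im / √3 - k.re with hs
  set t : ℝ := 2 * w.im / √3 - k.im with ht
  have e1 : (w - toC k).re = s - t / 2 := by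
    rw [sub_re, bas_toC_re, hs, ht]; ring
  have e2 : (w - toC k).im = √3 / 2 * t := by
    rw [sub_im, bas_toC_im, ht]; field_simp
  have e3 : ‖w - toC k‖ ^ 2 = s ^ 2 - s * t + t ^ 2 := by
    rw [← Complex.normSq_eq_norm_sq, normSq_apply, e1, e2]
    linear_combination (t ^ 2 / 4) * h4
  have a1 : 0 ≤ s := by linarith [h1.1]
  have a2 : s ≤ 1 := by linarith [h1.2]
  have a3 : 0 ≤ t := by linarith [h2.1]
  have a4 : t ≤ 1 := by linarith [h2.2]
  have : ‖w - toC k‖ ^ 2 ≤ 1 := by
    rw [e3]
    rcases le_total s t with h | h <;> nlinarith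
  nlinarith [norm_nonneg (w - toC k)]

theorem lc_union (S : Finset O) :
    volume (⋃ k ∈ S, lcCell k) = ENNReal.ofReal (S.card * (√3 / 2)) := by
  rw [measure_biUnion_finset _ (fun k _ => lc_meas k)]
  · simp only [lc_vol, Finset.sum_const, nsmul_eq_mul]
    rw [ENNReal.ofReal_mul (Nat.cast_nonneg _), ENNReal.ofReal_natCast]
  · intro a _ b _ hab
    rw [Function.onFun, Set.disjoint_left]
    rintro w ⟨a1, a2⟩ ⟨b1, b2⟩
    exact hab (by ext <;> simp [← a1, ← a2, ← b1, ← b2])

theorem lc_ball (z : ℂ) {r : ℝ} (hr : 0 ≤ r) :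
    volume (Metric.closedBall z r) = ENNReal.ofReal (π * r ^ 2) := by
  rw [Complex.volume_closedBall, mul_comm, ENNReal.ofReal_mul Real.pi_pos.le,
    ENNReal.ofReal_pow hr]
  congr 1
  exact ENNReal.ofReal_coe_nnreal.symm

theorem lc_count (z : ℂ) {T : ℝ} (hT : 0 ≤ T) (S : Finset O)
    (hS : ∀ k, k ∈ S ↔ normSq (z + toC k) ≤ T) :
    |(S.card : ℝ) - kap * T| ≤ 8 * (√T + 1) := by
  have h3 : (0 : ℝ) < √3 := by positivity
  have h4 : √3 * √3 = 3 := Real.mul_self_sqrt (by norm_num)
  have h5 : (1.7 : ℝ) ≤ √3 := Real.le_sqrt_of_sq_le (by norm_num)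
  have hpi := Real.pi_lt_d2
  have hpi0 := Real.pi_pos
  have hr := Real.sqrt_nonneg T
  have hr2 := Real.sq_sqrt hT
  have hS' : ∀ k, k ∈ S ↔ ‖z + toC k‖ ≤ √T := fun k => by
    rw [hS, Complex.normSq_eq_norm_sq, Real.le_sqrt (norm_nonneg _) hT]
  have hk : kap * (√3 / 2) = π := by unfold kap; field_simp
  have hk4 : kap ≤ 4 := by
    unfold kap; rw [div_le_iff₀ h3]; nlinarith
  have hk0 := kap_pos
  have up : (S.card : ℝ) * (√3 / 2) ≤ π * (√T + 1) ^ 2 := by
    rw [← ENNReal.ofReal_le_ofReal_iff (by positivity), ← lc_union, ← lc_ball (-z) (by positivity)]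
    refine measure_mono fun w hw => ?_
    simp only [Set.mem_iUnion] at hw
    obtain ⟨k, hk, hw⟩ := hw
    rw [Metric.mem_closedBall, dist_eq_norm]
    calc ‖w - -z‖ = ‖(z + toC k) + (w - toC k)‖ := by congr 1; ring
      _ ≤ ‖z + toC k‖ + ‖w - toC k‖ := norm_add_le _ _
      _ ≤ _ := add_le_add ((hS' k).1 hk) (lc_near hw)
  have lo : π * (T - 2 * √T) ≤ (S.card : ℝ) * (√3 / 2) := by
    rcases le_total (√T) 1 with h | h
    · have : T - 2 * √T ≤ 0 := by nlinarith
      have h0 : (0 : ℝ) ≤ (S.card : ℝ) * (√3 / 2) := by positivity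
      nlinarith
    · have : π * (√T - 1) ^ 2 ≤ (S.card : ℝ) * (√3 / 2) := by
        rw [← ENNReal.ofReal_le_ofReal_iff (by positivity), ← lc_union,
          ← lc_ball (-z) (by linarith)]
        refine measure_mono fun w hw => ?_
        simp only [Set.mem_iUnion]
        have hw' : w ∈ lcCell ⟨⌊w.re + w.im / √3⌋, ⌊2 * w.im / √3⌋⟩ := ⟨rfl, rfl⟩
        refine ⟨_, (hS' _).2 ?_, hw'⟩
        rw [Metric.mem_closedBall, dist_eq_norm] at hw
        have := lc_near hw'
        generalize toC ⟨⌊w.re + w.im / √3⌋, ⌊2 * w.im / √3⌋⟩ = c at this ⊢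
        calc ‖z + c‖ = ‖(w - -z) - (w - c)‖ := by congr 1; ring
          _ ≤ ‖w - -z‖ + ‖w - c‖ := norm_sub_le _ _
          _ ≤ _ := by linarith
      nlinarith
  have h6 : (0 : ℝ) < √3 / 2 := by positivity
  rw [← hk] at up lo
  have up' : (S.card : ℝ) ≤ kap * (√T + 1) ^ 2 := by
    refine le_of_mul_le_mul_right ?_ h6
    linarith
  have lo' : kap * (T - 2 * √T) ≤ (S.card : ℝ) := by
    refine le_of_mul_le_mul_right ?_ h6
    linarith
  rw [abs_le]
  constructor <;> nlinarith

theorem lat_count' (q x : O) (u : ℝ) (hq : q ≠ 0) (hu : 0 ≤ u) :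
    |(((ballO u).filter (fun n => q ∣ n - x)).card : ℝ) - kap * u / N q| ≤
      9 * (√(u / N q) + 1) := by
  have hN := N_pos hq
  have hq' := toC_ne_zero hq
  obtain ⟨C, -, hC⟩ := card_near
  have hT : 0 ≤ u / N q := by positivity
  set S := (hC (toC x / toC q) (u / N q) hT).1.toFinset with hSdef
  have hS : ∀ k, k ∈ S ↔ normSq (toC x / toC q + toC k) ≤ u / N q := fun k => by
    simp [hSdef]
  have key : ∀ k : O, normSq (toC x / toC q + toC k) = N (x + q * k) / N q := fun k => by
    rw [← normSq_toC, ← normSq_toC, ← Complex.normSq_div, map_add toC, map_mul toC]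
    congr 1
    field_simp
  have h1 := lc_count _ hT S hS
  have hinj : Function.Injective fun k : O => x + q * k := fun a b h =>
    mul_left_cancel₀ hq (add_left_cancel h)
  have h2 : (ballO u).filter (fun n => q ∣ n - x) = (S.image fun k => x + q * k).erase 0 := by
    ext n
    rw [Finset.mem_filter, mem_ballO, Finset.mem_erase, Finset.mem_image]
    constructor
    · rintro ⟨⟨a, b⟩, k, hk⟩
      have : x + q * k = n := by rw [← hk]; ring
      refine ⟨a, k, (hS k).2 ?_, this⟩
      rw [key, this]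
      gcongr
    · rintro ⟨a, k, hk, rfl⟩
      rw [hS, key, div_le_div_iff_of_pos_right hN] at hk
      exact ⟨⟨a, hk⟩, k, by ring⟩
  have h3 : ((S.image fun k => x + q * k).erase 0).card ≤ S.card := by
    rw [← Finset.card_image_of_injective S hinj]
    exact Finset.card_erase_le
  have h4 : S.card - 1 ≤ ((S.image fun k => x + q * k).erase 0).card := by
    rw [← Finset.card_image_of_injective S hinj]
    exact Finset.pred_card_le_card_erase
  have h5 : (S.card : ℝ) ≤ ((S.image fun k => x + q * k).erase 0).card + 1 := by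
    have : S.card ≤ ((S.image fun k => x + q * k).erase 0).card + 1 := by omega
    exact_mod_cast this
  have h6 : (((S.image fun k => x + q * k).erase 0).card : ℝ) ≤ S.card := by exact_mod_cast h3
  rw [h2, mul_div_assoc]
  have := Real.sqrt_nonneg (u / N q)
  rw [abs_le] at h1 ⊢
  constructor <;> linarith [h1.1, h1.2]

end

end Vale.Agent.P006
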