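import Vale.Agent.P006.Bas

namespace Vale.Agent.P006

open Vale.Agent.P026 Complex MeasureTheory Filter Topology
open scoped Classical ComplexConjugate Real MatrixGroups

noncomputable section

theorem nt_w {u D : O} (hu : IsUnit u) (k : ℕ) (hD : (9 : O) ∣ D - 1) :
    sym3 (u * lam ^ k) D = 1 := by
  rw [sym3_mul_left, sym3_pow_left, sym3_unit_of_nine hD hu, sym3_lam_of_nine hD]; simp

theorem nt_pow_ne {z : ℂ} (h3 : z ^ 3 = 1) (h1 : z ≠ 1) {k : ℕ} (hk : ¬ 3 ∣ k) : z ^ k ≠ 1 := by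
  intro h
  have e : z ^ (k % 3) = 1 := by
    have := Nat.div_add_mod k 3
    rw [← this, pow_add, pow_mul, h3, one_pow, one_mul] at h
    exact h
  have hk' : k % 3 = 1 ∨ k % 3 = 2 := by omega
  rcases hk' with h' | h'
  · rw [h', pow_one] at e; exact h1 e
  · rw [h'] at e
    apply h1
    have : z ^ 3 = z ^ 2 * z := by ring
    rw [this, e, one_mul] at h3
    exact h3

theorem nt_prim_two : Prim (-2 : O) := ⟨-1, by norm_num⟩

theorem nt_w_ne {u : O} (hu : IsUnit u) (k : ℕ) (hc : ¬ IsCube (u * lam ^ k)) :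
    ∃ D : O, Prim D ∧ sym3 (u * lam ^ k) D ≠ 1 := by
  have hl2 : sym3 lam (-2) = 1 := by
    have : sym3 lam (-2) = sym3 1 (-2) := sym3_congr ⟨-om, by ext <;> simp [lam, om, QuadraticAlgebra.re_one, QuadraticAlgebra.im_one, QuadraticAlgebra.re_ofNat, QuadraticAlgebra.im_ofNat]⟩
    rw [this, sym3_one_left]
  have hN2 : Nm (-2 : O) = 4 := by
    have h1 : N (-2 : O) = 4 := by rw [N_neg, N_ofNat]; norm_num
    unfold N at h1; exact_mod_cast h1
  have hom : sym3 om (-2) = omC := by rw [sym3_om nt_prim_two, hN2]; norm_num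
  have hom2 : omC ^ 2 ≠ 1 := nt_pow_ne omC_cube omC_ne_one (by norm_num)
  by_cases hk : 3 ∣ k
  · obtain ⟨j, rfl⟩ := hk
    rcases unit_cases hu with h | h | h | h | h | h <;> subst h
    · exact absurd ⟨lam ^ j, by ring⟩ hc
    · exact absurd ⟨-lam ^ j, by ring⟩ hc
    all_goals refine ⟨-2, nt_prim_two, ?_⟩
    all_goals simp only [sym3_mul_left, sym3_pow_left, sup_neg, hl2, hom, one_pow, mul_one]
    · exact omC_ne_one
    · exact omC_ne_one
    · exact hom2
    · exact hom2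
  · have hP : Prim (1 - 3 * lam) := ⟨-lam, by ring⟩
    have hcop : IsCoprime lam (1 - 3 * lam) := ⟨3, 1, by ring⟩
    have h3 := sym3_cube hcop
    have h1 : sym3 lam (1 - 3 * lam) ≠ 1 := by
      intro h
      apply sym3_three_ne
      have : (3 : O) = -lam ^ 2 := by rw [lam_sq]; ring
      conv_lhs => rw [show sym3 3 (1 - 3 * lam) = sym3 (-lam ^ 2) (1 - 3 * lam) from by rw [← this]]
      rw [sup_neg, sym3_pow_left, h]; simp
    rcases unit_cases hu with h | h | h | h | h | h <;> subst h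
    · refine ⟨_, hP, ?_⟩
      rw [one_mul, sym3_pow_left]; exact nt_pow_ne h3 h1 hk
    · refine ⟨_, hP, ?_⟩
      rw [neg_one_mul, sup_neg, sym3_pow_left]; exact nt_pow_ne h3 h1 hk
    all_goals refine ⟨-2, nt_prim_two, ?_⟩
    all_goals simp only [sym3_mul_left, sym3_pow_left, sup_neg, hl2, hom, one_pow, mul_one]
    · exact omC_ne_one
    · exact omC_ne_one
    · exact hom2
    · exact hom2

theorem nt_core {h c : O} (hh : h ≠ 0) (hc : ¬ IsCube h) (hc0 : c ≠ 0) (hhc : h ∣ c) :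
    ∃ b : O, Prim b ∧ IsCoprime c b ∧ sym3 h b ≠ 1 := by
  obtain ⟨u, k, y, hu, hy, rfl⟩ := exists_unit_lam_prim hh
  obtain ⟨n0, d, hn0, hd, rfl, hs⟩ := cube_decomp hy
  have hdc : d ∣ c := Dvd.dvd.trans ⟨u * lam ^ k * n0 * d ^ 2, by ring⟩ hhc
  have h93 : (3 : O) ∣ 9 := ⟨3, by norm_num⟩
  by_cases h1 : n0 = 1
  · subst h1
    have hw : ¬ IsCube (u * lam ^ k) := by
      rintro ⟨z, hz⟩
      exact hc ⟨z * d, by rw [hz]; ring⟩
    obtain ⟨D, hD, hne⟩ := nt_w_ne hu k hw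
    have hD9 : IsCoprime D 9 := by
      have := hD.coprime_three.pow_right (n := 2)
      norm_num at this; exact this
    obtain ⟨j, hj⟩ := exists_coprime_shift hc0 hD9
    have hb : Prim (D + j * 9) := hD.congr ⟨-(j * 3), by ring⟩
    refine ⟨D + j * 9, hb, hj, ?_⟩
    have hcd : IsCoprime d (D + j * 9) := hj.of_isCoprime_of_dvd_left hdc
    rw [sym3_mul_left, one_mul, sym3_pow_left d, sym3_cube hcd, mul_one,
      sup_nine (fun D hD => nt_w hu k hD) hb hD ⟨j, by ring⟩]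
    exact hne
  · obtain ⟨p, m, hp, hP, hm, rfl⟩ := bas_prime_factor hn0 h1
    obtain ⟨j, n', hj3, hn', hpn, hm'⟩ : ∃ (j : ℕ) (n' : O), ¬ 3 ∣ j ∧ Prim n' ∧ ¬ p ∣ n' ∧
        p * m = p ^ j * n' := by
      by_cases hpm : p ∣ m
      · obtain ⟨m', rfl⟩ := hpm
        refine ⟨2, m', by norm_num, hm.of_mul hP, ?_, by ring⟩
        rintro ⟨m'', rfl⟩
        exact hs p hp ⟨m'', by ring⟩
      · exact ⟨1, m, by norm_num, hm, hpm, by ring⟩
    obtain ⟨x, hx, hxne⟩ := exists_sym3_ne hp hP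
    have hp9 : IsCoprime p 9 := by
      have := hP.coprime_three.pow_right (n := 2)
      norm_num at this; exact this
    have hpn' : IsCoprime p n' := (hp.irreducible.coprime_iff_not_dvd).2 hpn
    have hcop : IsCoprime p (9 * n') := hp9.mul_right hpn'
    obtain ⟨b0, hb1, hb2⟩ := exists_crt hcop x 1
    have hpx : IsCoprime x p := ((hp.irreducible.coprime_iff_not_dvd).2 hx).symm
    have hb0p : IsCoprime b0 p := by
      obtain ⟨t, ht⟩ := hb1
      have : b0 = x + p * t := by rw [← ht]; ring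
      rw [this]; exact hpx.add_mul_left_left t
    have hb0n : IsCoprime b0 (9 * n') := by
      obtain ⟨t, ht⟩ := hb2
      have : b0 = 1 + 9 * n' * t := by rw [← ht]; ring
      rw [this]; exact isCoprime_one_left.add_mul_left_left t
    obtain ⟨i, hi⟩ := exists_coprime_shift hc0 (hb0p.mul_right hb0n)
    set b := b0 + i * (p * (9 * n')) with hbdef
    have hb9n : 9 * n' ∣ b - 1 := by
      have : b - 1 = (b0 - 1) + 9 * n' * (i * p) := by rw [hbdef]; ring
      rw [this]; exact dvd_add hb2 (dvd_mul_right _ _)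
    have hb9 : (9 : O) ∣ b - 1 := (dvd_mul_right _ _).trans hb9n
    have hb : Prim b := sup_prim hb9
    have hbp : p ∣ b - x := by
      have : b - x = (b0 - x) + p * (i * (9 * n')) := by rw [hbdef]; ring
      rw [this]; exact dvd_add hb1 (dvd_mul_right _ _)
    refine ⟨b, hb, hi, ?_⟩
    have hcd : IsCoprime d b := hi.of_isCoprime_of_dvd_left hdc
    have e1 : sym3 n' b = 1 := by
      rw [cubic_recip hn' hb, sym3_congr ((dvd_mul_left _ _).trans hb9n), sym3_one_left]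
    have e2 : sym3 p b = sym3 x p := by rw [cubic_recip hP hb, sym3_congr hbp]
    rw [sym3_mul_left, nt_w hu k hb9, one_mul, sym3_mul_left, sym3_pow_left d, sym3_cube hcd,
      mul_one, hm', sym3_mul_left, e1, mul_one, sym3_pow_left, e2]
    exact nt_pow_ne (sym3_cube hpx) hxne hj3

theorem nt_per {h M : O} :
    Per (18 * h * M) (fun x => if Prim x ∧ OddO x ∧ IsCoprime x M then sym3 h x else 0) := by
  have key : ∀ x y : O, 18 * h * M ∣ x - y → (Prim x ∧ OddO x ∧ IsCoprime x M) →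
      (Prim y ∧ OddO y ∧ IsCoprime y M) := by
    rintro x y ⟨t, ht⟩ ⟨h1, h2, h3⟩
    refine ⟨h1.congr ⟨6 * h * M * t, by rw [ht]; ring⟩, h2.congr ⟨9 * h * M * t, by rw [ht]; ring⟩, ?_⟩
    have : y = x + M * (-(18 * h * t)) := by linear_combination -ht
    rw [this]; exact h3.add_mul_left_left _
  intro x y hxy
  have hyx : 18 * h * M ∣ y - x := by rw [← neg_sub]; exact hxy.neg_right
  by_cases hx : Prim x ∧ OddO x ∧ IsCoprime x M
  · have hy := key x y hxy hx
    simp only [if_pos hx, if_pos hy]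
    obtain ⟨t, ht⟩ := hxy
    exact sym3_SYM hx.1 hy.1 ⟨2 * h * M * t, by rw [ht]; ring⟩ ⟨18 * M * t, by rw [ht]; ring⟩
  · have hy : ¬ (Prim y ∧ OddO y ∧ IsCoprime y M) := fun hy => hx (key y x hyx hy)
    simp only [if_neg hx, if_neg hy]

/-- a non-cube gives a nontrivial character on odd primary elements -/
theorem nt {h : O} (hh : h ≠ 0) (hc : ¬ IsCube h) (M : O) (hM : M ≠ 0) :
    ∃ b : O, Prim b ∧ OddO b ∧ IsCoprime b M ∧ IsCoprime h b ∧ sym3 h b ≠ 1 := by
  have h2 : (2 : O) ≠ 0 := prime_two.ne_zero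
  obtain ⟨b, hb, hcop, hne⟩ := nt_core (c := 2 * h * M) hh hc (mul_ne_zero (mul_ne_zero h2 hh) hM)
    ⟨2 * M, by ring⟩
  refine ⟨b, hb, oddO_iff_coprime.2 ?_, ?_, ?_, hne⟩
  · exact (hcop.of_isCoprime_of_dvd_left ⟨h * M, by ring⟩).symm
  · exact (hcop.of_isCoprime_of_dvd_left ⟨2 * h, by ring⟩).symm
  · exact hcop.of_isCoprime_of_dvd_left ⟨2 * M, by ring⟩
/-- complete sums of a nontrivial cubic character vanish -/
theorem nt_sum {h M : O} (hh : h ≠ 0) (hc : ¬ IsCube h) (hM : M ≠ 0) :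
    ∑ x ∈ rs (18 * h * M), (if Prim x ∧ OddO x ∧ IsCoprime x M then sym3 h x else 0) = 0 := by
  have h18 : (18 : O) ≠ 0 := by
    intro h0
    have := congrArg N h0
    rw [N_ofNat, N_zero] at this; norm_num at this
  have hq : 18 * h * M ≠ 0 := mul_ne_zero (mul_ne_zero h18 hh) hM
  obtain ⟨b, hb, hbo, hbq, -, hne⟩ := nt hh hc _ hq
  have hbM : IsCoprime b M := hbq.of_isCoprime_of_dvd_right ⟨18 * h, by ring⟩
  have e := sum_rs_mul hq hbq (nt_per (h := h) (M := M))
  have e2 : ∀ x : O, (if Prim (b * x) ∧ OddO (b * x) ∧ IsCoprime (b * x) M then sym3 h (b * x) else 0) =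
      sym3 h b * (if Prim x ∧ OddO x ∧ IsCoprime x M then sym3 h x else 0) := by
    intro x
    by_cases hx : Prim x ∧ OddO x ∧ IsCoprime x M
    · rw [if_pos hx, if_pos ⟨hb.mul hx.1, oddO_mul.2 ⟨hbo, hx.2.1⟩, hbM.mul_left hx.2.2⟩,
        sym3_mul_right _ hb.ne_zero hx.1.ne_zero]
    · rw [if_neg hx, if_neg, mul_zero]
      rintro ⟨h1, h2, h3⟩
      exact hx ⟨h1.of_mul hb, (oddO_mul.1 h2).2, h3.of_mul_left_right⟩
  simp only [e2, ← Finset.mul_sum] at e
  have : (sym3 h b - 1) * ∑ x ∈ rs (18 * h * M),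
      (if Prim x ∧ OddO x ∧ IsCoprime x M then sym3 h x else 0) = 0 := by
    rw [sub_mul, e, one_mul, sub_self]
  exact (mul_eq_zero.1 this).resolve_left (sub_ne_zero.2 hne)
theorem per_sym3 {h M : O} (hh : h ≠ 0) :
    Per (18 * h * M) (fun x => if Prim x ∧ OddO x ∧ IsCoprime x M then sym3 h x else 0) := by
  exact nt_per

end

end Vale.Agent.P006
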