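import Vale.Agent.P006.TH
import Vale.Agent.P006.NT
import Vale.Agent.P006.LC1

namespace Vale.Agent.P006

open Vale.Agent.P026 Complex MeasureTheory Filter Topology
open scoped Classical ComplexConjugate Real MatrixGroups

noncomputable section

theorem lat_count : ∃ C : ℝ, 0 < C ∧ ∀ (q x : O) (u : ℝ), q ≠ 0 → 0 ≤ u →
    |(((ballO u).filter (fun n => q ∣ n - x)).card : ℝ) - kap * u / N q| ≤
      C * (√(u / N q) + 1) := ⟨9, by norm_num, lat_count'⟩

theorem lc_kap : kap ≤ 4 := by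
  have h5 : (1.7 : ℝ) ≤ √3 := Real.le_sqrt_of_sq_le (by norm_num)
  have hpi := Real.pi_lt_d2
  unfold kap
  rw [div_le_iff₀ (by positivity)]
  nlinarith

theorem lc_base {q : O} (hq : q ≠ 0) {f : O → ℂ} (hf : Per q f) (h1 : ∀ n, ‖f n‖ ≤ 1) {y : ℝ}
    (hy : 0 ≤ y) :
    ‖∑ m ∈ ballO y, f m - (∑ x ∈ rs q, f x) * ((kap / N q : ℝ) : ℂ) * y‖ ≤ 18 * N q * √y := by
  have hN := one_le_N hq
  have hs := Real.sqrt_nonneg y
  have hk := kap_pos
  have hk4 := lc_kap
  have hc : ((rs q).card : ℝ) = N q := by rw [card_rs hq]; rfl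
  rcases lt_or_ge y 1 with h | h
  · rw [ballO_eq_empty h, Finset.sum_empty, zero_sub, norm_neg, norm_mul, norm_mul,
      Complex.norm_real, Complex.norm_real, Real.norm_of_nonneg hy,
      Real.norm_of_nonneg (by positivity)]
    have a1 : ‖∑ x ∈ rs q, f x‖ ≤ N q := by
      refine (norm_sum_le _ _).trans ?_
      rw [← hc]
      simpa using Finset.sum_le_card_nsmul (rs q) _ 1 (fun x _ => h1 x)
    have a2 : y ≤ √y := Real.le_sqrt_of_sq_le (by nlinarith)
    calc ‖∑ x ∈ rs q, f x‖ * (kap / N q) * y ≤ N q * (kap / N q) * √y := by gcongr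
      _ = kap * √y := by field_simp
      _ ≤ _ := by nlinarith
  · have e1 : ∑ m ∈ ballO y, f m =
        ∑ x ∈ rs q, f x * (((ballO y).filter (fun n => q ∣ n - x)).card : ℂ) := by
      have : ∀ m, f m = ∑ x ∈ rs q, (if q ∣ m - x then f x else 0) := fun m => by
        rw [← sum_class hq m (f m)]
        refine Finset.sum_congr rfl fun x _ => ?_
        split_ifs with hx
        · exact hf _ _ hx
        · rfl
      rw [Finset.sum_congr rfl fun m _ => this m, Finset.sum_comm]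
      refine Finset.sum_congr rfl fun x _ => ?_
      rw [← Finset.sum_filter, Finset.sum_const, nsmul_eq_mul, mul_comm]
    rw [e1, Finset.sum_mul, Finset.sum_mul, ← Finset.sum_sub_distrib]
    have a1 : √(y / N q) ≤ √y := Real.sqrt_le_sqrt (div_le_self hy hN)
    have a2 : 1 ≤ √y := Real.one_le_sqrt.2 h
    refine (norm_sum_le _ _).trans ?_
    have a3 : ∀ x ∈ rs q, ‖f x * (((ballO y).filter (fun n => q ∣ n - x)).card : ℂ) -
        f x * ((kap / N q : ℝ) : ℂ) * y‖ ≤ 18 * √y := fun x _ => by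
      have b1 := lat_count' q x y hq hy
      have b2 : f x * (((ballO y).filter (fun n => q ∣ n - x)).card : ℂ) -
          f x * ((kap / N q : ℝ) : ℂ) * y = f x *
          (((((ballO y).filter (fun n => q ∣ n - x)).card : ℝ) - kap * y / N q : ℝ) : ℂ) := by
        push_cast; ring
      rw [b2, norm_mul, Complex.norm_real, Real.norm_eq_abs]
      calc _ ≤ 1 * (9 * (√(y / N q) + 1)) := by gcongr; exact h1 x
        _ ≤ _ := by linarith
    have := Finset.sum_le_card_nsmul (rs q) _ _ a3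
    rw [nsmul_eq_mul, hc] at this
    linarith

theorem lc_dvd {d : O} (hd : d ≠ 0) (φ : O → ℂ) (y : ℝ) :
    ∑ m ∈ ballO y, (if d ∣ m then φ m else 0) = ∑ m ∈ ballO (y / N d), φ (d * m) := by
  have hN := N_pos hd
  rw [← Finset.sum_filter]
  symm
  refine Finset.sum_bij (fun m _ => d * m) (fun m hm => ?_) (fun a _ b _ h => ?_)
    (fun m hm => ?_) (fun _ _ => rfl)
  · rw [mem_ballO] at hm
    rw [Finset.mem_filter, mem_ballO, N_mul]
    exact ⟨⟨mul_ne_zero hd hm.1, by rw [mul_comm]; exact (le_div_iff₀ hN).1 hm.2⟩,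
      dvd_mul_right _ _⟩
  · exact mul_left_cancel₀ hd h
  · rw [Finset.mem_filter, mem_ballO] at hm
    obtain ⟨⟨a, b⟩, e, rfl⟩ := hm
    refine ⟨e, mem_ballO.2 ⟨right_ne_zero_of_mul a, ?_⟩, rfl⟩
    rw [le_div_iff₀ hN, mul_comm, ← N_mul]
    exact b

theorem lc_cop {f : O → ℂ} (h1 : ∀ n, ‖f n‖ ≤ 1) (hm : ∀ a b, Prim a → f (a * b) = f a * f b)
    {c : ℂ} {E : ℝ} (h : ∀ y : ℝ, 0 ≤ y → ‖∑ m ∈ ballO y, f m - c * y‖ ≤ E * √y)
    (P : Finset O) (hP : ∀ p ∈ P, Prime p ∧ Prim p) : ∀ y : ℝ, 0 ≤ y →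
    ‖∑ m ∈ ballO y, (if ∀ p ∈ P, ¬ p ∣ m then f m else 0) -
        c * (∏ p ∈ P, (1 - f p / (N p : ℂ))) * y‖ ≤
      E * (∏ p ∈ P, (1 + (√(N p))⁻¹)) * √y := by
  induction P using Finset.induction_on with
  | empty => simpa using h
  | insert p P hp ih =>
    intro y hy
    obtain ⟨hpp, hpP⟩ := hP p (Finset.mem_insert_self _ _)
    have hP' : ∀ q ∈ P, Prime q ∧ Prim q := fun q hq => hP q (Finset.mem_insert_of_mem hq)
    have hN := N_pos hpp.ne_zero
    have a1 := ih hP' y hy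
    have a2 := ih hP' (y / N p) (by positivity)
    have e1 : ∑ m ∈ ballO y, (if ∀ q ∈ insert p P, ¬ q ∣ m then f m else 0) =
        ∑ m ∈ ballO y, (if ∀ q ∈ P, ¬ q ∣ m then f m else 0) -
          f p * ∑ m ∈ ballO (y / N p), (if ∀ q ∈ P, ¬ q ∣ m then f m else 0) := by
      have e2 : f p * ∑ m ∈ ballO (y / N p), (if ∀ q ∈ P, ¬ q ∣ m then f m else 0) =
          ∑ m ∈ ballO y, (if p ∣ m then (if ∀ q ∈ P, ¬ q ∣ m then f m else 0) else 0) := by
        rw [lc_dvd hpp.ne_zero, Finset.mul_sum]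
        refine Finset.sum_congr rfl fun m _ => ?_
        have : (∀ q ∈ P, ¬ q ∣ p * m) ↔ ∀ q ∈ P, ¬ q ∣ m := by
          refine ⟨fun h2 q hq h => h2 q hq (h.mul_left p), fun h2 q hq h => ?_⟩
          rcases (hP' q hq).1.dvd_or_dvd h with h | h
          · have := (hP' q hq).2.eq_of_associated hpP
              (((hP' q hq).1.irreducible.dvd_irreducible_iff_associated hpp.irreducible).1 h)
            exact hp (this ▸ hq)
          · exact h2 q hq h
        by_cases h2 : ∀ q ∈ P, ¬ q ∣ m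
        · rw [if_pos h2, if_pos (this.2 h2), hm _ _ hpP]
        · rw [if_neg h2, if_neg (fun h' => h2 (this.1 h')), mul_zero]
      rw [e2, ← Finset.sum_sub_distrib]
      refine Finset.sum_congr rfl fun m _ => ?_
      simp only [Finset.forall_mem_insert]
      by_cases h2 : p ∣ m <;> by_cases h3 : ∀ q ∈ P, ¬ q ∣ m <;> simp [h2, h3]
    rw [e1, Finset.prod_insert hp, Finset.prod_insert hp]
    generalize (∑ m ∈ ballO y, (if ∀ q ∈ P, ¬ q ∣ m then f m else 0)) = A at a1 ⊢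
    generalize (∑ m ∈ ballO (y / N p), (if ∀ q ∈ P, ¬ q ∣ m then f m else 0)) = B at a2 ⊢
    generalize (∏ q ∈ P, (1 - f q / (N q : ℂ))) = Q at a1 a2 ⊢
    generalize (∏ q ∈ P, (1 + (√(N q))⁻¹)) = R at a1 a2 ⊢
    have e3 : A - f p * B - c * ((1 - f p / (N p : ℂ)) * Q) * y =
        (A - c * Q * y) - f p * (B - c * Q * ((y / N p : ℝ) : ℂ)) := by
      push_cast; ring
    rw [e3]
    refine (norm_sub_le _ _).trans ?_
    rw [norm_mul]
    rw [Real.sqrt_div hy] at a2
    have a3 := mul_le_mul (h1 p) a2 (norm_nonneg _) zero_le_one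
    calc _ ≤ E * R * √y + 1 * (E * R * (√y / √(N p))) := add_le_add a1 a3
      _ = _ := by ring

theorem lc_cop' {f : O → ℂ} (h1 : ∀ n, ‖f n‖ ≤ 1) (hm : ∀ a b, Prim a → f (a * b) = f a * f b)
    (h0 : ∀ n, ¬ Prim n → f n = 0)
    {c : ℂ} {E : ℝ} (h : ∀ y : ℝ, 0 ≤ y → ‖∑ m ∈ ballO y, f m - c * y‖ ≤ E * √y)
    {M : O} (hM : M ≠ 0) {y : ℝ} (hy : 0 ≤ y) :
    ‖∑ m ∈ ballO y, (if IsCoprime m M then f m else 0) -
        c * (∏ p ∈ pf M, (1 - f p / (N p : ℂ))) * y‖ ≤
      E * (∏ p ∈ pf M, (1 + (√(N p))⁻¹)) * √y := by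
  have := lc_cop h1 hm h (pf M) (fun p hp => ⟨((mem_pf hM).1 hp).1, ((mem_pf hM).1 hp).2.1⟩) y hy
  refine le_of_eq_of_le ?_ this
  congr 2
  refine Finset.sum_congr rfl fun m _ => ?_
  by_cases hP : Prim m
  · exact if_congr (coprime_iff_pf hP hM) rfl rfl
  · simp [h0 m hP]

theorem lc_mu {m : O} (hm : Prim m) {R : ℝ} (hR : N m ≤ R ^ 2) (hR0 : 0 ≤ R) :
    ∑ d ∈ (ballO R).filter Prim, (if d ^ 2 ∣ m then mu d else 0) =
      if Squarefree m then 1 else 0 := by
  obtain ⟨b, a, hb, ha, rfl⟩ := exists_sqfree_mul_sq hm.ne_zero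
  have hl : ¬ lam ∣ a := fun h =>
    hm.not_lam_dvd ((h.trans (dvd_pow_self a two_ne_zero)).mul_left b)
  obtain ⟨u, hu, ha'⟩ := exists_prim_assoc hl
  have h0 := sum_mu_prim ha' 0
  simp only [dvd_zero, if_true, isCoprime_zero_left] at h0
  have e1 : IsUnit (u * a) ↔ Squarefree (b * a ^ 2) := by
    rw [IsUnit.mul_iff]
    constructor
    · rintro ⟨-, h⟩
      exact (Associated.squarefree_iff (associated_mul_unit_left b _ (h.pow 2))).2 hb
    · intro h
      exact ⟨hu, h a ⟨b, by ring⟩⟩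
  rw [← if_congr e1 rfl rfl, ← h0, ← Finset.sum_filter]
  symm
  refine Finset.sum_subset (fun d hd => ?_) (fun d hd hn => ?_)
  · rw [Finset.mem_filter] at hd
    have h1 : d ∣ a := (hu.dvd_mul_left).1 hd.2.2
    have h2 : d ^ 2 ∣ b * a ^ 2 := (pow_dvd_pow_of_dvd h1 2).mul_left b
    refine Finset.mem_filter.2 ⟨Finset.mem_filter.2 ⟨mem_ballO.2 ⟨hd.2.1.ne_zero, ?_⟩, hd.2.1⟩, h2⟩
    have h3 := N_le_of_dvd h2 hm.ne_zero
    rw [N_pow] at h3
    exact (sq_le_sq₀ (N_nonneg d) hR0).1 (h3.trans hR)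
  · rw [Finset.mem_filter, Finset.mem_filter] at hd
    refine div_mu_zero fun hs => hn ?_
    have h1 : d ∣ a ^ 2 := hb.dvd_of_squarefree_of_mul_dvd_mul_right (by rw [← sq]; exact hd.2)
    have h2 : d ∣ u * a := ((hs.dvd_pow_iff_dvd two_ne_zero).1 h1).mul_left u
    exact Finset.mem_filter.2 ⟨mem_ballO.2 ⟨hd.1.2.ne_zero, N_le_of_dvd h2 ha'.ne_zero⟩,
      hd.1.2, h2⟩

theorem lc_sq {ε : ℝ} (hε : 0 < ε) : ∃ C : ℝ, 0 < C ∧ ∀ (g : O → ℂ) (c : ℂ) (E u : ℝ),
    (∀ n, ‖g n‖ ≤ 1) → (∀ n, ¬ Prim n → g n = 0) → (∀ a b, Prim a → g (a * b) = g a * g b) →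
    0 ≤ E → (∀ y : ℝ, 0 ≤ y → ‖∑ m ∈ ballO y, g m - c * y‖ ≤ E * √y) → 0 ≤ u →
    ‖∑ m ∈ ballO u, (if Squarefree m then g m else 0) -
        c * u * ∑' d : O, (if Prim d then mu d * g (d ^ 2) * ((N d ^ (-2 : ℝ) : ℝ) : ℂ) else 0)‖ ≤
      C * (E + ‖c‖) * (1 + u) ^ ε * √u := by
  obtain ⟨C1, hC1, h1⟩ := sum_inv_N_le hε
  obtain ⟨C2, hC2, h2⟩ := tail_N_rpow_le (s := 2) (by norm_num)
  refine ⟨C1 + C2, by positivity, fun g c E u g1 g0 gm hE h hu => ?_⟩
  rcases hu.eq_or_lt with rfl | hu'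
  · simp [ballO_eq_empty (R := 0) (by norm_num)]
  have hs : 0 < √u := Real.sqrt_pos.2 hu'
  have hs2 := Real.sq_sqrt hu
  set D := (ballO √u).filter Prim with hD
  have e1 : ∑ m ∈ ballO u, (if Squarefree m then g m else 0) =
      ∑ d ∈ D, mu d * g (d ^ 2) * ∑ m ∈ ballO (u / N d ^ 2), g m := by
    have : ∀ m ∈ ballO u, (if Squarefree m then g m else 0) =
        ∑ d ∈ D, (if d ^ 2 ∣ m then mu d * g m else 0) := fun m hm => by
      by_cases hP : Prim m
      · have := lc_mu hP (R := √u) (by rw [hs2]; exact (mem_ballO.1 hm).2) hs.le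
        rw [show (if Squarefree m then g m else 0) = (if Squarefree m then 1 else 0) * g m by
          split_ifs <;> simp, ← this, Finset.sum_mul]
        refine Finset.sum_congr rfl fun d _ => ?_
        split_ifs <;> simp
      · simp [g0 m hP]
    rw [Finset.sum_congr rfl this, Finset.sum_comm]
    refine Finset.sum_congr rfl fun d hd => ?_
    have hP : Prim d := (Finset.mem_filter.1 hd).2
    rw [lc_dvd (pow_ne_zero 2 hP.ne_zero), N_pow, Finset.mul_sum]
    exact Finset.sum_congr rfl fun m _ => by rw [gm _ _ (hP.pow 2), mul_assoc]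
  set t : O → ℂ := fun d => if Prim d then mu d * g (d ^ 2) * ((N d ^ (-2 : ℝ) : ℝ) : ℂ) else 0
    with ht
  have tb : ∀ d, ‖t d‖ ≤ N d ^ (-2 : ℝ) := fun d => by
    have := Real.rpow_nonneg (N_nonneg d) (-2 : ℝ)
    simp only [ht]
    split_ifs
    · rw [norm_mul, norm_mul, Complex.norm_real, Real.norm_of_nonneg this]
      exact mul_le_of_le_one_left this (mul_le_one₀ (norm_mu_le d) (norm_nonneg _) (g1 _))
    · simpa using this
  have hsN := summable_N_rpow (s := 2) (by norm_num)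
  have ts : Summable t := Summable.of_norm_bounded hsN tb
  have hsN' : Summable fun d : O => if √u < N d then N d ^ (-2 : ℝ) else 0 :=
    hsN.of_nonneg_of_le (fun d => by
      split_ifs; exacts [Real.rpow_nonneg (N_nonneg d) _, le_rfl]) fun d => by
      split_ifs; exacts [le_rfl, Real.rpow_nonneg (N_nonneg d) _]
  have tb' : ∀ d, ‖if √u < N d then t d else 0‖ ≤ if √u < N d then N d ^ (-2 : ℝ) else 0 :=
    fun d => by split_ifs; exacts [tb d, by simp]
  have e2 : ∑' d, t d = ∑ d ∈ D, t d + ∑' d, (if √u < N d then t d else 0) := by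
    have e0 : ∑' d, (if d ∈ D then t d else 0) = ∑ d ∈ D, t d := by
      rw [tsum_eq_sum (s := D) (fun d hd => if_neg hd)]
      exact Finset.sum_congr rfl fun d hd => if_pos hd
    rw [← e0, ← Summable.tsum_add (summable_of_ne_finset_zero (s := D) fun d hd => if_neg hd)
        (Summable.of_norm_bounded hsN' tb')]
    refine tsum_congr fun d => ?_
    by_cases hP : Prim d
    · by_cases hd : √u < N d
      · rw [if_pos hd, if_neg (fun h' => not_le.2 hd (mem_ballO.1 (Finset.mem_filter.1 h').1).2),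
          zero_add]
      · rw [if_neg hd, if_pos (Finset.mem_filter.2 ⟨mem_ballO.2 ⟨hP.ne_zero, not_lt.1 hd⟩, hP⟩),
          add_zero]
    · simp [ht, hP]
  have a1 : ‖∑' d, (if √u < N d then t d else 0)‖ ≤ C2 * (√u)⁻¹ := by
    refine (tsum_of_norm_bounded hsN'.hasSum tb').trans ?_
    have := h2 (√u) hs
    rwa [show (1 - 2 : ℝ) = -1 by norm_num, Real.rpow_neg_one] at this
  have a2 : ‖∑ d ∈ D, mu d * g (d ^ 2) * ∑ m ∈ ballO (u / N d ^ 2), g m -
      c * u * ∑ d ∈ D, t d‖ ≤ E * √u * (C1 * (1 + u) ^ ε) := by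
    rw [Finset.mul_sum, ← Finset.sum_sub_distrib]
    refine (norm_sum_le _ _).trans ?_
    have b1 : ∑ d ∈ D, (N d)⁻¹ ≤ C1 * (1 + u) ^ ε := by
      refine le_trans (Finset.sum_le_sum_of_subset_of_nonneg ?_ fun d _ _ => ?_)
        (h1 (1 + u) (by linarith))
      · exact (Finset.filter_subset _ _).trans (ballO_mono (by nlinarith))
      · exact inv_nonneg.2 (N_nonneg d)
    refine le_trans ?_ (mul_le_mul_of_nonneg_left b1 (by positivity))
    rw [Finset.mul_sum]
    refine Finset.sum_le_sum fun d hd => ?_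
    have hP : Prim d := (Finset.mem_filter.1 hd).2
    have hN := N_pos hP.ne_zero
    have b2 := h (u / N d ^ 2) (by positivity)
    rw [Real.sqrt_div hu, Real.sqrt_sq hN.le] at b2
    have b3 : mu d * g (d ^ 2) * ∑ m ∈ ballO (u / N d ^ 2), g m - c * u * t d =
        mu d * g (d ^ 2) * (∑ m ∈ ballO (u / N d ^ 2), g m - c * ((u / N d ^ 2 : ℝ) : ℂ)) := by
      simp only [ht, if_pos hP]
      rw [Real.rpow_neg hN.le, Real.rpow_two]
      push_cast; ring
    rw [b3, norm_mul, norm_mul]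
    calc _ ≤ 1 * 1 * (E * (√u / N d)) := by
          gcongr
          exacts [norm_mu_le d, g1 _]
      _ = _ := by ring
  rw [e1, e2, mul_add, ← sub_sub]
  refine (norm_sub_le _ _).trans ?_
  rw [norm_mul (c * u), norm_mul, Complex.norm_real, Real.norm_of_nonneg hu]
  have a3 : ‖c‖ * u * ‖∑' d, (if √u < N d then t d else 0)‖ ≤ ‖c‖ * C2 * √u := by
    calc _ ≤ ‖c‖ * u * (C2 * (√u)⁻¹) := by gcongr
      _ = ‖c‖ * C2 * (√u ^ 2 * (√u)⁻¹) := by rw [hs2]; ring
      _ = _ := by field_simp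
  have a4 : 1 ≤ (1 + u) ^ ε := Real.one_le_rpow (by linarith) hε.le
  have a5 := norm_nonneg c
  have a6 : ‖c‖ * C2 * √u ≤ ‖c‖ * C2 * √u * (1 + u) ^ ε := le_mul_of_one_le_right (by positivity) a4
  have a7 : 0 ≤ (C1 * ‖c‖ + C2 * E) * (1 + u) ^ ε * √u := by positivity
  nlinarith

theorem lc_prod {ε : ℝ} (hε : 0 < ε) : ∃ C : ℝ, 0 < C ∧ ∀ k : O, k ≠ 0 →
    ∏ p ∈ pf k, (1 + (√(N p))⁻¹) ≤ C * N k ^ ε := by
  obtain ⟨C, hC, h⟩ := prod_cop_le hε
  refine ⟨2 * C, by positivity, fun k hk => ?_⟩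
  have h1 : pf k ⊆ insert (-2) ((divs k).filter Prime) := fun p hp => by
    obtain ⟨a, b, c⟩ := (mem_pf hk).1 hp
    rw [Finset.mem_insert, Finset.mem_filter, mem_divs hk]
    by_cases ho : OddO p
    · exact Or.inr ⟨⟨⟨b, a.squarefree, ho⟩, c⟩, a⟩
    · left
      have h2 : (2 : O) ∣ p := not_not.1 ho
      exact b.eq_of_associated prim_neg_two
        ((prime_two.irreducible.dvd_irreducible_iff_associated a.irreducible).1 h2).symm.neg_right
  have h2 : ∀ p : O, 1 ≤ 1 + (√(N p))⁻¹ := fun p => le_add_of_nonneg_right (by positivity)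
  have h3 : ∏ p ∈ (divs k).filter Prime, (1 + (√(N p))⁻¹) ≤ C * N k ^ ε := by
    refine le_trans (Finset.prod_le_prod (fun p _ => by positivity) fun p hp => ?_) (h k hk)
    have h4 := div_two_le_N (Finset.mem_filter.1 hp).2
    have h5 : N p ^ (-(1 / 2) : ℝ) = (√(N p))⁻¹ := by
      rw [Real.rpow_neg (by linarith), Real.sqrt_eq_rpow]
    have h6 : 1 < √(N p) := Real.lt_sqrt_of_sq_lt (by linarith)
    have h7 : (√(N p))⁻¹ < 1 := inv_lt_one_of_one_lt₀ h6
    have h8 : 0 < (√(N p))⁻¹ := by positivity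
    rw [h5, inv_eq_one_div (1 - _), le_div_iff₀ (by linarith)]
    nlinarith
  refine (Finset.prod_le_prod_of_subset_of_one_le h1 (fun p _ => by positivity)
    (fun p _ _ => h2 p)).trans ?_
  rw [Finset.prod_insert (fun h' => ((mem_divs hk).1 (Finset.mem_filter.1 h').1).1.2.2
    (dvd_neg.2 dvd_rfl))]
  have h4 : (√(N (-2)))⁻¹ ≤ 1 :=
    inv_le_one_of_one_le₀ (Real.one_le_sqrt.2 (one_le_N prim_neg_two.ne_zero))
  calc _ ≤ 2 * (C * N k ^ ε) := mul_le_mul (by linarith) h3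
        (Finset.prod_nonneg fun p _ => by positivity) (by norm_num)
    _ = _ := by ring

theorem lc_cop2 {k M m : O} : IsCoprime m (2 * k * M) ↔ OddO m ∧ IsCoprime m k ∧ IsCoprime m M := by
  rw [IsCoprime.mul_right_iff, IsCoprime.mul_right_iff, oddO_iff_coprime, and_assoc]

theorem lc_cube {k m : O} (hk : IsCube k) (hm : m ≠ 0) :
    sym3 k m = if IsCoprime m k then 1 else 0 := by
  obtain ⟨j, rfl⟩ := hk
  rw [sym3_pow_left]
  split_ifs with h
  · exact sym3_cube (IsCoprime.of_isCoprime_of_dvd_left h.symm (dvd_pow_self j (by norm_num)))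
  · rw [(sym3_eq_zero_iff hm).2 fun h' => h h'.symm.pow_right]
    norm_num

/-- character sums over odd primary elements coprime to `M` -/
theorem lc_all {ε : ℝ} (hε : 0 < ε) : ∃ C : ℝ, 0 < C ∧ ∀ (k M : O), k ≠ 0 → M ≠ 0 → ∀ y : ℝ,
    0 ≤ y → ‖∑ m ∈ ballO y, (if Prim m ∧ OddO m ∧ IsCoprime m M then sym3 k m else 0) -
      (if IsCube k then ((kap / 9 * ∏ p ∈ pf (2 * k * M), (1 - (N p)⁻¹) : ℝ) : ℂ) else 0) * y‖ ≤
      C * N k * N M ^ ε * √y := by
  obtain ⟨C1, hC1, h1⟩ := lc_prod hε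
  obtain ⟨C2, hC2, h2⟩ := lc_prod (lt_min hε one_pos)
  refine ⟨18 * 324 * C1 + 18 * 9 * 4 * C2, by positivity, fun k M hk hM y hy => ?_⟩
  have hNk := one_le_N hk
  have hNM := one_le_N hM
  have hs := Real.sqrt_nonneg y
  have hMe : 0 ≤ N M ^ ε := by positivity
  by_cases hc : IsCube k
  · have hK : 2 * k * M ≠ 0 := mul_ne_zero (mul_ne_zero prime_two.ne_zero hk) hM
    have h3 : (3 : O) ≠ 0 := by decide
    have hN3 : N (3 : O) = 9 := by rw [N_ofNat]; norm_num
    have b0 : ∀ y : ℝ, 0 ≤ y → ‖∑ m ∈ ballO y, (if Prim m then (1 : ℂ) else 0) -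
        ((kap / 9 : ℝ) : ℂ) * y‖ ≤ 18 * 9 * √y := fun y hy => by
      have := lc_base h3 (f := fun m => if Prim m then (1 : ℂ) else 0) (fun a b h => by
        have : Prim a ↔ Prim b := ⟨fun h' => h'.congr h, fun h' => h'.congr (dvd_sub_comm.1 h)⟩
        simp only [this]) (fun n => by split_ifs <;> simp) hy
      have e : ∑ x ∈ rs 3, (if Prim x then (1 : ℂ) else 0) = 1 := by
        refine Eq.trans ?_ (sum_class h3 1 1)
        exact Finset.sum_congr rfl fun x _ => if_congr dvd_sub_comm rfl rfl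
      rwa [e, one_mul, hN3] at this
    have b1 := lc_cop' (f := fun m => if Prim m then (1 : ℂ) else 0)
      (fun n => by split_ifs <;> simp) (fun a b ha => by
        have : Prim (a * b) ↔ Prim b := ⟨fun h' => h'.of_mul ha, ha.mul⟩
        simp only [this, if_pos ha, one_mul]) (fun n hn => if_neg hn) b0 hK hy
    have e1 : ∑ m ∈ ballO y, (if Prim m ∧ OddO m ∧ IsCoprime m M then sym3 k m else 0) =
        ∑ m ∈ ballO y, (if IsCoprime m (2 * k * M) then
          (if Prim m then (1 : ℂ) else 0) else 0) := by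
      refine Finset.sum_congr rfl fun m _ => ?_
      by_cases hP : Prim m
      · rw [lc_cube hc hP.ne_zero]
        by_cases a1 : OddO m <;> by_cases a2 : IsCoprime m k <;> by_cases a3 : IsCoprime m M <;>
          simp [lc_cop2, hP, a1, a2, a3]
      · simp [hP]
    have e2 : ((kap / 9 * ∏ p ∈ pf (2 * k * M), (1 - (N p)⁻¹) : ℝ) : ℂ) = ((kap / 9 : ℝ) : ℂ) *
        ∏ p ∈ pf (2 * k * M), (1 - (if Prim p then (1 : ℂ) else 0) / (N p : ℂ)) := by
      rw [Complex.ofReal_mul, Complex.ofReal_prod]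
      congr 1
      refine Finset.prod_congr rfl fun p hp => ?_
      rw [if_pos ((mem_pf hK).1 hp).2.1]
      push_cast; ring
    rw [if_pos hc, e1, e2]
    refine b1.trans ?_
    have b2 := h2 _ hK
    have b3 : N (2 * k * M) ^ min ε 1 ≤ 4 * N k * N M ^ ε := by
      have : N (2 : O) = 4 := by rw [N_ofNat]; norm_num
      rw [N_mul, N_mul, this, Real.mul_rpow (by positivity) (by positivity)]
      refine mul_le_mul ?_ (Real.rpow_le_rpow_of_exponent_le hNM (min_le_left _ _))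
        (by positivity) (by positivity)
      exact (Real.rpow_le_rpow_of_exponent_le (by linarith) (min_le_right _ _)).trans
        (Real.rpow_one _).le
    have b4 : 0 ≤ C1 * N k * N M ^ ε * √y := by positivity
    calc _ ≤ 18 * 9 * (C2 * (4 * N k * N M ^ ε)) * √y := by
          gcongr
          exact b2.trans (by gcongr)
      _ ≤ _ := by nlinarith
  · have hq : 18 * k * 1 ≠ 0 := mul_ne_zero (mul_ne_zero (by decide) hk) one_ne_zero
    have hN : N (18 * k * 1) = 324 * N k := by rw [mul_one, N_mul, N_ofNat]; norm_num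
    have f1 : ∀ n, ‖if Prim n ∧ OddO n ∧ IsCoprime n 1 then sym3 k n else 0‖ ≤ 1 := fun n => by
      split_ifs; exacts [norm_sym3_le _ _, by simp]
    have b0 : ∀ y : ℝ, 0 ≤ y → ‖∑ m ∈ ballO y,
        (if Prim m ∧ OddO m ∧ IsCoprime m 1 then sym3 k m else 0) - 0 * (y : ℂ)‖ ≤
          18 * (324 * N k) * √y := fun y hy => by
      have := lc_base hq (per_sym3 (M := 1) hk) f1 hy
      rwa [nt_sum hk hc one_ne_zero, zero_mul, hN] at this
    have b1 := lc_cop' f1 (fun a b ha => by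
      by_cases hb : Prim b
      · by_cases a1 : OddO a <;> by_cases a2 : OddO b <;>
          simp [ha, hb, ha.mul hb, oddO_mul, a1, a2, isCoprime_one_right,
            sym3_mul_right _ ha.ne_zero hb.ne_zero]
      · have : ¬ Prim (a * b) := fun h' => hb (h'.of_mul ha)
        simp [hb, this]) (fun n hn => by simp [hn]) b0 hM hy
    have e1 : ∑ m ∈ ballO y, (if Prim m ∧ OddO m ∧ IsCoprime m M then sym3 k m else 0) =
        ∑ m ∈ ballO y, (if IsCoprime m M then
          (if Prim m ∧ OddO m ∧ IsCoprime m 1 then sym3 k m else 0) else 0) := by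
      refine Finset.sum_congr rfl fun m _ => ?_
      by_cases hP : Prim m
      · by_cases a1 : OddO m <;> by_cases a3 : IsCoprime m M <;>
          simp [hP, a1, a3, isCoprime_one_right]
      · simp [hP]
    rw [zero_mul] at b1
    rw [if_neg hc, e1]
    refine b1.trans ?_
    have b4 : 0 ≤ C2 * N k * N M ^ ε * √y := by positivity
    calc _ ≤ 18 * (324 * N k) * (C1 * N M ^ ε) * √y := by
          gcongr
          exact h1 M hM
      _ ≤ _ := by nlinarith

/-- character sums over odd primary squarefree elements coprime to `M` -/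
theorem sq_sharp {ε : ℝ} (hε : 0 < ε) : ∃ C : ℝ, 0 < C ∧ ∀ (k M : O) (u : ℝ), k ≠ 0 → M ≠ 0 →
    0 ≤ u →
    ‖∑ m ∈ (ballN u).filter (fun m => IsCoprime m M), sym3 k m -
        (if IsCube k then ((dens (2 * k * M) * u : ℝ) : ℂ) else 0)‖ ≤
      C * N k * N M ^ ε * (1 + u) ^ ε * √u := by
  obtain ⟨C1, hC1, h1⟩ := lc_sq hε
  obtain ⟨C2, hC2, h2⟩ := lc_all hε
  refine ⟨C1 * (C2 + 1), by positivity, fun k M u hk hM hu => ?_⟩
  have hNk := one_le_N hk
  have hMe : 1 ≤ N M ^ ε := Real.one_le_rpow (one_le_N hM) hε.le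
  have hK : 2 * k * M ≠ 0 := mul_ne_zero (mul_ne_zero prime_two.ne_zero hk) hM
  have hp4 : ∀ p ∈ pf (2 * k * M), 2 ≤ N p := fun p hp => div_two_le_N ((mem_pf hK).1 hp).1
  have b1 := h1 (fun m => if Prim m ∧ OddO m ∧ IsCoprime m M then sym3 k m else 0) _ _ u
    (fun n => by split_ifs; exacts [norm_sym3_le _ _, by simp]) (fun n hn => by simp [hn])
    (fun a b ha => by
      by_cases hb : Prim b
      · by_cases a1 : OddO a <;> by_cases a2 : OddO b <;> by_cases a3 : IsCoprime a M <;>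
          by_cases a4 : IsCoprime b M <;>
          simp [ha, hb, ha.mul hb, oddO_mul, a1, a2, a3, a4, IsCoprime.mul_left_iff,
            sym3_mul_right _ ha.ne_zero hb.ne_zero]
      · have : ¬ Prim (a * b) := fun h' => hb (h'.of_mul ha)
        simp [hb, this]) (by positivity) (h2 k M hk hM) hu
  have e1 : ∑ m ∈ (ballN u).filter (fun m => IsCoprime m M), sym3 k m =
      ∑ m ∈ ballO u, (if Squarefree m then
        (if Prim m ∧ OddO m ∧ IsCoprime m M then sym3 k m else 0) else 0) := by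
    rw [ballN, Finset.filter_filter, Finset.sum_filter]
    refine Finset.sum_congr rfl fun m _ => ?_
    by_cases a1 : Prim m <;> by_cases a2 : Squarefree m <;> by_cases a3 : OddO m <;>
      simp [NN, a1, a2, a3]
  have hc1 : ‖if IsCube k then ((kap / 9 * ∏ p ∈ pf (2 * k * M), (1 - (N p)⁻¹) : ℝ) : ℂ) else 0‖ ≤
      1 := by
    split_ifs
    · have a0 : ∀ p ∈ pf (2 * k * M), 0 ≤ 1 - (N p)⁻¹ := fun p hp =>
        sub_nonneg.2 (inv_le_one_of_one_le₀ (by linarith [hp4 p hp]))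
      have a1 := Finset.prod_nonneg a0
      have a2 := Finset.prod_le_one a0 fun p _ => sub_le_self _ (inv_nonneg.2 (N_nonneg p))
      have a3 := kap_pos
      have a4 := lc_kap
      rw [Complex.norm_real, Real.norm_of_nonneg (by positivity)]
      nlinarith
    · simp
  have e2 : (if IsCube k then ((dens (2 * k * M) * u : ℝ) : ℂ) else 0) =
      (if IsCube k then ((kap / 9 * ∏ p ∈ pf (2 * k * M), (1 - (N p)⁻¹) : ℝ) : ℂ) else 0) * u *
      ∑' d : O, (if Prim d then mu d * (if Prim (d ^ 2) ∧ OddO (d ^ 2) ∧ IsCoprime (d ^ 2) M then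
        sym3 k (d ^ 2) else 0) * ((N d ^ (-2 : ℝ) : ℝ) : ℂ) else 0) := by
    split_ifs with hc
    · have e3 : ∑' d : O, (if Prim d then mu d * (if Prim (d ^ 2) ∧ OddO (d ^ 2) ∧
          IsCoprime (d ^ 2) M then sym3 k (d ^ 2) else 0) * ((N d ^ (-2 : ℝ) : ℝ) : ℂ) else 0) =
          ∑' d : O, (if Prim d ∧ IsCoprime d (2 * k * M) then
            mu d * ((N d ^ (-2 : ℝ) : ℝ) : ℂ) else 0) := by
        refine tsum_congr fun d => ?_
        by_cases hP : Prim d
        · have o2 : OddO (d ^ 2) ↔ OddO d := by rw [sq, oddO_mul, and_self]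
          rw [lc_cube hc (hP.pow 2).ne_zero, lc_cop2, o2, IsCoprime.pow_left_iff two_pos,
            IsCoprime.pow_left_iff two_pos]
          by_cases a1 : OddO d <;> by_cases a2 : IsCoprime d k <;> by_cases a3 : IsCoprime d M <;>
            simp [hP, hP.pow 2, a1, a2, a3]
        · simp [hP]
      rw [e3, mu_cop hK, ← Complex.ofReal_mul, ← Complex.ofReal_mul, dens]
      congr 1
      have z0 : zp2 ≠ 0 := by linarith [zp2_pos] 
      have e4 : ∏ p ∈ pf (2 * k * M), (N p / (N p + 1)) =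
          (∏ p ∈ pf (2 * k * M), (1 - (N p)⁻¹)) * (∏ p ∈ pf (2 * k * M), (1 - (N p ^ 2)⁻¹))⁻¹ := by
        rw [← Finset.prod_inv_distrib, ← Finset.prod_mul_distrib]
        refine Finset.prod_congr rfl fun p hp => ?_
        have a1 := hp4 p hp
        have a2 : N p ^ 2 - 1 ≠ 0 := by nlinarith
        have a3 : N p + 1 ≠ 0 := by linarith
        have a4 : N p ≠ 0 := by linarith
        field_simp
        ring
      rw [e4, mul_inv]
      ring
    · simp
  rw [e1, e2]
  refine b1.trans ?_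
  have a5 : 1 ≤ N k * N M ^ ε := one_le_mul_of_one_le_of_one_le hNk hMe
  calc _ ≤ C1 * ((C2 + 1) * N k * N M ^ ε) * (1 + u) ^ ε * √u := by
        gcongr
        nlinarith
    _ = _ := by ring

end

end Vale.Agent.P006
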