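import Vale.Agent.P006.CS
import Vale.Agent.P006.Sep
import Vale.Agent.P006.LS

namespace Vale.Agent.P006

open Vale.Agent.P026 Complex MeasureTheory Filter Topology
open scoped Classical ComplexConjugate Real MatrixGroups

noncomputable section

theorem ld_lim (S : Finset O) {F : O → O × O → ℂ} {V : O → ℂ} {B : ℝ}
    (hF : ∀ d ∈ S, HasSum (F d) (V d)) (h1 : ∀ d n, F d (0, n) = 0) (h2 : ∀ d e, F d (e, 0) = 0)
    (hB : ∀ R : ℝ, ∑ d ∈ S, ‖∑ e ∈ ballO R, ∑ n ∈ ballO R, F d (e, n)‖ ^ 2 ≤ B) :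
    ∑ d ∈ S, ‖V d‖ ^ 2 ≤ B := by
  have t : Tendsto (fun R : ℝ => insert 0 (ballO R) ×ˢ insert 0 (ballO R)) atTop atTop := by
    apply tendsto_atTop_finset_of_monotone
    · exact fun R R' h => Finset.product_subset_product
        (Finset.insert_subset_insert _ (ballO_mono h)) (Finset.insert_subset_insert _ (ballO_mono h))
    · have k : ∀ (x : O) (R : ℝ), N x ≤ R → x ∈ insert 0 (ballO R) := fun x R h => by
        by_cases hx : x = 0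
        · simp [hx]
        · exact Finset.mem_insert_of_mem (mem_ballO.2 ⟨hx, h⟩)
      exact fun x => ⟨max (N x.1) (N x.2),
        Finset.mem_product.2 ⟨k _ _ (le_max_left _ _), k _ _ (le_max_right _ _)⟩⟩
  refine le_of_tendsto' (x := atTop) (tendsto_finsetSum S fun d hd => ?_) hB
  refine Tendsto.pow (Tendsto.norm ?_) 2
  have h3 : Tendsto (fun s : Finset (O × O) => ∑ p ∈ s, F d p) atTop (𝓝 (V d)) := hF d hd
  refine (h3.comp t).congr fun R => ?_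
  simp only [Function.comp, Finset.sum_product]
  rw [Finset.sum_insert_of_eq_zero_if_notMem (a := 0)
    (fun _ => Finset.sum_eq_zero fun n _ => h1 d n)]
  exact Finset.sum_congr rfl fun e _ => Finset.sum_insert_of_eq_zero_if_notMem fun _ => h2 d e

/-- squarefree away from `lam` -/
def SFA (n : O) : Prop := ∀ p : O, Prime p → Prim p → ¬ p ^ 2 ∣ n

theorem ld_norm {p y : O} (hp : Prime p) (hy : Prim y) (h : p ∣ y) :
    ∃ p', Prime p' ∧ Prim p' ∧ Associated p' p := by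
  obtain ⟨w, hw, hP⟩ := exists_prim_assoc (x := p) fun k => hy.not_lam_dvd (k.trans h)
  have a : Associated (w * p) p := associated_unit_mul_left p w hw
  exact ⟨w * p, a.symm.prime hp, hP, a⟩

theorem ld_sfa {d n : O} (hd : Prim d) (hs : Squarefree d) :
    SFA (d * n) ↔ SFA n ∧ IsCoprime n d := by
  constructor
  · intro h
    refine ⟨fun p hp hP k => h p hp hP (k.mul_left _), ?_⟩
    rw [isCoprime_iff_no_prime (Or.inr hd.ne_zero)]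
    intro p hp h1 h2
    obtain ⟨p', k1, k2, k3⟩ := ld_norm hp hd h2
    exact h p' k1 k2 (sq p' ▸ mul_dvd_mul (k3.dvd.trans h2) (k3.dvd.trans h1))
  · rintro ⟨h1, h2⟩ p hp hP k
    by_cases hpd : p ∣ d
    · have : IsCoprime (p ^ 2) n := (h2.symm.of_isCoprime_of_dvd_left hpd).pow_left
      exact hp.not_isUnit (hs p (sq p ▸ this.dvd_of_dvd_mul_right k))
    · exact h1 p hp hP ((sr_cop hp hpd).pow_left.dvd_of_dvd_mul_left k)

theorem ld_ex {σ : SLO} {u n : O} (hu : IsUnit u) (hn : n ≠ 0) (h : rho σ (u * n) ≠ 0) :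
    ∃ e m, Prim e ∧ SFA m ∧ n = m * e ^ 3 := by
  obtain ⟨v, k, y, hv, hy, rfl⟩ := exists_unit_lam_prim hn
  obtain ⟨y0, e, h0, he, rfl, h3⟩ := cube_decomp hy
  have cop : ∀ p, Prime p → Prim p → IsCoprime p (v * lam ^ k) := fun p hp hP =>
    IsCoprime.mul_right ⟨0, hv.unit⁻¹.1, by simp⟩
      (prime_lam.irreducible.coprime_iff_not_dvd.2 hP.not_lam_dvd).symm.pow_right
  have hs : Squarefree y0 := by
    by_contra hs
    obtain ⟨p, n', hp, hP, -, hpn, rfl⟩ := exists_exact_sq h0 h3 hs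
    apply h
    rw [show u * (v * lam ^ k * (n' * p ^ 2 * e ^ 3)) = u * (v * lam ^ k * n') * p ^ 2 * e ^ 3 by
      ring, rho_cube rho_out σ _ he]
    refine rho_sq rho_out σ hp hP fun k1 => hpn ?_
    rw [hu.dvd_mul_left] at k1
    exact (cop p hp hP).dvd_of_dvd_mul_left k1
  exact ⟨e, v * lam ^ k * y0, he, fun p hp hP k1 => hp.not_isUnit
    (hs p (sq p ▸ (cop p hp hP).pow_left.dvd_of_dvd_mul_left k1)), by ring⟩

theorem ld_uniq {m m' e e' : O} (hm : SFA m) (hm' : SFA m') (h0 : m ≠ 0) (h0' : m' ≠ 0)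
    (he : Prim e) (he' : Prim e') (h : m * e ^ 3 = m' * e' ^ 3) : e = e' := by
  obtain ⟨v, k, y, hv, hy, rfl⟩ := exists_unit_lam_prim h0
  obtain ⟨v', k', y', hv', hy', rfl⟩ := exists_unit_lam_prim h0'
  have cf : ∀ {a y : O}, Prim y → SFA (a * y) → ∀ p, Prime p → ¬ p ^ 3 ∣ y := by
    intro a y hy hs p hp k1
    obtain ⟨p', k2, k3, k4⟩ := ld_norm hp hy ((dvd_pow_self p (by norm_num)).trans k1)
    exact hs p' k2 k3 (((k4.pow_pow (n := 2)).dvd.trans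
      ((pow_dvd_pow p (by norm_num)).trans k1)).mul_left _)
  rw [mul_assoc, mul_assoc _ y'] at h
  have := (unit_lam_prim_unique hv hv' (hy.mul (he.pow 3)) (hy'.mul (he'.pow 3)) h).2.2
  exact (cube_unique hy hy' he he' (cf hy hm) (cf hy' hm') this).2

theorem ld_split (d e : O) : ∃ p : O × O, NN d →
    d = p.1 * p.2 ∧ p.2 ∣ e ∧ IsCoprime p.1 e ∧ NN p.1 ∧ NN p.2 := by
  by_cases hd : NN d
  swap
  · exact ⟨0, fun h => absurd h hd⟩
  obtain ⟨g, hg, ⟨a, ha⟩, h2, h3⟩ := exists_prim_gcd hd.1 e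
  have pa : Prim a := Prim.of_mul (ha ▸ hd.1) hg
  obtain ⟨k1, k2, k3⟩ := (nn_mul_iff hg pa).1 (ha ▸ hd)
  refine ⟨(a, g), fun _ => ⟨by rw [ha, mul_comm], h2, ?_, k2, k1⟩⟩
  rw [isCoprime_iff_no_prime (Or.inl pa.ne_zero)]
  intro p hp b1 b2
  exact hp.not_isUnit (k3.isUnit_of_dvd' (h3 p (ha ▸ b1.mul_left g) b2) b1)

theorem ld_one {ε : ℝ} (hε : 0 < ε) : ∃ C : ℝ, 0 < C ∧ ∀ (Z D L σ M y0 : ℝ) (FS : ℝ → ℂ)
    (q k : O) (ω c : O → ℂ) (y : O → ℝ) (S T : Finset O),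
    1 ≤ D → D ≤ Z → 1 ≤ L → 2 * L ≤ Z → 0 ≤ σ → MRep FS σ M → q ≠ 0 → Wt q ω →
    (∀ n, ¬ SFA n → c n = 0) → S ⊆ ballN D → (∀ m ∈ T, L ≤ N m ∧ N m ≤ 2 * L) →
    (∀ a ∈ S, 0 < y a ∧ y a ≤ y0) →
    ∑ a ∈ S, ‖∑ m ∈ T, c m * ω (a * m * k) * sym3 m a * FS (N m / y a)‖ ^ 2 ≤
      C * Z ^ ε * N q * (∑ m ∈ ballO (2 * L), ‖c m‖ ^ 2) * (M ^ 2 * (y0 ^ σ / L ^ σ) ^ 2) *
        (D + 2 * L + (D * (2 * L)) ^ (2 / 3 : ℝ)) := by
  obtain ⟨C, hC, h⟩ := lssf hε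
  refine ⟨C, hC, fun Z D L σ M y0 FS q k ω c y S T hD hDZ hL hLZ hσ hM hq hω hc hS hT hy => ?_⟩
  have L0 : 0 < L := by linarith
  have hT0 : ∀ m ∈ T, 0 < N m := fun m hm => L0.trans_le (hT m hm).1
  have hsub : T ⊆ ballO (2 * L) := fun m hm => mem_ballO.2
    ⟨fun h0 => (hT0 m hm).ne' (h0 ▸ N_zero), (hT m hm).2⟩
  refine (sep hM S T (fun a m => c m * ω (a * m * k) * sym3 m a) N y hT0 (B := y0 ^ σ)
    (P := N q * (C * Z ^ ε * (D + 2 * L + (D * (2 * L)) ^ (2 / 3 : ℝ)) *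
      ((L ^ σ)⁻¹ ^ 2 * ∑ m ∈ ballO (2 * L), ‖c m‖ ^ 2)))
    (fun a ha => ⟨(hy a ha).1, Real.rpow_le_rpow (hy a ha).1.le (hy a ha).2 hσ⟩)
    fun τ => ?_).trans_eq (by ring)
  set β : O → O → ℂ := fun r m => if m ∈ T then
    c m * ω (r * m * k) * ((N m : ℝ) : ℂ) ^ (-(σ + τ * Complex.I)) else 0 with hβ
  calc _ ≤ ∑ a ∈ S, ∑ r ∈ rs q, ‖∑ m ∈ ballO (2 * L), β r m * sym3 m a‖ ^ 2 := by
        refine Finset.sum_le_sum fun a _ => ?_
        obtain ⟨r, hr, hqr⟩ := rs_exists hq a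
        refine le_trans (le_of_eq ?_) (Finset.single_le_sum
          (f := fun r => ‖∑ m ∈ ballO (2 * L), β r m * sym3 m a‖ ^ 2) (fun _ _ => sq_nonneg _) hr)
        congr 2
        rw [← Finset.sum_subset hsub fun m _ hm => by simp only [hβ, if_neg hm, zero_mul]]
        refine Finset.sum_congr rfl fun m hm => ?_
        simp only [hβ, if_pos hm]
        rw [hω.1 (a * m * k) (r * m * k) (by
          rw [← sub_mul, ← sub_mul]; exact (hqr.mul_right _).mul_right _)]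
        ring
    _ ≤ ∑ r ∈ rs q, ∑ a ∈ ballN D, ‖∑ m ∈ ballO (2 * L), β r m * sym3 m a‖ ^ 2 := by
        rw [Finset.sum_comm]
        exact Finset.sum_le_sum fun r _ =>
          Finset.sum_le_sum_of_subset_of_nonneg hS fun _ _ _ => sq_nonneg _
    _ ≤ ∑ r ∈ rs q, C * Z ^ ε * (D + 2 * L + (D * (2 * L)) ^ (2 / 3 : ℝ)) *
        ((L ^ σ)⁻¹ ^ 2 * ∑ m ∈ ballO (2 * L), ‖c m‖ ^ 2) := by
        refine Finset.sum_le_sum fun r _ => (h Z D (2 * L) (β r) hD hDZ (by linarith) hLZ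
          fun n p hp hP hn => ?_).trans (mul_le_mul_of_nonneg_left ?_ (by
            have : 0 < Z := by linarith
            positivity))
        · simp only [hβ, hc n fun k => k p hp hP hn, zero_mul, ite_self]
        rw [Finset.mul_sum]
        refine Finset.sum_le_sum fun m _ => ?_
        simp only [hβ]
        split_ifs with hm
        · rw [← mul_pow, norm_mul, norm_mul, norm_cpow_eq_rpow_re_of_pos (hT0 m hm), mul_comm (_⁻¹)]
          have e : (-(σ + τ * Complex.I) : ℂ).re = -σ := by simp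
          rw [e, Real.rpow_neg (N_nonneg m)]
          have := hω.2 (r * m * k)
          have := (hT m hm).1
          have := N_nonneg m
          gcongr
          exact mul_le_of_le_one_right (norm_nonneg _) (hω.2 _)
        · rw [norm_zero, zero_pow two_ne_zero]; positivity
    _ = _ := by rw [Finset.sum_const, card_rs hq, nsmul_eq_mul, N]

theorem ld_min {A E K y L D δ : ℝ} (hE : 0 ≤ E) (hK : 0 < K) (hy : 0 < y) (hL : 0 < L)
    (hD : 0 ≤ D) (hδ : 0 ≤ δ) (hδ1 : δ ≤ 1)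
    (h1 : A ≤ E * (y ^ (1 / 3 : ℝ) / L ^ (1 / 3 : ℝ)) ^ 2 *
      (D + 2 * L + (D * (2 * L)) ^ (2 / 3 : ℝ)))
    (h2 : A ≤ E * ((K ^ 4) ^ 2 * (y ^ (4 / 3 : ℝ) / L ^ (4 / 3 : ℝ)) ^ 2) *
      (D + 2 * L + (D * (2 * L)) ^ (2 / 3 : ℝ))) :
    A ≤ E * (y ^ (1 / 3 : ℝ) / L ^ (1 / 3 : ℝ)) ^ 2 * (K ^ 4 * y / L) ^ δ *
      (D + 2 * (K ^ 4 * y) + (D * (2 * (K ^ 4 * y))) ^ (2 / 3 : ℝ)) := by
  obtain ⟨w, hw⟩ : ∃ w, w = K ^ 4 * y / L := ⟨_, rfl⟩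
  have w0 : 0 < w := by rw [hw]; positivity
  have e : K ^ 4 * y = L * w := by rw [hw]; field_simp
  rw [← hw, e]
  rcases le_total 1 w with k | k
  · refine h1.trans ?_
    have k1 := Real.one_le_rpow k hδ
    have k2 : L ≤ L * w := le_mul_of_one_le_right hL.le k
    rw [mul_assoc _ (w ^ δ)]
    gcongr
    refine le_trans ?_ (le_mul_of_one_le_left (by positivity) k1)
    gcongr
  · have e2 : (K ^ 4) ^ 2 * (y ^ (4 / 3 : ℝ) / L ^ (4 / 3 : ℝ)) ^ 2 =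
        (y ^ (1 / 3 : ℝ) / L ^ (1 / 3 : ℝ)) ^ 2 * w ^ 2 := by
      rw [show (4 / 3 : ℝ) = 1 / 3 + 1 by norm_num, Real.rpow_add_one hy.ne',
        Real.rpow_add_one hL.ne', hw]
      field_simp
    rw [e2] at h2
    refine h2.trans ?_
    have k0 : ∀ a : ℝ, a ≤ 1 → w ^ 2 ≤ w ^ δ * w ^ a := fun a ha => by
      rw [← Real.rpow_add w0, ← Real.rpow_two]
      exact Real.rpow_le_rpow_of_exponent_ge w0 k (by linarith)
    have k1 := k0 0 (by norm_num)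
    have k2 := k0 1 le_rfl
    have k3 := k0 (2 / 3) (by norm_num)
    rw [Real.rpow_zero, mul_one] at k1
    rw [Real.rpow_one] at k2
    rw [show D * (2 * (L * w)) = D * (2 * L) * w by ring, Real.mul_rpow (by positivity) w0.le,
      ← mul_assoc, mul_assoc _ (w ^ 2), mul_assoc _ (w ^ δ)]
    refine mul_le_mul_of_nonneg_left ?_ (by positivity)
    have := mul_le_mul_of_nonneg_left k1 hD
    have := mul_le_mul_of_nonneg_left k2 hL.le
    have := mul_le_mul_of_nonneg_left k3 (by positivity : 0 ≤ (D * (2 * L)) ^ (2 / 3 : ℝ))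
    nlinarith

theorem ld_cube {x : ℝ} (hx : 0 < x) : ∃ a : ℝ, 0 < a ∧ x = a ^ 3 :=
  ⟨x ^ (1 / 3 : ℝ), by positivity, by
    rw [← Real.rpow_natCast, ← Real.rpow_mul hx.le]; norm_num⟩

theorem ld_pw {a : ℝ} (ha : 0 ≤ a) (k : ℕ) : (a ^ 3) ^ ((k : ℝ) / 3) = a ^ k := by
  rw [← Real.rpow_natCast a 3, ← Real.rpow_mul ha, ← Real.rpow_natCast]
  congr 1
  push_cast
  ring

theorem ld_num {D L L1 K E b : ℝ} (hD : 0 < D) (hL : 0 < L) (hL1 : 0 < L1) (hK : 0 < K)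
    (hb : 1 ≤ b) (hE : b ≤ E) :
    (D / b) ^ (-(1 / 3) : ℝ) * (2 * L1) ^ (2 / 3 : ℝ) *
      ((L / (D / b * E ^ 3)) ^ (1 / 3 : ℝ) / L1 ^ (1 / 3 : ℝ)) ^ 2 *
      (2 * (D / b) + 2 * (K ^ 4 * (L / (D / b * E ^ 3))) +
        (2 * (D / b) * (2 * (K ^ 4 * (L / (D / b * E ^ 3))))) ^ (2 / 3 : ℝ)) ≤
      16 * (L ^ (2 / 3 : ℝ) + K ^ 4 * L ^ (5 / 3 : ℝ) / D ^ 2 +
        K ^ (8 / 3 : ℝ) * L ^ (4 / 3 : ℝ) / D) / E ^ 2 := by
  have b0 : 0 < b := by linarith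
  have E0 : 0 < E := by linarith
  have E1 : 1 ≤ E := by linarith
  obtain ⟨a, ha, ea⟩ := ld_cube (div_pos hD b0)
  obtain ⟨l, hl, rfl⟩ := ld_cube hL
  obtain ⟨m, hm, rfl⟩ := ld_cube hL1
  obtain ⟨k, hk, rfl⟩ := ld_cube hK
  have eD : D = a ^ 3 * b := by rw [← ea]; field_simp
  have p1 := fun (x : ℝ) (hx : 0 ≤ x) => ld_pw hx 1
  have p2 := fun (x : ℝ) (hx : 0 ≤ x) => ld_pw hx 2
  have p4 := ld_pw hl.le 4
  have p5 := ld_pw hl.le 5
  have p8 := ld_pw hk.le 8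
  simp only [Nat.cast_ofNat, Nat.cast_one, pow_one] at p1 p2 p4 p5 p8
  have q1 : (2 * m ^ 3) ^ (2 / 3 : ℝ) ≤ 4 * m ^ 2 := by
    rw [show 4 * m ^ 2 = (2 * m) ^ 2 by ring, ← p2 (2 * m) (by positivity)]
    gcongr
    nlinarith [pow_pos hm 3]
  have q2 : (2 * a ^ 3 * (2 * ((k ^ 3) ^ 4 * (l ^ 3 / (a ^ 3 * E ^ 3))))) ^ (2 / 3 : ℝ) ≤
      4 * (k ^ 4 * l / E) ^ 2 := by
    rw [show 4 * (k ^ 4 * l / E) ^ 2 = (2 * (k ^ 4 * l / E)) ^ 2 by ring,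
      ← p2 (2 * (k ^ 4 * l / E)) (by positivity)]
    gcongr
    rw [show 2 * a ^ 3 * (2 * ((k ^ 3) ^ 4 * (l ^ 3 / (a ^ 3 * E ^ 3)))) =
      4 * (k ^ 4 * l / E) ^ 3 by field_simp; ring]
    nlinarith [pow_pos (by positivity : 0 < k ^ 4 * l / E) 3]
  rw [ea, Real.rpow_neg (by positivity), show l ^ 3 / (a ^ 3 * E ^ 3) = (l / (a * E)) ^ 3 by ring,
    p1 _ ha.le, p1 _ hm.le, p1 _ (by positivity), p2 _ hl.le, p4, p5, p8,
    show (l / (a * E)) ^ 3 = l ^ 3 / (a ^ 3 * E ^ 3) by ring, eD]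
  calc _ ≤ a⁻¹ * (4 * m ^ 2) * (l / (a * E) / m) ^ 2 * (2 * a ^ 3 +
        2 * ((k ^ 3) ^ 4 * (l ^ 3 / (a ^ 3 * E ^ 3))) + 4 * (k ^ 4 * l / E) ^ 2) := by gcongr
    _ = (8 * l ^ 2 + 8 * ((k ^ 3) ^ 4 * l ^ 5 / (a ^ 6 * E ^ 3)) +
        16 * (k ^ 8 * l ^ 4 / (a ^ 3 * E ^ 2))) / E ^ 2 := by field_simp; ring
    _ ≤ _ := by
      have r1 : (k ^ 3) ^ 4 * l ^ 5 / (a ^ 6 * E ^ 3) ≤ (k ^ 3) ^ 4 * l ^ 5 / (a ^ 3 * b) ^ 2 := by
        rw [mul_pow, ← pow_mul a]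
        gcongr
        exact (pow_le_pow_left₀ b0.le hE 2).trans (pow_le_pow_right₀ E1 (by norm_num))
      have r2 : k ^ 8 * l ^ 4 / (a ^ 3 * E ^ 2) ≤ k ^ 8 * l ^ 4 / (a ^ 3 * b) := by
        gcongr
        nlinarith
      have r3 : 0 ≤ (k ^ 3) ^ 4 * l ^ 5 / (a ^ 6 * E ^ 3) := by positivity
      gcongr
      nlinarith [sq_nonneg l]

end

end Vale.Agent.P006
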