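import Vale.Agent.P006.CS
import Vale.Agent.P006.Sep
import Vale.Agent.P006.LS
import Vale.Agent.P006.LDa

namespace Vale.Agent.P006

open Vale.Agent.P026 Complex MeasureTheory Filter Topology
open scoped Classical ComplexConjugate Real MatrixGroups

noncomputable section

theorem ld_np {x : ℝ} (hx : 0 ≤ x) (n : ℕ) (η : ℝ) : x ^ ((n : ℝ) * η) = (x ^ η) ^ n := by
  rw [mul_comm, Real.rpow_mul hx, Real.rpow_natCast]

theorem ld_fix {η : ℝ} (hη : 0 < η) (hη1 : η ≤ 1 / 4) : ∃ C : ℝ, 0 < C ∧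
    ∀ (Z K D L M L1 Bd E b : ℝ) (FS : ℝ → ℂ) (q k : O) (ω c : O → ℂ) (y : O → ℝ) (T : Finset O),
    1 ≤ K → K ≤ Z → 1 ≤ D → D ≤ Z → 0 < L → L ≤ Z → q ≠ 0 → Wt q ω →
    MRep FS (1 / 3) M → MRep FS (4 / 3) (M * K ^ 4) → 1 ≤ b → b ≤ E → 1 ≤ L1 → 0 ≤ Bd →
    (∀ n, ¬ SFA n → c n = 0) → ∑ m ∈ ballO (2 * L1), ‖c m‖ ^ 2 ≤ Bd * (2 * L1) ^ (2 / 3 : ℝ) →
    (∀ m ∈ T, L1 ≤ N m ∧ N m ≤ 2 * L1) →
    (∀ a, D / b ≤ N a → 0 < y a ∧ y a ≤ L / (D / b * E ^ 3)) →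
    ∑ a ∈ (ballN (2 * (D / b))).filter (fun a => D / b ≤ N a), (D / b) ^ (-(1 / 3) : ℝ) *
        ‖∑ m ∈ T, c m * ω (a * m * k) * sym3 m a * FS (N m / y a)‖ ^ 2 ≤
      C * (Z ^ η) ^ 22 * N q * Bd * M ^ 2 * (L ^ (2 / 3 : ℝ) + K ^ 4 * L ^ (5 / 3 : ℝ) / D ^ 2 +
        K ^ (8 / 3 : ℝ) * L ^ (4 / 3 : ℝ) / D) / (E ^ 2 * (E ^ η) ^ 8 * (L1 ^ η) ^ 2) := by
  obtain ⟨C, hC, h⟩ := ld_one (ε := 2 * η) (by positivity)
  refine ⟨C * 4 * 16, by positivity,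
    fun Z K D L M L1 Bd E b FS q k ω c y T hK hKZ hD hDZ hL hLZ hq hω m1 m2 hb hE hL1 hBd hc hs
      hT hy => ?_⟩
  have K0 : 0 < K := by linarith
  have Z1 : 1 ≤ Z := by linarith
  have Z0 : 0 < Z := by linarith
  have D0 : 0 < D := by linarith
  have b0 : 0 < b := by linarith
  have E0 : 0 < E := by linarith
  have l0 : 0 < L1 := by linarith
  have q0 := N_nonneg q
  by_cases h1 : 1 ≤ 2 * (D / b)
  swap
  · rw [ballN, ballO_eq_empty (not_le.1 h1)]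
    simp only [Finset.filter_empty, Finset.sum_empty]
    positivity
  have hDb : D / b ≤ D := div_le_self D0.le hb
  have H := fun σ M' hσ hM => h (4 * Z * L1) (2 * (D / b)) L1 σ M' (L / (D / b * E ^ 3)) FS q k ω c
    y ((ballN (2 * (D / b))).filter (fun a => D / b ≤ N a)) T h1 (by nlinarith) hL1 (by nlinarith)
    hσ hM hq hω hc (Finset.filter_subset _ _) hT fun a ha => hy a (Finset.mem_filter.1 ha).2
  have k1 := H _ _ (by norm_num) m1
  have k2 := H _ _ (by norm_num) m2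
  rw [← mul_assoc _ (M ^ 2)] at k1
  rw [mul_pow, mul_assoc (M ^ 2), ← mul_assoc _ (M ^ 2)] at k2
  have k3 := ld_min (δ := 4 * η) (by positivity) K0 (by positivity) l0 (by positivity)
    (by positivity) (by linarith) k1 k2
  have k4 := ld_num D0 hL l0 K0 hb hE
  have w1 : (K ^ 4 * (L / (D / b * E ^ 3)) / L1) ^ (4 * η) ≤
      (Z ^ η) ^ 20 / ((E ^ η) ^ 8 * (L1 ^ η) ^ 4) := by
    have e : (Z ^ η) ^ 20 / ((E ^ η) ^ 8 * (L1 ^ η) ^ 4) = (Z ^ 5 / (E ^ 2 * L1)) ^ (4 * η) := by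
      have := ld_np (x := Z ^ 5 / (E ^ 2 * L1)) (by positivity) 4 η
      push_cast at this
      rw [this, Real.div_rpow (by positivity) (by positivity),
        Real.mul_rpow (by positivity) l0.le, ← Real.rpow_natCast Z, ← Real.rpow_natCast E,
        ← Real.rpow_mul Z0.le, ← Real.rpow_mul E0.le, ld_np Z0.le, ld_np E0.le]
      ring
    rw [e]
    refine Real.rpow_le_rpow (by positivity) ?_ (by positivity)
    rw [show K ^ 4 * (L / (D / b * E ^ 3)) / L1 = K ^ 4 * L * (b / E / D) / (E ^ 2 * L1) by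
      field_simp, pow_succ Z 4]
    refine div_le_div_of_nonneg_right ((mul_le_of_le_one_right (by positivity) ?_).trans
      (by gcongr)) (by positivity)
    exact (div_le_self (by positivity) hD).trans ((div_le_one E0).2 hE)
  have w2 : (4 * Z * L1) ^ (2 * η) ≤ 4 * (Z ^ η) ^ 2 * (L1 ^ η) ^ 2 := by
    have a1 := ld_np Z0.le 2 η
    have a2 := ld_np l0.le 2 η
    push_cast at a1 a2
    rw [Real.mul_rpow (by positivity) l0.le, Real.mul_rpow (by positivity) Z0.le, a1, a2]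
    gcongr
    exact Real.rpow_le_self_of_one_le (by norm_num) (by linarith)
  rw [← Finset.mul_sum]
  refine (mul_le_mul_of_nonneg_left k3 (by positivity)).trans ?_
  have x0 : 0 ≤ (2 * (D / b) + 2 * (K ^ 4 * (L / (D / b * E ^ 3))) +
    (2 * (D / b) * (2 * (K ^ 4 * (L / (D / b * E ^ 3))))) ^ (2 / 3 : ℝ)) := by positivity
  generalize (2 * (D / b) + 2 * (K ^ 4 * (L / (D / b * E ^ 3))) +
    (2 * (D / b) * (2 * (K ^ 4 * (L / (D / b * E ^ 3))))) ^ (2 / 3 : ℝ)) = X at k4 x0 ⊢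
  generalize ((L / (D / b * E ^ 3)) ^ (1 / 3 : ℝ) / L1 ^ (1 / 3 : ℝ)) = t at k4 ⊢
  calc _ ≤ (D / b) ^ (-(1 / 3) : ℝ) * (C * (4 * (Z ^ η) ^ 2 * (L1 ^ η) ^ 2) * N q *
        (Bd * (2 * L1) ^ (2 / 3 : ℝ)) * M ^ 2 * t ^ 2 *
        ((Z ^ η) ^ 20 / ((E ^ η) ^ 8 * (L1 ^ η) ^ 4)) * X) := by gcongr
    _ = C * 4 * (Z ^ η) ^ 22 * N q * Bd * M ^ 2 / ((E ^ η) ^ 8 * (L1 ^ η) ^ 2) *
        ((D / b) ^ (-(1 / 3) : ℝ) * (2 * L1) ^ (2 / 3 : ℝ) * t ^ 2 * X) := by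
      field_simp
    _ ≤ _ := (mul_le_mul_of_nonneg_left k4 (by positivity)).trans_eq (by field_simp)

def ldSp (d e : O) : O × O := (ld_split d e).choose

theorem ldSp_spec {d : O} (hd : NN d) (e : O) : d = (ldSp d e).1 * (ldSp d e).2 ∧
    (ldSp d e).2 ∣ e ∧ IsCoprime (ldSp d e).1 e ∧ NN (ldSp d e).1 ∧ NN (ldSp d e).2 :=
  (ld_split d e).choose_spec hd

def ldK (u a : O) : ℂ := ((N a ^ (-(1 / 6) : ℝ) : ℝ) : ℂ) * conj (G0 a) * sym3 (9 * u) a

def ldT (FS : ℝ → ℂ) (c ω : O → ℂ) (u : O) (Lf : O → ℝ) (d : O) (p : O × O) : ℂ :=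
  if Prim p.1 ∧ p.2 ≠ 0 then ldK u (ldSp d p.1).1 *
    (c p.2 * ω ((ldSp d p.1).1 * p.2 * p.1 ^ 3) * sym3 p.2 (ldSp d p.1).1 *
      FS (N p.2 / (Lf d / (N (ldSp d p.1).1 * N p.1 ^ 3)))) else 0

theorem ld_K_le (u : O) {a : O} (ha : NN a) {x : ℝ} (hx : 0 < x) (h : x ≤ N a) :
    ‖ldK u a‖ ^ 2 ≤ x ^ (-(1 / 3) : ℝ) := by
  have h0 := N_nonneg a
  rw [ldK, norm_mul, norm_mul, RCLike.norm_conj, norm_G0 ha.1 ha.2.1, mul_one, norm_real,
    Real.norm_of_nonneg (by positivity)]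
  refine le_trans ?_ (Real.rpow_le_rpow_of_nonpos hx h (by norm_num))
  rw [show (-(1 / 3) : ℝ) = ((2 : ℕ) : ℝ) * (-(1 / 6)) by norm_num, ld_np h0]
  gcongr
  exact mul_le_of_le_one_right (by positivity) (norm_sym3_le _ _)

theorem ld_blk {η : ℝ} (hη : 0 < η) (hη1 : η ≤ 1 / 4) : ∃ C : ℝ, 0 < C ∧
    ∀ (Z K D L M L1 Bd : ℝ) (FS : ℝ → ℂ) (q u e : O) (ω c : O → ℂ) (Lf : O → ℝ) (T : Finset O),
    1 ≤ K → K ≤ Z → 1 ≤ D → D ≤ Z → 0 < L → L ≤ Z → q ≠ 0 → Wt q ω →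
    MRep FS (1 / 3) M → MRep FS (4 / 3) (M * K ^ 4) → (∀ d, 0 < Lf d ∧ Lf d ≤ L) →
    1 ≤ L1 → 0 ≤ Bd →
    (∀ n, ¬ SFA n → c n = 0) → ∑ m ∈ ballO (2 * L1), ‖c m‖ ^ 2 ≤ Bd * (2 * L1) ^ (2 / 3 : ℝ) →
    (∀ m ∈ T, L1 ≤ N m ∧ N m ≤ 2 * L1) →
    ∑ d ∈ (ballN (2 * D)).filter (fun d => D ≤ N d), ‖∑ n ∈ T, ldT FS c ω u Lf d (e, n)‖ ^ 2 ≤
      C * (Z ^ η) ^ 22 * N q * Bd * M ^ 2 * (L ^ (2 / 3 : ℝ) + K ^ 4 * L ^ (5 / 3 : ℝ) / D ^ 2 +
        K ^ (8 / 3 : ℝ) * L ^ (4 / 3 : ℝ) / D) * (N e ^ (-(1 + 2 * η)) * (L1 ^ η)⁻¹) ^ 2 := by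
  obtain ⟨C, hC, h⟩ := ld_fix hη hη1
  obtain ⟨C1, hC1, hdv⟩ := dv_le (ε := 4 * η) (by positivity)
  refine ⟨C1 * C, by positivity,
    fun Z K D L M L1 Bd FS q u e ω c Lf T hK hKZ hD hDZ hL hLZ hq hω m1 m2 hLf hL1 hBd hc hs
      hT => ?_⟩
  have K0 : 0 < K := by linarith
  have Z0 : 0 < Z := by linarith
  have D0 : 0 < D := by linarith
  have l0 : 0 < L1 := by linarith
  have q0 := N_nonneg q
  by_cases he : Prim e
  swap
  · simp only [ldT, he, false_and, if_false, Finset.sum_const_zero, norm_zero]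
    simp only [ne_eq, OfNat.ofNat_ne_zero, not_false_eq_true, zero_pow, Finset.sum_const_zero]
    positivity
  have E0 := N_pos he.ne_zero
  set H : (Σ _ : O, O) → ℝ := fun x => (D / N x.1) ^ (-(1 / 3) : ℝ) *
    ‖∑ m ∈ T, c m * ω (x.2 * m * e ^ 3) * sym3 m x.2 *
      FS (N m / (Lf (x.2 * x.1) / (N x.2 * N e ^ 3)))‖ ^ 2 with hH
  set i : O → (Σ _ : O, O) := fun d => ⟨(ldSp d e).2, (ldSp d e).1⟩ with hi
  have hS : ∀ d ∈ (ballN (2 * D)).filter (fun d => D ≤ N d), NN d ∧ N d ≤ 2 * D ∧ D ≤ N d :=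
    fun d hd => ⟨(mem_ballN.1 (Finset.mem_filter.1 hd).1).1,
      (mem_ballN.1 (Finset.mem_filter.1 hd).1).2, (Finset.mem_filter.1 hd).2⟩
  have hN : ∀ d, NN d → N d / N (ldSp d e).2 = N (ldSp d e).1 := fun d hd => by
    obtain ⟨k1, -, -, -, k5⟩ := ldSp_spec hd e
    rw [div_eq_iff (N_pos k5.ne_zero).ne', ← N_mul, ← k1]
  calc _ ≤ ∑ d ∈ (ballN (2 * D)).filter (fun d => D ≤ N d), H (i d) := by
        refine Finset.sum_le_sum fun d hd => ?_
        obtain ⟨h1, h2, h3⟩ := hS d hd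
        obtain ⟨k1, -, -, k4, k5⟩ := ldSp_spec h1 e
        have e1 : ∑ n ∈ T, ldT FS c ω u Lf d (e, n) = ldK u (ldSp d e).1 * ∑ m ∈ T,
            c m * ω ((ldSp d e).1 * m * e ^ 3) * sym3 m (ldSp d e).1 *
              FS (N m / (Lf d / (N (ldSp d e).1 * N e ^ 3))) := by
          rw [Finset.mul_sum]
          refine Finset.sum_congr rfl fun m hm => if_pos ⟨he, fun h0 => ?_⟩
          have := (hT m hm).1
          simp only at h0
          rw [h0, N_zero] at this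
          linarith
        have b0 := N_pos k5.ne_zero
        rw [e1, norm_mul, mul_pow]
        simp only [hH, hi, ← k1]
        exact mul_le_mul_of_nonneg_right (ld_K_le u k4 (by positivity)
          (hN d h1 ▸ div_le_div_of_nonneg_right h3 b0.le)) (sq_nonneg _)
    _ ≤ ∑ x ∈ (divs e).sigma
        (fun b => (ballN (2 * (D / N b))).filter (fun a => D / N b ≤ N a)), H x := by
        rw [← Finset.sum_image (g := i) fun d hd d' hd' hh => by
          simp only [hi, Sigma.mk.injEq, heq_eq_eq] at hh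
          rw [(ldSp_spec (hS d hd).1 e).1, (ldSp_spec (hS d' hd').1 e).1, hh.1, hh.2]]
        refine Finset.sum_le_sum_of_subset_of_nonneg (fun x hx => ?_) fun x _ _ => ?_
        · obtain ⟨d, hd, rfl⟩ := Finset.mem_image.1 hx
          obtain ⟨h1, h2, h3⟩ := hS d hd
          obtain ⟨k1, k2, -, k4, k5⟩ := ldSp_spec h1 e
          have b0 := N_pos k5.ne_zero
          refine Finset.mem_sigma.2 ⟨(mem_divs he.ne_zero).2 ⟨k5, k2⟩, Finset.mem_filter.2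
            ⟨mem_ballN.2 ⟨k4, ?_⟩, hN d h1 ▸ div_le_div_of_nonneg_right h3 b0.le⟩⟩
          simp only [hi]
          rw [← hN d h1, ← mul_div_assoc]
          exact div_le_div_of_nonneg_right h2 b0.le
        · have := N_nonneg x.1
          simp only [hH]
          positivity
    _ ≤ ∑ b ∈ divs e, C * (Z ^ η) ^ 22 * N q * Bd * M ^ 2 * (L ^ (2 / 3 : ℝ) +
        K ^ 4 * L ^ (5 / 3 : ℝ) / D ^ 2 + K ^ (8 / 3 : ℝ) * L ^ (4 / 3 : ℝ) / D) /
          (N e ^ 2 * (N e ^ η) ^ 8 * (L1 ^ η) ^ 2) := by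
        rw [Finset.sum_sigma]
        refine Finset.sum_le_sum fun b hb => ?_
        obtain ⟨h1, h2⟩ := (mem_divs he.ne_zero).1 hb
        have b0 := N_pos h1.ne_zero
        refine h Z K D L M L1 Bd (N e) (N b) FS q (e ^ 3) ω c
          (fun a => Lf (a * b) / (N a * N e ^ 3)) T hK hKZ hD hDZ hL hLZ hq hω m1 m2
          (one_le_N h1.ne_zero) (N_le_of_dvd h2 he.ne_zero) hL1 hBd hc hs hT fun a ha => ?_
        have a0 : 0 < N a := (div_pos D0 b0).trans_le ha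
        have := hLf (a * b)
        refine ⟨div_pos this.1 (by positivity), ?_⟩
        gcongr
        exact this.2
    _ ≤ _ := by
        have a1 := ld_np E0.le 4 η
        have a2 := ld_np E0.le 2 η
        push_cast at a1 a2
        rw [Finset.sum_const, nsmul_eq_mul, Real.rpow_neg E0.le, Real.rpow_add E0, Real.rpow_one, a2]
        refine (mul_le_mul_of_nonneg_right ((card_divs_le e).trans (hdv e he.ne_zero))
          (by positivity)).trans_eq ?_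
        rw [a1]
        field_simp

theorem ld_has {FS : ℝ → ℂ} {σ σ0 : SLO} (hσ : Good σ0) {u : O} (hu : IsUnit u) {ω ω' : O → ℂ}
    (hρ : ∀ n, rho σ n * ω n = rho σ0 (u * n) * ω' n) (Lf : O → ℝ) {d : O} (hd : NN d)
    (hs : Summable fun n : O =>
      if n ≠ 0 ∧ d ∣ n then rho σ n * ω n * FS (N n / Lf d) else 0) :
    HasSum (ldT FS (fun n => if SFA n then rho σ0 (u * n) else 0) ω' u Lf d)
      (Vd FS σ ω d (Lf d)) := by
  set g := ldT FS (fun n => if SFA n then rho σ0 (u * n) else 0) ω' u Lf d with hg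
  have key : ∀ e n, Prim e → n ≠ 0 → SFA ((ldSp d e).1 * n) → g (e, n) =
      if (ldSp d e).1 * n * e ^ 3 ≠ 0 ∧ d ∣ (ldSp d e).1 * n * e ^ 3 then
        rho σ ((ldSp d e).1 * n * e ^ 3) * ω ((ldSp d e).1 * n * e ^ 3) *
          FS (N ((ldSp d e).1 * n * e ^ 3) / Lf d) else 0 := fun e n he hn h => by
    obtain ⟨k1, k2, -, k4, -⟩ := ldSp_spec hd e
    obtain ⟨h1, h2⟩ := (ld_sfa k4.1 k4.2.1).1 h
    have hdv : d ∣ (ldSp d e).1 * n * e ^ 3 := by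
      nth_rewrite 1 [k1]
      rw [mul_assoc]
      exact mul_dvd_mul_left _ ((k2.trans (dvd_pow_self e (by norm_num))).mul_left n)
    rw [if_pos ⟨mul_ne_zero (mul_ne_zero k4.ne_zero hn) (he.pow 3).ne_zero, hdv⟩, hρ,
      show u * ((ldSp d e).1 * n * e ^ 3) = u * n * (ldSp d e).1 * e ^ 3 by ring,
      rho_cube rho_out σ0 _ he, rho_gauss hσ k4.1 k4.2.1
        (IsCoprime.mul_left ⟨hu.unit⁻¹.1, 0, by simp⟩ h2), ← mul_assoc 9, sym3_mul_left,
      N_mul, N_mul, N_pow]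
    simp only [hg, ldT, ldK]
    rw [if_pos ⟨he, hn⟩, if_pos h1, div_div_eq_mul_div, mul_comm (N n), mul_right_comm (N _)]
    ring
  have supp : ∀ p : O × O, g p ≠ 0 → Prim p.1 ∧ p.2 ≠ 0 ∧ SFA ((ldSp d p.1).1 * p.2) := by
    intro p hp
    simp only [hg, ldT] at hp
    obtain ⟨-, -, -, k4, -⟩ := ldSp_spec hd p.1
    by_cases h1 : Prim p.1 ∧ p.2 ≠ 0
    swap
    · exact absurd (if_neg h1) hp
    refine ⟨h1.1, h1.2, (ld_sfa k4.1 k4.2.1).2 ⟨?_, ?_⟩⟩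
    · by_contra h2
      simp [h2] at hp
    · by_contra h2
      simp [(sym3_eq_zero_iff k4.ne_zero).2 h2] at hp
  refine (hasSum_iff_hasSum_of_ne_zero_bij
    (fun p : Function.support g => (ldSp d p.1.1).1 * p.1.2 * p.1.1 ^ 3) ?_ ?_ ?_).1 hs.hasSum
  · rintro ⟨⟨e, n⟩, hp⟩ ⟨⟨e', n'⟩, hp'⟩ h
    obtain ⟨a1, a2, a3⟩ := supp _ hp
    obtain ⟨b1, b2, b3⟩ := supp _ hp'
    have n1 := (ldSp_spec hd e).2.2.2.1.ne_zero
    have n2 := (ldSp_spec hd e').2.2.2.1.ne_zero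
    obtain rfl : e = e' := ld_uniq a3 b3 (mul_ne_zero n1 a2) (mul_ne_zero n2 b2) a1 b1 h
    obtain rfl : n = n' := mul_left_cancel₀ n1 (mul_right_cancel₀ (a1.pow 3).ne_zero h)
    rfl
  · intro x hx
    rw [Function.mem_support] at hx
    have h1 : x ≠ 0 ∧ d ∣ x := by
      by_contra h
      exact hx (if_neg h)
    have h2 : rho σ0 (u * x) ≠ 0 := fun h => hx (by rw [if_pos h1, hρ, h, zero_mul, zero_mul])
    obtain ⟨e, m, he, hm, rfl⟩ := ld_ex hu h1.1 h2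
    obtain ⟨k1, -, k3, -, -⟩ := ldSp_spec hd e
    obtain ⟨n, rfl⟩ : (ldSp d e).1 ∣ m :=
      k3.pow_right.dvd_of_dvd_mul_right ((Dvd.intro _ k1.symm).trans h1.2)
    have hn : n ≠ 0 := fun h => h1.1 (by simp [h])
    exact ⟨⟨(e, n), by rw [Function.mem_support, key e n he hn hm]; exact hx⟩, rfl⟩
  · rintro ⟨⟨e, n⟩, hp⟩
    obtain ⟨a1, a2, a3⟩ := supp _ hp
    exact (key e n a1 a2 a3).symm

/-- large sieve bound on the dual side -/
theorem ld {ε : ℝ} (hε : 0 < ε) : ∃ C : ℝ, 0 < C ∧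
    ∀ (Z K D L M : ℝ) (FS : ℝ → ℂ) (σ : SLO) (q : O) (ω : O → ℂ) (Lf : O → ℝ),
    1 ≤ K → K ≤ Z → 1 ≤ D → D ≤ Z → 0 < L → L ≤ Z → q ≠ 0 → Wt q ω → 0 ≤ M →
    MRep FS (1 / 3) M → MRep FS (4 / 3) (M * K ^ 4) → (∀ d, 0 < Lf d ∧ Lf d ≤ L) →
    ∑ d ∈ (ballN (2 * D)).filter (fun d => D ≤ N d), ‖Vd FS σ ω d (Lf d)‖ ^ 2 ≤
      C * Z ^ ε * N q * M ^ 2 * (L ^ (2 / 3 : ℝ) + K ^ 4 * L ^ (5 / 3 : ℝ) / D ^ 2 +
        K ^ (8 / 3 : ℝ) * L ^ (4 / 3 : ℝ) / D) := by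
  obtain ⟨η, hη, hη1, hη2⟩ : ∃ η : ℝ, 0 < η ∧ η ≤ 1 / 4 ∧ ((22 : ℕ) : ℝ) * η ≤ ε :=
    ⟨min (ε / 22) (1 / 4), by positivity, min_le_right _ _, by
      have := min_le_left (ε / 22) (1 / 4)
      push_cast
      linarith⟩
  obtain ⟨C, hC, h⟩ := ld_blk hη hη1
  obtain ⟨B, hB⟩ := rho_out.bound
  have s1 := summable_N_rpow (s := 1 + 2 * η) (by linarith)
  obtain ⟨r, hr⟩ : ∃ r : ℝ, r = (2 ^ η)⁻¹ := ⟨_, rfl⟩
  have r0 : 0 ≤ r := by rw [hr]; positivity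
  have r1 : r < 1 := hr ▸ inv_lt_one_of_one_lt₀ (Real.one_lt_rpow (by norm_num) hη)
  have s2 := summable_geometric_of_lt_one r0 r1
  obtain ⟨A, hA⟩ : ∃ A, A = (∑' n : O, N n ^ (-(1 + 2 * η))) * ∑' j : ℕ, r ^ j := ⟨_, rfl⟩
  refine ⟨C * 81 * |B| * A ^ 2 + 1, by positivity,
    fun Z K D L M FS σ q ω Lf hK hKZ hD hDZ hL hLZ hq hω hM m1 m2 hLf => ?_⟩
  obtain ⟨σ0, y, u, θ, hσ, -, hu, hθ, hρ⟩ := cusp_class σ
  have K0 : 0 < K := by linarith
  have Z0 : 0 < Z := by linarith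
  have q0 := N_nonneg q
  have hb : ∀ R : ℝ, 1 ≤ R → ∑ n ∈ ballO R, ‖rho σ n‖ ^ 2 ≤ |B| * R ^ (2 / 3 : ℝ) := fun R hR =>
    (hB σ R hR).trans (mul_le_mul_of_nonneg_right (le_abs_self _) (by positivity))
  have h9 : toC 9 = 9 := map_ofNat toC 9
  have hω' : Wt (9 * q) fun n => θ * psi (toC n * toC y / 9) * ω n := by
    refine Wt.mul ⟨fun a b hab => ?_, fun a => ?_⟩ (hω.mono (dvd_mul_left _ _))
    · have := psi_congr sr_nine_ne (x := a * y) (y := b * y) (by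
        rw [← sub_mul]; exact ((dvd_mul_right _ _).trans hab).mul_right _)
      simp only [map_mul, h9] at this
      simp only [this]
    · rw [norm_mul, hθ, norm_psi, one_mul]
  set Φ := L ^ (2 / 3 : ℝ) + K ^ 4 * L ^ (5 / 3 : ℝ) / D ^ 2 +
    K ^ (8 / 3 : ℝ) * L ^ (4 / 3 : ℝ) / D with hΦ
  have Φ0 : 0 ≤ Φ := by positivity
  obtain ⟨B0, hB0⟩ : ∃ B0, B0 = C * (Z ^ η) ^ 22 * N (9 * q) * |B| * M ^ 2 * Φ := ⟨_, rfl⟩
  have B00 : 0 ≤ B0 := by rw [hB0]; have := N_nonneg (9 * q); positivity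
  refine le_trans (ld_lim _ (B := B0 * A ^ 2) (F := ldT FS
    (fun n => if SFA n then rho σ0 (u * n) else 0) (fun n => θ * psi (toC n * toC y / 9) * ω n)
    u Lf) (fun d hd => ld_has hσ hu (fun n => by rw [hρ]; ring) Lf
      (mem_ballN.1 (Finset.mem_filter.1 hd).1).1 ?_)
    (fun d n => if_neg fun k => k.1.ne_zero rfl) (fun d e => if_neg fun k => k.2 rfl)
    fun R => ?_) ?_
  · have s3 := summable_of_sq_bound (a := rho σ) (Bd := |B|) (fun R hR => (hb R hR).trans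
      (mul_le_mul_of_nonneg_left (Real.rpow_le_self_of_one_le hR (by norm_num)) (abs_nonneg _)))
      (s := 4 / 3) (by norm_num)
    have l0 := (hLf d).1
    refine Summable.of_norm_bounded (s3.mul_right (M * K ^ 4 * (Lf d)⁻¹ ^ (-(4 / 3) : ℝ)))
      fun n => ?_
    have := N_nonneg n
    split_ifs with hn
    · have k := m2.norm_le (div_pos (N_pos hn.1) l0)
      rw [div_eq_mul_inv, Real.mul_rpow this (by positivity)] at k
      rw [norm_mul, norm_mul, div_eq_mul_inv]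
      refine (mul_le_mul (mul_le_of_le_one_right (norm_nonneg _) (hω.2 n)) k (norm_nonneg _)
        (norm_nonneg _)).trans_eq (by ring)
    · rw [norm_zero]; positivity
  · set g := ldT FS (fun n => if SFA n then rho σ0 (u * n) else 0)
      (fun n => θ * psi (toC n * toC y / 9) * ω n) u Lf with hg
    obtain ⟨J, hJ⟩ := ((ballO R).image fun n => Nat.log 2 (Nm n)).bddAbove
    have e1 : ∀ d, ∑ e ∈ ballO R, ∑ n ∈ ballO R, g d (e, n) =
        ∑ x ∈ ballO R ×ˢ Finset.range (J + 1),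
          ∑ n ∈ (ballO R).filter (fun n => Nat.log 2 (Nm n) = x.2), g d (x.1, n) := fun d => by
      rw [Finset.sum_product]
      exact Finset.sum_congr rfl fun e _ => (Finset.sum_fiberwise_of_maps_to (fun n hn =>
        Finset.mem_range.2 (Nat.lt_succ_of_le (hJ (Finset.mem_image_of_mem _ hn)))) _).symm
    simp only [e1]
    rw [← Real.sq_sqrt B00, ← mul_pow]
    refine (Real.sqrt_le_iff.1 ((mink _ _ _).trans ?_)).2
    calc _ ≤ ∑ x ∈ ballO R ×ˢ Finset.range (J + 1), √B0 * (N x.1 ^ (-(1 + 2 * η)) * r ^ x.2) := by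
          refine Finset.sum_le_sum fun x _ => ?_
          have := N_nonneg x.1
          have j1 : (1 : ℝ) ≤ 2 ^ x.2 := one_le_pow₀ (by norm_num)
          have e2 : r ^ x.2 = (((2 : ℝ) ^ x.2) ^ η)⁻¹ := by
            rw [hr, inv_pow, ← ld_np (by norm_num), ← Real.rpow_natCast,
              ← Real.rpow_mul (by norm_num)]
          rw [Real.sqrt_le_left (by positivity), mul_pow, Real.sq_sqrt B00, hB0, e2]
          refine h Z K D L M (2 ^ x.2) |B| FS (9 * q) u x.1 _ _ Lf _ hK hKZ hD hDZ hL hLZ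
            (mul_ne_zero sr_nine_ne hq) hω' m1 m2 hLf j1 (abs_nonneg _) (fun n hn => if_neg hn)
            (le_trans (Finset.sum_le_sum fun n _ => ?_) (hb _ (by linarith))) fun m hm => ?_
          · split_ifs
            · rw [hρ, norm_mul, norm_mul, hθ, norm_psi, one_mul, one_mul]
            · rw [norm_zero, zero_pow two_ne_zero]; positivity
          · obtain ⟨k1, k2⟩ := Finset.mem_filter.1 hm
            have k3 : Nm m ≠ 0 := fun h0 => (mem_ballO.1 k1).1 (Nm_eq_zero.1 h0)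
            have k4 := Nat.pow_log_le_self 2 k3
            have k5 := (Nat.lt_pow_succ_log_self (b := 2) (by norm_num) (Nm m)).le
            rw [k2] at k4 k5
            rw [← pow_succ']
            unfold N
            exact ⟨by exact_mod_cast k4, by exact_mod_cast k5⟩
      _ ≤ √B0 * A := by
          rw [← Finset.mul_sum, Finset.sum_product]
          dsimp only
          rw [← Finset.sum_mul_sum, hA]
          have n1 : ∀ n : O, 0 ≤ N n ^ (-(1 + 2 * η)) := fun n => Real.rpow_nonneg (N_nonneg n) _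
          exact mul_le_mul_of_nonneg_left (mul_le_mul (s1.sum_le_tsum _ fun n _ => n1 n)
            (s2.sum_le_tsum _ fun j _ => by positivity) (by positivity) (tsum_nonneg n1))
            (Real.sqrt_nonneg _)
  · have hN9 : N (9 : O) = 81 := by rw [N_ofNat]; norm_num
    have z : (Z ^ η) ^ 22 ≤ Z ^ ε := by
      rw [← ld_np Z0.le]
      exact Real.rpow_le_rpow_of_exponent_le (by linarith) hη2
    rw [hB0, N_mul, hN9]
    calc _ = C * 81 * |B| * A ^ 2 * (Z ^ η) ^ 22 * N q * M ^ 2 * Φ := by ring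
      _ ≤ _ := by gcongr; linarith

end

end Vale.Agent.P006
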