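import Vale.Agent.P006.Defs

namespace Vale.Agent.P006

open Vale.Agent.P026 Complex MeasureTheory Filter Topology
open scoped Classical ComplexConjugate Real MatrixGroups

noncomputable section

/-- elements of `ballN b` of norm larger than `a` -/
def ringN (a b : ℝ) : Finset O := (ballN b).filter (fun n => a < N n)
def nsq (T : Finset O) (a : O → ℂ) : ℝ := ∑ n ∈ T, ‖a n‖ ^ 2
/-- operator norm bound for a kernel on `S × T` -/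
def OpB (K : O → O → ℂ) (S T : Finset O) (D : ℝ) : Prop :=
  ∀ a : O → ℂ, ∑ m ∈ S, ‖∑ n ∈ T, a n * K m n‖ ^ 2 ≤ D * nsq T a
/-- `a` is supported on the dyadic shell `R / 2 < N n ≤ R` -/
def Sh (a : O → ℂ) (R : ℝ) : Prop := ∀ n, a n ≠ 0 → NN n ∧ R / 2 < N n ∧ N n ≤ R

/-- the vector attached to a triple `(g1, e, f)` after Poisson summation -/
def aT (a : O → ℂ) (R : ℝ) (t : O × O × O) (s : ℂ) (n : O) : ℂ :=
  a (pr t * n) * sym3 (lam ^ 2 * t.1 ^ 2 * t.2.1) n * ((N (pr t * n) / R : ℝ) : ℂ) ^ s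
def nT (a : O → ℂ) (R : ℝ) (t : O × O × O) : ℝ := ∑ n ∈ ballN R, ‖a (pr t * n)‖ ^ 2
/-- sum over all nonzero rows -/
def HS (a : O → ℂ) (R H : ℝ) : ℝ := ∑ h ∈ ballO H, ‖∑ n ∈ ballN R, a n * sym3 h n‖ ^ 2
def OffS (a : O → ℂ) (R Y : ℝ) (t : O × O × O) (h : O) : ℂ :=
  ∑ n1 ∈ ballN R, ∑ n2 ∈ ballN R,
    aT a R t 0 n1 * sym3 h n1 * conj (aT a R t 0 n2 * sym3 h n2) *
      (((√(N n1 * N n2))⁻¹ * Psi (N h * Y / (N t.2.1 * N t.2.2 ^ 2 * N n1 * N n2)) : ℝ) : ℂ)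

/-- the property that is improved recursively -/
def PL (γ : ℝ) : Prop :=
  ∀ ε > (0 : ℝ), ∃ C : ℝ, 0 < C ∧ ∀ Z M R : ℝ, 1 ≤ M → M ≤ Z → 1 ≤ R → R ≤ Z →
    OpB sym3 (ballN M) (ballN R) (C * Z ^ ε * (M + (M * R) ^ (2 / 3 : ℝ) + R ^ γ))

def pairs2 (q : ℝ) : Finset (O × O) :=
  (ballN q ×ˢ ballN q).filter (fun k => IsCoprime k.1 k.2 ∧ N k.1 * N k.2 ≤ q)
def pairs3 (q : ℝ) : Finset (O × O) := (pairs2 q).filter (fun k => ¬ (k.1 = 1 ∧ k.2 = 1))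
def Kab (A B g : O) (Y : ℝ) : ℂ :=
  ∑' n : O, sym3 n A * conj (sym3 n B) * (if IsCoprime n g then 1 else 0) *
    ((Real.exp (-(kap * N n / Y)) : ℝ) : ℂ)

def FF (a : O → ℂ) (R : ℝ) (x : (O × O × O) × O) : ℝ :=
  ‖∑ n ∈ ballN R, a n * sym3 (cf x.1 * x.2 ^ 3) n‖ ^ 2

/-- all character directions are at most `P` -/
def PT (a : O → ℂ) (U V P : ℝ) : Prop :=
  ∀ (l h : O) (y : ℝ), NN l → N l ≤ U → h ≠ 0 → N h ≤ V → ‖S1 a l h y‖ ^ 2 ≤ P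
/-- all Gauss sum directions are at most `P` -/
def PF (a : O → ℂ) (U V P : ℝ) : Prop :=
  ∀ (l h : O) (y : ℝ), NN l → N l ≤ U → h ≠ 0 → N h ≤ V → ‖S2 a l h y‖ ^ 2 ≤ P

def Kd (Q : ℝ) (m n : O) : ℂ := del Q (m * n)
/-- the window hypothesis -/
def HW (Q H B R D : ℝ) : Prop :=
  ∀ H1 : ℝ, H1 ≤ H → OpB (Kd Q) (ringN (H / B) H1) (ballN R) (D * √(H1 / H))

end

end Vale.Agent.P006
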