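import Vale.Agent.P006.LBas
import Vale.Agent.P026.TL2

namespace Vale.Agent.P006

open Vale.Agent.P026 Complex MeasureTheory Filter Topology
open scoped Classical ComplexConjugate Real MatrixGroups

noncomputable section

theorem ps2_sum {a : O → ℂ} {R : ℝ} (hR : 1 ≤ R) (ha : Sh a R) {t : O × O × O} (ht : t ∈ trip R)
    (h : O) (s : ℂ) :
    ∑ n ∈ ballN R, aT a R t 0 n * sym3 h n * ((N n : ℝ) : ℂ) ^ s =
      ((R / N (pr t) : ℝ) : ℂ) ^ s * ∑ n ∈ ballN (R / N (pr t)), aT a R t s n * sym3 h n := by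
  have p1 := one_le_N (lbas_pr_ne ht)
  rw [Finset.mul_sum]
  symm
  refine Finset.sum_subset_zero_on_sdiff (ballN_mono (div_le_self (by linarith) p1)) ?_ ?_
  · intro n hn
    obtain ⟨k1, k2⟩ := Finset.mem_sdiff.1 hn
    have : a (pr t * n) = 0 := by
      by_contra k
      refine k2 (mem_ballN.2 ⟨(mem_ballN.1 k1).1, ?_⟩)
      have := (ha _ k).2.2
      rw [N_mul] at this
      rw [le_div_iff₀ (by linarith)]; linarith
    simp [aT, this]
  · intro n hn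
    have n0 := N_pos (mem_ballN.1 hn).1.ne_zero
    have e : ((N n : ℝ) : ℂ) ^ s = ((R / N (pr t) : ℝ) : ℂ) ^ s * ((N (pr t * n) / R : ℝ) : ℂ) ^ s := by
      rw [← Complex.mul_cpow_ofReal_nonneg (by positivity) (div_nonneg (N_nonneg _) (by linarith)),
        ← Complex.ofReal_mul, N_mul]
      congr 2; field_simp
    rw [e, aT, aT, Complex.cpow_zero]; ring

/-- Mellin separation of the off-diagonal terms -/
theorem ps2 {σ : ℝ} (hσ : 0 < σ) : ∃ C : ℝ, 0 < C ∧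
    ∀ (R Y : ℝ) (a : O → ℂ) (t : O × O × O) (h : O), 0 < Y → 1 ≤ R → Sh a R → t ∈ trip R → h ≠ 0 →
    Y / (N t.2.1 * N t.2.2) * ‖OffS a R Y t h‖ ≤
      C * (Y * N t.1 / R) * (Ht R Y t / N h) ^ σ *
        ∫ τ : ℝ, Real.exp (-τ ^ 2 / 4) *
          ‖∑ n ∈ ballN (R / N (pr t)),
            aT a R t (σ - 1 / 2 + τ * Complex.I) n * sym3 h n‖ ^ 2 := by
  obtain ⟨C, m, hC, hm, hb, hP⟩ := Psi_mellin hσ
  refine ⟨8 * C, by positivity, fun R Y a t h hY hR ha ht hh => ?_⟩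
  obtain ⟨hg, he, hf, -⟩ := mem_trip.1 ht
  have Ng := N_pos hg.ne_zero
  have Ne := N_pos he.ne_zero
  have Nf := N_pos hf.ne_zero
  have Nh := N_pos hh
  have key := tl2_core hC hm hb hP (x := N h * Y / (N t.2.1 * N t.2.2 ^ 2)) (by positivity) (ballN R)
    {0} (fun n hn => (mem_ballN.1 hn).1.ne_zero) (fun _ n => aT a R t 0 n * sym3 h n)
    (fun _ _ => 1) (fun _ _ => by norm_num)
  simp only [Finset.sum_singleton, one_mul, Finset.card_singleton, Nat.cast_one, mul_one,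
    ps2_sum hR ha ht, norm_mul, mul_pow] at key
  have hp : N (pr t) = N t.1 * N t.2.1 * N t.2.2 := by rw [pr, N_mul, N_mul]
  have p0 : 0 < R / N (pr t) := by rw [hp]; positivity
  have e1 : ∀ τ : ℝ, ‖((R / N (pr t) : ℝ) : ℂ) ^ (σ - 1 / 2 + τ * I)‖ = (R / N (pr t)) ^ (σ - 1 / 2) :=
    fun τ => by rw [Complex.norm_cpow_eq_rpow_re_of_pos p0]; simp
  simp only [e1, mul_left_comm _ (((R / N (pr t)) ^ (σ - 1 / 2)) ^ 2), integral_const_mul] at key
  have e2 : OffS a R Y t h = ∑ n1 ∈ ballN R, ∑ n2 ∈ ballN R, aT a R t 0 n1 * sym3 h n1 *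
      conj (aT a R t 0 n2 * sym3 h n2) * (((√(N n1 * N n2))⁻¹ *
        Psi (N h * Y / (N t.2.1 * N t.2.2 ^ 2) / (N n1 * N n2)) : ℝ) : ℂ) := by
    simp only [OffS, div_div, mul_assoc (N t.2.1 * N t.2.2 ^ 2)]
  rw [← e2] at key
  refine (mul_le_mul_of_nonneg_left key (by positivity)).trans (le_of_eq ?_)
  have e3 : ((R / N (pr t)) ^ (σ - 1 / 2)) ^ 2 = ((R / N (pr t)) ^ 2) ^ σ * (N (pr t) / R) := by
    rw [← Real.rpow_natCast, ← Real.rpow_mul p0.le, ← Real.rpow_natCast, ← Real.rpow_mul p0.le,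
      ← inv_div R (N (pr t)), ← Real.rpow_neg_one, ← Real.rpow_add p0]
    congr 1; push_cast; ring
  have e4 : (Ht R Y t / N h) ^ σ =
      ((R / N (pr t)) ^ 2) ^ σ * (N h * Y / (N t.2.1 * N t.2.2 ^ 2)) ^ (-σ) := by
    rw [Real.rpow_neg (by positivity), ← Real.inv_rpow (by positivity),
      ← Real.mul_rpow (by positivity) (by positivity), hp, Ht]
    congr 1; field_simp
  rw [e3, e4]
  generalize (∫ τ : ℝ, Real.exp (-τ ^ 2 / 4) * ‖∑ n ∈ ballN (R / N (pr t)),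
    aT a R t (σ - 1 / 2 + τ * Complex.I) n * sym3 h n‖ ^ 2) = J
  rw [hp]
  field_simp

theorem ps2_int (a : O → ℂ) (R σ : ℝ) (t : O × O × O) (h : O) (hR : 0 < R) (ht : pr t ≠ 0) :
    Integrable fun τ : ℝ => Real.exp (-τ ^ 2 / 4) *
      ‖∑ n ∈ ballN (R / N (pr t)), aT a R t (σ - 1 / 2 + τ * Complex.I) n * sym3 h n‖ ^ 2 := by
  have hp : ∀ n ∈ ballN (R / N (pr t)), 0 < N (pr t * n) / R := fun n hn =>
    div_pos (N_pos (mul_ne_zero ht (mem_ballN.1 hn).1.ne_zero)) hR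
  refine tl2_integrable' (Continuous.pow (Continuous.norm (continuous_finsetSum _ fun n hn => ?_)) 2)
    ((∑ n ∈ ballN (R / N (pr t)), ‖aT a R t (σ - 1 / 2) n * sym3 h n‖) ^ 2)
    (fun _ => by positivity) fun τ => ?_
  · unfold aT
    exact (continuous_const.mul (Continuous.const_cpow (by fun_prop)
      (Or.inl (by exact_mod_cast (hp n hn).ne')))).mul continuous_const
  · refine pow_le_pow_left₀ (norm_nonneg _) ((norm_sum_le _ _).trans_eq
      (Finset.sum_congr rfl fun n hn => ?_)) 2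
    simp only [aT, norm_mul, Complex.norm_cpow_eq_rpow_re_of_pos (hp n hn)]
    simp

theorem ps2_pow {x c : ℝ} (h1 : 1 / 2 < x) (h2 : x ≤ 1) : x ^ c ≤ 2 ^ |c| := by
  have a1 : x ^ c ≤ x ^ (-|c|) :=
    Real.rpow_le_rpow_of_exponent_ge (by linarith) h2 (neg_abs_le c)
  have a2 : x ^ (-|c|) ≤ (1 / 2 : ℝ) ^ (-|c|) :=
    Real.rpow_le_rpow_of_nonpos (by norm_num) h1.le (by simp)
  rw [one_div, Real.inv_rpow (by norm_num), Real.rpow_neg (by norm_num : (0 : ℝ) ≤ 2), inv_inv] at a2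
  exact a1.trans a2

/-- trivial bound, used for large `h` -/
theorem ps2_triv {σ : ℝ} (hσ : 0 < σ) : ∃ C : ℝ, 0 < C ∧
    ∀ (R Y : ℝ) (a : O → ℂ) (t : O × O × O) (h : O), 0 < Y → 1 ≤ R → Sh a R → t ∈ trip R → h ≠ 0 →
    Y / (N t.2.1 * N t.2.2) * ‖OffS a R Y t h‖ ≤
      C * (Y * N t.1 / N (pr t)) * (Ht R Y t / N h) ^ σ * nT a R t := by
  obtain ⟨C, hC, H⟩ := ps2 hσ
  obtain ⟨C2, hC2, h2⟩ := card_ballO_le
  have gi : Integrable fun τ : ℝ => Real.exp (-τ ^ 2 / 4) :=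
    tl2_integrable (by fun_prop) 1 fun τ => by simp
  set K : ℝ := ∫ τ : ℝ, Real.exp (-τ ^ 2 / 4) with hK
  have K0 : 0 ≤ K := integral_nonneg fun _ => (Real.exp_pos _).le
  refine ⟨C * ((K + 1) * C2 * (2 ^ |σ - 1 / 2|) ^ 2), by positivity,
    fun R Y a t h hY hR ha ht hh => (H R Y a t h hY hR ha ht hh).trans ?_⟩
  have p1 := one_le_N (lbas_pr_ne ht)
  have Ng := N_pos (mem_trip.1 ht).1.ne_zero
  have Ne := N_pos (mem_trip.1 ht).2.1.ne_zero
  have Nh := N_pos hh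
  have n0 := nT_nonneg a R t
  set B : ℝ := C2 * (R / N (pr t)) * (2 ^ |σ - 1 / 2|) ^ 2 * nT a R t with hB
  have B0 : 0 ≤ B := by positivity
  have hb : ∀ τ : ℝ, ‖∑ n ∈ ballN (R / N (pr t)),
      aT a R t (σ - 1 / 2 + τ * Complex.I) n * sym3 h n‖ ^ 2 ≤ B := fun τ => by
    refine ((pow_le_pow_left₀ (norm_nonneg _) (norm_sum_le _ _) 2).trans
      sq_sum_le_card_mul_sum_sq).trans ?_
    have c : ((ballN (R / N (pr t))).card : ℝ) ≤ C2 * (R / N (pr t)) :=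
      le_trans (by exact_mod_cast Finset.card_le_card (dual_sub _)) (h2 _ (by positivity))
    rw [hB, mul_assoc (C2 * _)]
    refine mul_le_mul c ?_ (Finset.sum_nonneg fun _ _ => by positivity) (by positivity)
    rw [nT, Finset.mul_sum]
    refine le_trans (Finset.sum_le_sum fun n _ => ?_) (Finset.sum_le_sum_of_subset_of_nonneg
      (ballN_mono (div_le_self (by linarith) p1)) fun _ _ _ => by positivity)
    by_cases h0 : a (pr t * n) = 0
    · simp [aT, h0]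
    obtain ⟨-, k1, k2⟩ := ha _ h0
    have x1 : 1 / 2 < N (pr t * n) / R := by rw [lt_div_iff₀ (by linarith)]; linarith
    have x2 : N (pr t * n) / R ≤ 1 := by rw [div_le_one (by linarith)]; exact k2
    rw [← mul_pow]
    refine pow_le_pow_left₀ (norm_nonneg _) ?_ 2
    rw [aT, norm_mul, norm_mul, norm_mul, Complex.norm_cpow_eq_rpow_re_of_pos (by linarith)]
    have e : (σ - 1 / 2 + τ * Complex.I : ℂ).re = σ - 1 / 2 := by simp
    rw [e]
    have := ps2_pow (c := σ - 1 / 2) x1 x2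
    have := norm_sym3_le (lam ^ 2 * t.1 ^ 2 * t.2.1) n
    have := norm_sym3_le h n
    calc _ ≤ ‖a (pr t * n)‖ * 1 * 2 ^ |σ - 1 / 2| * 1 := by gcongr
      _ = _ := by ring
  have hI : ∫ τ : ℝ, Real.exp (-τ ^ 2 / 4) * ‖∑ n ∈ ballN (R / N (pr t)),
      aT a R t (σ - 1 / 2 + τ * Complex.I) n * sym3 h n‖ ^ 2 ≤ (K + 1) * B := by
    refine (integral_mono (ps2_int a R σ t h (by linarith) (lbas_pr_ne ht)) (gi.mul_const B)
      fun τ => mul_le_mul_of_nonneg_left (hb τ) (Real.exp_pos _).le).trans ?_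
    rw [integral_mul_const]; nlinarith
  have H0 : 0 ≤ (Ht R Y t / N h) ^ σ := Real.rpow_nonneg (by unfold Ht; positivity) _
  refine (mul_le_mul_of_nonneg_left hI (by positivity)).trans (le_of_eq ?_)
  rw [hB]; field_simp

end

end Vale.Agent.P006
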