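import Vale.Agent.P006.LPs1
import Vale.Agent.P006.LPs2
import Vale.Agent.P026.TL3b

namespace Vale.Agent.P006

open Vale.Agent.P026 Complex MeasureTheory Filter Topology
open scoped Classical ComplexConjugate Real MatrixGroups

noncomputable section

theorem lps_int : Integrable (fun τ : ℝ => Real.exp (-τ ^ 2 / 4) * (1 + |τ|) ^ 2) := by
  refine (tl3_gauss 2).mono' (by fun_prop) (Eventually.of_forall fun τ => ?_)
  rw [Real.norm_of_nonneg (by positivity), Real.exp_add]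
  refine mul_le_mul_of_nonneg_left ?_ (Real.exp_pos _).le
  have h : 1 + |τ| ≤ Real.exp |τ| := by linarith [Real.add_one_le_exp |τ|]
  calc (1 + |τ|) ^ 2 ≤ Real.exp |τ| ^ 2 := pow_le_pow_left₀ (by positivity) h 2
    _ = Real.exp (2 * |τ|) := by rw [← Real.exp_nat_mul]; norm_num

theorem lps_trip {ε : ℝ} (hε : 0 < ε) (hε1 : ε ≤ 1 / 2) : ∃ C : ℝ, 0 < C ∧
    ∀ (Z Y R : ℝ) (a : O → ℂ) (D : ℝ) (t : O × O × O), 1 ≤ R → R ≤ Z → 1 ≤ Y → Sh a R →
    t ∈ trip R → (∀ s : ℂ, |s.re| ≤ 1 / 2 →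
      N t.1 * HS (aT a R t s) (R / N (pr t)) (Z ^ ε * Ht R Y t) ≤ (1 + |s.im|) ^ 2 * D) →
    Y / (N t.2.1 * N t.2.2) * (∑' h : O, if h ≠ 0 then ‖OffS a R Y t h‖ else 0) ≤
      C * (Z ^ ε * (Y / R * D) + Y * nT a R t) := by
  obtain ⟨C1, hC1, h1⟩ := ps2 (σ := ε / 2) (by linarith)
  have hσ : (1 : ℝ) < 1 + 2 / ε := by have : 0 < 2 / ε := by positivity
                                      linarith
  obtain ⟨C2, hC2, h2⟩ := ps2_triv (σ := 1 + 2 / ε) (by linarith)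
  obtain ⟨C3, hC3, h3⟩ := lat_tail_one hσ
  obtain ⟨c0, hc0⟩ : ∃ c, c = ∫ τ : ℝ, Real.exp (-τ ^ 2 / 4) * (1 + |τ|) ^ 2 := ⟨_, rfl⟩
  have hc00 : 0 ≤ c0 := hc0 ▸ integral_nonneg fun τ => by positivity
  refine ⟨C1 * c0 + C2 * C3, by positivity, fun Z Y R a D t hR hRZ hY ha ht hD => ?_⟩
  obtain ⟨t1, t2, t3, t4, -⟩ := mem_trip.1 ht
  have hp : pr t ≠ 0 := t4.ne_zero
  have n1 := one_le_N t1.ne_zero
  have n2 := one_le_N t2.ne_zero
  have n3 := one_le_N t3.ne_zero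
  have hZ : 1 ≤ Z := hR.trans hRZ
  have hZ0 : 0 < Z := by linarith
  have hY0 : 0 < Y := by linarith
  have hR0 : 0 < R := by linarith
  set H := Ht R Y t with hH
  have hH0 : 0 < H := by rw [hH, Ht]; positivity
  have hHZ : H ≤ Z ^ 2 := by
    rw [hH, Ht]
    refine (div_le_self (by positivity) ?_).trans (pow_le_pow_left₀ hR0.le hRZ 2)
    exact one_le_mul_of_one_le_of_one_le
      (one_le_mul_of_one_le_of_one_le n2 (one_le_pow₀ n1)) hY
  have hD0 : 0 ≤ D := by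
    have := hD 0 (by simp)
    have h0 : 0 ≤ N t.1 * HS (aT a R t 0) (R / N (pr t)) (Z ^ ε * H) :=
      mul_nonneg (by linarith) (Finset.sum_nonneg fun _ _ => by positivity)
    simpa using h0.trans this
  set L := Z ^ ε * H with hL
  have hL0 : 0 < L := by positivity
  have hnT := nT_nonneg a R t
  let I : O → ℝ := fun h => ∫ τ : ℝ, Real.exp (-τ ^ 2 / 4) *
    ‖∑ n ∈ ballN (R / N (pr t)), aT a R t ((ε / 2 : ℝ) - 1 / 2 + τ * Complex.I) n * sym3 h n‖ ^ 2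
  have hI0 : ∀ h, 0 ≤ I h := fun h => integral_nonneg fun τ => by positivity
  let A : ℝ := C1 * (Y * N t.1 / R) * Z ^ ε
  have hA0 : 0 ≤ A := by positivity
  let B : ℝ := C2 * Y * H ^ (1 + 2 / ε) * nT a R t
  have hB0 : 0 ≤ B := by positivity
  have s1 : HasSum (fun h : O => if h ∈ ballO L then A * I h else 0) (∑ h ∈ ballO L, A * I h) := by
    have := hasSum_sum_of_ne_finset_zero (s := ballO L) (L := .unconditional O)
      (f := fun h : O => if h ∈ ballO L then A * I h else 0) (fun b hb => if_neg hb)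
    rwa [Finset.sum_congr rfl (fun b hb => if_pos hb)] at this
  obtain ⟨s2, b2⟩ := h3 L hL0
  have s3 := s1.add (s2.hasSum.mul_left B)
  have hw : 0 ≤ Y / (N t.2.1 * N t.2.2) := by positivity
  have hle : ∀ h : O, Y / (N t.2.1 * N t.2.2) * (if h ≠ 0 then ‖OffS a R Y t h‖ else 0) ≤
      (if h ∈ ballO L then A * I h else 0) +
        B * (if L < N h then N h ^ (-(1 + 2 / ε)) else 0) := by
    intro h
    have p1 : 0 ≤ (if h ∈ ballO L then A * I h else 0) := by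
      split_ifs
      · exact mul_nonneg hA0 (hI0 h)
      · exact le_rfl
    have p2 : 0 ≤ B * (if L < N h then N h ^ (-(1 + 2 / ε)) else 0) := by
      refine mul_nonneg hB0 ?_
      split_ifs
      · exact Real.rpow_nonneg (N_nonneg _) _
      · exact le_rfl
    by_cases h0 : h = 0
    · rw [if_neg (not_not.2 h0), mul_zero]; linarith
    rw [if_pos h0]
    have nh := one_le_N h0
    by_cases hl : N h ≤ L
    · rw [if_pos (mem_ballO.2 ⟨h0, hl⟩)]
      refine le_trans ?_ (le_add_of_nonneg_right p2)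
      refine (h1 R Y a t h hY0 hR ha ht h0).trans (mul_le_mul_of_nonneg_right ?_ (hI0 h))
      refine mul_le_mul_of_nonneg_left ?_ (by positivity)
      calc (H / N h) ^ (ε / 2) ≤ (Z ^ 2) ^ (ε / 2) :=
            Real.rpow_le_rpow (by positivity) ((div_le_self hH0.le nh).trans hHZ) (by linarith)
        _ = Z ^ ε := by
            rw [← Real.rpow_natCast, ← Real.rpow_mul hZ0.le]; congr 1; push_cast; ring
    · rw [if_pos (not_le.1 hl)]
      refine le_trans ?_ (le_add_of_nonneg_left p1)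
      refine (h2 R Y a t h hY0 hR ha ht h0).trans ?_
      have e1 : Y * N t.1 / N (pr t) ≤ Y := by
        rw [div_le_iff₀ (N_pos hp), pr, N_mul, N_mul]
        refine mul_le_mul_of_nonneg_left ?_ hY0.le
        rw [mul_assoc]
        exact le_mul_of_one_le_right (by linarith) (one_le_mul_of_one_le_of_one_le n2 n3)
      rw [Real.div_rpow hH0.le (N_nonneg _), Real.rpow_neg (N_nonneg _)]
      have : 0 ≤ N h ^ (1 + 2 / ε) := Real.rpow_nonneg (N_nonneg _) _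
      calc C2 * (Y * N t.1 / N (pr t)) * (H ^ (1 + 2 / ε) / N h ^ (1 + 2 / ε)) * nT a R t
          ≤ C2 * Y * (H ^ (1 + 2 / ε) / N h ^ (1 + 2 / ε)) * nT a R t := by gcongr
        _ = _ := by simp only [B]; ring
  have hs : Summable fun h : O =>
      Y / (N t.2.1 * N t.2.2) * (if h ≠ 0 then ‖OffS a R Y t h‖ else 0) :=
    Summable.of_nonneg_of_le (fun h => mul_nonneg hw (by split_ifs <;> simp)) hle s3.summable
  rw [← tsum_mul_left]
  refine (hs.tsum_le_tsum hle s3.summable).trans ?_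
  rw [s3.tsum_eq]
  have q1 : N t.1 * ∑ h ∈ ballO L, I h ≤ c0 * D := by
    have i1 : ∀ h ∈ ballO L, Integrable fun τ : ℝ => Real.exp (-τ ^ 2 / 4) *
        ‖∑ n ∈ ballN (R / N (pr t)), aT a R t ((ε / 2 : ℝ) - 1 / 2 + τ * Complex.I) n *
          sym3 h n‖ ^ 2 := fun h _ => ps2_int a R (ε / 2) t h hR0 hp
    rw [← integral_finsetSum _ i1, ← integral_const_mul, hc0, ← integral_mul_const]
    refine integral_mono ((integrable_finsetSum _ i1).const_mul _) (lps_int.mul_const _)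
      fun τ => ?_
    have := hD ((ε / 2 : ℝ) - 1 / 2 + τ * Complex.I) (by
      have e : (((ε / 2 : ℝ) : ℂ) - 1 / 2 + τ * Complex.I).re = ε / 2 - 1 / 2 := by simp
      rw [e, abs_le]; constructor <;> linarith)
    have e : (((ε / 2 : ℝ) : ℂ) - 1 / 2 + τ * Complex.I).im = τ := by simp
    rw [e] at this
    simp only [← Finset.mul_sum]
    calc N t.1 * (Real.exp (-τ ^ 2 / 4) * ∑ h ∈ ballO L, ‖∑ n ∈ ballN (R / N (pr t)),
          aT a R t ((ε / 2 : ℝ) - 1 / 2 + τ * Complex.I) n * sym3 h n‖ ^ 2)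
        = Real.exp (-τ ^ 2 / 4) * (N t.1 * HS (aT a R t ((ε / 2 : ℝ) - 1 / 2 + τ * Complex.I))
            (R / N (pr t)) L) := by rw [HS]; ring
      _ ≤ Real.exp (-τ ^ 2 / 4) * ((1 + |τ|) ^ 2 * D) :=
          mul_le_mul_of_nonneg_left this (Real.exp_pos _).le
      _ = _ := by ring
  have q2 : ∑ h ∈ ballO L, A * I h ≤ C1 * c0 * (Z ^ ε * (Y / R * D)) := by
    rw [← Finset.mul_sum]
    calc A * ∑ h ∈ ballO L, I h = C1 * (Y / R) * Z ^ ε * (N t.1 * ∑ h ∈ ballO L, I h) := by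
          simp only [A]; ring
      _ ≤ C1 * (Y / R) * Z ^ ε * (c0 * D) := mul_le_mul_of_nonneg_left q1 (by positivity)
      _ = _ := by ring
  have q3 : H ^ (1 + 2 / ε) * L ^ (1 - (1 + 2 / ε)) ≤ 1 := by
    have e1 : (Z ^ ε) ^ (1 - (1 + 2 / ε)) = (Z ^ 2)⁻¹ := by
      rw [← Real.rpow_mul hZ0.le, ← Real.rpow_natCast, ← Real.rpow_neg hZ0.le]
      congr 1; push_cast; field_simp; ring
    rw [hL, Real.mul_rpow (by positivity) hH0.le, e1, mul_left_comm, ← Real.rpow_add hH0]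
    rw [show 1 + 2 / ε + (1 - (1 + 2 / ε)) = 1 by ring, Real.rpow_one, inv_mul_le_one₀ (by positivity)]
    exact hHZ
  have q4 : B * ∑' h : O, (if L < N h then N h ^ (-(1 + 2 / ε)) else 0) ≤
      C2 * C3 * (Y * nT a R t) := by
    calc B * ∑' h : O, (if L < N h then N h ^ (-(1 + 2 / ε)) else 0)
        ≤ B * (C3 * L ^ (1 - (1 + 2 / ε))) := mul_le_mul_of_nonneg_left b2 hB0
      _ = C2 * C3 * (Y * nT a R t) * (H ^ (1 + 2 / ε) * L ^ (1 - (1 + 2 / ε))) := by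
          simp only [B]; ring
      _ ≤ _ := mul_le_of_le_one_right (by positivity) q3
  have p1 : 0 ≤ Z ^ ε * (Y / R * D) := by positivity
  have p2 : 0 ≤ Y * nT a R t := by positivity
  nlinarith [mul_nonneg (mul_nonneg hC1.le hc00) p2, mul_nonneg (mul_nonneg hC2.le hC3.le) p1]

/-- the Poisson step -/
theorem ps {ε : ℝ} (hε : 0 < ε) (hε1 : ε ≤ 1 / 2) : ∃ C : ℝ, 0 < C ∧
    ∀ (Z Y R : ℝ) (a : O → ℂ) (D : O × O × O → ℝ), 1 ≤ R → R ≤ Z → 1 ≤ Y → Y ≤ Z → Sh a R →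
    (∀ t ∈ trip R, ∀ s : ℂ, |s.re| ≤ 1 / 2 →
      N t.1 * HS (aT a R t s) (R / N (pr t)) (Z ^ ε * Ht R Y t) ≤ (1 + |s.im|) ^ 2 * D t) →
    ∑ m ∈ ballO Y, ‖∑ n ∈ ballN R, a n * G n * conj (sym3 m n)‖ ^ 2 ≤
      C * Z ^ ε * (Y * nsq (ballN R) a + Y / R * ∑ t ∈ trip R, D t) := by
  obtain ⟨C1, hC1, h1⟩ := ps1
  obtain ⟨C2, hC2, h2⟩ := lps_trip hε hε1
  obtain ⟨C3, hC3, h3⟩ := dv_le hε
  obtain ⟨C4, hC4, h4⟩ := sum_nT_le hε
  refine ⟨C1 * (C3 + C2 * C4 + C2), by positivity, fun Z Y R a D hR hRZ hY _ ha hD => ?_⟩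
  have hY0 : 0 < Y := by linarith
  have hZ : 1 ≤ Z := hR.trans hRZ
  refine (h1 R Y a hY0 ha).trans ?_
  have hn := nsq_nonneg (ballN R) a
  have hD0 : 0 ≤ ∑ t ∈ trip R, D t := Finset.sum_nonneg fun t ht => by
    have := hD t ht 0 (by simp)
    have h0 : 0 ≤ N t.1 * HS (aT a R t 0) (R / N (pr t)) (Z ^ ε * Ht R Y t) :=
      mul_nonneg (N_nonneg _) (Finset.sum_nonneg fun _ _ => by positivity)
    simpa using h0.trans this
  have b1 : ∑ n ∈ ballN R, ‖a n‖ ^ 2 * dv n ≤ C3 * Z ^ ε * nsq (ballN R) a := by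
    rw [nsq, Finset.mul_sum]
    refine Finset.sum_le_sum fun n hn => ?_
    obtain ⟨k1, k2⟩ := mem_ballN.1 hn
    rw [mul_comm]
    refine mul_le_mul_of_nonneg_right ((h3 n k1.ne_zero).trans ?_) (by positivity)
    exact mul_le_mul_of_nonneg_left (Real.rpow_le_rpow (N_nonneg _) (k2.trans hRZ) hε.le) hC3.le
  have b2 := Finset.sum_le_sum fun t ht => h2 Z Y R a (D t) t hR hRZ hY ha ht (hD t ht)
  rw [← Finset.mul_sum, Finset.sum_add_distrib, ← Finset.mul_sum, ← Finset.mul_sum,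
    ← Finset.mul_sum] at b2
  have b3 : ∑ t ∈ trip R, nT a R t ≤ C4 * Z ^ ε * nsq (ballN R) a :=
    (h4 a R hR ha).trans (mul_le_mul_of_nonneg_right (mul_le_mul_of_nonneg_left
      (Real.rpow_le_rpow (by linarith) hRZ hε.le) hC4.le) hn)
  have b4 := mul_le_mul_of_nonneg_left b1 hY0.le
  have b5 := mul_le_mul_of_nonneg_left (mul_le_mul_of_nonneg_left b3 hY0.le) hC2.le
  rw [mul_assoc, mul_assoc]
  refine mul_le_mul_of_nonneg_left ?_ hC1.le
  have p1 : 0 ≤ Z ^ ε * (Y * nsq (ballN R) a) := by positivity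
  have p2 : 0 ≤ Z ^ ε * (Y / R * ∑ t ∈ trip R, D t) := by positivity
  nlinarith [mul_nonneg hC2.le p1, mul_nonneg hC3.le p2, mul_nonneg (mul_nonneg hC2.le hC4.le) p2]

end

end Vale.Agent.P006
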