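import Vale.Agent.P006.LBas
import Vale.Agent.P026.TL1

namespace Vale.Agent.P006

open Vale.Agent.P026 Complex MeasureTheory Filter Topology
open scoped Classical ComplexConjugate Real MatrixGroups

noncomputable section

theorem ps1_four (x : O) {n : O} (hn : n ≠ 0) : chi6 x n ^ 4 = conj (sym3 x n) := by
  rw [conj_sym3, ← chi6_sq x hn]; ring

def ps1_Off (R : ℝ) (a : O → ℂ) (k : ℕ) (Y : ℝ) (t : O × O × O) (h : O) : ℂ :=
  ∑ n1 ∈ ballN R, ∑ n2 ∈ ballN R,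
    vv R a k t h n1 * conj (vv R a k t h n2) *
      (((√(N n1 * N n2))⁻¹ * Psi (N h * Y / (N t.2.1 * N t.2.2 ^ 2 * N n1 * N n2)) : ℝ) : ℂ)

/-- the summand after Poisson summation -/
def ps1_T (a : O → ℂ) (k : ℕ) (Y : ℝ) (e g n1 n2 h : O) : ℂ :=
  a (g * n1) * conj (a (g * n2)) * (mu e * (chi6 e n1 ^ k * conj (chi6 e n2 ^ k)) *
    ((Y / (N e * N n1 * N n2) : ℝ) : ℂ)) * (gs k 1 n1 *
      conj (gs k 1 n2)) * (chi6 h n1 ^ (6 - k) * conj (chi6 h n2 ^ (6 - k))) *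
      ((Psi (N h * (Y / (N e * N n1 * N n2))) : ℝ) : ℂ)

theorem ps1_T_summ (a : O → ℂ) (k : ℕ) {Y : ℝ} (hY : 0 < Y) {e : O} (g : O) {n1 n2 : O}
    (he : e ≠ 0) (h1 : n1 ≠ 0) (h2 : n2 ≠ 0) : Summable (fun h => ‖ps1_T a k Y e g n1 n2 h‖) := by
  have := N_pos he
  have := N_pos h1
  have := N_pos h2
  refine tl1_summ_norm (fun h => ?_) (by positivity)
    (Bd := ‖a (g * n1) * conj (a (g * n2)) * (mu e * (chi6 e n1 ^ k * conj (chi6 e n2 ^ k)) *
    ((Y / (N e * N n1 * N n2) : ℝ) : ℂ)) * (gs k 1 n1 *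
      conj (gs k 1 n2))‖)
  rw [norm_mul]
  exact mul_le_of_le_one_right (norm_nonneg _) (tl1_chi_le _ _ _ _)

theorem ps1_pair {a : O → ℂ} {k : ℕ} (hk : k = 4) {Y : ℝ} (hY : 0 < Y) {g n1 n2 : O}
    (hg : NN g) (h1 : NN n1) (h2 : NN n2) (h12 : IsCoprime n1 n2) :
    a (g * n1) * conj (a (g * n2)) * ∑' m : O, chi6 m (g * n1) ^ k * conj (chi6 m (g * n2) ^ k) *
        ((wtf (N m / Y) : ℝ) : ℂ) =
      ∑ e ∈ divs g, ps1_T a k Y e g n1 n2 0 +
        ∑ e ∈ divs g, ∑' h : O, if h ≠ 0 then ps1_T a k Y e g n1 n2 h else 0 := by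
  rw [pair_poisson poisPair_wtf hg h1 h2 h12 (by omega) (by omega) hY, Finset.mul_sum,
    ← Finset.sum_add_distrib]
  refine Finset.sum_congr rfl fun e he => ?_
  have he' := ((mem_divs hg.ne_zero).mp he).1
  have hs := (ps1_T_summ a k hY g he'.ne_zero h1.ne_zero h2.ne_zero).of_norm
  subst hk
  have e1 : chi6 n2 n1 ^ 4 * conj (chi6 n1 n2 ^ 4) = 1 := by
    rw [ps1_four n2 h1.ne_zero, ps1_four n1 h2.ne_zero, cubic_recip h2.1 h1.1, Complex.mul_conj',
      Complex.norm_conj, norm_sym3 h12]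
    simp
  have e2 : ∀ h, chi6 (-h) n2 ^ (6 - 4) = chi6 h n2 ^ (6 - 4) := fun h => by
    rw [show 6 - 4 = 2 from rfl, chi6_sq _ h2.ne_zero, chi6_sq _ h2.ne_zero, sup_neg]
  simp only [ne_eq, ite_not]
  rw [← hs.tsum_eq_add_tsum_ite 0, ← tsum_mul_left, ← tsum_mul_left]
  refine tsum_congr fun h => ?_
  rw [e1, e2, ps1_T]
  simp only [map_mul]
  ring

theorem ps1_diag {a : O → ℂ} {k : ℕ} (hk : k = 4) {R Y : ℝ} (hY : 0 < Y) {g : O}
    (hg : g ∈ ballN R) :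
    ‖∑ n1 ∈ ballN R, ∑ n2 ∈ ballN R,
        if g * n1 ∈ ballN R ∧ g * n2 ∈ ballN R ∧ IsCoprime n1 n2 then
          ∑ e ∈ divs g, ps1_T a k Y e g n1 n2 0 else 0‖ ≤ Psi 0 * (Y * (‖a g‖ ^ 2 * dv g)) := by
  obtain ⟨hgN, hgR⟩ := mem_ballN.mp hg
  have h1 : (1 : O) ∈ ballN R := mem_ballN.mpr ⟨nn_one, by
    rw [N_one]; exact (one_le_N hgN.ne_zero).trans hgR⟩
  have hz : ∀ n, NN n → n ≠ 1 → chi6 0 n ^ (6 - k) = 0 := fun n hn hne => by
    rw [(chi6_eq_zero_iff hn.ne_zero).mpr, zero_pow (by omega)]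
    rw [isCoprime_zero_left]
    exact fun hu => hne (hn.1.eq_one_of_isUnit hu)
  rw [Finset.sum_eq_single_of_mem 1 h1, Finset.sum_eq_single_of_mem 1 h1]
  · rw [if_pos ⟨by rwa [mul_one], by rwa [mul_one], isCoprime_one_left⟩]
    have hb : ∀ e ∈ divs g, ‖ps1_T a k Y e g 1 1 0‖ ≤ Psi 0 * (Y * ‖a g‖ ^ 2) := fun e he => by
      have he' := one_le_N ((mem_divs hgN.ne_zero).mp he).1.ne_zero
      have hgs : gs k 1 1 = 1 := by simpa [gt] using gt_one k
      have hp := Psi_nonneg 0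
      have hYe : Y / N e ≤ Y := div_le_self hY.le he'
      simp only [ps1_T, mul_one, chi6_one_right, one_pow, map_one, hgs, N_one, N_zero,
        zero_mul, norm_mul, Complex.norm_conj, Complex.norm_real, Real.norm_of_nonneg hp]
      rw [Real.norm_of_nonneg (by positivity)]
      have := norm_mu_le e
      calc ‖a g‖ * ‖a g‖ * (‖mu e‖ * (Y / N e)) * Psi 0 ≤ ‖a g‖ * ‖a g‖ * (1 * Y) * Psi 0 := by
            gcongr
        _ = _ := by ring
    refine (norm_sum_le _ _).trans ((Finset.sum_le_card_nsmul _ _ _ hb).trans ?_)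
    rw [nsmul_eq_mul]
    have := card_divs_le g
    have hp := Psi_nonneg 0
    calc ((divs g).card : ℝ) * (Psi 0 * (Y * ‖a g‖ ^ 2)) ≤ dv g * (Psi 0 * (Y * ‖a g‖ ^ 2)) := by
          gcongr
      _ = _ := by ring
  · intro n hn hne
    simp [ps1_T, hz n (mem_ballN.mp hn).1 hne]
  · intro n hn hne
    simp [ps1_T, hz n (mem_ballN.mp hn).1 hne]

theorem ps1_off {a : O → ℂ} {k : ℕ} {R Y : ℝ} (hY : 0 < Y) {t : O × O × O} (ht : t ∈ trip R) :
    ‖mu t.2.2 * ∑ n1 ∈ ballN R, ∑ n2 ∈ ballN R,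
        if t.1 * t.2.1 * t.2.2 * n1 ∈ ballN R ∧ t.1 * t.2.1 * t.2.2 * n2 ∈ ballN R then
          (∑' h : O, if h ≠ 0 then
            ps1_T a k Y t.2.1 (t.1 * t.2.1) (t.2.2 * n1) (t.2.2 * n2) h else 0) else 0‖ ≤
      Y / (N t.2.1 * N t.2.2) * ∑' h : O, if h ≠ 0 then ‖ps1_Off R a k Y t h‖ else 0 := by
  obtain ⟨g, e, f⟩ := t
  obtain ⟨-, he, hf, -, -⟩ := mem_trip.mp ht
  simp only at he hf ⊢
  have he0 := N_pos he.ne_zero
  have hf0 := N_pos hf.ne_zero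
  let U : O → O → O → ℂ := fun n1 n2 h =>
    if g * e * f * n1 ∈ ballN R ∧ g * e * f * n2 ∈ ballN R then
      (if h ≠ 0 then ps1_T a k Y e (g * e) (f * n1) (f * n2) h else 0) else 0
  have hU : ∀ n1 ∈ ballN R, ∀ n2 ∈ ballN R, Summable fun h => ‖U n1 n2 h‖ := by
    intro n1 h1 n2 h2
    refine Summable.of_nonneg_of_le (fun _ => norm_nonneg _) (fun h => ?_)
      (ps1_T_summ a k hY (g * e) he.ne_zero
        (mul_ne_zero hf.ne_zero (mem_ballN.mp h1).1.ne_zero)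
        (mul_ne_zero hf.ne_zero (mem_ballN.mp h2).1.ne_zero))
    simp only [U]
    split_ifs <;> simp
  have hsum : ∀ h, ∑ n1 ∈ ballN R, ∑ n2 ∈ ballN R, U n1 n2 h
      = mu e * ((Y / (N e * N f) : ℝ) : ℂ) * if h ≠ 0 then ps1_Off R a k Y (g, e, f) h else 0 := by
    intro h
    by_cases h0 : h = 0
    · simp [U, h0]
    rw [if_pos h0, ps1_Off, Finset.mul_sum]
    refine Finset.sum_congr rfl fun n1 h1 => ?_
    rw [Finset.mul_sum]
    refine Finset.sum_congr rfl fun n2 h2 => ?_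
    have p1 := N_pos (mem_ballN.mp h1).1.ne_zero
    have p2 := N_pos (mem_ballN.mp h2).1.ne_zero
    simp only [U, vv, if_pos h0]
    by_cases c1 : g * e * f * n1 ∈ ballN R
    swap
    · simp [c1]
    by_cases c2 : g * e * f * n2 ∈ ballN R
    swap
    · simp [c2]
    have hgs : ∀ n, n ≠ 0 → gs k 1 (f * n) = ((√(N f) * √(N n) : ℝ) : ℂ) * gt k (f * n) :=
      fun n hn => by
        have : ((‖toC (f * n)‖ : ℝ) : ℂ) ≠ 0 := by
          exact_mod_cast norm_ne_zero_iff.mpr (toC_ne_zero (mul_ne_zero hf.ne_zero hn))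
        rw [gt, ← Real.sqrt_mul hf0.le, ← N_mul, ← norm_toC, mul_div_cancel₀ _ this]
    have hr : Y / (N e * N (f * n1) * N (f * n2)) * (√(N f) * √(N n1)) * (√(N f) * √(N n2))
        = Y / (N e * N f) * (√(N n1 * N n2))⁻¹ := by
      rw [N_mul, N_mul, Real.sqrt_mul p1.le]
      have s0 := Real.sqrt_pos.mpr hf0
      have s1 := Real.sqrt_pos.mpr p1
      have s2 := Real.sqrt_pos.mpr p2
      rw [← Real.mul_self_sqrt hf0.le, ← Real.mul_self_sqrt p1.le, ← Real.mul_self_sqrt p2.le]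
      simp only [Real.sqrt_mul_self s0.le, Real.sqrt_mul_self s1.le, Real.sqrt_mul_self s2.le]
      field_simp
    have harg : N h * (Y / (N e * N (f * n1) * N (f * n2)))
        = N h * Y / (N e * N f ^ 2 * N n1 * N n2) := by
      rw [N_mul, N_mul]
      field_simp
    have hr' := congrArg (fun x : ℝ => (x : ℂ)) hr
    simp only [Complex.ofReal_mul] at hr'
    rw [if_pos ⟨c1, c2⟩, if_pos c1, if_pos c2, ps1_T, harg, hgs n1 (mem_ballN.mp h1).1.ne_zero,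
      hgs n2 (mem_ballN.mp h2).1.ne_zero, ← mul_assoc (g * e), ← mul_assoc (g * e)]
    simp only [map_mul, Complex.conj_ofReal, Complex.ofReal_mul]
    linear_combination (a (g * e * f * n1) * conj (a (g * e * f * n2)) * mu e *
      chi6 e (f * n1) ^ k * conj (chi6 e (f * n2) ^ k) * gt k (f * n1) * conj (gt k (f * n2)) * chi6 h (f * n1) ^ (6 - k) *
      conj (chi6 h (f * n2) ^ (6 - k)) *
      ((Psi (N h * Y / (N e * N f ^ 2 * N n1 * N n2)) : ℝ) : ℂ)) * hr'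
  have hs2 : Summable fun h => ∑ n1 ∈ ballN R, ∑ n2 ∈ ballN R, U n1 n2 h :=
    summable_sum fun n1 h1 => summable_sum fun n2 h2 => (hU n1 h1 n2 h2).of_norm
  have e1 : (∑ n1 ∈ ballN R, ∑ n2 ∈ ballN R,
      if g * e * f * n1 ∈ ballN R ∧ g * e * f * n2 ∈ ballN R then
        (∑' h : O, if h ≠ 0 then ps1_T a k Y e (g * e) (f * n1) (f * n2) h else 0) else 0)
      = ∑' h, ∑ n1 ∈ ballN R, ∑ n2 ∈ ballN R, U n1 n2 h := by
    rw [Summable.tsum_finsetSum fun n1 h1 => summable_sum fun n2 h2 => (hU n1 h1 n2 h2).of_norm]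
    refine Finset.sum_congr rfl fun n1 h1 => ?_
    rw [Summable.tsum_finsetSum fun n2 h2 => (hU n1 h1 n2 h2).of_norm]
    refine Finset.sum_congr rfl fun n2 h2 => ?_
    simp only [U]
    split_ifs <;> simp
  have hn : ∀ h, ‖∑ n1 ∈ ballN R, ∑ n2 ∈ ballN R, U n1 n2 h‖
      = Y / (N e * N f) * if h ≠ 0 then ‖ps1_Off R a k Y (g, e, f) h‖ else 0 := fun h => by
    rw [hsum, norm_mul, norm_mul, norm_mu he.2.1, one_mul, Complex.norm_real,
      Real.norm_of_nonneg (by positivity)]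
    split_ifs <;> simp
  rw [e1, norm_mul, norm_mu hf.2.1, one_mul, ← tsum_mul_left, ← tsum_congr hn]
  exact norm_tsum_le_tsum_norm hs2.norm

theorem ps1_main : ∃ C : ℝ, 0 < C ∧ ∀ (k : ℕ) (R Y : ℝ) (a : O → ℂ), k = 4 → 0 < Y →
    ∑ m ∈ ballO Y, ‖∑ n ∈ ballN R, a n * chi6 m n ^ k‖ ^ 2 ≤
      C * (Y * ∑ n ∈ ballN R, ‖a n‖ ^ 2 * dv n +
        ∑ t ∈ trip R, Y / (N t.2.1 * N t.2.2) *
          ∑' h : O, if h ≠ 0 then ‖ps1_Off R a k Y t h‖ else 0) := by
  obtain ⟨c, hc, hcw⟩ := wtf_ge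
  have hp := Psi_nonneg 0
  refine ⟨(Psi 0 + 1) / c, by positivity, fun k R Y a hk hY => ?_⟩
  have hw := poisPair_wtf.1 Y hY
  let P : O → O → O → ℂ := fun n1 n2 m =>
    a n1 * conj (a n2) * (chi6 m n1 ^ k * conj (chi6 m n2 ^ k) * ((wtf (N m / Y) : ℝ) : ℂ))
  have hP : ∀ n1 n2, Summable (P n1 n2) := fun n1 n2 => by
    refine Summable.mul_left _ (Summable.of_norm_bounded hw fun m => ?_)
    rw [norm_mul, Complex.norm_real, Real.norm_of_nonneg (wtf_nonneg _)]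
    exact mul_le_of_le_one_left (wtf_nonneg _) (tl1_chi_le _ _ _ _)
  have hterm : ∀ m, ((‖∑ n ∈ ballN R, a n * chi6 m n ^ k‖ ^ 2 * wtf (N m / Y) : ℝ) : ℂ)
      = ∑ n1 ∈ ballN R, ∑ n2 ∈ ballN R, P n1 n2 m := fun m => by
    push_cast
    rw [← Complex.mul_conj', map_sum, Finset.sum_mul_sum, Finset.sum_mul]
    refine Finset.sum_congr rfl fun n1 _ => ?_
    rw [Finset.sum_mul]
    refine Finset.sum_congr rfl fun n2 _ => ?_
    simp only [P, map_mul]
    ring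
  have hs : Summable fun m => ‖∑ n ∈ ballN R, a n * chi6 m n ^ k‖ ^ 2 * wtf (N m / Y) := by
    rw [← Complex.summable_ofReal]
    simp only [hterm]
    exact summable_sum fun n1 _ => summable_sum fun n2 _ => hP n1 n2
  have h1 : c * ∑ m ∈ ballO Y, ‖∑ n ∈ ballN R, a n * chi6 m n ^ k‖ ^ 2
      ≤ ∑' m, ‖∑ n ∈ ballN R, a n * chi6 m n ^ k‖ ^ 2 * wtf (N m / Y) := by
    refine le_trans ?_ (hs.sum_le_tsum (ballO Y)
      fun m _ => mul_nonneg (by positivity) (wtf_nonneg _))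
    rw [Finset.mul_sum]
    refine Finset.sum_le_sum fun m hm => ?_
    rw [mul_comm]
    refine mul_le_mul_of_nonneg_left (hcw _ (div_nonneg (N_nonneg _) hY.le) ?_) (by positivity)
    rw [div_le_one hY]
    exact (mem_ballO.mp hm).2
  have h2 : (((∑' m, ‖∑ n ∈ ballN R, a n * chi6 m n ^ k‖ ^ 2 * wtf (N m / Y) : ℝ)) : ℂ)
      = (∑ g ∈ ballN R, ∑ n1 ∈ ballN R, ∑ n2 ∈ ballN R,
          if g * n1 ∈ ballN R ∧ g * n2 ∈ ballN R ∧ IsCoprime n1 n2 then
            ∑ e ∈ divs g, ps1_T a k Y e g n1 n2 0 else 0) +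
        ∑ g ∈ ballN R, ∑ n1 ∈ ballN R, ∑ n2 ∈ ballN R,
          if g * n1 ∈ ballN R ∧ g * n2 ∈ ballN R ∧ IsCoprime n1 n2 then
            ∑ e ∈ divs g, (∑' h : O, if h ≠ 0 then ps1_T a k Y e g n1 n2 h else 0) else 0 := by
    rw [Complex.ofReal_tsum]
    simp only [hterm]
    rw [Summable.tsum_finsetSum fun n1 _ => summable_sum fun n2 _ => hP n1 n2]
    simp only [Summable.tsum_finsetSum fun n2 _ => hP _ n2]
    rw [gm_gcd R fun n1 n2 => ∑' m, P n1 n2 m]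
    simp only [← Finset.sum_add_distrib]
    refine Finset.sum_congr rfl fun g hg => Finset.sum_congr rfl fun n1 h1 =>
      Finset.sum_congr rfl fun n2 h2 => ?_
    split_ifs with hc
    · rw [← ps1_pair hk hY (mem_ballN.mp hg).1 (mem_ballN.mp h1).1 (mem_ballN.mp h2).1 hc.2.2]
      exact tsum_mul_left
    · simp
  rw [gm_trip R fun e g n1 n2 => ∑' h : O, if h ≠ 0 then ps1_T a k Y e g n1 n2 h else 0] at h2
  have h3 := (Complex.re_le_norm _).trans_eq (congrArg norm h2)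
  rw [Complex.ofReal_re] at h3
  have h4 := (norm_sum_le _ _).trans
    (Finset.sum_le_sum fun g hg => ps1_diag (a := a) (R := R) hk hY hg)
  have h5 := (norm_sum_le _ _).trans
    (Finset.sum_le_sum fun t ht => ps1_off (a := a) (k := k) hY (R := R) ht)
  have h6 := h1.trans (h3.trans ((norm_add_le _ _).trans (add_le_add h4 h5)))
  rw [← Finset.mul_sum, ← Finset.mul_sum] at h6
  have h7 : 0 ≤ Y * ∑ n ∈ ballN R, ‖a n‖ ^ 2 * dv n :=
    mul_nonneg hY.le (Finset.sum_nonneg fun n _ => mul_nonneg (by positivity) (Nat.cast_nonneg _))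
  have h8 : 0 ≤ ∑ t ∈ trip R, Y / (N t.2.1 * N t.2.2) *
      ∑' h : O, if h ≠ 0 then ‖ps1_Off R a k Y t h‖ else 0 :=
    Finset.sum_nonneg fun t _ => mul_nonneg
      (div_nonneg hY.le (mul_nonneg (N_nonneg _) (N_nonneg _)))
      (tsum_nonneg fun h => by split_ifs <;> simp)
  rw [div_mul_eq_mul_div, le_div_iff₀ hc]
  nlinarith

theorem ps1_gt4 {n : O} (hn : NN n) : G n * gt 4 n = conj (sym3 lam n) := by
  have e : gs 4 1 n = conj (g3 1 n) := by
    have h1 : conj (g3 (-1) n) = gs 4 1 n := by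
      have := gau_conj (fun x => sym3 x n) (-1) n
      rw [neg_neg] at this
      refine this.trans ?_
      exact Finset.sum_congr rfl fun x _ => by rw [ps1_four x hn.ne_zero]
    rw [← h1, g3_twist' hn.1 hn.2.1 (-1), sym3_neg_one, map_one, one_mul]
  have e2 : gt 4 n = conj (gt3 n) := by
    rw [gt, gt3, e, map_div₀, Complex.conj_ofReal]
  have e3 : ‖gt3 n‖ = 1 := by
    rw [← norm_gt hn (k := 2) (by norm_num) (by norm_num), gt, gt3, gs_two hn.ne_zero]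
  rw [G, if_pos hn, G0_eq hn.1 hn.2.1, e2, mul_assoc, Complex.mul_conj', e3]
  simp

theorem ps1_vv {R : ℝ} {a : O → ℂ} (ha : Sh a R) {t : O × O × O} (ht : t ∈ trip R) (h : O) :
    ∃ c : ℂ, ‖c‖ ≤ 1 ∧ ∀ n ∈ ballN R,
      vv R (fun n => a n * G n) 4 t h n = c * (aT a R t 0 n * sym3 h n) := by
  obtain ⟨g, e, f⟩ := t
  obtain ⟨hg, he, hf, -, -⟩ := mem_trip.mp ht
  simp only at hg he hf
  refine ⟨G (g * e) * conj (sym3 (g * e) f) * conj (sym3 e f) * sym3 h f * conj (sym3 lam f), ?_,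
    fun n hn => ?_⟩
  · simp only [norm_mul, Complex.norm_conj]
    have := norm_G_le (g * e)
    have := norm_sym3_le (g * e) f
    have := norm_sym3_le e f
    have := norm_sym3_le h f
    have := norm_sym3_le lam f
    calc _ ≤ 1 * 1 * 1 * 1 * (1 : ℝ) := by gcongr
      _ = 1 := by norm_num
  have n0 := (mem_ballN.1 hn).1
  simp only [vv, aT, pr]
  by_cases k : a (g * e * f * n) = 0
  · simp [k]
  obtain ⟨k1, -, k2⟩ := ha _ k
  have hfn : NN (f * n) := k1.of_dvd (hf.1.mul n0.1) ⟨g * e, by ring⟩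
  have hen : IsCoprime e n := by
    have : NN (e * n) := k1.of_dvd (he.1.mul n0.1) ⟨g * f, by ring⟩
    exact ((nn_mul_iff he.1 n0.1).1 this).2.2
  have e1 : G (g * e * f * n) = G (g * e) * G (f * n) * conj (sym3 (g * e) (f * n)) := by
    rw [mul_assoc (g * e), G_mul (hg.1.mul he.1) hfn.1]
  have e2 := ps1_gt4 hfn
  have e3 := sym3_cube hen
  rw [if_pos (mem_ballN.2 ⟨k1, k2⟩), e1, ps1_four _ hfn.ne_zero, show 6 - 4 = 2 from rfl,
    chi6_sq _ hfn.ne_zero, Complex.cpow_zero]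
  simp only [sym3_mul_right _ hf.ne_zero n0.ne_zero, map_mul] at e2 ⊢
  simp only [sym3_mul_left g e n, sym3_mul_left _ e n, sym3_mul_left _ (g ^ 2) n, sym3_pow_left,
    map_mul, conj_sym3 _ n] at e2 ⊢
  linear_combination (a (g * e * f * n) * G (g * e) * conj (sym3 (g * e) f) * sym3 g n ^ 2 *
    sym3 e n ^ 4 * conj (sym3 e f) * sym3 h f * sym3 h n) * e2 +
    (a (g * e * f * n) * G (g * e) * conj (sym3 (g * e) f) * sym3 g n ^ 2 * sym3 e n *
      conj (sym3 e f) * sym3 h f * sym3 h n * conj (sym3 lam f) * sym3 lam n ^ 2) * e3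

/-- Poisson summation over the rows -/
theorem ps1 : ∃ C : ℝ, 0 < C ∧ ∀ (R Y : ℝ) (a : O → ℂ), 0 < Y → Sh a R →
    ∑ m ∈ ballO Y, ‖∑ n ∈ ballN R, a n * G n * conj (sym3 m n)‖ ^ 2 ≤
      C * (Y * ∑ n ∈ ballN R, ‖a n‖ ^ 2 * dv n +
        ∑ t ∈ trip R, Y / (N t.2.1 * N t.2.2) *
          ∑' h : O, if h ≠ 0 then ‖OffS a R Y t h‖ else 0) := by
  obtain ⟨C, hC, H⟩ := ps1_main
  refine ⟨C, hC, fun R Y a hY ha => ?_⟩
  have := H 4 R Y (fun n => a n * G n) rfl hY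
  have e1 : ∀ m, ∑ n ∈ ballN R, a n * G n * chi6 m n ^ 4 =
      ∑ n ∈ ballN R, a n * G n * conj (sym3 m n) := fun m =>
    Finset.sum_congr rfl fun n hn => by rw [ps1_four m (mem_ballN.1 hn).1.ne_zero]
  have e2 : ∑ n ∈ ballN R, ‖a n * G n‖ ^ 2 * dv n = ∑ n ∈ ballN R, ‖a n‖ ^ 2 * dv n :=
    Finset.sum_congr rfl fun n hn => by rw [norm_mul, norm_G (mem_ballN.1 hn).1, mul_one]
  simp only [e1, e2] at this
  refine this.trans (mul_le_mul_of_nonneg_left (add_le_add le_rfl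
    (Finset.sum_le_sum fun t ht => ?_)) hC.le)
  obtain ⟨-, he, hf, -, -⟩ := mem_trip.mp ht
  have he0 := N_pos he.ne_zero
  have hf0 := N_pos hf.ne_zero
  refine mul_le_mul_of_nonneg_left ?_ (by positivity)
  have hle : ∀ h, ‖ps1_Off R (fun n => a n * G n) 4 Y t h‖ ≤ ‖OffS a R Y t h‖ := fun h => by
    obtain ⟨c, hc, e⟩ := ps1_vv ha ht h
    have : ps1_Off R (fun n => a n * G n) 4 Y t h = c * conj c * OffS a R Y t h := by
      rw [ps1_Off, OffS, Finset.mul_sum]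
      refine Finset.sum_congr rfl fun n1 h1 => ?_
      rw [Finset.mul_sum]
      refine Finset.sum_congr rfl fun n2 h2 => ?_
      rw [e n1 h1, e n2 h2, map_mul (starRingEnd ℂ) c]; ring
    rw [this, norm_mul, norm_mul, Complex.norm_conj]
    exact mul_le_of_le_one_left (norm_nonneg _) (mul_le_one₀ hc (norm_nonneg _) hc)
  have hs : Summable fun h => ‖OffS a R Y t h‖ := by
    refine Summable.norm ?_
    unfold OffS
    refine summable_sum fun n1 h1 => summable_sum fun n2 h2 => ?_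
    have p1 := N_pos (mem_ballN.mp h1).1.ne_zero
    have p2 := N_pos (mem_ballN.mp h2).1.ne_zero
    have := (tl1_summ_norm (b := fun h => aT a R t 0 n1 * sym3 h n1 *
      conj (aT a R t 0 n2 * sym3 h n2) * (((√(N n1 * N n2))⁻¹ : ℝ) : ℂ))
      (Bd := ‖aT a R t 0 n1‖ * 1 * (‖aT a R t 0 n2‖ * 1) * ‖(((√(N n1 * N n2))⁻¹ : ℝ) : ℂ)‖)
      (T := Y / (N t.2.1 * N t.2.2 ^ 2 * N n1 * N n2)) (fun h => by
        simp only [norm_mul, Complex.norm_conj]
        gcongr <;> exact norm_sym3_le _ _) (by positivity)).of_norm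
    refine this.congr fun h => ?_
    rw [mul_div_assoc, Complex.ofReal_mul]; ring
  have hs' : Summable fun h => if h ≠ 0 then ‖OffS a R Y t h‖ else 0 :=
    Summable.of_nonneg_of_le (fun h => by split_ifs <;> simp) (fun h => by split_ifs <;> simp) hs
  refine Summable.tsum_le_tsum (fun h => by split_ifs; exacts [hle h, le_rfl]) ?_ hs'
  exact Summable.of_nonneg_of_le (fun h => by split_ifs <;> simp)
    (fun h => by split_ifs; exacts [hle h, le_rfl]) hs'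

end

end Vale.Agent.P006
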