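import Vale.Agent.P006.LBas

namespace Vale.Agent.P006

open Vale.Agent.P026 Complex MeasureTheory Filter Topology
open scoped Classical ComplexConjugate Real MatrixGroups

noncomputable section

/-- sum over the first variable innermost -/
theorem lqd_fix1 {H : ℝ} (p : (O × O × O) × O → Prop) [DecidablePred p]
    {f : (O × O × O) × O → ℝ} (hf : ∀ x, 0 ≤ f x) (S : Finset (O × O)) (T : O × O → Finset O)
    (h : ∀ x ∈ Quad H, p x → (x.1.2.2, x.2) ∈ S ∧ x.1.2.1 ∈ T (x.1.2.2, x.2)) :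
    ∑ x ∈ (Quad H).filter p, f x ≤ ∑ ξ ∈ XI, ∑ y ∈ S, ∑ h1 ∈ T y, f ((ξ, h1, y.1), y.2) := by
  have := dual_cover ((Quad H).filter p) (XI.sigma fun _ => S.sigma T)
    (fun z => ((z.1, z.2.2, z.2.1.1), z.2.1.2)) f hf fun x hx => by
      obtain ⟨k1, k2⟩ := Finset.mem_filter.1 hx
      exact ⟨⟨x.1.1, ⟨(x.1.2.2, x.2), x.1.2.1⟩⟩, by
        simp only [Finset.mem_sigma]; exact ⟨(mem_Quad.1 k1).1, h x k1 k2⟩, rfl⟩
  simpa only [Finset.sum_sigma] using this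

/-- sum over the second variable innermost -/
theorem lqd_fix2 {H : ℝ} (p : (O × O × O) × O → Prop) [DecidablePred p]
    {f : (O × O × O) × O → ℝ} (hf : ∀ x, 0 ≤ f x) (S : Finset (O × O)) (T : O × O → Finset O)
    (h : ∀ x ∈ Quad H, p x → (x.1.2.1, x.2) ∈ S ∧ x.1.2.2 ∈ T (x.1.2.1, x.2)) :
    ∑ x ∈ (Quad H).filter p, f x ≤ ∑ ξ ∈ XI, ∑ y ∈ S, ∑ h2 ∈ T y, f ((ξ, y.1, h2), y.2) := by
  have := dual_cover ((Quad H).filter p) (XI.sigma fun _ => S.sigma T)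
    (fun z => ((z.1, z.2.1.1, z.2.2), z.2.1.2)) f hf fun x hx => by
      obtain ⟨k1, k2⟩ := Finset.mem_filter.1 hx
      exact ⟨⟨x.1.1, ⟨(x.1.2.1, x.2), x.1.2.2⟩⟩, by
        simp only [Finset.mem_sigma]; exact ⟨(mem_Quad.1 k1).1, h x k1 k2⟩, rfl⟩
  simpa only [Finset.sum_sigma] using this

/-- sum over both squarefree variables innermost -/
theorem lqd_fix3 {H : ℝ} (p : (O × O × O) × O → Prop) [DecidablePred p]
    {f : (O × O × O) × O → ℝ} (hf : ∀ x, 0 ≤ f x) (S : Finset O) (T : O → Finset (O × O))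
    (h : ∀ x ∈ Quad H, p x → x.2 ∈ S ∧ x.1.2 ∈ T x.2) :
    ∑ x ∈ (Quad H).filter p, f x ≤ ∑ ξ ∈ XI, ∑ k ∈ S, ∑ y ∈ T k, f ((ξ, y), k) := by
  have := dual_cover ((Quad H).filter p) (XI.sigma fun _ => S.sigma T)
    (fun z => ((z.1, z.2.2), z.2.1)) f hf fun x hx => by
      obtain ⟨k1, k2⟩ := Finset.mem_filter.1 hx
      exact ⟨⟨x.1.1, ⟨x.2, x.1.2⟩⟩, by
        simp only [Finset.mem_sigma]; exact ⟨(mem_Quad.1 k1).1, h x k1 k2⟩, rfl⟩
  simpa only [Finset.sum_sigma] using this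

theorem FF_nonneg (a : O → ℂ) (R : ℝ) (x : (O × O × O) × O) : 0 ≤ FF a R x := sq_nonneg _

theorem lqd_nsq (T : Finset O) (a : O → ℂ) (k : O) : nsq T (fun n => a n * sym3 k n) ≤ nsq T a :=
  Finset.sum_le_sum fun n _ => by
    rw [norm_mul]
    exact pow_le_pow_left₀ (by positivity)
      (mul_le_of_le_one_right (norm_nonneg _) (norm_sym3_le _ _)) 2

theorem lqd_ff1 {S : Finset O} {R D : ℝ} (hD : 0 ≤ D) (h : OpB sym3 S (ballN R) D) (a : O → ℂ)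
    (ξ h2 k : O) : ∑ h1 ∈ S, FF a R ((ξ, h1, h2), k) ≤ D * nsq (ballN R) a := by
  refine le_trans (le_of_eq ?_) ((h fun n => a n * sym3 (ξ * h2 ^ 2 * k ^ 3) n).trans
    (mul_le_mul_of_nonneg_left (lqd_nsq _ _ _) hD))
  refine Finset.sum_congr rfl fun h1 _ => ?_
  simp only [FF, cf]
  congr 2
  refine Finset.sum_congr rfl fun n _ => ?_
  rw [mul_assoc (a n), ← sym3_mul_left]; congr 2; ring

theorem lqd_ff2 {S : Finset O} {R D : ℝ} (hD : 0 ≤ D) (h : OpB sym3 S (ballN R) D) (a : O → ℂ)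
    (ξ h1 k : O) : ∑ h2 ∈ S, FF a R ((ξ, h1, h2), k) ≤ D * nsq (ballN R) a := by
  refine le_trans (le_of_eq ?_) ((h.conj fun n => a n * sym3 (ξ * h1 * k ^ 3) n).trans
    (mul_le_mul_of_nonneg_left (lqd_nsq _ _ _) hD))
  refine Finset.sum_congr rfl fun h2 _ => ?_
  simp only [FF, cf]
  congr 2
  refine Finset.sum_congr rfl fun n _ => ?_
  rw [mul_assoc (a n), conj_sym3, ← sym3_pow_left, ← sym3_mul_left]; congr 2; ring

theorem lqd_mem {H : ℝ} {x : (O × O × O) × O} (hx : x ∈ Quad H) :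
    1 ≤ N x.1.1 ∧ 1 ≤ N x.1.2.1 ∧ 1 ≤ N x.1.2.2 ∧ 1 ≤ N x.2 ∧
      N x.1.1 * N x.1.2.1 * N x.1.2.2 ^ 2 * N x.2 ^ 3 ≤ H ∧
      N x.1.2.1 * N x.1.2.2 ^ 2 * N x.2 ^ 3 ≤ H := by
  obtain ⟨k1, k2, k3, -, k5, k6⟩ := mem_Quad.1 hx
  have a1 := one_le_N (XI_ne_zero k1)
  have a2 := one_le_N k2.ne_zero
  have a3 := one_le_N k3.ne_zero
  have a4 := one_le_N k5
  simp only [cf, N_mul, N_pow] at k6
  refine ⟨a1, a2, a3, a4, k6, le_trans ?_ k6⟩
  have : 0 ≤ N x.1.2.1 * N x.1.2.2 ^ 2 * N x.2 ^ 3 := by positivity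
  nlinarith

theorem lqd_XI {f : O → ℝ} {B : ℝ} (hB : 0 ≤ B) (h : ∀ ξ ∈ XI, f ξ ≤ B) :
    ∑ ξ ∈ XI, f ξ ≤ 27 * B := by
  refine (Finset.sum_le_card_nsmul _ _ _ h).trans ?_
  rw [nsmul_eq_mul]
  exact mul_le_mul_of_nonneg_right (by exact_mod_cast card_XI_le) hB

/-- pairs of nonzero elements with bounded product -/
def lqdP (R : ℝ) : Finset (O × O) := (ballO R ×ˢ ballO R).filter (fun x => N x.1 * N x.2 ≤ R)

theorem mem_lqdP {R : ℝ} {x : O × O} : x ∈ lqdP R ↔ x.1 ≠ 0 ∧ x.2 ≠ 0 ∧ N x.1 * N x.2 ≤ R := by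
  simp only [lqdP, Finset.mem_filter, Finset.mem_product, mem_ballO]
  constructor
  · rintro ⟨⟨⟨a, -⟩, b, -⟩, c⟩; exact ⟨a, b, c⟩
  · rintro ⟨a, b, c⟩
    have := one_le_N a
    have := one_le_N b
    exact ⟨⟨⟨a, by nlinarith⟩, b, by nlinarith⟩, c⟩

/-- power sums over pairs, exponent larger than `-1` -/
theorem lqd_pow {ε c : ℝ} (hε : 0 < ε) (hc : -1 < c) : ∃ C : ℝ, 0 < C ∧ ∀ Z R : ℝ, 1 ≤ Z →
    0 ≤ R → R ≤ Z → ∑ x ∈ lqdP R, (N x.1 * N x.2) ^ c ≤ C * Z ^ ε * R ^ (1 + c) := by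
  obtain ⟨C1, hC1, h1⟩ := sum_pair_le hε
  obtain ⟨C2, hC2, h2⟩ := sum_N_rpow_le hc
  refine ⟨C1 * C2, by positivity, fun Z R hZ h0 hR => ?_⟩
  rcases lt_or_ge R 1 with k | k
  · simp only [lqdP, ballO_eq_empty k, Finset.empty_product, Finset.filter_empty,
      Finset.sum_empty]
    positivity
  have := h1 R (fun x => |x| ^ c) k fun x => by positivity
  simp only [abs_mul, abs_of_nonneg (N_nonneg _)] at this
  refine this.trans ?_
  calc _ ≤ C1 * Z ^ ε * (C2 * R ^ (1 + c)) := by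
        refine mul_le_mul (by gcongr) (h2 R h0)
          (Finset.sum_nonneg fun n _ => Real.rpow_nonneg (N_nonneg _) _) (by positivity)
    _ = _ := by ring

/-- harmonic sum over pairs -/
theorem lqd_inv {ε : ℝ} (hε : 0 < ε) : ∃ C : ℝ, 0 < C ∧ ∀ Z R : ℝ, 1 ≤ Z →
    R ≤ Z → ∑ x ∈ lqdP R, (N x.1 * N x.2)⁻¹ ≤ C * Z ^ ε := by
  obtain ⟨C1, hC1, h1⟩ := sum_pair_le (half_pos hε)
  obtain ⟨C2, hC2, h2⟩ := sum_inv_N_le (half_pos hε)
  refine ⟨C1 * C2, by positivity, fun Z R hZ hR => ?_⟩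
  rcases lt_or_ge R 1 with k | k
  · simp only [lqdP, ballO_eq_empty k, Finset.empty_product, Finset.filter_empty,
      Finset.sum_empty]
    positivity
  have := h1 R (fun x => |x|⁻¹) k fun x => by positivity
  simp only [abs_mul, abs_of_nonneg (N_nonneg _)] at this
  refine this.trans ?_
  have e : Z ^ ε = Z ^ (ε / 2) * Z ^ (ε / 2) := by
    rw [← Real.rpow_add (by linarith)]; congr 1; ring
  calc _ ≤ C1 * Z ^ (ε / 2) * (C2 * Z ^ (ε / 2)) := by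
        refine mul_le_mul (by gcongr) ((h2 R k).trans (by gcongr))
          (Finset.sum_nonneg fun n _ => inv_nonneg.2 (N_nonneg _)) (by positivity)
    _ = _ := by rw [e]; ring

theorem lqd_cube {x H : ℝ} (hx : 0 ≤ x) (h : x ^ 3 ≤ H) : x ≤ H ^ (1 / 3 : ℝ) := by
  have := Real.rpow_le_rpow (by positivity) h (by norm_num : (0 : ℝ) ≤ 1 / 3)
  rwa [← Real.rpow_natCast, ← Real.rpow_mul hx, show ((3 : ℕ) : ℝ) * (1 / 3) = 1 by norm_num,
    Real.rpow_one] at this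

theorem lqd_third {H Z : ℝ} (h0 : 0 ≤ H) (hZ : 1 ≤ Z) (h : H ≤ Z) : H ^ (1 / 3 : ℝ) ≤ Z :=
  (Real.rpow_le_rpow h0 h (by norm_num)).trans (by
    simpa using Real.rpow_le_rpow_of_exponent_le hZ (by norm_num : (1 / 3 : ℝ) ≤ 1))

end

end Vale.Agent.P006
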