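import Vale.Agent.P006.LBase
import Vale.Agent.P006.LPs
import Vale.Agent.P006.LAl

namespace Vale.Agent.P006

open Vale.Agent.P026 Complex MeasureTheory Filter Topology
open scoped Classical ComplexConjugate Real MatrixGroups

noncomputable section

theorem lrec_exp {x : ℝ} (hx : 0 < x) : ∃ u : ℝ, x = Real.exp u :=
  ⟨Real.log x, (Real.exp_log hx).symm⟩

theorem lrec_pw {γ H R g e f : ℝ} (hγ : 1 ≤ γ) (hH : 0 < H) (hR : 0 < R) (hg : 1 ≤ g) (he : 1 ≤ e)
    (hf : 1 ≤ f) :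
    g * ((H / (e * g ^ 2)) ^ (1 / 3 : ℝ) * (R / (g * e * f)) +
      (H / (e * g ^ 2) * (R / (g * e * f))) ^ (2 / 3 : ℝ) + (H / (e * g ^ 2)) ^ γ) ≤
      H ^ (1 / 3 : ℝ) * R + (H * R) ^ (2 / 3 : ℝ) + H ^ γ := by
  obtain ⟨h, rfl⟩ := lrec_exp hH
  obtain ⟨r, rfl⟩ := lrec_exp hR
  obtain ⟨u, u0, rfl⟩ := lal_log hg
  obtain ⟨v, v0, rfl⟩ := lal_log he
  obtain ⟨w, w0, rfl⟩ := lal_log hf
  rw [mul_add, mul_add]
  simp only [← Real.exp_nat_mul, ← Real.exp_add, ← Real.exp_sub, ← Real.exp_mul]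
  refine add_le_add (add_le_add ?_ ?_) ?_ <;> rw [Real.exp_le_exp] <;> push_cast
  · linarith
  · linarith
  · nlinarith [mul_le_mul_of_nonneg_left hγ u0, mul_le_mul_of_nonneg_left hγ v0]

theorem lrec_shell {γ : ℝ} (hγ : 1 ≤ γ) (hγ2 : γ ≤ 2) (h : PL γ) {ε : ℝ} (hε : 0 < ε)
    (hε1 : ε ≤ 1 / 2) : ∃ C : ℝ, 0 < C ∧ ∀ Z Y R : ℝ, 1 ≤ R → R ≤ Y → Y ≤ Z →
    OpB sym3 (ballN Y) (ringN (R / 2) R)
      (C * Z ^ (6 * ε) * (Y + (Y * R) ^ (2 / 3 : ℝ) + Y ^ (1 - γ) * R ^ (2 * γ - 1))) := by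
  obtain ⟨C1, hC1, h1⟩ := ps hε hε1
  obtain ⟨C2, hC2, h2⟩ := al_of_pl hγ h hε
  obtain ⟨C3, hC3, h3⟩ := sum_nT_le hε
  refine ⟨C1 * (1 + 4 * C2 * C3), by positivity, fun Z Y R a1 a2 a3 => opB_of_sh fun b hb => ?_⟩
  have hZ : 1 ≤ Z := by linarith
  have hY0 : 0 < Y := by linarith
  have hR0 : 0 < R := by linarith
  set a : O → ℂ := fun n => conj (b n * G n) with ha
  have sa : Sh a R := fun n hn => hb n fun k => hn (by simp [ha, k])
  have na : nsq (ballN R) a = nsq (ballN R) b := Finset.sum_congr rfl fun n hn => by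
    simp only [ha, Complex.norm_conj, norm_mul, norm_G (mem_ballN.1 hn).1, mul_one]
  have n0 := nsq_nonneg (ballN R) b
  set H := Z ^ ε * R ^ 2 / Y with hH
  have K1 : 1 ≤ Z ^ ε := Real.one_le_rpow hZ hε.le
  have K2 : Z ^ ε ≤ Z := by simpa using Real.rpow_le_rpow_of_exponent_le hZ (by linarith : ε ≤ 1)
  have H0 : 0 < H := by rw [hH]; positivity
  have HZ : H ≤ Z ^ 2 := by
    rw [hH, div_le_iff₀ (by linarith)]
    calc Z ^ ε * R ^ 2 = Z ^ ε * R * R := by ring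
      _ ≤ Z * Z * Y := by gcongr; linarith
      _ = _ := by ring
  set E := H ^ (1 / 3 : ℝ) * R + (H * R) ^ (2 / 3 : ℝ) + H ^ γ with hE
  have E0 : 0 ≤ E := by rw [hE]; positivity
  have key := h1 Z Y R a (fun t => C2 * (Z ^ 2) ^ ε * E * (2 * nT a R t)) a1 (by linarith)
    (by linarith) a3 sa fun t ht s hs => by
      obtain ⟨hg, he, hf, -⟩ := mem_trip.1 ht
      have g1 := one_le_N hg.ne_zero
      have e1 := one_le_N he.ne_zero
      have f1 := one_le_N hf.ne_zero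
      have hp : N (pr t) = N t.1 * N t.2.1 * N t.2.2 := by rw [pr, N_mul, N_mul]
      have p1 : 1 ≤ N (pr t) := one_le_N (lbas_pr_ne ht)
      have eH : Z ^ ε * Ht R Y t = H / (N t.2.1 * N t.1 ^ 2) := by rw [hH, Ht]; field_simp
      have b1 := h2 (Z ^ 2) (H / (N t.2.1 * N t.1 ^ 2)) (R / N (pr t)) (aT a R t s)
        (by nlinarith) (by positivity)
        ((div_le_self H0.le (one_le_mul_of_one_le_of_one_le e1 (one_le_pow₀ g1))).trans HZ)
        (by positivity) ((div_le_self (by linarith) p1).trans (by nlinarith))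
      have b2 := nsq_aT_le sa ht hs
      have b3 := lrec_pw (R := R) hγ H0 (by linarith) g1 e1 f1
      have t0 := nT_nonneg a R t
      rw [eH]
      rw [← hp, ← hE] at b3
      set F := (H / (N t.2.1 * N t.1 ^ 2)) ^ (1 / 3 : ℝ) * (R / N (pr t)) +
        (H / (N t.2.1 * N t.1 ^ 2) * (R / N (pr t))) ^ (2 / 3 : ℝ) + (H / (N t.2.1 * N t.1 ^ 2)) ^ γ
      calc _ ≤ N t.1 * (C2 * (Z ^ 2) ^ ε * F * (2 * nT a R t)) :=
            mul_le_mul_of_nonneg_left (b1.trans (mul_le_mul_of_nonneg_left b2 (by positivity)))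
              (by positivity)
        _ = C2 * (Z ^ 2) ^ ε * (N t.1 * F) * (2 * nT a R t) := by ring
        _ ≤ C2 * (Z ^ 2) ^ ε * E * (2 * nT a R t) := by gcongr
        _ ≤ _ := le_mul_of_one_le_left (by positivity) (one_le_pow₀ (by linarith [abs_nonneg s.im]))
  have e1 : ∀ m, ‖∑ n ∈ ballN R, a n * G n * conj (sym3 m n)‖ = ‖∑ n ∈ ballN R, b n * sym3 m n‖ :=
    fun m => by
      rw [← Complex.norm_conj (∑ n ∈ ballN R, b n * sym3 m n), map_sum]
      congr 1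
      refine Finset.sum_congr rfl fun n hn => ?_
      have : conj (G n) * G n = 1 := by
        rw [Complex.conj_mul', norm_G (mem_ballN.1 hn).1]; simp
      simp only [ha, map_mul]
      linear_combination (conj (b n) * conj (sym3 m n)) * this
  simp only [e1, na] at key
  rw [← Finset.mul_sum, ← Finset.mul_sum] at key
  have b4 := h3 a R a1 sa
  rw [na] at b4
  set T := Y + (Y * R) ^ (2 / 3 : ℝ) + Y ^ (1 - γ) * R ^ (2 * γ - 1) with hT
  have b5 : Y ≤ Z ^ (5 * ε) * T := by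
    refine le_trans ?_ (le_mul_of_one_le_left (by rw [hT]; positivity)
      (Real.one_le_rpow hZ (by positivity)))
    rw [hT, add_assoc]; exact le_add_of_nonneg_right (by positivity)
  have b6 : Y / R * ((Z ^ 2) ^ ε * E * R ^ ε) ≤ 2 * (Z ^ (5 * ε) * T) := by
    rw [hT, hE, hH]
    obtain ⟨z, z0, rfl⟩ := lal_log hZ
    obtain ⟨r, r0, rfl⟩ := lal_log a1
    obtain ⟨y, y0, rfl⟩ := lal_log (a1.trans a2)
    rw [Real.exp_le_exp] at a2 a3
    simp only [mul_add, add_mul]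
    simp only [← Real.exp_nat_mul, ← Real.exp_add, ← Real.exp_sub, ← Real.exp_mul]
    push_cast
    have d1 : 0 ≤ z * ε := by positivity
    have d2 : r * ε ≤ z * ε := by gcongr; linarith
    have d3 : z * ε * γ ≤ z * ε * 2 := by gcongr
    have f1 : Real.exp (y - r + (2 * z * ε + ((z * ε + 2 * r - y) * (1 / 3) + r) + r * ε))
        ≤ Real.exp (z * (5 * ε) + (y + r) * (2 / 3)) := by
      rw [Real.exp_le_exp]; linarith
    have f2 : Real.exp (y - r + (2 * z * ε + (z * ε + 2 * r - y + r) * (2 / 3) + r * ε))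
        ≤ Real.exp (z * (5 * ε) + (y + r) * (2 / 3)) := by
      rw [Real.exp_le_exp]; linarith
    have f3 : Real.exp (y - r + (2 * z * ε + (z * ε + 2 * r - y) * γ + r * ε))
        ≤ Real.exp (z * (5 * ε) + (y * (1 - γ) + r * (2 * γ - 1))) := by
      rw [Real.exp_le_exp]; linarith
    linarith [Real.exp_pos (z * (5 * ε) + y), Real.exp_pos (z * (5 * ε) + (y * (1 - γ) + r * (2 * γ - 1)))]
  have e6 : Z ^ (6 * ε) = Z ^ ε * Z ^ (5 * ε) := by
    rw [← Real.rpow_add (by linarith)]; congr 1; ring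
  calc _ ≤ ∑ m ∈ ballO Y, ‖∑ n ∈ ballN R, b n * sym3 m n‖ ^ 2 :=
        Finset.sum_le_sum_of_subset_of_nonneg (dual_sub Y) fun _ _ _ => by positivity
    _ ≤ C1 * Z ^ ε * (Y * nsq (ballN R) b + Y / R * (C2 * (Z ^ 2) ^ ε * E *
          (2 * (C3 * R ^ ε * nsq (ballN R) b)))) := key.trans (by gcongr)
    _ = C1 * Z ^ ε * (Y + 2 * C2 * C3 * (Y / R * ((Z ^ 2) ^ ε * E * R ^ ε))) * nsq (ballN R) b := by
        ring
    _ ≤ C1 * Z ^ ε * (Z ^ (5 * ε) * T + 2 * C2 * C3 * (2 * (Z ^ (5 * ε) * T))) *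
          nsq (ballN R) b := by gcongr
    _ = _ := by rw [e6]; ring

theorem pl_step {δ : ℝ} (h0 : 0 < δ) (h1 : δ ≤ 2 / 3) (h : PL (4 / 3 + δ)) :
    PL (4 / 3 + 2 / 3 * δ) := by
  intro ε hε
  set e := min (ε / 13) (1 / 2) with he
  have e0 : 0 < e := lt_min (by positivity) (by norm_num)
  have e1 : e ≤ ε / 13 := min_le_left _ _
  obtain ⟨C1, hC1, h2⟩ := lrec_shell (by linarith) (by linarith) h e0 (min_le_right _ _)
  obtain ⟨C2, hC2, h3⟩ := opB_of_shells e0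
  refine ⟨C2 * (3 * C1), by positivity, fun Z M R a1 a2 a3 a4 => ?_⟩
  have hZ : 1 ≤ Z := a1.trans a2
  set T := M + (M * R) ^ (2 / 3 : ℝ) + R ^ (4 / 3 + 2 / 3 * δ) with hT
  have T0 : 0 ≤ T := by rw [hT]; positivity
  have := h3 sym3 (ballN M) R (C1 * (Z ^ 2) ^ (6 * e) * (3 * T)) a3 (by positivity)
    fun R' b1 b2 => by
      have hY : max M (R' ^ (1 + δ)) ≤ Z ^ 2 := max_le (by nlinarith) (by
        refine (Real.rpow_le_rpow_of_exponent_le b1 (by linarith : 1 + δ ≤ 2)).trans ?_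
        rw [Real.rpow_two]; gcongr; linarith)
      have hY2 : R' ≤ max M (R' ^ (1 + δ)) := le_max_of_le_right (by
        simpa using Real.rpow_le_rpow_of_exponent_le b1 (by linarith : 1 ≤ 1 + δ))
      refine (h2 (Z ^ 2) _ R' b1 hY2 hY).mono (ballN_mono (le_max_left _ _)) subset_rfl ?_
      refine mul_le_mul_of_nonneg_left ?_ (by positivity)
      rw [hT]
      obtain ⟨m, m0, rfl⟩ := lal_log a1
      obtain ⟨r, r0, rfl⟩ := lal_log a3
      obtain ⟨u, u0, rfl⟩ := lal_log b1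
      rw [Real.exp_le_exp] at b2
      have d1 : 0 ≤ u * δ := by positivity
      have d2 : u * δ ≤ r * δ := by gcongr
      have d3 : u * δ ≤ u * (2 / 3) := by gcongr
      have d4 : 0 ≤ u * δ * δ := by positivity
      have p1 := Real.exp_pos m
      have p2 := Real.exp_pos ((m + r) * (2 / 3))
      have p3 := Real.exp_pos (r * (4 / 3 + 2 / 3 * δ))
      rcases le_total (Real.exp u ^ (1 + δ)) (Real.exp m) with k | k
      · rw [max_eq_left k]
        simp only [← Real.exp_add, ← Real.exp_mul, Real.exp_le_exp] at k ⊢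
        have f1 : Real.exp ((m + u) * (2 / 3)) ≤ Real.exp ((m + r) * (2 / 3)) := by
          rw [Real.exp_le_exp]; linarith
        have f2 : Real.exp (m * (1 - (4 / 3 + δ)) + u * (2 * (4 / 3 + δ) - 1)) ≤
            Real.exp (r * (4 / 3 + 2 / 3 * δ)) := by
          rw [Real.exp_le_exp]
          nlinarith [mul_le_mul_of_nonneg_right k (by linarith : 0 ≤ 1 / 3 + δ)]
        linarith
      · rw [max_eq_right k]
        simp only [← Real.exp_add, ← Real.exp_mul]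
        have f0 : Real.exp (u * (1 + δ)) ≤ Real.exp (r * (4 / 3 + 2 / 3 * δ)) := by
          rw [Real.exp_le_exp]; linarith
        have f1 : Real.exp ((u * (1 + δ) + u) * (2 / 3)) ≤ Real.exp (r * (4 / 3 + 2 / 3 * δ)) := by
          rw [Real.exp_le_exp]; linarith
        have f2 : Real.exp (u * (1 + δ) * (1 - (4 / 3 + δ)) + u * (2 * (4 / 3 + δ) - 1)) ≤
            Real.exp (r * (4 / 3 + 2 / 3 * δ)) := by
          rw [Real.exp_le_exp]; linarith
        linarith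
  refine this.mono subset_rfl subset_rfl ?_
  have f : R ^ e * (Z ^ 2) ^ (6 * e) ≤ Z ^ ε := by
    rw [← Real.rpow_natCast, ← Real.rpow_mul (by linarith)]
    calc _ ≤ Z ^ e * Z ^ (((2 : ℕ) : ℝ) * (6 * e)) := by gcongr
      _ = Z ^ (13 * e) := by rw [← Real.rpow_add (by linarith)]; congr 1; push_cast; ring
      _ ≤ _ := Real.rpow_le_rpow_of_exponent_le hZ (by linarith)
  calc _ = C2 * (3 * C1) * (R ^ e * (Z ^ 2) ^ (6 * e)) * T := by ring
    _ ≤ _ := by gcongr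

theorem lrec_iter (k : ℕ) : PL (4 / 3 + (2 / 3) ^ (k + 1)) := by
  induction k with
  | zero => norm_num; exact pl_two
  | succ k ih =>
    rw [pow_succ' (2 / 3 : ℝ) (k + 1)]
    refine pl_step (by positivity) ?_ ih
    rw [pow_succ]
    exact mul_le_of_le_one_left (by norm_num) (pow_le_one₀ (by norm_num) (by norm_num))

theorem pl_one : PL 1 := by
  intro ε hε
  obtain ⟨k, hk⟩ := exists_pow_lt_of_lt_one (half_pos hε) (by norm_num : (2 / 3 : ℝ) < 1)
  have hk' : (2 / 3 : ℝ) ^ (k + 1) ≤ ε / 2 := by rw [pow_succ]; linarith [pow_pos (by norm_num : (0 : ℝ) < 2 / 3) k]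
  obtain ⟨C, hC, h⟩ := lrec_iter k (ε / 2) (half_pos hε)
  have key : ∀ Z M R : ℝ, 1 ≤ R → R ≤ M → M ≤ Z → OpB sym3 (ballN M) (ballN R)
      (2 * C * Z ^ ε * (M + (M * R) ^ (2 / 3 : ℝ))) := by
    intro Z M R a1 a2 a3
    refine (h Z M R (by linarith) a3 a1 (by linarith)).mono subset_rfl subset_rfl ?_
    have hZ : 1 ≤ Z := by linarith
    have hM : 0 < M := by linarith
    have e : Z ^ ε = Z ^ (ε / 2) * Z ^ (ε / 2) := by
      rw [← Real.rpow_add (by linarith)]; congr 1; ring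
    have z1 : 1 ≤ Z ^ (ε / 2) := Real.one_le_rpow hZ (by linarith)
    have f1 : R ^ (4 / 3 + (2 / 3 : ℝ) ^ (k + 1)) ≤ (M * R) ^ (2 / 3 : ℝ) * Z ^ (ε / 2) := by
      rw [Real.rpow_add (by linarith)]
      refine mul_le_mul ?_ ((Real.rpow_le_rpow_of_exponent_le a1 hk').trans (by gcongr; linarith))
        (by positivity) (by positivity)
      calc R ^ (4 / 3 : ℝ) = (R * R) ^ (2 / 3 : ℝ) := by
            rw [Real.mul_rpow (by linarith) (by linarith), ← Real.rpow_add (by linarith)]; norm_num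
        _ ≤ _ := by gcongr
    have p : 0 ≤ (M * R) ^ (2 / 3 : ℝ) := Real.rpow_nonneg (by nlinarith) _
    rw [e]
    calc _ ≤ C * Z ^ (ε / 2) * (2 * (Z ^ (ε / 2) * (M + (M * R) ^ (2 / 3 : ℝ)))) := by
          refine mul_le_mul_of_nonneg_left ?_ (by positivity)
          nlinarith [mul_le_mul_of_nonneg_right z1 (by linarith : 0 ≤ M + (M * R) ^ (2 / 3 : ℝ)),
            mul_nonneg (by linarith : 0 ≤ Z ^ (ε / 2)) (by linarith : 0 ≤ M)]
      _ = _ := by ring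
  refine ⟨2 * C, by positivity, fun Z M R a1 a2 a3 a4 => ?_⟩
  rw [Real.rpow_one]
  rcases le_total R M with k | k
  · refine (key Z M R a3 k a2).mono subset_rfl subset_rfl ?_
    have : 0 < Z := by linarith
    exact mul_le_mul_of_nonneg_left (by linarith) (by positivity)
  · have : 0 < Z := by linarith
    refine (opB_sym3_symm (by positivity) (key Z R M a1 k a4)).mono subset_rfl subset_rfl ?_
    rw [mul_comm R M]
    refine mul_le_mul_of_nonneg_left (by linarith) (by positivity)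

theorem ls1' {ε : ℝ} (hε : 0 < ε) : ∃ C : ℝ, 0 < C ∧ ∀ Z A B : ℝ,
    1 ≤ Z → 0 < A → A ≤ Z → 0 < B → B ≤ Z →
    OpB sym3 (ballN A) (ballN B) (C * Z ^ ε * (A + B + (A * B) ^ (2 / 3 : ℝ))) := by
  obtain ⟨C, hC, h⟩ := lal_tr pl_one hε
  refine ⟨C, hC, fun Z A B a1 a2 a3 a4 a5 =>
    (h Z A B a1 a2.le a3 a4.le a5).mono subset_rfl subset_rfl (le_of_eq ?_)⟩
  rw [Real.rpow_one]; ring
theorem lsall' {ε : ℝ} (hε : 0 < ε) : ∃ C : ℝ, 0 < C ∧ ∀ Z H B : ℝ,
    1 ≤ Z → 0 < H → H ≤ Z → 0 < B → B ≤ Z →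
    OpB sym3 (ballO H) (ballN B)
      (C * Z ^ ε * (H + H ^ (1 / 3 : ℝ) * B + (H * B) ^ (2 / 3 : ℝ))) := by
  obtain ⟨C, hC, h⟩ := al_of_pl le_rfl pl_one hε
  refine ⟨C, hC, fun Z A B a1 a2 a3 a4 a5 a => (h Z A B a a1 a2 a3 a4 a5).trans (le_of_eq ?_)⟩
  rw [Real.rpow_one]; ring
/-- dual form: all columns -/
theorem lsall_dual {ε : ℝ} (hε : 0 < ε) : ∃ C : ℝ, 0 < C ∧ ∀ Z H B : ℝ,
    1 ≤ Z → 0 < H → H ≤ Z → 0 < B → B ≤ Z →
    OpB (fun b h => sym3 h b) (ballN B) (ballO H)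
      (C * Z ^ ε * (H + H ^ (1 / 3 : ℝ) * B + (H * B) ^ (2 / 3 : ℝ))) := by
  obtain ⟨C, hC, h⟩ := lsall' hε
  exact ⟨C, hC, fun Z A B a1 a2 a3 a4 a5 => (h Z A B a1 a2 a3 a4 a5).dual (by positivity)⟩

end

end Vale.Agent.P006
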