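import Vale.Agent.P006.LRec
import Vale.Agent.P006.Sep

namespace Vale.Agent.P006

open Vale.Agent.P026 Complex MeasureTheory Filter Topology
open scoped Classical ComplexConjugate Real MatrixGroups

noncomputable section

/-- elements that are squarefree away from `lam` -/
def lsfT (L : ℝ) : Finset O := (ballO L).filter fun n => ∀ p : O, Prime p → Prim p → ¬p ^ 2 ∣ n

theorem lsf_decomp {L : ℝ} {n : O} (hn : n ∈ lsfT L) :
    ∃ s ∈ ballO 12, ∃ j ∈ Finset.range (qls_j L + 1), ∃ b ∈ ballN L, s * lam ^ j * b = n := by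
  obtain ⟨h1, h2⟩ := Finset.mem_filter.1 hn
  obtain ⟨n0, nL⟩ := mem_ballO.1 h1
  obtain ⟨u, j, y, hu, hy, rfl⟩ := exists_unit_lam_prim n0
  have sq : Squarefree y := by
    rw [squarefree_iff_irreducible_sq_not_dvd_of_ne_zero hy.ne_zero]
    intro p hp hd
    obtain ⟨v, hv, hP⟩ := exists_prim_assoc (x := p) fun h =>
      hy.not_lam_dvd (h.trans ((dvd_mul_right p p).trans hd))
    have as : Associated p (v * p) := (associated_unit_mul_left p v hv).symm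
    refine h2 (v * p) (as.prime hp.prime) hP (Dvd.dvd.mul_left ?_ _)
    rw [sq]
    exact ((as.mul_mul as).symm.dvd).trans hd
  obtain ⟨u', i, k, b, hu', hi, hk, hb, rfl⟩ := sqfree_decomp sq
  have s0 : u * u' * (-2) ^ i * lam ^ k ≠ 0 := mul_ne_zero (mul_ne_zero (hu.mul hu').ne_zero
    (prim_neg_two.pow i).ne_zero) (pow_ne_zero _ prime_lam.ne_zero)
  refine ⟨u * u' * (-2) ^ i * lam ^ k, mem_ballO.2 ⟨s0, ?_⟩, j, ?_, b, mem_ballN.2 ⟨hb,
    (N_le_of_dvd ⟨u * lam ^ j * (u' * (-2) ^ i * lam ^ k), by ring⟩ n0).trans nL⟩, by ring⟩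
  · simp only [N_mul, N_pow, N_unit hu, N_unit hu', N_neg, N_lam, N_two]
    interval_cases i <;> interval_cases k <;> norm_num
  · have a1 : N (lam ^ j) ≤ L :=
      (N_le_of_dvd ⟨u * (u' * (-2) ^ i * lam ^ k * b), by ring⟩ n0).trans nL
    rw [N_pow, N_lam] at a1
    have a2 : (2 : ℝ) ^ j ≤ 3 ^ j := pow_le_pow_left₀ (by norm_num) (by norm_num) j
    have a3 := qls_lt_j L
    rw [← pow_succ'] at a3
    exact Finset.mem_range.2 ((pow_lt_pow_iff_right₀ (by norm_num : (1 : ℝ) < 2)).1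
      ((a2.trans a1).trans_lt a3))

theorem lsf_rows {ε : ℝ} (hε : 0 < ε) : ∃ C : ℝ, 0 < C ∧ ∀ Z D L : ℝ,
    1 ≤ D → D ≤ Z → 1 ≤ L → L ≤ Z →
    OpB sym3 (lsfT L) (ballN D) (C * Z ^ ε * (D + L + (D * L) ^ (2 / 3 : ℝ))) := by
  obtain ⟨C1, c1, h1⟩ := ls1' (half_pos hε)
  obtain ⟨C2, c2, h2⟩ := qls_log (half_pos hε)
  refine ⟨((ballO 12).card + 1) * C2 * C1, by positivity, fun Z D L hD hDZ hL hLZ a => ?_⟩
  have Z1 := hD.trans hDZ
  have h := h1 Z L D Z1 (by linarith) hLZ (by linarith) hDZ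
  have a0 := nsq_nonneg (ballN D) a
  have E0 : 0 ≤ C1 * Z ^ (ε / 2) * (L + D + (L * D) ^ (2 / 3 : ℝ)) := by positivity
  refine (dual_cover _ ((ballO 12 ×ˢ Finset.range (qls_j L + 1)) ×ˢ ballN L)
    (fun p : (O × ℕ) × O => p.1.1 * lam ^ p.1.2 * p.2)
    (fun b => ‖∑ n ∈ ballN D, a n * sym3 b n‖ ^ 2) (fun _ => by positivity) fun b hb => ?_).trans ?_
  · obtain ⟨s, hs, j, hj, b, hb, e⟩ := lsf_decomp hb
    exact ⟨((s, j), b), Finset.mem_product.2 ⟨Finset.mem_product.2 ⟨hs, hj⟩, hb⟩, e⟩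
  · have key : ∀ ξ : O, ∑ b ∈ ballN L, ‖∑ n ∈ ballN D, a n * sym3 (ξ * b) n‖ ^ 2 ≤
        C1 * Z ^ (ε / 2) * (L + D + (L * D) ^ (2 / 3 : ℝ)) * nsq (ballN D) a := fun ξ => by
      refine le_trans (le_of_eq ?_) ((h fun n => a n * sym3 ξ n).trans
        (mul_le_mul_of_nonneg_left (lqd_nsq _ _ _) E0))
      simp only [sym3_mul_left, mul_assoc]
    rw [Finset.sum_product]
    refine (Finset.sum_le_card_nsmul _ _ _ fun s _ => key (s.1 * lam ^ s.2)).trans ?_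
    · rw [nsmul_eq_mul, Finset.card_product, Finset.card_range, Nat.cast_mul]
      have b1 : ((qls_j L + 1 : ℕ) : ℝ) ≤ C2 * Z ^ (ε / 2) := (h2 L hL).trans (by gcongr)
      have b2 : Z ^ ε = Z ^ (ε / 2) * Z ^ (ε / 2) := by
        rw [← Real.rpow_add (by linarith), add_halves]
      calc _ ≤ (((ballO 12).card + 1) * (C2 * Z ^ (ε / 2))) * (C1 * Z ^ (ε / 2) *
            (L + D + (L * D) ^ (2 / 3 : ℝ)) * nsq (ballN D) a) := by
            gcongr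
            linarith
        _ = _ := by
            rw [b2, mul_comm L D]
            ring

theorem lssf' {ε : ℝ} (hε : 0 < ε) : ∃ C : ℝ, 0 < C ∧ ∀ (Z D L : ℝ) (c : O → ℂ),
    1 ≤ D → D ≤ Z → 1 ≤ L → L ≤ Z →
    (∀ n p : O, Prime p → Prim p → p ^ 2 ∣ n → c n = 0) →
    ∑ d ∈ ballN D, ‖∑ n ∈ ballO L, c n * sym3 n d‖ ^ 2 ≤
      C * Z ^ ε * (D + L + (D * L) ^ (2 / 3 : ℝ)) * ∑ n ∈ ballO L, ‖c n‖ ^ 2 := by
  obtain ⟨C, hC, h⟩ := lsf_rows hε
  refine ⟨C, hC, fun Z D L c hD hDZ hL hLZ hc => ?_⟩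
  have Z0 : 0 ≤ Z := by linarith
  have := (h Z D L hD hDZ hL hLZ).dual (by positivity) c
  have hT : lsfT L ⊆ ballO L := Finset.filter_subset _ _
  have z : ∀ n ∈ ballO L, n ∉ lsfT L → c n = 0 := fun n hn h => by
    by_contra h0
    exact h (Finset.mem_filter.2 ⟨hn, fun p hp hP hd => h0 (hc n p hp hP hd)⟩)
  rw [← Finset.sum_subset hT fun n hn h => by simp [z n hn h],
    Finset.sum_congr rfl fun m _ => by
      rw [← Finset.sum_subset hT fun n hn h => by simp [z n hn h]]]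
  exact this

theorem lsb' {ε : ℝ} (hε : 0 < ε) : ∃ C : ℝ, 0 < C ∧ ∀ (Z A M : ℝ) (c : O → ℂ),
    1 ≤ A → A ≤ Z → 1 ≤ M → M ≤ Z → (∀ m, ‖c m‖ ≤ 1) →
    ∑ a ∈ ballN A, ‖∑ m ∈ ballO M, c m * sym3 m a‖ ^ 2 ≤
      C * Z ^ ε * M * (A + M + (A * M) ^ (2 / 3 : ℝ)) := by
  obtain ⟨C1, c1, h1⟩ := lsf_rows (half_pos hε)
  obtain ⟨C2, c2, h2⟩ := sum_inv_N_le (half_pos (half_pos hε))
  obtain ⟨C3, c3, h3⟩ := card_ballO_le
  refine ⟨C1 * C2 ^ 2 * C3, by positivity, fun Z A M c hA hAZ hM hMZ hc => ?_⟩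
  have Z0 : 0 < Z := by linarith
  have M0 : 0 < M := by linarith
  have h := h1 Z A M hA hAZ hM hMZ
  obtain ⟨E, hE⟩ : ∃ E, E = C1 * Z ^ (ε / 2) * (A + M + (A * M) ^ (2 / 3 : ℝ)) := ⟨_, rfl⟩
  have E0 : 0 ≤ E := by rw [hE]; positivity
  rw [← hE] at h
  obtain ⟨s, hs⟩ : ∃ s : O → ℂ, s = fun a => conj (∑ m ∈ ballO M, c m * sym3 m a) := ⟨_, rfl⟩
  obtain ⟨x, hx⟩ : ∃ x, x = ∑ a ∈ ballN A, ‖∑ m ∈ ballO M, c m * sym3 m a‖ ^ 2 := ⟨_, rfl⟩
  have x0 : 0 ≤ x := hx ▸ Finset.sum_nonneg fun _ _ => by positivity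
  have e1 : nsq (ballN A) s = x := by simp only [hx, hs, nsq, norm_conj]
  have e2 : (x : ℂ) = ∑ m ∈ ballO M, c m * ∑ a ∈ ballN A, s a * sym3 m a := by
    simp only [Finset.mul_sum]
    rw [Finset.sum_comm, hx, ofReal_sum]
    refine Finset.sum_congr rfl fun n hn => ?_
    rw [ofReal_pow, ← Complex.conj_mul', hs, Finset.mul_sum]
    exact Finset.sum_congr rfl fun m _ => by ring
  have b1 : x ≤ ∑ m ∈ ballO M, ‖∑ a ∈ ballN A, s a * sym3 m a‖ := by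
    rw [← Real.norm_of_nonneg x0, ← norm_real, e2]
    refine norm_sum_le_of_le _ fun m _ => ?_
    rw [norm_mul]
    exact mul_le_of_le_one_left (norm_nonneg _) (hc m)
  have b2 : x ≤ ∑ k ∈ ballO M, (N k)⁻¹ * √(C3 * M * (E * x)) := by
    refine b1.trans ((dual_cover _ ((ballO M).sigma fun k => lsfT (M / N k ^ 2))
      (fun p => p.2 * p.1 ^ 2) (fun m => ‖∑ a ∈ ballN A, s a * sym3 m a‖)
      (fun _ => norm_nonneg _) fun m hm => ?_).trans ?_)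
    · obtain ⟨m0, mM⟩ := mem_ballO.1 hm
      obtain ⟨b, k, hb, hk, rfl⟩ := exists_sqfree_mul_sq m0
      refine ⟨⟨k, b⟩, Finset.mem_sigma.2 ⟨mem_ballO.2 ⟨hk,
        (N_le_of_dvd ⟨b * k, by ring⟩ m0).trans mM⟩, Finset.mem_filter.2
          ⟨mem_ballO.2 ⟨hb.ne_zero, ?_⟩, fun p hp _ hd => hp.not_unit (hb p (sq p ▸ hd))⟩⟩, rfl⟩
      rw [le_div_iff₀ (pow_pos (N_pos hk) 2), ← N_pow, ← N_mul]
      exact mM
    · rw [Finset.sum_sigma]
      refine Finset.sum_le_sum fun k hk => ?_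
      have k1 := one_le_N (mem_ballO.1 hk).1
      have k0 : 0 < N k := by linarith
      have d1 : lsfT (M / N k ^ 2) ⊆ lsfT M :=
        Finset.filter_subset_filter _ (ballO_mono (div_le_self M0.le (one_le_pow₀ k1)))
      have d2 : ∑ b ∈ lsfT (M / N k ^ 2), ‖∑ a ∈ ballN A, s a * sym3 (b * k ^ 2) a‖ ^ 2 ≤ E * x := by
        refine (Finset.sum_le_sum_of_subset_of_nonneg d1 fun _ _ _ => by positivity).trans
          (le_trans (le_of_eq ?_) ((h fun n => s n * sym3 (k ^ 2) n).trans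
            (mul_le_mul_of_nonneg_left ((lqd_nsq _ _ _).trans_eq e1) E0)))
        refine Finset.sum_congr rfl fun b _ => ?_
        simp only [sym3_mul_left, mul_assoc, mul_comm (sym3 b _)]
      have d3 : ((lsfT (M / N k ^ 2)).card : ℝ) ≤ C3 * (M / N k ^ 2) :=
        le_trans (by exact_mod_cast Finset.card_filter_le _ _) (h3 _ (by positivity))
      rw [← Real.sqrt_sq (inv_nonneg.2 k0.le), ← Real.sqrt_mul (by positivity)]
      refine Real.le_sqrt_of_sq_le (sq_sum_le_card_mul_sum_sq.trans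
        ((mul_le_mul d3 d2 (by positivity) (by positivity)).trans_eq ?_))
      field_simp
  rw [← Finset.sum_mul] at b2
  have b3 : ∑ k ∈ ballO M, (N k)⁻¹ ≤ C2 * Z ^ (ε / 2 / 2) := (h2 M hM).trans (by gcongr)
  have b4 := pow_le_pow_left₀ x0
    (b2.trans (mul_le_mul_of_nonneg_right b3 (Real.sqrt_nonneg _))) 2
  rw [mul_pow, mul_pow, Real.sq_sqrt (by positivity), sq (Z ^ _), ← Real.rpow_add Z0,
    add_halves] at b4
  have b5 : C1 * C2 ^ 2 * C3 * Z ^ ε * M * (A + M + (A * M) ^ (2 / 3 : ℝ)) =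
      C2 ^ 2 * Z ^ (ε / 2) * (C3 * M * E) := by
    have : Z ^ ε = Z ^ (ε / 2) * Z ^ (ε / 2) := by rw [← Real.rpow_add Z0, add_halves]
    rw [this, hE]
    ring
  rw [← hx, b5]
  rcases x0.eq_or_lt with h0 | h0
  · rw [← h0]
    positivity
  · exact le_of_mul_le_mul_right (by nlinarith) h0

end

end Vale.Agent.P006
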