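import Vale.Agent.P006.LTwoB

namespace Vale.Agent.P006

open Vale.Agent.P026 Complex MeasureTheory Filter Topology
open scoped Classical ComplexConjugate Real MatrixGroups

noncomputable section

theorem ltwo_cnt (S : Finset (O × O)) {m : O} (hm : m ≠ 0) :
    ∑ h ∈ S, (if h.1 ∣ m ∧ h.2 ∣ m then (1 : ℝ) else 0) ≤ dv m ^ 2 := by
  rw [← Finset.sum_filter, Finset.sum_const, nsmul_eq_mul, mul_one, dv, sq, ← Nat.cast_mul,
    ← Finset.card_product]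
  refine Nat.cast_le.2 (Finset.card_le_card fun h hh => ?_)
  have := (Finset.mem_filter.1 hh).2
  exact Finset.mem_product.2 ⟨(div_mem hm).2 this.1, (div_mem hm).2 this.2⟩

theorem ltwo_pow {q n a : ℝ} (hq : 0 < q) (hn : 1 ≤ n) (ha : 1 ≤ 2 * a) :
    (q ^ 2 / n ^ 2) ^ a ≤ q ^ (2 * a) * n⁻¹ := by
  have pn : 0 < n := by linarith
  rw [← div_pow, ← Real.rpow_natCast, ← Real.rpow_mul (by positivity), Real.div_rpow hq.le pn.le,
    div_eq_mul_inv]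
  push_cast
  gcongr
  exact Real.self_le_rpow_of_one_le hn ha
theorem two_hs {ε : ℝ} (hε : 0 < ε) : ∃ C : ℝ, 0 < C ∧ ∀ Z Y q : ℝ,
    1 ≤ Y → Y ≤ Z → 1 ≤ q → q ≤ Z →
    ∑ h ∈ pairs2 q, ∑ h' ∈ pairs2 q, (if h = h' then 0 else
      ‖∑' n : O, sym3 n (h.1 * h.2 ^ 2) * conj (sym3 n (h'.1 * h'.2 ^ 2)) *
        ((Real.exp (-(kap * N n / Y)) : ℝ) : ℂ)‖ ^ 2) ≤
      C * Z ^ ε * (Y ^ (2 / 3 : ℝ) * q ^ (8 / 3 : ℝ) + Y ^ (1 / 3 : ℝ) * q ^ (3 : ℝ)) := by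
  have hδ : 0 < ε / 13 := by positivity
  obtain ⟨C1, c1, h1⟩ := two_ms hδ
  obtain ⟨C2, c2, h2⟩ := dv_le hδ
  obtain ⟨C3, c3, h3⟩ := sum_inv_N_le hδ
  refine ⟨2 * C1 * C2 ^ 6 * C3, by positivity, fun Z Y q hY hYZ hq hqZ => ?_⟩
  have hZ : 1 ≤ Z := hq.trans hqZ
  have pq : 0 < q := by linarith
  have hW13 : (Z ^ (ε / 13)) ^ 13 = Z ^ ε := by
    rw [← Real.rpow_natCast, ← Real.rpow_mul (by linarith)]
    congr 1
    push_cast
    ring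
  set δ := ε / 13
  have hW2 : (Z ^ 2) ^ δ = (Z ^ δ) ^ 2 := by
    rw [← Real.rpow_natCast, ← Real.rpow_natCast, ← Real.rpow_mul (by linarith),
      ← Real.rpow_mul (by linarith), mul_comm]
  have hZ2 : Z ≤ Z ^ 2 := le_self_pow₀ hZ two_ne_zero
  have step1 : ∀ h ∈ pairs2 q, ∀ h' ∈ pairs2 q, (if h = h' then 0 else
      ‖∑' n : O, sym3 n (h.1 * h.2 ^ 2) * conj (sym3 n (h'.1 * h'.2 ^ 2)) *
        ((Real.exp (-(kap * N n / Y)) : ℝ) : ℂ)‖ ^ 2) ≤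
      ∑ g ∈ ballN q, ∑ x ∈ pairs3 (q ^ 2 / N g ^ 2),
        (if h.1 ∣ x.1 * x.2 * g ∧ h.2 ∣ x.1 * x.2 * g then (1 : ℝ) else 0) *
        (if h'.1 ∣ x.1 * x.2 * g ∧ h'.2 ∣ x.1 * x.2 * g then (1 : ℝ) else 0) *
          ‖Kab x.1 x.2 g Y‖ ^ 2 := fun h hh h' hh' => by
    split_ifs with e
    · positivity
    · obtain ⟨A, B, g, ng, hg, hAB, d1, d2, d3, d4, hc⟩ := two_dec hh hh' e
      refine le_trans ?_ (Finset.single_le_sum (a := g) (fun _ _ => by positivity)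
        (mem_ballN.2 ⟨ng, hg⟩))
      refine le_trans (le_of_eq ?_) (Finset.single_le_sum (a := (A, B))
        (fun _ _ => by positivity) hAB)
      simp only [hc, d1, d2, d3, d4, and_self, if_true, one_mul, Kab]
  have step2 : ∀ g ∈ ballN q, ∑ x ∈ pairs3 (q ^ 2 / N g ^ 2), ∑ h ∈ pairs2 q, ∑ h' ∈ pairs2 q,
        (if h.1 ∣ x.1 * x.2 * g ∧ h.2 ∣ x.1 * x.2 * g then (1 : ℝ) else 0) *
        (if h'.1 ∣ x.1 * x.2 * g ∧ h'.2 ∣ x.1 * x.2 * g then (1 : ℝ) else 0) *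
          ‖Kab x.1 x.2 g Y‖ ^ 2 ≤ 2 * C1 * C2 ^ 6 * (Z ^ δ) ^ 12 *
      (Y ^ (2 / 3 : ℝ) * q ^ (8 / 3 : ℝ) + Y ^ (1 / 3 : ℝ) * q ^ (3 : ℝ)) * (N g)⁻¹ := by
    intro g hg
    obtain ⟨ng, hgq⟩ := mem_ballN.1 hg
    have g1 := one_le_N ng.ne_zero
    have d1 : ((divs g).card : ℝ) ≤ C2 * Z ^ δ :=
      (card_divs_le g).trans ((h2 g ng.ne_zero).trans (by gcongr; exact hgq.trans hqZ))
    have t1 : ∀ e ∈ divs g, ∑ x ∈ pairs3 (q ^ 2 / N g ^ 2), ‖Kab x.1 x.2 1 (Y / N e)‖ ^ 2 ≤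
        C1 * (Z ^ δ) ^ 2 * (2 * (Y ^ (2 / 3 : ℝ) * q ^ (8 / 3 : ℝ) +
          Y ^ (1 / 3 : ℝ) * q ^ (3 : ℝ)) * (N g)⁻¹) := fun e he => by
      have e1 := one_le_N ((mem_divs ng.ne_zero).1 he).1.ne_zero
      have e2 : Y / N e ≤ Y := div_le_self (by linarith) e1
      refine (h1 (Z ^ 2) (Y / N e) (q ^ 2 / N g ^ 2) (by positivity) ((e2.trans hYZ).trans hZ2)
        ((one_le_div (by positivity)).2 (by gcongr))
        ((div_le_self (by positivity) (one_le_pow₀ g1)).trans (by gcongr))).trans ?_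
      rw [hW2]
      gcongr
      have a1 := ltwo_pow pq g1 (a := 3 / 2) (by norm_num)
      have a2 := ltwo_pow pq g1 (a := 4 / 3) (by norm_num)
      rw [show (2 * (3 / 2) : ℝ) = 3 by norm_num] at a1
      rw [show (2 * (4 / 3) : ℝ) = 8 / 3 by norm_num] at a2
      have a3 : 1 ≤ Y ^ (1 / 3 : ℝ) := Real.one_le_rpow hY (by norm_num)
      calc _ ≤ Y ^ (1 / 3 : ℝ) * (q ^ (3 : ℝ) * (N g)⁻¹) +
            2 * (Y ^ (2 / 3 : ℝ) * (q ^ (8 / 3 : ℝ) * (N g)⁻¹)) +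
            Y ^ (1 / 3 : ℝ) * (q ^ (3 : ℝ) * (N g)⁻¹) := by
            refine add_le_add (add_le_add (a1.trans (le_mul_of_one_le_left (by positivity) a3))
              (le_trans (by gcongr) (le_mul_of_one_le_left (by positivity) one_le_two)))
              (by gcongr)
        _ = _ := by ring
    have t2 : ∀ x ∈ pairs3 (q ^ 2 / N g ^ 2), ∑ h ∈ pairs2 q, ∑ h' ∈ pairs2 q,
        (if h.1 ∣ x.1 * x.2 * g ∧ h.2 ∣ x.1 * x.2 * g then (1 : ℝ) else 0) *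
        (if h'.1 ∣ x.1 * x.2 * g ∧ h'.2 ∣ x.1 * x.2 * g then (1 : ℝ) else 0) *
          ‖Kab x.1 x.2 g Y‖ ^ 2 ≤ (C2 * (Z ^ δ) ^ 2) ^ 4 * (C2 * Z ^ δ) *
          ∑ e ∈ divs g, ‖Kab x.1 x.2 1 (Y / N e)‖ ^ 2 := fun x hx => by
      obtain ⟨⟨nA, nB, -, hAB⟩, -⟩ := ltwoA_mem3.1 hx
      have m0 := mul_ne_zero (mul_ne_zero nA.ne_zero nB.ne_zero) ng.ne_zero
      have b1 : dv (x.1 * x.2 * g) ≤ C2 * (Z ^ δ) ^ 2 := by
        refine (h2 _ m0).trans ?_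
        rw [← hW2]
        have := N_nonneg (x.1 * x.2 * g)
        gcongr
        rw [N_mul, N_mul]
        rw [le_div_iff₀ (by positivity)] at hAB
        have := mul_nonneg (N_nonneg x.1) (N_nonneg x.2)
        calc _ ≤ N x.1 * N x.2 * N g ^ 2 := by gcongr; exact le_self_pow₀ g1 two_ne_zero
          _ ≤ q ^ 2 := hAB
          _ ≤ _ := by gcongr
      have b0 := div_dv_nonneg (x.1 * x.2 * g)
      have b2 : ∑ h ∈ pairs2 q, (if h.1 ∣ x.1 * x.2 * g ∧ h.2 ∣ x.1 * x.2 * g then (1 : ℝ)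
          else 0) ≤ (C2 * (Z ^ δ) ^ 2) ^ 2 := (ltwo_cnt _ m0).trans (by gcongr)
      have b3 : ‖Kab x.1 x.2 g Y‖ ^ 2 ≤
          (C2 * Z ^ δ) * ∑ e ∈ divs g, ‖Kab x.1 x.2 1 (Y / N e)‖ ^ 2 := by
        calc _ ≤ (∑ e ∈ divs g, ‖Kab x.1 x.2 1 (Y / N e)‖) ^ 2 := by
              gcongr
              exact kab_mu nA.ne_zero nB.ne_zero ng (by linarith)
          _ ≤ _ := sq_sum_le_card_mul_sum_sq.trans (by gcongr)
      simp only [← Finset.sum_mul, ← Finset.mul_sum]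
      calc _ ≤ (C2 * (Z ^ δ) ^ 2) ^ 2 * (C2 * (Z ^ δ) ^ 2) ^ 2 *
            ((C2 * Z ^ δ) * ∑ e ∈ divs g, ‖Kab x.1 x.2 1 (Y / N e)‖ ^ 2) := by gcongr
        _ = _ := by ring
    refine (Finset.sum_le_sum t2).trans ?_
    rw [← Finset.mul_sum, Finset.sum_comm]
    have t3 := Finset.sum_le_card_nsmul _ _ _ t1
    rw [nsmul_eq_mul] at t3
    calc _ ≤ (C2 * (Z ^ δ) ^ 2) ^ 4 * (C2 * Z ^ δ) * ((C2 * Z ^ δ) * (C1 * (Z ^ δ) ^ 2 *
          (2 * (Y ^ (2 / 3 : ℝ) * q ^ (8 / 3 : ℝ) + Y ^ (1 / 3 : ℝ) * q ^ (3 : ℝ)) * (N g)⁻¹))) := by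
          gcongr
          exact t3.trans (by gcongr)
      _ = _ := by ring
  refine (Finset.sum_le_sum fun h hh => Finset.sum_le_sum (step1 h hh)).trans ?_
  rw [Finset.sum_congr rfl fun h _ => Finset.sum_comm, Finset.sum_comm]
  refine le_trans (Finset.sum_le_sum fun g hg => le_trans (le_of_eq ?_) (step2 g hg)) ?_
  · rw [Finset.sum_congr rfl fun h _ => Finset.sum_comm, Finset.sum_comm]
  · rw [← Finset.mul_sum, ← hW13]
    have t4 : ∑ g ∈ ballN q, (N g)⁻¹ ≤ C3 * Z ^ δ :=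
      (Finset.sum_le_sum_of_subset_of_nonneg (dual_sub q)
        fun n _ _ => inv_nonneg.2 (N_nonneg n)).trans ((h3 q hq).trans (by gcongr))
    calc _ ≤ 2 * C1 * C2 ^ 6 * (Z ^ δ) ^ 12 * (Y ^ (2 / 3 : ℝ) * q ^ (8 / 3 : ℝ) +
          Y ^ (1 / 3 : ℝ) * q ^ (3 : ℝ)) * (C3 * Z ^ δ) := by gcongr
      _ = _ := by ring
theorem ltwo_dual {ι : Type} [DecidableEq ι] (S : Finset ι) (χ : ι → O → ℂ) (hχ : ∀ h n, ‖χ h n‖ ≤ 1)
    (c : ι → ℂ) {R D E : ℝ} (hR : 0 < R) (hE0 : 0 ≤ E)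
    (hD : ∑' n : O, Real.exp (-(kap * N n / R)) ≤ D)
    (hE : ∑ h ∈ S, ∑ h' ∈ S, (if h = h' then 0 else
      ‖∑' n : O, χ h n * conj (χ h' n) * ((Real.exp (-(kap * N n / R)) : ℝ) : ℂ)‖ ^ 2) ≤ E ^ 2) :
    ∑ n ∈ ballN R, ‖∑ h ∈ S, c h * χ h n‖ ^ 2 ≤ Real.exp kap * (D + E) * ∑ h ∈ S, ‖c h‖ ^ 2 := by
  obtain ⟨C, -, hC⟩ := sum_exp_le kap_pos
  have s1 := (hC R hR).1
  have n1 : ∀ h h' n, ‖χ h n * conj (χ h' n)‖ ≤ 1 := fun h h' n => by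
    rw [norm_mul, Complex.norm_conj]
    exact mul_le_one₀ (hχ _ _) (norm_nonneg _) (hχ _ _)
  set T : ι → ι → ℂ := fun h h' =>
    ∑' n : O, χ h n * conj (χ h' n) * ((Real.exp (-(kap * N n / R)) : ℝ) : ℂ) with hT
  have hS : HasSum (fun n => ((‖∑ h ∈ S, c h * χ h n‖ ^ 2 * Real.exp (-(kap * N n / R)) : ℝ) : ℂ))
      (∑ h ∈ S, ∑ h' ∈ S, c h * conj (c h') * T h h') := by
    have := hasSum_sum (s := S) fun h _ => hasSum_sum (s := S) fun h' _ =>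
      (pois_summ (n1 h h') hR).hasSum.mul_left (c h * conj (c h'))
    refine this.congr_fun fun m => ?_
    rw [Complex.ofReal_mul, Complex.ofReal_pow, ← Complex.mul_conj', map_sum, Finset.sum_mul_sum,
      Finset.sum_mul]
    refine Finset.sum_congr rfl fun n1 _ => ?_
    rw [Finset.sum_mul]
    refine Finset.sum_congr rfl fun n2 _ => ?_
    rw [map_mul]
    ring
  have hb : ∀ h ∈ S, ∀ h' ∈ S, ‖c h * conj (c h') * T h h'‖ ≤
      (if h = h' then D * ‖c h‖ ^ 2 else 0) +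
        ‖c h‖ * ‖c h'‖ * (if h = h' then 0 else ‖T h h'‖) := fun h _ h' _ => by
    rw [norm_mul, norm_mul, Complex.norm_conj]
    split_ifs with e
    · subst e
      have := (tsum_of_norm_bounded s1.hasSum (f := fun n => χ h n * conj (χ h n) *
        ((Real.exp (-(kap * N n / R)) : ℝ) : ℂ)) fun m => by
          rw [norm_mul, Complex.norm_real, Real.norm_of_nonneg (Real.exp_pos _).le]
          exact mul_le_of_le_one_left (Real.exp_pos _).le (n1 h h m)).trans hD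
      rw [← pow_two, mul_comm, mul_zero, add_zero]
      exact mul_le_mul_of_nonneg_right this (by positivity)
    · rw [zero_add]
  have h3 : ∑ n ∈ ballN R, ‖∑ h ∈ S, c h * χ h n‖ ^ 2 * Real.exp (-(kap * N n / R)) ≤
      ‖∑ h ∈ S, ∑ h' ∈ S, c h * conj (c h') * T h h'‖ :=
    (sum_le_hasSum _ (fun m _ => mul_nonneg (by positivity) (Real.exp_pos _).le)
      (Complex.hasSum_re hS)).trans (Complex.re_le_norm _)
  have h4 := (norm_sum_le _ _).trans (Finset.sum_le_sum fun n1 m1 =>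
    (norm_sum_le _ _).trans (Finset.sum_le_sum (hb n1 m1)))
  simp only [Finset.sum_add_distrib, Finset.sum_ite_eq] at h4
  rw [Finset.sum_congr rfl fun n hn => if_pos hn, ← Finset.mul_sum] at h4
  have h5 : ∑ h ∈ S, ∑ h' ∈ S, ‖c h‖ * ‖c h'‖ * (if h = h' then 0 else ‖T h h'‖) ≤
      E * ∑ h ∈ S, ‖c h‖ ^ 2 := by
    refine (pow_le_pow_iff_left₀ (by positivity) (by positivity) two_ne_zero).1 ?_
    rw [← Finset.sum_product']
    refine (Finset.sum_mul_sq_le_sq_mul_sq _ _ _).trans ?_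
    rw [Finset.sum_product, Finset.sum_product, mul_pow, mul_comm]
    simp only [mul_pow]
    rw [← Finset.sum_mul_sum, ← sq]
    refine mul_le_mul_of_nonneg_right (le_trans (le_of_eq ?_) hE) (by positivity)
    refine Finset.sum_congr rfl fun h _ => Finset.sum_congr rfl fun h' _ => ?_
    split_ifs
    · simp
    · rfl
  have h6 : ∑ n ∈ ballN R, ‖∑ h ∈ S, c h * χ h n‖ ^ 2 ≤ Real.exp kap *
      ∑ n ∈ ballN R, ‖∑ h ∈ S, c h * χ h n‖ ^ 2 * Real.exp (-(kap * N n / R)) := by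
    rw [Finset.mul_sum]
    refine Finset.sum_le_sum fun m hm => ?_
    rw [mul_left_comm]
    refine le_mul_of_one_le_right (by positivity) ?_
    rw [← Real.exp_add]
    refine Real.one_le_exp ?_
    have := mul_le_of_le_one_right kap_pos.le ((div_le_one hR).2 (mem_ballN.1 hm).2)
    rw [mul_div_assoc]
    linarith
  rw [mul_assoc, add_mul]
  exact h6.trans (mul_le_mul_of_nonneg_left (h3.trans (h4.trans (by linarith)))
    (Real.exp_pos _).le)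
theorem ltwo_num {C1 C2 R W E : ℝ} (c2 : 0 < C2) (hR : 0 < R) (hW : 1 ≤ W) (hE : 0 ≤ E) :
    (C2 + 1) * R + √C1 * W * E ≤ (C2 + 1 + √C1) * W * (R + E) := by
  have s0 := Real.sqrt_nonneg C1
  have e1 : R ≤ W * R := le_mul_of_one_le_left hR.le hW
  have e2 : 0 ≤ W * E := by positivity
  nlinarith [mul_le_mul_of_nonneg_left e1 (show 0 ≤ C2 + 1 by positivity),
    mul_nonneg s0 (hR.le.trans e1), mul_nonneg (show 0 ≤ C2 + 1 by positivity) e2]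

theorem ltwo_main {ε : ℝ} (hε : 0 < ε) : ∃ C : ℝ, 0 < C ∧ ∀ (Z R q : ℝ) (c : O × O → ℂ),
    1 ≤ R → R ≤ Z → 1 ≤ q → q ≤ Z →
    ∑ n ∈ ballN R, ‖∑ h ∈ pairs2 q, c h * sym3 n (h.1 * h.2 ^ 2)‖ ^ 2 ≤
      C * Z ^ ε * (R + R ^ (1 / 3 : ℝ) * q ^ (4 / 3 : ℝ) + R ^ (1 / 6 : ℝ) * q ^ (3 / 2 : ℝ)) *
        ∑ h ∈ pairs2 q, ‖c h‖ ^ 2 := by
  obtain ⟨C1, c1, h1⟩ := two_hs hε
  obtain ⟨C2, c2, h2⟩ := sum_exp_le kap_pos
  refine ⟨Real.exp kap * (C2 + 1 + √C1), by positivity, fun Z R q c hR1 hRZ hq1 hqZ => ?_⟩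
  have hR : 0 < R := by linarith
  have hq : 0 < q := by linarith
  have hW : 1 ≤ Z ^ ε := Real.one_le_rpow (hR1.trans hRZ) hε.le
  have hD : ∑' n : O, Real.exp (-(kap * N n / R)) ≤ (C2 + 1) * R := by
    obtain ⟨s1, s2⟩ := h2 R hR
    rw [s1.tsum_eq_add_tsum_ite 0]
    simp only [ne_eq, ite_not] at s2
    rw [N_zero, mul_zero, zero_div, neg_zero, Real.exp_zero, add_mul, one_mul, add_comm]
    exact add_le_add (by convert s2) hR1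
  have a1 : (R ^ (1 / 3 : ℝ) * q ^ (4 / 3 : ℝ)) ^ 2 = R ^ (2 / 3 : ℝ) * q ^ (8 / 3 : ℝ) := by
    rw [mul_pow, ← Real.rpow_natCast, ← Real.rpow_natCast, ← Real.rpow_mul hR.le,
      ← Real.rpow_mul hq.le]
    norm_num
  have a2 : (R ^ (1 / 6 : ℝ) * q ^ (3 / 2 : ℝ)) ^ 2 = R ^ (1 / 3 : ℝ) * q ^ (3 : ℝ) := by
    rw [mul_pow, ← Real.rpow_natCast, ← Real.rpow_natCast, ← Real.rpow_mul hR.le,
      ← Real.rpow_mul hq.le]
    norm_num
  have hE := h1 Z R q hR1 hRZ hq1 hqZ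
  rw [← a1, ← a2] at hE
  have b1 : 0 ≤ R ^ (1 / 3 : ℝ) * q ^ (4 / 3 : ℝ) := by positivity
  have b2 : 0 ≤ R ^ (1 / 6 : ℝ) * q ^ (3 / 2 : ℝ) := by positivity
  generalize R ^ (1 / 3 : ℝ) * q ^ (4 / 3 : ℝ) = E1 at hE b1 ⊢
  generalize R ^ (1 / 6 : ℝ) * q ^ (3 / 2 : ℝ) = E2 at hE b2 ⊢
  generalize Z ^ ε = W at hE hW ⊢
  have b3 : C1 * W * (E1 ^ 2 + E2 ^ 2) ≤ (√C1 * W * (E1 + E2)) ^ 2 := by
    rw [mul_pow, mul_pow, Real.sq_sqrt c1.le]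
    gcongr
    · exact le_self_pow₀ hW two_ne_zero
    · nlinarith [mul_nonneg b1 b2]
  have key := ltwo_dual (pairs2 q) (fun h n => sym3 n (h.1 * h.2 ^ 2))
    (fun _ _ => norm_sym3_le _ _) c (E := √C1 * W * (E1 + E2)) hR (by positivity) hD
    (hE.trans b3)
  refine key.trans ?_
  rw [mul_assoc (Real.exp kap) _ W, mul_assoc (Real.exp kap) (_ * W), add_assoc R]
  exact mul_le_mul_of_nonneg_right (mul_le_mul_of_nonneg_left
    (ltwo_num c2 hR hW (add_nonneg b1 b2)) (Real.exp_pos _).le) (by positivity)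

/-- two variable large sieve -/
theorem ls2 {ε : ℝ} (hε : 0 < ε) : ∃ C : ℝ, 0 < C ∧ ∀ (Z R q : ℝ) (a : O → ℂ),
    1 ≤ Z → 0 < R → R ≤ Z → 0 < q → q ≤ Z →
    ∑ h ∈ pairs2 q, ‖∑ n ∈ ballN R, a n * sym3 (h.1 * h.2 ^ 2) n‖ ^ 2 ≤
      C * Z ^ ε * (R + R ^ (1 / 3 : ℝ) * q ^ (4 / 3 : ℝ) + R ^ (1 / 6 : ℝ) * q ^ (3 / 2 : ℝ)) *
        nsq (ballN R) a := by
  obtain ⟨C, c1, h1⟩ := ltwo_main hε
  refine ⟨C, c1, fun Z R q a hZ hR hRZ hq hqZ => ?_⟩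
  have n0 := nsq_nonneg (ballN R) a
  rcases lt_or_ge R 1 with hR1 | hR1
  · have : ballN R = ∅ := by rw [ballN, ballO_eq_empty hR1, Finset.filter_empty]
    refine le_trans (le_of_eq ?_) (show 0 ≤ _ by positivity)
    simp [this]
  rcases lt_or_ge q 1 with hq1 | hq1
  · have : pairs2 q = ∅ := by simp [pairs2, ballN, ballO_eq_empty hq1]
    rw [this, Finset.sum_empty]
    positivity
  refine duality (pairs2 q) (ballN R) (fun h n => sym3 (h.1 * h.2 ^ 2) n) (by positivity)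
    (fun c => ?_) a
  refine le_trans (le_of_eq (Finset.sum_congr rfl fun n hn => ?_)) (h1 Z R q c hR1 hRZ hq1 hqZ)
  congr 2
  refine Finset.sum_congr rfl fun h hh => ?_
  obtain ⟨n1, n2, -⟩ := ltwoA_mem2.1 hh
  rw [cubic_recip (n1.1.mul (n2.1.pow 2)) (mem_ballN.1 hn).1.1]

end

end Vale.Agent.P006
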