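import Vale.Agent.P006.LBas
import Vale.Agent.P026.Pois

namespace Vale.Agent.P006

open Vale.Agent.P026 Complex MeasureTheory Filter Topology
open scoped Classical ComplexConjugate Real MatrixGroups

noncomputable section

theorem ltwoA_mem2 {q : ℝ} {h : O × O} : h ∈ pairs2 q ↔
    NN h.1 ∧ NN h.2 ∧ IsCoprime h.1 h.2 ∧ N h.1 * N h.2 ≤ q := by
  simp only [pairs2, Finset.mem_filter, Finset.mem_product, mem_ballN]
  constructor
  · rintro ⟨⟨⟨a, -⟩, b, -⟩, c, d⟩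
    exact ⟨a, b, c, d⟩
  · rintro ⟨a, b, c, d⟩
    have h1 := one_le_N a.ne_zero
    have h2 := one_le_N b.ne_zero
    exact ⟨⟨⟨a, by nlinarith⟩, b, by nlinarith⟩, c, d⟩

theorem ltwoA_mem3 {q : ℝ} {h : O × O} : h ∈ pairs3 q ↔
    (NN h.1 ∧ NN h.2 ∧ IsCoprime h.1 h.2 ∧ N h.1 * N h.2 ≤ q) ∧ ¬ (h.1 = 1 ∧ h.2 = 1) := by
  rw [pairs3, Finset.mem_filter, ltwoA_mem2]

theorem ltwoA_cop {n a b : O} (hn : NN n) (h : a * b ∣ n) : IsCoprime a b :=
  (IsRelPrime.of_squarefree_mul (hn.2.1.squarefree_of_dvd h)).isCoprime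

theorem ltwoA_split {a : O} (ha : NN a) (b : O) :
    ∃ u x : O, NN u ∧ NN x ∧ a = u * x ∧ u ∣ b ∧ IsCoprime x b := by
  obtain ⟨u, hu, ⟨x, rfl⟩, hb, hd⟩ := exists_prim_gcd ha.1 b
  obtain ⟨u1, x1, c⟩ := (nn_mul_iff hu (ha.1.of_mul hu)).1 ha
  refine ⟨u, x, u1, x1, rfl, hb, (isCoprime_iff_no_prime (Or.inl x1.ne_zero)).2
    fun p hp px pb => hp.not_isUnit (c.isUnit_of_dvd' (hd p (px.mul_left u) pb) px)⟩

theorem ltwoA_four (x n : O) : sym3 x n ^ 4 = sym3 x n := by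
  rcases sym_sym3_cases x n with h | h
  · simp [h]
  · rw [pow_succ, h, one_mul]

theorem ltwoA_one {a b : O} (ha : NN a) (h : a * b = 1) : a = 1 :=
  ha.1.eq_one_of_isUnit (IsUnit.of_mul_eq_one _ h)
/-- the product of two different characters of the family -/
theorem two_dec {q : ℝ} {h h' : O × O} (hh : h ∈ pairs2 q) (hh' : h' ∈ pairs2 q) (hne : h ≠ h') :
    ∃ A B g : O, NN g ∧ N g ≤ q ∧ (A, B) ∈ pairs3 (q ^ 2 / N g ^ 2) ∧
      h.1 ∣ A * B * g ∧ h.2 ∣ A * B * g ∧ h'.1 ∣ A * B * g ∧ h'.2 ∣ A * B * g ∧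
      ∀ n : O, sym3 n (h.1 * h.2 ^ 2) * conj (sym3 n (h'.1 * h'.2 ^ 2)) =
        sym3 n A * conj (sym3 n B) * (if IsCoprime n g then 1 else 0) := by
  obtain ⟨h1, h2⟩ := h
  obtain ⟨k1, k2⟩ := h'
  obtain ⟨n1, n2, c, hq⟩ := ltwoA_mem2.1 hh
  obtain ⟨m1, m2, c', hq'⟩ := ltwoA_mem2.1 hh'
  simp only at n1 n2 c hq m1 m2 c' hq' ⊢
  have nh := (nn_mul_iff n1.1 n2.1).2 ⟨n1, n2, c⟩
  have nk := (nn_mul_iff m1.1 m2.1).2 ⟨m1, m2, c'⟩
  obtain ⟨a, y1, na, ny1, rfl, da, cy1⟩ := ltwoA_split n1 k1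
  obtain ⟨b, x1, nb, nx1, rfl, db, cx1⟩ := ltwoA_split ny1 k2
  obtain ⟨d, y2, nd, ny2, rfl, dd, cy2⟩ := ltwoA_split n2 k2
  obtain ⟨e, x2, ne, nx2, rfl, de, cx2⟩ := ltwoA_split ny2 k1
  obtain ⟨z1, rfl⟩ := (ltwoA_cop nh (a := a) (b := e)
    (Dvd.intro (b * x1 * d * x2) (by ring))).mul_dvd da de
  obtain ⟨z2, rfl⟩ := (ltwoA_cop nh (a := d) (b := b)
    (Dvd.intro (a * x1 * e * x2) (by ring))).mul_dvd dd db
  have nz1 : NN z1 := m1.of_dvd (m1.1.of_mul (na.1.mul ne.1)) (dvd_mul_left _ _)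
  have nz2 : NN z2 := m2.of_dvd (m2.1.of_mul (nd.1.mul nb.1)) (dvd_mul_left _ _)
  have ng : NN (a * d) := nh.of_dvd (na.1.mul nd.1) (Dvd.intro (b * x1 * e * x2) (by ring))
  have nA : NN (e * x1 * z2) := (nn_mul_iff (ne.1.mul nx1.1) nz2.1).2
    ⟨nh.of_dvd (ne.1.mul nx1.1) (Dvd.intro (a * b * d * x2) (by ring)), nz2,
      (ltwoA_cop nk (Dvd.intro (a * z1 * d * b) (by ring))).mul_left cx1.of_mul_right_right⟩
  have nB : NN (b * x2 * z1) := (nn_mul_iff (nb.1.mul nx2.1) nz1.1).2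
    ⟨nh.of_dvd (nb.1.mul nx2.1) (Dvd.intro (a * x1 * d * e) (by ring)), nz1,
      (ltwoA_cop nk (Dvd.intro (a * e * d * z2) (by ring))).mul_left cx2.of_mul_right_right⟩
  have cAB : IsCoprime (e * x1 * z2) (b * x2 * z1) := by
    refine IsCoprime.mul_left (IsCoprime.mul_right
      (ltwoA_cop nh (Dvd.intro (a * d) (by ring))) (IsCoprime.mul_left
        (ltwoA_cop nk (Dvd.intro (a * d * b * z2) (by ring)))
        cy1.of_mul_left_right.of_mul_right_right)) ?_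
    exact IsCoprime.mul_right (IsCoprime.mul_right
      (ltwoA_cop nk (Dvd.intro (a * e * z1 * d) (by ring)))
      cy2.of_mul_left_right.of_mul_right_right.symm)
      (ltwoA_cop nk (Dvd.intro (a * e * d * b) (by ring)))
  have pg := N_pos ng.ne_zero
  refine ⟨e * x1 * z2, b * x2 * z1, a * d, ng,
    (N_le_of_dvd (Dvd.intro (b * x1 * e * x2) (by ring)) nh.ne_zero).trans (by rwa [N_mul]),
    ltwoA_mem3.2 ⟨⟨nA, nB, cAB, ?_⟩, ?_⟩, Dvd.intro (e * z2 * x2 * z1 * d) (by ring),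
    Dvd.intro (x1 * z2 * b * z1 * a) (by ring), Dvd.intro (x1 * z2 * b * x2 * d) (by ring),
    Dvd.intro (e * x1 * x2 * z1 * a) (by ring), fun n => ?_⟩
  · rw [le_div_iff₀ (by positivity)]
    have h3 := N_le_of_dvd (a := e * x1 * z2 * (b * x2 * z1) * (a * d) ^ 2)
      (Dvd.intro (b * e) (by ring)) (mul_ne_zero nh.ne_zero nk.ne_zero)
    rw [N_mul, N_mul, N_pow, N_mul (a * (b * x1) * _), N_mul (a * (b * x1)),
      N_mul (a * e * z1)] at h3
    have h4 := mul_le_mul hq hq' (mul_nonneg (N_nonneg _) (N_nonneg _))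
      ((mul_nonneg (N_nonneg _) (N_nonneg _)).trans hq)
    simp only
    linarith
  · rintro ⟨e1, e2⟩
    simp only at e1 e2
    obtain rfl := ltwoA_one ne (b := x1 * z2) (by linear_combination e1)
    obtain rfl := ltwoA_one nx1 (b := z2) (by linear_combination e1)
    obtain rfl := ltwoA_one nz2 (b := 1) (by linear_combination e1)
    obtain rfl := ltwoA_one nb (b := x2 * z1) (by linear_combination e2)
    obtain rfl := ltwoA_one nx2 (b := z1) (by linear_combination e2)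
    obtain rfl := ltwoA_one nz1 (b := 1) (by linear_combination e2)
    exact hne (by simp)
  · have a0 := na.ne_zero
    have b0 := nb.ne_zero
    have d0 := nd.ne_zero
    have e0 := ne.ne_zero
    have x10 := nx1.ne_zero
    have x20 := nx2.ne_zero
    have z10 := nz1.ne_zero
    have z20 := nz2.ne_zero
    rw [← sym3_cube_left ng.ne_zero, sym3_pow_left, conj_sym3, conj_sym3]
    simp (disch := positivity) only [sym3_mul_right, sym3_pow_right]
    have f1 := ltwoA_four n b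
    have f2 := ltwoA_four n d
    have f3 := ltwoA_four n e
    have f4 := ltwoA_four n z2
    generalize sym3 n a = A at *
    generalize sym3 n b = B at *
    generalize sym3 n d = D at *
    generalize sym3 n e = E at *
    generalize sym3 n x1 = X1 at *
    generalize sym3 n x2 = X2 at *
    generalize sym3 n z1 = Z1 at *
    generalize sym3 n z2 = Z2 at *
    calc _ = A ^ 3 * (B ^ 4 * B) * (D ^ 4 * D ^ 2) * E ^ 4 * X1 * X2 ^ 2 * Z1 ^ 2 * Z2 ^ 4 := by
          ring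
      _ = _ := by
          rw [f1, f2, f3, f4]
          ring
theorem ltwoA_g3 {n : O} (hn : NN n) : ‖g3 1 n‖ = √(N n) := by
  have := norm_gt3' hn.1 hn.2.1
  rw [gt3, norm_div, Complex.norm_real, norm_norm, norm_toC,
    div_eq_one_iff_eq (Real.sqrt_pos.2 (N_pos hn.ne_zero)).ne'] at this
  exact this

theorem ltwoA_kab1 (A B : O) (Y : ℝ) : Kab A B 1 Y =
    ∑' n : O, sym3 n A * conj (sym3 n B) * ((Real.exp (-(kap * N n / Y)) : ℝ) : ℂ) := by
  simp only [Kab, isCoprime_one_right, if_true, mul_one]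
/-- functional equation -/
theorem kab_fe {q : ℝ} {A B : O} (h : (A, B) ∈ pairs3 q) {Y : ℝ} (hY : 0 < Y) :
    ‖Kab A B 1 Y‖ = Y / √(N A * N B) * ‖Kab B A 1 (N A * N B / Y)‖ := by
  obtain ⟨⟨nA, nB, c, -⟩, -⟩ := ltwoA_mem3.1 h
  simp only at nA nB c
  have pA := N_pos nA.ne_zero
  have pB := N_pos nB.ne_zero
  have p1 : Per A fun x => sym3 x A := fun x y h => sym3_congr h
  have p2 : Per B fun x => conj (sym3 x B) := fun x y h => congrArg conj (sym3_congr h)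
  have key : ∀ k : O, ∑ x ∈ rs (A * B), sym3 x A * conj (sym3 x B) *
      psi (toC k * toC x / toC (A * B)) = (sym3 B A * conj (sym3 A B) * g3 1 A * conj (g3 1 B)) *
      (sym3 k B * conj (sym3 k A)) := fun k => by
    have h1 := gau_crt nA.ne_zero nB.ne_zero c p1 p2 (fun x y => sym3_mul_left x y A)
      (fun x y => by rw [sym3_mul_left, map_mul]) k
    have h2 := gau_conj (fun x => sym3 x B) (-k) B
    rw [neg_neg] at h2
    rw [← h2] at h1
    have h3 : gauG (fun x => sym3 x A) k A = _ := g3_twist' nA.1 nA.2.1 k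
    have h4 : gauG (fun x => sym3 x B) (-k) B = _ := g3_twist' nB.1 nB.2.1 (-k)
    rw [h3, h4, neg_eq_neg_one_mul k, sym3_mul_left, sym3_neg_one, one_mul, map_mul,
      Complex.conj_conj] at h1
    exact h1.trans (by ring)
  rw [ltwoA_kab1, ltwoA_kab1, poisson_char (mul_ne_zero nA.ne_zero nB.ne_zero)
    (f := fun x => sym3 x A * conj (sym3 x B)) (fun x y h => by
      simp only [p1 x y ((dvd_mul_right A B).trans h), p2 x y ((dvd_mul_left B A).trans h)]) hY]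
  simp only [key, mul_assoc _ (sym3 _ B * conj (sym3 _ A))]
  rw [tsum_mul_left, norm_mul, norm_mul, norm_mul, norm_mul, norm_mul, Complex.norm_conj,
    Complex.norm_conj, ltwoA_g3 nA, ltwoA_g3 nB, norm_sym3 c, norm_sym3 c.symm, N_mul,
    Complex.norm_real, Real.norm_of_nonneg (by positivity), ← mul_assoc]
  congr 1
  · rw [one_mul, one_mul, ← Real.sqrt_mul pA.le]
    have := Real.sqrt_pos.2 (mul_pos pA pB)
    field_simp
    rw [Real.sq_sqrt (mul_pos pA pB).le]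
  · simp only [div_div_eq_mul_div]
theorem ltwoA_norm (n A B : O) : ‖sym3 n A * conj (sym3 n B)‖ ≤ 1 := by
  rw [norm_mul, Complex.norm_conj]
  exact mul_le_one₀ (norm_sym3_le _ _) (norm_nonneg _) (norm_sym3_le _ _)
theorem kab_mu {A B g : O} (hA : A ≠ 0) (hB : B ≠ 0) (hg : NN g) {Y : ℝ} (hY : 0 < Y) :
    ‖Kab A B g Y‖ ≤ ∑ e ∈ divs g, ‖Kab A B 1 (Y / N e)‖ := by
  have h1 : Kab A B g Y = ∑ e ∈ divs g, ∑' n : O, (sym3 n A * conj (sym3 n B) *
      (if e ∣ n then mu e else 0)) * ((Real.exp (-(kap * N n / Y)) : ℝ) : ℂ) := by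
    rw [← Summable.tsum_finsetSum fun e _ => pois_summ (B := 1) (fun n => by
      rw [norm_mul]
      refine mul_le_one₀ (ltwoA_norm _ _ _) (norm_nonneg _) ?_
      split_ifs
      · exact norm_mu_le e
      · simp) hY]
    refine tsum_congr fun n => ?_
    rw [← Finset.sum_mul, ← Finset.mul_sum, sum_mu_divs hg.1 hg.2.2]
  rw [h1]
  refine (norm_sum_le _ _).trans (Finset.sum_le_sum fun e he => ?_)
  have e0 := ((mem_divs hg.ne_zero).1 he).1.ne_zero
  rw [← (mul_right_injective₀ e0).tsum_eq (fun n hn => by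
    by_contra h
    refine hn ?_
    have : ¬ e ∣ n := fun ⟨m, hm⟩ => h ⟨m, hm.symm⟩
    simp [this]), ltwoA_kab1]
  have h2 : ∀ n : O, sym3 (e * n) A * conj (sym3 (e * n) B) * (if e ∣ e * n then mu e else 0) *
      ((Real.exp (-(kap * N (e * n) / Y)) : ℝ) : ℂ) = (sym3 e A * conj (sym3 e B) * mu e) *
      (sym3 n A * conj (sym3 n B) * ((Real.exp (-(kap * N n / (Y / N e))) : ℝ) : ℂ)) := fun n => by
    rw [if_pos (dvd_mul_right e n), sym3_mul_left, sym3_mul_left, map_mul, N_mul,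
      div_div_eq_mul_div, mul_comm (N e), mul_assoc kap]
    ring
  simp only [h2]
  rw [tsum_mul_left, norm_mul, norm_mul]
  exact mul_le_of_le_one_left (norm_nonneg _)
    (mul_le_one₀ (ltwoA_norm _ _ _) (norm_nonneg _) (norm_mu_le e))
theorem kab_swap (A B g : O) (Y : ℝ) : ‖Kab B A g Y‖ = ‖Kab A B g Y‖ := by
  rw [← Complex.norm_conj (Kab A B g Y), Kab, Kab, Complex.conj_tsum]
  congr 1
  refine tsum_congr fun n => ?_
  rw [map_mul, map_mul, map_mul, Complex.conj_conj, Complex.conj_ofReal, mul_comm (sym3 n B)]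
  split_ifs <;> simp
theorem ltwoA_zero {q : ℝ} {A B : O} (h : (A, B) ∈ pairs3 q) :
    sym3 0 A * conj (sym3 0 B) = 0 := by
  obtain ⟨⟨nA, nB, -⟩, h1⟩ := ltwoA_mem3.1 h
  have key : ∀ {n : O}, NN n → n ≠ 1 → sym3 0 n = 0 := fun hn h =>
    (sym3_eq_zero_iff hn.ne_zero).2 fun c => h (hn.1.eq_one_of_isUnit (isCoprime_zero_left.1 c))
  rcases not_and_or.1 h1 with h2 | h2
  · rw [key nA h2, zero_mul]
  · rw [key nB h2, map_zero, mul_zero]
theorem kab_triv : ∃ C : ℝ, 0 < C ∧ ∀ (q Y : ℝ) (A B : O), (A, B) ∈ pairs3 q → 0 < Y →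
    ‖Kab A B 1 Y‖ ≤ C * Y := by
  obtain ⟨C, hC0, hC⟩ := sum_exp_le kap_pos
  refine ⟨C, hC0, fun q Y A B h hY => ?_⟩
  obtain ⟨s1, s2⟩ := hC Y hY
  have s3 : Summable fun h : O => if h ≠ 0 then Real.exp (-(kap * N h / Y)) else 0 :=
    Summable.of_nonneg_of_le (fun h => by positivity) (fun h => by
      split_ifs
      · exact le_rfl
      · positivity) s1
  rw [ltwoA_kab1]
  refine (tsum_of_norm_bounded s3.hasSum fun n => ?_).trans s2
  split_ifs with h0
  · rw [norm_mul, Complex.norm_real, Real.norm_of_nonneg (Real.exp_pos _).le]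
    exact mul_le_of_le_one_left (Real.exp_pos _).le (ltwoA_norm _ _ _)
  · rw [not_not.1 h0, ltwoA_zero h]
    simp

end

end Vale.Agent.P006
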