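import Vale.Agent.P006.LTwoA
import Vale.Agent.P006.LRec
import Vale.Agent.P006.Sep
import Vale.Agent.P026.GamB

namespace Vale.Agent.P006

open Vale.Agent.P026 Complex MeasureTheory Filter Topology
open scoped Classical ComplexConjugate Real MatrixGroups

noncomputable section

theorem ltwoB_mrep : ∃ M : ℝ, MRep (fun x => ((√x * Real.exp (-x) : ℝ) : ℂ)) 0 M := by
  have hi := (integrable_Gamma_line (σ := 1 / 2) (by norm_num)).const_mul (1 / (2 * π) : ℂ)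
  refine ⟨_, _, hi, le_rfl, fun x hx => ?_⟩
  have hx0 : (x : ℂ) ≠ 0 := by exact_mod_cast hx.ne'
  simp only
  rw [Complex.ofReal_mul, exp_mellin (σ := 1 / 2) (by norm_num) hx, ← integral_const_mul,
    ← integral_const_mul]
  refine integral_congr_ae (Eventually.of_forall fun τ => ?_)
  have e : (x : ℂ) ^ (-(((0 : ℝ) : ℂ) + τ * Complex.I)) =
      ((√x : ℝ) : ℂ) * (x : ℂ) ^ (-(((1 / 2 : ℝ) : ℂ) + τ * Complex.I)) := by
    rw [Real.sqrt_eq_rpow, Complex.ofReal_cpow hx.le, ← Complex.cpow_add _ _ hx0]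
    congr 1
    push_cast
    ring
  simp only [e]
  ring

theorem ltwoB_tail {δ : ℝ} (hδ : 0 < δ) : ∃ C : ℝ, 0 < C ∧ ∀ (f : O → ℂ) (Z T T0 : ℝ),
    1 ≤ Z → 0 < T → T ≤ T0 → (∀ l, ‖f l‖ ≤ 1) → f 0 = 0 →
    ‖∑' l : O, f l * ((Real.exp (-(kap * N l / T)) : ℝ) : ℂ) -
      ∑ l ∈ ballO (Z ^ δ * T0), f l * ((Real.exp (-(kap * N l / T)) : ℝ) : ℂ)‖ ≤ C * T0 / Z := by
  obtain ⟨j, hj⟩ := exists_nat_gt (1 / δ)
  have hj0 : (0 : ℝ) < j := lt_trans (by positivity) hj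
  obtain ⟨C, hC0, hC⟩ := lat_tail_one (s := ((j + 1 : ℕ) : ℝ)) (by push_cast; linarith)
  have hk := kap_pos
  refine ⟨(j + 1).factorial / kap ^ (j + 1) * C, by positivity, fun f Z T T0 hZ hT hT0 hf h0 => ?_⟩
  have hT1 : 0 < T0 := hT.trans_le hT0
  have hW : 0 < Z ^ δ := by positivity
  obtain ⟨s1, s2⟩ := hC (Z ^ δ * T0) (by positivity)
  have h1 : HasSum (fun l => if l ∈ ballO (Z ^ δ * T0) then
      f l * ((Real.exp (-(kap * N l / T)) : ℝ) : ℂ) else 0)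
      (∑ l ∈ ballO (Z ^ δ * T0), f l * ((Real.exp (-(kap * N l / T)) : ℝ) : ℂ)) := by
    rw [← Finset.sum_congr rfl fun l (hl : l ∈ ballO (Z ^ δ * T0)) => if_pos hl (e := 0)]
    exact hasSum_sum_of_ne_finset_zero fun l hl => if_neg hl
  rw [← ((pois_summ hf hT).hasSum.sub h1).tsum_eq]
  refine (tsum_of_norm_bounded
    (s1.mul_left ((j + 1).factorial / kap ^ (j + 1) * T0 ^ (j + 1))).hasSum fun l => ?_).trans ?_
  · by_cases hl : l ∈ ballO (Z ^ δ * T0)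
    · rw [if_pos hl, sub_self, norm_zero]
      have := N_nonneg l
      positivity
    rw [if_neg hl, sub_zero]
    by_cases l0 : l = 0
    · rw [l0, h0, zero_mul, norm_zero]
      have := N_nonneg 0
      positivity
    have pl := N_pos l0
    rw [if_pos (not_le.1 fun h => hl (mem_ballO.2 ⟨l0, h⟩)), norm_mul, Complex.norm_real,
      Real.norm_of_nonneg (Real.exp_pos _).le, Real.rpow_neg pl.le, Real.rpow_natCast]
    calc _ ≤ 1 * Real.exp (-(kap * N l / T0)) := by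
          gcongr
          exact hf l
      _ ≤ 1 * ((j + 1).factorial / (kap * N l / T0) ^ (j + 1)) := by
          gcongr
          exact lat_exp_le (by positivity) _
      _ = _ := by
          rw [div_pow, mul_pow]
          field_simp
  · rw [tsum_mul_left]
    have e : (Z ^ δ * T0) ^ (1 - ((j + 1 : ℕ) : ℝ)) = ((Z ^ δ) ^ j * T0 ^ j)⁻¹ := by
      rw [← mul_pow, ← Real.rpow_natCast, ← Real.rpow_neg (by positivity)]
      congr 1
      push_cast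
      ring
    have hZ' : Z ≤ (Z ^ δ) ^ j := by
      rw [← Real.rpow_natCast, ← Real.rpow_mul (by linarith)]
      refine Real.self_le_rpow_of_one_le hZ ?_
      rw [div_lt_iff₀ hδ] at hj
      linarith
    rw [e] at s2
    calc _ ≤ (j + 1).factorial / kap ^ (j + 1) * T0 ^ (j + 1) * (C * (Z * T0 ^ j)⁻¹) := by
          gcongr
          refine s2.trans ?_
          gcongr
      _ = _ := by
          field_simp
          ring

theorem ltwoB_row {δ : ℝ} (hδ : 0 < δ) (hδ1 : δ ≤ 1) : ∃ C : ℝ, 0 < C ∧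
    ∀ (Z Y q : ℝ) (B : O), 1 ≤ Y → Y ≤ Z → 1 ≤ q → q ≤ Z → B ≠ 0 →
    ∑ A ∈ (ballN q).filter (fun A => (A, B) ∈ pairs3 q), ‖Kab A B 1 Y‖ ^ 2 ≤
      C * (Z ^ δ) ^ 5 * (q + Y ^ (2 / 3 : ℝ) * q ^ (4 / 3 : ℝ) * (N B)⁻¹ +
        Y ^ (1 / 3 : ℝ) * q ^ (4 / 3 : ℝ) * N B ^ (-(2 / 3) : ℝ)) := by
  obtain ⟨M, hM⟩ := ltwoB_mrep
  obtain ⟨C1, c1, h1⟩ := ltwoB_tail hδ
  obtain ⟨C2, c2, h2⟩ := lsall_dual hδ
  obtain ⟨C3, c3, h3⟩ := sum_inv_N_le hδ
  obtain ⟨C4, c4, h4⟩ := card_ballO_le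
  have hk := kap_pos
  refine ⟨2 * (M ^ 2 * C2 * C3 / kap) + 2 * C1 ^ 2 * C4, by positivity,
    fun Z Y q B hY hYZ hq hqZ hB => ?_⟩
  have hZ : 1 ≤ Z := hY.trans hYZ
  have pB := N_pos hB
  have pB1 := one_le_N hB
  have hW : 1 ≤ Z ^ δ := Real.one_le_rpow hZ hδ.le
  have hWZ : Z ^ δ ≤ Z := Real.rpow_le_self_of_one_le hZ hδ1
  have hW2 : (Z ^ 2) ^ δ = (Z ^ δ) ^ 2 := by
    rw [← Real.rpow_natCast, ← Real.rpow_natCast, ← Real.rpow_mul (by linarith),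
      ← Real.rpow_mul (by linarith), mul_comm]
  have hL : Z ^ δ * (q / Y) ≤ Z ^ 2 := by
    have : q / Y ≤ Z := (div_le_self (by linarith) hY).trans hqZ
    calc _ ≤ Z * Z := by gcongr
      _ = _ := (sq Z).symm
  have hZ2 : 1 ≤ Z ^ 2 := one_le_pow₀ hZ
  have o1 := (h2 (Z ^ 2) (Z ^ δ * (q / Y)) (q / N B) hZ2 (by positivity) hL (by positivity)
    (((div_le_self (by linarith) pB1).trans hqZ).trans (le_self_pow₀ hZ two_ne_zero))).conj
  have o2 := h3 (Z ^ 2) hZ2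
  rw [hW2] at o1 o2
  have o3 := (Finset.sum_le_sum_of_subset_of_nonneg (ballO_mono hL)
    fun n _ _ => inv_nonneg.2 (N_nonneg n)).trans o2
  have o4 := fun f T => h1 f Z T (q / Y) hZ
  set S := (ballN q).filter (fun A => (A, B) ∈ pairs3 q) with hS
  have hS1 : ∀ A ∈ S, (A, B) ∈ pairs3 q := fun A hA => (Finset.mem_filter.1 hA).2
  have hS2 : S ⊆ ballN (q / N B) := fun A hA => by
    obtain ⟨⟨nA, -, -, h⟩, -⟩ := ltwoA_mem3.1 (hS1 A hA)
    exact mem_ballN.2 ⟨nA, (le_div_iff₀ pB).2 h⟩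
  have hS3 : (S.card : ℝ) ≤ C4 * q :=
    le_trans (by exact_mod_cast Finset.card_le_card ((Finset.filter_subset _ _).trans (dual_sub q)))
      (h4 q (by linarith))
  have hL0 : 0 < Z ^ δ * (q / Y) := by positivity
  have eL : Y * (Z ^ δ * (q / Y) + (Z ^ δ * (q / Y)) ^ (1 / 3 : ℝ) * (q / N B) +
      (Z ^ δ * (q / Y) * (q / N B)) ^ (2 / 3 : ℝ)) ≤ Z ^ δ * (q + Y ^ (2 / 3 : ℝ) *
        q ^ (4 / 3 : ℝ) * (N B)⁻¹ + Y ^ (1 / 3 : ℝ) * q ^ (4 / 3 : ℝ) * N B ^ (-(2 / 3) : ℝ)) := by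
    have pY : 0 < Y := by linarith
    have pq : 0 < q := by linarith
    have a1 : (Z ^ δ) ^ (1 / 3 : ℝ) ≤ Z ^ δ := Real.rpow_le_self_of_one_le hW (by norm_num)
    have a2 : (Z ^ δ) ^ (2 / 3 : ℝ) ≤ Z ^ δ := Real.rpow_le_self_of_one_le hW (by norm_num)
    have a3 : Y ^ (1 / 3 : ℝ) * Y ^ (2 / 3 : ℝ) = Y := by
      rw [← Real.rpow_add pY]; norm_num
    have a4 : q ^ (4 / 3 : ℝ) = q ^ (1 / 3 : ℝ) * q := by
      rw [← Real.rpow_add_one pq.ne']; norm_num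
    have a5 : q ^ (4 / 3 : ℝ) = q ^ (2 / 3 : ℝ) * q ^ (2 / 3 : ℝ) := by
      rw [← Real.rpow_add pq]; norm_num
    have b1 : Y * ((Z ^ δ * (q / Y)) ^ (1 / 3 : ℝ) * (q / N B)) =
        (Z ^ δ) ^ (1 / 3 : ℝ) * (Y ^ (2 / 3 : ℝ) * q ^ (4 / 3 : ℝ) * (N B)⁻¹) := by
      rw [Real.mul_rpow (by positivity) (by positivity), Real.div_rpow pq.le pY.le, a4]
      have : 0 < Y ^ (1 / 3 : ℝ) := by positivity
      field_simp
      rw [a3]
    have b2 : Y * (Z ^ δ * (q / Y) * (q / N B)) ^ (2 / 3 : ℝ) = (Z ^ δ) ^ (2 / 3 : ℝ) *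
        (Y ^ (1 / 3 : ℝ) * q ^ (4 / 3 : ℝ) * N B ^ (-(2 / 3) : ℝ)) := by
      rw [Real.mul_rpow (by positivity) (by positivity), Real.mul_rpow (by positivity)
        (by positivity), Real.div_rpow pq.le pY.le, Real.div_rpow pq.le pB.le, a5,
        Real.rpow_neg pB.le]
      have : 0 < Y ^ (2 / 3 : ℝ) := by positivity
      have : 0 < N B ^ (2 / 3 : ℝ) := by positivity
      field_simp
      rw [mul_comm, a3]
    have b0 : Y * (Z ^ δ * (q / Y)) = Z ^ δ * q := by field_simp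
    rw [mul_add, mul_add, b0, b1, b2, mul_add, mul_add]
    gcongr
  have hD : 0 ≤ C2 * (Z ^ δ) ^ 2 * (Z ^ δ * (q / Y) + (Z ^ δ * (q / Y)) ^ (1 / 3 : ℝ) *
      (q / N B) + (Z ^ δ * (q / Y) * (q / N B)) ^ (2 / 3 : ℝ)) := by positivity
  generalize Z ^ δ * (q / Y) + (Z ^ δ * (q / Y)) ^ (1 / 3 : ℝ) * (q / N B) +
      (Z ^ δ * (q / Y) * (q / N B)) ^ (2 / 3 : ℝ) = D at o1 eL hD
  generalize Z ^ δ * (q / Y) = L at o1 o3 o4 hL0
  have key := sep hM S (ballO L)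
    (fun A l => sym3 l B * conj (sym3 l A) * (((√(kap * N l))⁻¹ : ℝ) : ℂ))
    (fun l => kap * N l) (fun A => N A * N B / Y) (B := 1)
    (P := C2 * (Z ^ δ) ^ 2 * D * (C3 * (Z ^ δ) ^ 2 / kap))
    (fun l hl => mul_pos hk (N_pos (mem_ballO.1 hl).1))
    (fun A hA => ⟨by
      have := N_pos (mem_ballN.1 (hS2 hA)).1.ne_zero
      positivity, by simp⟩) (fun τ => by
      have t1 := o1 fun l => sym3 l B * (((√(kap * N l))⁻¹ : ℝ) : ℂ) *
        ((kap * N l : ℝ) : ℂ) ^ (-(((0 : ℝ) : ℂ) + τ * Complex.I))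
      refine le_trans ?_ (t1.trans (mul_le_mul_of_nonneg_left ?_ hD))
      · refine le_trans (le_of_eq (Finset.sum_congr rfl fun A _ => ?_))
          (Finset.sum_le_sum_of_subset_of_nonneg hS2 fun _ _ _ => by positivity)
        congr 2
        exact Finset.sum_congr rfl fun l _ => by ring
      · refine le_trans ?_ (div_le_div_of_nonneg_right o3 hk.le)
        rw [nsq, Finset.sum_div]
        refine Finset.sum_le_sum fun l hl => ?_
        have pl := mul_pos hk (N_pos (mem_ballO.1 hl).1)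
        rw [norm_mul, norm_mul, Complex.norm_cpow_eq_rpow_re_of_pos pl, Complex.norm_real,
          Real.norm_of_nonneg (by positivity)]
        have := norm_sym3_le l B
        calc _ ≤ (1 * (√(kap * N l))⁻¹ * 1) ^ 2 := by
              gcongr
              simp
          _ = _ := by
              rw [one_mul, mul_one, inv_pow, Real.sq_sqrt pl.le, mul_inv]
              ring)
  have pt : ∀ A ∈ S, ‖Kab A B 1 Y‖ ^ 2 ≤ 2 * (Y * ‖∑ l ∈ ballO L, sym3 l B * conj (sym3 l A) *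
      (((√(kap * N l))⁻¹ : ℝ) : ℂ) * ((√(kap * N l / (N A * N B / Y)) *
        Real.exp (-(kap * N l / (N A * N B / Y))) : ℝ) : ℂ)‖ ^ 2) + 2 * C1 ^ 2 := fun A hA => by
    obtain ⟨⟨nA, -, -, hAB⟩, -⟩ := ltwoA_mem3.1 (hS1 A hA)
    have pA1 := one_le_N nA.ne_zero
    have p1 : 1 ≤ N A * N B := one_le_mul_of_one_le_of_one_le pA1 pB1
    have pY : 0 < Y := by linarith
    have pT : 0 < N A * N B / Y := by positivity
    have t1 := o4 (fun l => sym3 l B * conj (sym3 l A)) _ pT (by gcongr)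
      (fun l => ltwoA_norm l B A) (by
        have := ltwoA_zero (hS1 A hA)
        rw [← Complex.conj_conj (sym3 0 B), ← map_mul, mul_comm, this, map_zero])
    rw [← ltwoA_kab1] at t1
    have e1 : ∑ l ∈ ballO L, sym3 l B * conj (sym3 l A) *
        (((√(kap * N l))⁻¹ : ℝ) : ℂ) * ((√(kap * N l / (N A * N B / Y)) *
        Real.exp (-(kap * N l / (N A * N B / Y))) : ℝ) : ℂ) =
        (((√(N A * N B / Y))⁻¹ : ℝ) : ℂ) * ∑ l ∈ ballO L, sym3 l B * conj (sym3 l A) *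
          ((Real.exp (-(kap * N l / (N A * N B / Y))) : ℝ) : ℂ) := by
      rw [Finset.mul_sum]
      refine Finset.sum_congr rfl fun l hl => ?_
      have pl := mul_pos hk (N_pos (mem_ballO.1 hl).1)
      have p2 : ((√(kap * N l) : ℝ) : ℂ) ≠ 0 := by exact_mod_cast (Real.sqrt_pos.2 pl).ne'
      rw [Real.sqrt_div pl.le]
      push_cast
      field_simp
    rw [e1, kab_fe (hS1 A hA) pY, norm_mul, Complex.norm_real,
      Real.norm_of_nonneg (by positivity)]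
    generalize ∑ l ∈ ballO L, sym3 l B * conj (sym3 l A) *
          ((Real.exp (-(kap * N l / (N A * N B / Y))) : ℝ) : ℂ) = X at t1 ⊢
    have t2 := (norm_le_norm_add_norm_sub' (Kab B A 1 (N A * N B / Y)) X).trans
      (add_le_add_right t1 _)
    have s1 : 1 ≤ √(N A * N B) := Real.one_le_sqrt.2 p1
    have t3 : Y / √(N A * N B) * (C1 * (q / Y) / Z) ≤ C1 := by
      calc _ ≤ Y / 1 * (C1 * (Z / Y) / Z) := by gcongr
        _ = C1 := by field_simp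
    have t4 : Y * ((√(N A * N B / Y))⁻¹ * ‖X‖) ^ 2 = (Y / √(N A * N B) * ‖X‖) ^ 2 := by
      rw [mul_pow, mul_pow, inv_pow, div_pow, Real.sq_sqrt pT.le, Real.sq_sqrt (by positivity)]
      field_simp
    rw [t4]
    have t5 : Y / √(N A * N B) * ‖Kab B A 1 (N A * N B / Y)‖ ≤ Y / √(N A * N B) * ‖X‖ + C1 := by
      calc _ ≤ Y / √(N A * N B) * (‖X‖ + C1 * (q / Y) / Z) := by gcongr
        _ ≤ _ := by rw [mul_add]; linarith
    calc _ ≤ (Y / √(N A * N B) * ‖X‖ + C1) ^ 2 := by gcongr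
      _ ≤ _ := by nlinarith [sq_nonneg (Y / √(N A * N B) * ‖X‖ - C1)]
  refine (Finset.sum_le_sum pt).trans ?_
  rw [Finset.sum_add_distrib, ← Finset.mul_sum, ← Finset.mul_sum, Finset.sum_const, nsmul_eq_mul]
  have hE : q ≤ q + Y ^ (2 / 3 : ℝ) * q ^ (4 / 3 : ℝ) * (N B)⁻¹ +
      Y ^ (1 / 3 : ℝ) * q ^ (4 / 3 : ℝ) * N B ^ (-(2 / 3) : ℝ) := by
    rw [add_assoc]
    exact le_add_of_nonneg_right (by positivity)
  generalize q + Y ^ (2 / 3 : ℝ) * q ^ (4 / 3 : ℝ) * (N B)⁻¹ +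
      Y ^ (1 / 3 : ℝ) * q ^ (4 / 3 : ℝ) * N B ^ (-(2 / 3) : ℝ) = E at hE eL ⊢
  generalize Z ^ δ = W at *
  have hE0 : 0 ≤ E := by linarith
  have u1 : Y * (M ^ 2 * 1 ^ 2 * (C2 * W ^ 2 * D * (C3 * W ^ 2 / kap))) ≤
      M ^ 2 * C2 * C3 / kap * W ^ 5 * E := by
    calc _ = M ^ 2 * C2 * C3 / kap * W ^ 4 * (Y * D) := by ring
      _ ≤ M ^ 2 * C2 * C3 / kap * W ^ 4 * (W * E) := by gcongr
      _ = _ := by ring
  have u2 : (S.card : ℝ) * (2 * C1 ^ 2) ≤ 2 * C1 ^ 2 * C4 * W ^ 5 * E := by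
    have : 1 ≤ W ^ 5 := one_le_pow₀ hW
    calc _ ≤ C4 * E * (2 * C1 ^ 2) := by gcongr; exact hS3.trans (by gcongr)
      _ = 2 * C1 ^ 2 * C4 * 1 * E := by ring
      _ ≤ _ := by gcongr
  have u3 := mul_le_mul_of_nonneg_left key (zero_le_one.trans hY)
  nlinarith
/-- mean square of the character sums -/
theorem two_ms {ε : ℝ} (hε : 0 < ε) : ∃ C : ℝ, 0 < C ∧ ∀ Z Y q : ℝ,
    0 < Y → Y ≤ Z → 1 ≤ q → q ≤ Z →
    ∑ x ∈ pairs3 q, ‖Kab x.1 x.2 1 Y‖ ^ 2 ≤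
      C * Z ^ ε * (q ^ (3 / 2 : ℝ) + Y ^ (2 / 3 : ℝ) * q ^ (4 / 3 : ℝ) +
        Y ^ (1 / 3 : ℝ) * q ^ (3 / 2 : ℝ)) := by
  have hδ : 0 < min (ε / 6) 1 := lt_min (by positivity) one_pos
  obtain ⟨C1, c1, h1⟩ := ltwoB_row hδ (min_le_right _ _)
  obtain ⟨C2, c2, h2⟩ := card_ballO_le
  obtain ⟨C3, c3, h3⟩ := sum_inv_N_le hδ
  obtain ⟨C4, c4, h4⟩ := sum_N_rpow_le (a := -(2 / 3)) (by norm_num)
  obtain ⟨C5, c5, h5⟩ := kab_triv
  obtain ⟨C6, c6, h6⟩ := sum_pair_le hε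
  refine ⟨2 * C1 * (C2 + C3 + C4) + C5 ^ 2 * C6 * C2, by positivity,
    fun Z Y q hY hYZ hq hqZ => ?_⟩
  have hZ : 1 ≤ Z := hq.trans hqZ
  have pq : 0 < q := by linarith
  have hq1 : q ≤ q ^ (3 / 2 : ℝ) := Real.self_le_rpow_of_one_le hq (by norm_num)
  rcases lt_or_ge Y 1 with hY1 | hY1
  · have t1 := h6 q (fun _ => 1) hq fun _ => zero_le_one
    simp only [Finset.sum_const, nsmul_eq_mul, mul_one] at t1
    have t2 : pairs3 q ⊆ (ballO q ×ˢ ballO q).filter (fun x => N x.1 * N x.2 ≤ q) := fun x hx => by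
      have hx := Finset.mem_filter.1 (Finset.mem_filter.1 hx).1
      exact Finset.mem_filter.2 ⟨Finset.product_subset_product (dual_sub q) (dual_sub q) hx.1,
        hx.2.2⟩
    have t3 : ((pairs3 q).card : ℝ) ≤ C6 * Z ^ ε * (C2 * q ^ (3 / 2 : ℝ)) := by
      refine le_trans (by exact_mod_cast Finset.card_le_card t2) (t1.trans ?_)
      gcongr
      exact (h2 q pq.le).trans (by gcongr)
    calc _ ≤ (pairs3 q).card • C5 ^ 2 := Finset.sum_le_card_nsmul _ _ _ fun x hx => by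
          gcongr
          exact (h5 q Y x.1 x.2 hx hY).trans (mul_le_of_le_one_right c5.le hY1.le)
      _ ≤ C6 * Z ^ ε * (C2 * q ^ (3 / 2 : ℝ)) * C5 ^ 2 := by
          rw [nsmul_eq_mul]
          gcongr
      _ = (0 + C5 ^ 2 * C6 * C2) * Z ^ ε * (q ^ (3 / 2 : ℝ) + 0 + 0) := by ring
      _ ≤ _ := by gcongr <;> positivity
  set δ := min (ε / 6) 1 with hδe
  have hW : 1 ≤ Z ^ δ := Real.one_le_rpow hZ hδ.le
  have hW6 : (Z ^ δ) ^ 6 ≤ Z ^ ε := by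
    rw [← Real.rpow_natCast, ← Real.rpow_mul (by linarith)]
    refine Real.rpow_le_rpow_of_exponent_le hZ ?_
    have := min_le_left (ε / 6) 1
    push_cast
    linarith
  have s1 : 1 ≤ √q := Real.one_le_sqrt.2 hq
  have t1 : ∑ x ∈ (pairs3 q).filter (fun x => N x.2 ≤ N x.1), ‖Kab x.1 x.2 1 Y‖ ^ 2 ≤
      ∑ B ∈ ballO √q, ∑ A ∈ (ballN q).filter (fun A => (A, B) ∈ pairs3 q),
        ‖Kab A B 1 Y‖ ^ 2 := by
    simp only [Finset.sum_filter (s := ballN q)]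
    rw [← Finset.sum_product_right (f := fun x : O × O =>
      if (x.1, x.2) ∈ pairs3 q then ‖Kab x.1 x.2 1 Y‖ ^ 2 else 0), ← Finset.sum_filter]
    refine Finset.sum_le_sum_of_subset_of_nonneg (fun x hx => ?_) fun _ _ _ => by positivity
    obtain ⟨hx, hle⟩ := Finset.mem_filter.1 hx
    refine Finset.mem_filter.2 ⟨Finset.mem_product.2 ⟨(Finset.mem_product.1
      (Finset.mem_filter.1 (Finset.mem_filter.1 hx).1).1).1, ?_⟩, hx⟩
    obtain ⟨⟨-, nB, -, h⟩, -⟩ := ltwoA_mem3.1 hx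
    refine mem_ballO.2 ⟨nB.ne_zero, Real.le_sqrt_of_sq_le ?_⟩
    have := N_nonneg x.2
    nlinarith
  have t2 : ∑ x ∈ (pairs3 q).filter (fun x => ¬ N x.2 ≤ N x.1), ‖Kab x.1 x.2 1 Y‖ ^ 2 ≤
      ∑ x ∈ (pairs3 q).filter (fun x => N x.2 ≤ N x.1), ‖Kab x.1 x.2 1 Y‖ ^ 2 := by
    refine (dual_cover _ ((pairs3 q).filter (fun x => N x.2 ≤ N x.1)) Prod.swap
      (fun x => ‖Kab x.1 x.2 1 Y‖ ^ 2) (fun _ => by positivity) fun x hx => ?_).trans
      (le_of_eq (Finset.sum_congr rfl fun x _ => by rw [kab_swap]; rfl))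
    obtain ⟨hx, hle⟩ := Finset.mem_filter.1 hx
    obtain ⟨⟨nA, nB, c, h⟩, h'⟩ := ltwoA_mem3.1 hx
    exact ⟨x.swap, Finset.mem_filter.2 ⟨ltwoA_mem3.2 ⟨⟨nB, nA, c.symm, by rwa [mul_comm] at h⟩,
      fun e => h' e.symm⟩, (not_le.1 hle).le⟩, rfl⟩
  have t3 := Finset.sum_le_sum fun B (hB : B ∈ ballO √q) =>
    h1 Z Y q B hY1 hYZ hq hqZ (mem_ballO.1 hB).1
  rw [← Finset.mul_sum, Finset.sum_add_distrib, Finset.sum_add_distrib, ← Finset.mul_sum,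
    ← Finset.mul_sum, Finset.sum_const, nsmul_eq_mul] at t3
  have a1 : ((ballO √q).card : ℝ) * q ≤ C2 * q ^ (3 / 2 : ℝ) := by
    have : q ^ (3 / 2 : ℝ) = √q * q := by
      rw [Real.sqrt_eq_rpow, ← Real.rpow_add_one pq.ne']; norm_num
    rw [this, ← mul_assoc]
    gcongr
    exact h2 _ (Real.sqrt_nonneg _)
  have a2 : ∑ B ∈ ballO √q, (N B)⁻¹ ≤ C3 * Z ^ δ := (h3 _ s1).trans (by
    gcongr
    exact (Real.sqrt_le_iff.2 ⟨pq.le, by nlinarith⟩).trans hqZ)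
  have a3 : Y ^ (1 / 3 : ℝ) * q ^ (4 / 3 : ℝ) * ∑ B ∈ ballO √q, N B ^ (-(2 / 3) : ℝ) ≤
      C4 * (Y ^ (1 / 3 : ℝ) * q ^ (3 / 2 : ℝ)) := by
    have : q ^ (3 / 2 : ℝ) = q ^ (4 / 3 : ℝ) * √q ^ (1 + -(2 / 3) : ℝ) := by
      rw [Real.sqrt_eq_rpow, ← Real.rpow_mul pq.le, ← Real.rpow_add pq]; norm_num
    rw [this]
    calc _ ≤ Y ^ (1 / 3 : ℝ) * q ^ (4 / 3 : ℝ) * (C4 * √q ^ (1 + -(2 / 3) : ℝ)) := by
          gcongr
          exact h4 _ (Real.sqrt_nonneg _)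
      _ = _ := by ring
  rw [← Finset.sum_filter_add_sum_filter_not (pairs3 q) (fun x => N x.2 ≤ N x.1)]
  have b1 : 0 ≤ q ^ (3 / 2 : ℝ) := by positivity
  have b2 : 0 ≤ Y ^ (2 / 3 : ℝ) * q ^ (4 / 3 : ℝ) := by positivity
  have b3 : 0 ≤ Y ^ (1 / 3 : ℝ) * q ^ (3 / 2 : ℝ) := by positivity
  have a4 := mul_le_mul_of_nonneg_left a2 b2
  generalize Y ^ (1 / 3 : ℝ) * q ^ (3 / 2 : ℝ) = E3 at *
  generalize Y ^ (2 / 3 : ℝ) * q ^ (4 / 3 : ℝ) = E2 at *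
  generalize q ^ (3 / 2 : ℝ) = E1 at *
  generalize Z ^ δ = W at *
  have a5 : C2 * E1 + E2 * (C3 * W) + C4 * E3 ≤ (C2 + C3 + C4) * W * (E1 + E2 + E3) := by
    have e1 : E1 ≤ W * E1 := le_mul_of_one_le_left b1 hW
    have e3 : E3 ≤ W * E3 := le_mul_of_one_le_left b3 hW
    have e2 : 0 ≤ W * E2 := by positivity
    nlinarith [mul_le_mul_of_nonneg_left e1 c2.le, mul_le_mul_of_nonneg_left e3 c4.le,
      mul_nonneg c2.le e2, mul_nonneg c4.le e2, mul_nonneg c3.le (b1.trans e1),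
      mul_nonneg c4.le (b1.trans e1), mul_nonneg c2.le (b3.trans e3),
      mul_nonneg c3.le (b3.trans e3)]
  calc _ ≤ 2 * (C1 * W ^ 5 * ((C2 + C3 + C4) * W * (E1 + E2 + E3))) := by
        have := mul_le_mul_of_nonneg_left ((add_le_add (add_le_add a1 a4) a3).trans a5)
          (show 0 ≤ C1 * W ^ 5 by positivity)
        linarith
    _ = (2 * C1 * (C2 + C3 + C4) + 0) * W ^ 6 * (E1 + E2 + E3) := by ring
    _ ≤ _ := by gcongr; positivity

end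

end Vale.Agent.P006
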