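import Vale.Agent.P006.Defs2
import Vale.Agent.P026.Fin2
import Vale.Agent.P006.Sep
import Vale.Agent.P026.Res

namespace Vale.Agent.P006

open Vale.Agent.P026 Complex MeasureTheory Filter Topology
open scoped Classical ComplexConjugate Real MatrixGroups

noncomputable section

theorem mr_W : WK 1 0 = W 0 := by
  funext x; simp [WK, W]

theorem mr_le {u : O → ℂ} (hu : ∀ n, ‖u n‖ ≤ 1) (h0 : u 0 = 0) {b : ℝ} (hb : 0 ≤ b) (X : ℝ)
    (n : O) : ‖u n * W 0 (N n / X)‖ ≤ if n ≠ 0 then N n ^ b * ‖W 0 (N n / X)‖ else 0 := by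
  by_cases hn : n = 0
  · simp [hn, h0]
  · rw [if_pos hn, norm_mul]
    exact mul_le_mul_of_nonneg_right ((hu n).trans (Real.one_le_rpow (one_le_N hn) hb))
      (norm_nonneg _)

theorem mr_bd {u : O → ℂ} (hu : ∀ n, ‖u n‖ ≤ 1) (h0 : u 0 = 0) {b : ℝ} (hb : 0 ≤ b) :
    ∃ C : ℝ, ∀ X : ℝ, 0 < X → Summable (fun n => u n * W 0 (N n / X)) ∧
      ‖∑' n, u n * W 0 (N n / X)‖ ≤ C * X ^ (1 + b) := by
  obtain ⟨C, -, h⟩ := sum_W_le hb 0
  refine ⟨C, fun X hX => ?_⟩
  obtain ⟨h1, h2⟩ := h 0 X (by simp) hX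
  exact ⟨Summable.of_norm_bounded h1 (mr_le hu h0 hb X),
    (tsum_of_norm_bounded h1.hasSum (mr_le hu h0 hb X)).trans h2⟩

theorem mr_sum {u : O → ℂ} (hu : ∀ n, ‖u n‖ ≤ 1) (h0 : u 0 = 0) {s : ℂ} (hs : 1 < s.re) :
    mellin (fun X => ∑' n, u n * W 0 (N n / X)) (-s) =
      (∑' n : O, u n * ((N n : ℝ) : ℂ) ^ (-s)) * ((√π : ℝ) * Complex.exp (s ^ 2 / 4)) := by
  set F : O → ℝ → ℂ := fun n X => (X : ℂ) ^ (-s - 1) • (u n * W 0 (N n / X)) with hF
  have e : ∀ n, F n = fun X : ℝ => u n * ((X : ℂ) ^ (-s - 1) • W 0 (N n / X)) :=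
    fun n => funext fun X => by simp only [hF, smul_eq_mul]; ring
  have e0 : F 0 = fun _ => 0 := funext fun X => by simp [hF, h0]
  have it : ∀ n, Integrable (F n) (volume.restrict (Set.Ioi 0)) := fun n => by
    by_cases hn : n = 0
    · rw [hn, e0]; exact integrable_zero _ _ _
    · rw [e n]; exact (fin2_mel (N_pos hn) s).1.const_mul _
  have sm : Summable fun n => ∫ X in Set.Ioi 0, ‖F n X‖ := by
    refine ((summable_N_rpow hs).mul_right
      ‖((√π : ℝ) : ℂ) * Complex.exp ((s.re : ℂ) ^ 2 / 4)‖).of_nonneg_of_le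
      (fun n => integral_nonneg fun _ => norm_nonneg _) fun n => ?_
    by_cases hn : n = 0
    · have := N_nonneg n
      rw [hn, e0]
      simp only [norm_zero, integral_zero]
      exact mul_nonneg (Real.rpow_nonneg (N_nonneg _) _) (norm_nonneg _)
    · have hp := N_pos hn
      have a : ((∫ X : ℝ in Set.Ioi 0, ‖(X : ℂ) ^ (-s - 1) • W 0 (N n / X)‖ : ℝ) : ℂ) =
          mellin (fun X : ℝ => W 0 (N n / X)) (-(s.re : ℂ)) := by
        rw [← integral_complex_ofReal, mellin]
        refine setIntegral_congr_fun measurableSet_Ioi fun X hX => ?_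
        simp only [norm_smul, norm_cpow_eq_rpow_re_of_pos hX, norm_W]
        simp [W, ofReal_cpow (le_of_lt hX)]
      have b := congrArg (‖·‖) a
      simp only [(fin2_mel hp _).2, norm_mul _ ((_ : ℂ) * _), norm_cpow_eq_rpow_re_of_pos hp,
        neg_re, ofReal_re, norm_real] at b
      rw [← b, e n]
      simp only [norm_mul (u n), integral_const_mul]
      exact (mul_le_of_le_one_left (integral_nonneg fun _ => norm_nonneg _) (hu n)).trans
        (le_abs_self _)
  have h := (hasSum_integral_of_summable_integral_norm it sm).tsum_eq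
  rw [← tsum_mul_right, mellin]
  simp only [hF, smul_eq_mul, tsum_mul_left] at h
  refine (h.symm.trans (tsum_congr fun n => ?_))
  change ∫ X in Set.Ioi 0, F n X = _
  by_cases hn : n = 0
  · simp [hn, e0, h0]
  · rw [e n, integral_const_mul, mul_assoc, ← (fin2_mel (N_pos hn) s).2]
    rfl

theorem mr_ind (m : ℂ) {s : ℂ} (hs : 2 / 3 < s.re) :
    MellinConvergent ((Set.Ioi (1 : ℝ)).indicator fun Y : ℝ => m * (Y : ℂ) ^ (2 / 3 : ℂ)) (-s) ∧
    mellin ((Set.Ioi (1 : ℝ)).indicator fun Y : ℝ => m * (Y : ℂ) ^ (2 / 3 : ℂ)) (-s) =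
      m / (s - 2 / 3) := by
  have ha : (-s - 1 + 2 / 3).re < -1 := by simp; linarith
  have e : ∀ Y : ℝ, (Y : ℂ) ^ (-s - 1) • (Set.Ioi (1 : ℝ)).indicator
      (fun Y : ℝ => m * (Y : ℂ) ^ (2 / 3 : ℂ)) Y =
      (Set.Ioi (1 : ℝ)).indicator (fun Y : ℝ => m * (Y : ℂ) ^ (-s - 1 + 2 / 3)) Y := by
    intro Y
    by_cases h : Y ∈ Set.Ioi (1 : ℝ)
    · have : (Y : ℂ) ≠ 0 := by
        have : (1 : ℝ) < Y := h
        exact_mod_cast (by linarith : Y ≠ 0)
      rw [Set.indicator_of_mem h, Set.indicator_of_mem h, Complex.cpow_add _ _ this, smul_eq_mul]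
      ring
    · rw [Set.indicator_of_notMem h, Set.indicator_of_notMem h, smul_zero]
  have hsub : Set.Ioi (1 : ℝ) ∩ Set.Ioi 0 = Set.Ioi 1 :=
    Set.inter_eq_left.2 (Set.Ioi_subset_Ioi zero_le_one)
  constructor
  · unfold MellinConvergent
    simp only [e]
    exact (IntegrableOn.integrable_indicator
      ((integrableOn_Ioi_cpow_of_lt ha one_pos).const_mul m) measurableSet_Ioi).integrableOn
  · unfold mellin
    simp only [e]
    rw [integral_indicator measurableSet_Ioi, Measure.restrict_restrict measurableSet_Ioi, hsub,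
      integral_const_mul, integral_Ioi_cpow_of_lt ha one_pos]
    have : s - 2 / 3 ≠ 0 := fun h => by
      have := congrArg Complex.re h
      simp at this; linarith
    rw [show -s - 1 + 2 / 3 + 1 = -(s - 2 / 3) by ring]
    simp only [ofReal_one, one_cpow]
    field_simp

/-- a smoothed asymptotic formula determines the generalized residue -/
theorem mr {u : O → ℂ} (hu : ∀ n, ‖u n‖ ≤ 1) (h0 : u 0 = 0) {M : ℂ} {C : ℝ}
    (h : ∀ Y : ℝ, 1 ≤ Y →
      ‖∑' n : O, u n * WK 1 0 (N n / Y) - M * ((Fh 1 (2 / 3) * Y ^ (2 / 3 : ℝ) : ℝ) : ℂ)‖ ≤ C) :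
    IsRes (fun s => ∑' n : O, u n * ((N n : ℝ) : ℂ) ^ (-(s - 2 / 3))) (M / Complex.I) := by
  rw [mr_W] at h
  set m : ℂ := M * (Fh 1 (2 / 3) : ℝ) with hm
  set T : ℝ → ℂ := fun X => ∑' n, u n * W 0 (N n / X) with hT
  set Q : ℝ → ℂ := (Set.Ioi (1 : ℝ)).indicator fun Y : ℝ => m * (Y : ℂ) ^ (2 / 3 : ℂ) with hQ
  set E : ℝ → ℂ := fun X => T X - Q X with hE
  have hloc : LocallyIntegrableOn E (Set.Ioi 0) := by
    obtain ⟨C1, h1⟩ := mr_bd hu h0 (le_refl 0)
    have m1 : AEStronglyMeasurable T (volume.restrict (Set.Ioi 0)) := by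
      refine aestronglyMeasurable_of_tendsto_ae atTop (f := fun (R : ℝ) X =>
        ∑ n ∈ ballO R, u n * W 0 (N n / X)) (fun R => ?_)
        ((ae_restrict_iff' measurableSet_Ioi).2 (.of_forall fun X hX =>
          tendsto_sum_ballO (h1 X hX).1 (by simp [h0])))
      refine Measurable.aestronglyMeasurable (Finset.measurable_sum _ fun n _ => ?_)
      unfold W
      fun_prop
    refine (locallyIntegrableOn_iff isOpen_Ioi.isLocallyClosed).2 fun K hK hc => ?_
    have c : ContinuousOn (fun X : ℝ => C1 * X ^ (1 + 0 : ℝ)) K :=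
      continuousOn_const.mul (continuousOn_id.rpow_const fun x hx => Or.inl (ne_of_gt (hK hx)))
    have i1 : IntegrableOn T K :=
      (c.integrableOn_compact hc).mono' (m1.mono_measure (Measure.restrict_mono hK le_rfl))
        ((ae_restrict_iff' hc.measurableSet).2 (.of_forall fun X hX => (h1 X (hK hX)).2))
    have c2 : ContinuousOn (fun Y : ℝ => m * (Y : ℂ) ^ (2 / 3 : ℂ)) K :=
      continuousOn_const.mul (Complex.continuous_ofReal.continuousOn.cpow_const fun x hx =>
        Or.inl (by simpa using hK hx))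
    exact i1.sub ((c2.integrableOn_compact hc).indicator measurableSet_Ioi)
  have htop : E =O[atTop] fun X : ℝ => X ^ (-(0 : ℝ)) := by
    refine Asymptotics.IsBigO.of_bound C ?_
    filter_upwards [eventually_gt_atTop 1] with X hX
    have := h X hX.le
    rw [neg_zero, Real.rpow_zero, norm_one, mul_one]
    simp only [hE, hQ, hT]
    rw [Set.indicator_of_mem (by exact hX)]
    refine le_of_eq_of_le ?_ this
    rw [Complex.ofReal_mul, Complex.ofReal_cpow (by linarith), hm, mul_assoc]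
    norm_num
  have hbot : ∀ b : ℝ, 0 ≤ b → E =O[𝓝[>] 0] fun X : ℝ => X ^ (-(-(1 + b))) := by
    intro b hb
    obtain ⟨C1, h1⟩ := mr_bd hu h0 hb
    refine Asymptotics.IsBigO.of_bound C1 ?_
    filter_upwards [Ioo_mem_nhdsGT one_pos] with X hX
    rw [neg_neg, Real.norm_of_nonneg (Real.rpow_nonneg hX.1.le _)]
    simp only [hE, hQ, hT]
    rw [Set.indicator_of_notMem (by simpa using hX.2.le), sub_zero]
    exact (h1 X hX.1).2
  have hJ : DifferentiableOn ℂ (fun s => mellin E (-(s - 2 / 3))) {s | 1 < s.re} := by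
    intro s hs
    have hs' : 1 < s.re := hs
    refine (DifferentiableAt.comp s (g := mellin E)
      (mellin_differentiableAt_of_isBigO_rpow hloc htop (by simp; linarith)
        (hbot s.re (by linarith)) (by simp; linarith)) (by fun_prop)).differentiableWithinAt
  have hβ : ((√π : ℝ) : ℂ) * Complex.exp ((4 / 3 - 2 / 3) ^ 2 / 4) = (Fh 1 (2 / 3) : ℝ) := by
    simp only [Fh]; push_cast; norm_num
  refine ⟨fun s => mellin E (-(s - 2 / 3)) + m / (s - 4 / 3),
    fun s => ((√π : ℝ) : ℂ) * Complex.exp ((s - 2 / 3) ^ 2 / 4), ?_,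
    Differentiable.differentiableOn (by fun_prop), ?_, ?_, ?_⟩
  · refine (res_Om hJ).add ((differentiableOn_const m).div (by fun_prop) fun s hs h => ?_)
    have := congrArg Complex.im h
    simp at this
    exact hs.2.1.ne' this
  · exact mul_ne_zero (by exact_mod_cast (Real.sqrt_pos.2 Real.pi_pos).ne') (Complex.exp_ne_zero _)
  · intro s _ hs
    have a1 : 1 < (s - 2 / 3).re := by simp; linarith
    obtain ⟨q1, q2⟩ := mr_ind m (s := s - 2 / 3) (by linarith)
    have c1 : MellinConvergent E (-(s - 2 / 3)) :=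
      mellinConvergent_of_isBigO_rpow hloc htop (by simp; linarith) (hbot s.re (by linarith))
        (by simp; linarith)
    have := (hasMellin_add c1 q1).2
    rw [q2, show s - 2 / 3 - 2 / 3 = s - 4 / 3 by ring] at this
    simp only
    rw [← this, ← mr_sum hu h0 a1]
    congr 1
    funext X
    simp only [hE, hQ, hT, sub_add_cancel]
  · have hU : (UU : Filter ℝ) ≤ 𝓝[>] 0 := Ultrafilter.of_le _
    have t0 : Tendsto (fun ε : ℝ => (ε : ℂ)) (UU : Filter ℝ) (𝓝 0) := by
      have := (Complex.continuous_ofReal.tendsto 0).mono_left (hU.trans nhdsWithin_le_nhds)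
      simpa using this
    have t1 := (t0.mul (res_lim hJ)).add_const (m / Complex.I)
    rw [zero_mul, zero_add] at t1
    simp only [hβ]
    rw [show M / Complex.I * ((Fh 1 (2 / 3) : ℝ) : ℂ) = m / Complex.I by rw [hm]; ring]
    refine t1.congr' ?_
    filter_upwards [hU self_mem_nhdsWithin] with ε hε
    have : (ε : ℂ) ≠ 0 := by exact_mod_cast (ne_of_gt hε)
    rw [mul_add, add_sub_cancel_left]
    field_simp

end

end Vale.Agent.P006
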