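import Vale.Agent.P006.SQ
import Vale.Agent.P006.MM

namespace Vale.Agent.P006

open Vale.Agent.P026 Complex MeasureTheory Filter Topology
open scoped Classical ComplexConjugate Real MatrixGroups

noncomputable section

theorem ms_summ {u : O → ℂ} {B : ℝ} (hu : ∀ n, ‖u n‖ ≤ B) (h0 : u 0 = 0) {K : ℝ} (hK : 1 ≤ K)
    (w : ℂ) {y : ℝ} (hy : 0 < y) : Summable fun n => u n * WK K w (N n / y) := by
  obtain ⟨C, hC, h⟩ := WK_le (-2) |w.re|
  have hB : 0 ≤ B := (norm_nonneg _).trans (hu 0)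
  refine Summable.of_norm_bounded ((summable_N_rpow (s := 2) (by norm_num)).mul_left
    (B * (C * y ^ (2 : ℝ)))) fun n => ?_
  have := N_nonneg n
  by_cases hn : n = 0
  · rw [hn, h0, zero_mul, norm_zero]
    have := N_nonneg 0
    positivity
  · rw [norm_mul]
    calc _ ≤ B * (C * (N n / y) ^ (-2 : ℝ)) := by
          gcongr
          · exact hu n
          · exact h K w _ hK le_rfl (div_pos (N_pos hn) hy)
      _ = _ := by rw [wb_div this hy]; ring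

theorem ms_W (S : ℝ) {X y : ℝ} (hX : 0 < X) (hy : 0 < y) :
    ((y ^ (-(1 / 6) : ℝ) : ℝ) : ℂ) * WK S 0 (y / X) = ((X ^ (-(1 / 6) : ℝ) : ℝ) : ℂ) *
      WK S ((-(1 / 6) : ℝ) : ℂ) (y / X) := by
  unfold WK
  rw [Real.rpow_def_of_pos hX, Real.rpow_def_of_pos hy, Real.log_div hy.ne' hX.ne']
  push_cast
  rw [← Complex.exp_add, ← Complex.exp_add]
  congr 1
  ring

theorem ms_split {a g : O} (ha : NN a) (hg : NN g) : ∃ g1 g2 a' : O, g = g1 * g2 ∧ a = g1 * a' ∧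
    NN g2 ∧ Prim g1 ∧ Prim a' ∧ IsCoprime a g2 ∧ (g ∣ a → g2 = 1) := by
  obtain ⟨g1, h1, ⟨g2, h2⟩, ⟨a', h3⟩, h4⟩ := exists_prim_gcd hg.1 a
  have p2 : Prim g2 := Prim.of_mul (h2 ▸ hg.1) h1
  have p3 : Prim a' := Prim.of_mul (h3 ▸ ha.1) h1
  refine ⟨g1, g2, a', h2, h3, hg.of_dvd p2 ⟨g1, by rw [h2]; ring⟩, h1, p3, ?_, fun hd => ?_⟩
  · rw [isCoprime_iff_no_prime (Or.inl ha.1.ne_zero)]
    intro p hp hpa hp2
    have := h4 p (hp2.trans ⟨g1, by rw [h2]; ring⟩) hpa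
    exact hp.not_isUnit (hg.2.1 p (h2 ▸ mul_dvd_mul this hp2))
  · have := h4 g dvd_rfl hd
    rw [h2] at this
    nth_rewrite 2 [← mul_one g1] at this
    exact p2.eq_one_of_isUnit (isUnit_of_dvd_one ((mul_dvd_mul_iff_left h1.ne_zero).1 this))

theorem ms_term {a g g1 g2 a' : O} (ha : NN a) (e1 : g = g1 * g2) (e2 : a = g1 * a')
    (h2 : NN g2) (h1 : Prim g1) (h3 : Prim a') (hc : IsCoprime a g2) (z : ℂ) (k h : O) (K : ℝ)
    {y : ℝ} (hy : 0 < y) :
    ∑' m : O, (if NN (a * m) ∧ g ∣ a * m then z * sym3 k (a * m / g) *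
        ((N (a * m / g) ^ (-(1 / 6) : ℝ) : ℝ) : ℂ) else 0) * conj (sym3 h m) * WK K 0 (N m / y) =
      z * sym3 k a' * ((N a' ^ (-(1 / 6) : ℝ) : ℝ) : ℂ) * conj (sym3 h g2) *
        (((y / N g2) ^ (-(1 / 6) : ℝ) : ℝ) : ℂ) *
        ∑' m : O, (if NN m ∧ IsCoprime m (a * g2) then sym3 (k * h ^ 2) m *
          WK K ((-(1 / 6) : ℝ) : ℂ) (N m / (y / N g2)) else 0) := by
  have n2 := N_pos h2.1.ne_zero
  have hag : NN (a * g2) := (nn_mul_iff ha.1 h2.1).2 ⟨ha, h2, hc⟩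
  rw [← (mul_right_injective₀ h2.1.ne_zero).tsum_eq, ← tsum_mul_left]
  · refine tsum_congr fun m => ?_
    have hd : g ∣ a * (g2 * m) := ⟨a' * m, by rw [e1, e2]; ring⟩
    have hdiv : a * (g2 * m) / g = a' * m := by
      rw [show a * (g2 * m) = g * (a' * m) by rw [e1, e2]; ring]
      exact mul_div_cancel_left₀ _ (e1 ▸ mul_ne_zero h1.ne_zero h2.1.ne_zero)
    have hiff : NN (a * (g2 * m)) ↔ NN m ∧ IsCoprime m (a * g2) := by
      rw [← mul_assoc]
      constructor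
      · intro h
        have := (nn_mul_iff hag.1 (h.1.of_mul hag.1)).1 h
        exact ⟨this.2.1, this.2.2.symm⟩
      · intro h
        exact (nn_mul_iff hag.1 h.1.1).2 ⟨hag, h.1, h.2.symm⟩
    by_cases hm : NN m ∧ IsCoprime m (a * g2)
    · have m0 := hm.1.1.ne_zero
      have hw := ms_W K (div_pos hy n2) (N_pos m0)
      have e3 : N (g2 * m) / y = N m / (y / N g2) := by rw [N_mul]; field_simp
      rw [if_pos ⟨hiff.2 hm, hd⟩, if_pos hm, hdiv, e3, sym3_mul_right _ h3.ne_zero m0,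
        sym3_mul_right _ h2.1.ne_zero m0, N_mul, Real.mul_rpow (N_nonneg _) (N_nonneg _),
        sym3_mul_left, sym3_pow_left, map_mul, conj_sym3 h m, Complex.ofReal_mul]
      linear_combination (z * sym3 k a' * ((N a' ^ (-(1 / 6) : ℝ) : ℝ) : ℂ) * conj (sym3 h g2) *
        sym3 k m * sym3 h m ^ 2) * hw
    · rw [if_neg (fun h => hm (hiff.1 h.1)), if_neg hm]; simp
  · intro m hm
    have : NN (a * m) ∧ g ∣ a * m := by
      by_contra h
      exact hm (by simp only [if_neg h, zero_mul])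
    obtain ⟨m', hm'⟩ := hc.symm.dvd_of_dvd_mul_left (Dvd.dvd.trans ⟨g1, by rw [e1]; ring⟩ this.2)
    exact ⟨m', hm'.symm⟩

theorem ms_cube {x k : O} (hk : k ≠ 0) (h : IsCube (x * k ^ 3)) : IsCube x := by
  obtain ⟨z, hz⟩ := h
  obtain ⟨w, rfl⟩ : k ∣ z := (IsIntegrallyClosed.pow_dvd_pow_iff (n := 3) (by norm_num)).1
    ⟨x, by rw [← hz]; ring⟩
  exact ⟨w, mul_right_cancel₀ (pow_ne_zero 3 hk) (by rw [hz]; ring)⟩

theorem ms_dens {x y : O} (hx : x ≠ 0) (hy : y ≠ 0) (h : ∀ p, Prime p → (p ∣ x ↔ p ∣ y)) :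
    dens x = dens y := by
  have : pf x = pf y := by
    ext p
    rw [mem_pf hx, mem_pf hy]
    exact ⟨fun u => ⟨u.1, u.2.1, (h p u.1).1 u.2.2⟩, fun u => ⟨u.1, u.2.1, (h p u.1).2 u.2.2⟩⟩
  rw [dens, dens, this]

theorem ms_one {ε : ℝ} (hε : 0 < ε) : ∃ C : ℝ, 0 < C ∧
    ∀ (Z R K y : ℝ) (a h k : O) (t t0 : O × O × O), 1 ≤ R → R ≤ Z → 1 ≤ K → 1 / 2 ≤ y → y ≤ Z →
    NN a → N a ≤ Z → k ≠ 0 → N h ≤ R → t ∈ MI R → t0 ∈ MI R → h = cf t0 * k ^ 3 →
    ‖∑' m : O, (if NN (a * m) ∧ t.2.2 ∣ a * m then G t.2.2 * cc (t.1 * t.2.1) *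
        sym3 (cf t) (a * m / t.2.2) * ((N (a * m / t.2.2) ^ (-(1 / 6) : ℝ) : ℝ) : ℂ) else 0) *
          conj (sym3 h m) * WK K 0 (N m / y) -
        (if t = t0 then G a * cc (8 * a * h) *
          ((dens (8 * a * h) * Fh K (5 / 6) * y ^ (5 / 6 : ℝ) : ℝ) : ℂ) else 0)‖ ≤
      C * Z ^ (3 * ε) * R ^ 5 * √y := by
  obtain ⟨C1, hC1, h1⟩ := sq_smooth hε
  obtain ⟨C2, hC2, h2⟩ := norm_cc_le
  refine ⟨C2 * 2 * (C1 * 2 ^ ε), by positivity,
    fun Z R K y a h k t t0 hR hRZ hK hy hyZ ha haZ hk hhR ht ht0 hh => ?_⟩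
  have hy0 : 0 < y := by linarith
  have hZ : 1 ≤ Z := hR.trans hRZ
  obtain ⟨m1, m2, m3, -, m5⟩ := mem_MI.1 ht
  obtain ⟨g1, g2, a', e1, e2, n2, p1, p3, hc, hone⟩ := ms_split ha m3
  have c0 := cf_ne_zero ht
  have h0 : h ≠ 0 := hh ▸ mul_ne_zero (cf_ne_zero ht0) (pow_ne_zero _ hk)
  have hg2 : g2 ∣ cf t := ⟨t.1 * t.2.1 * t.2.2 * g1, by
    simp only [cf]; nth_rewrite 1 [pow_two]; nth_rewrite 2 [e1]; ring⟩
  have N2 := one_le_N n2.1.ne_zero
  have N2R : N g2 ≤ R := (N_le_of_dvd hg2 c0).trans m5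
  have hy' : 0 < y / N g2 := by positivity
  have hk0 : cf t * h ^ 2 ≠ 0 := mul_ne_zero c0 (pow_ne_zero _ h0)
  have hM0 : a * g2 ≠ 0 := mul_ne_zero ha.1.ne_zero n2.1.ne_zero
  have key := h1 _ _ K (-(1 / 6)) _ hk0 hM0 hK (by rw [abs_neg, abs_of_pos] <;> norm_num) hy'
  rw [ms_term ha e1 e2 n2 p1 p3 hc _ _ h K hy0]
  set z := G t.2.2 * cc (t.1 * t.2.1) * sym3 (cf t) a' * ((N a' ^ (-(1 / 6) : ℝ) : ℝ) : ℂ) *
    conj (sym3 h g2) * (((y / N g2) ^ (-(1 / 6) : ℝ) : ℝ) : ℂ) with hz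
  have hmain : (if t = t0 then G a * cc (8 * a * h) *
      ((dens (8 * a * h) * Fh K (5 / 6) * y ^ (5 / 6 : ℝ) : ℝ) : ℂ) else 0) =
      z * (if IsCube (cf t * h ^ 2) then ((dens (2 * (cf t * h ^ 2) * (a * g2)) *
        Fh K (1 + -(1 / 6)) * (y / N g2) : ℝ) : ℂ) else 0) := by
    by_cases htt : t = t0
    · subst htt
      have hcfh : cf t ∣ h := ⟨_, hh⟩
      rw [if_pos rfl, if_pos ⟨cf t * k ^ 2, by rw [hh]; ring⟩]
      have hmm := mm ht hk ha
      rw [← hh] at hmm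
      rw [hmm]
      by_cases hd : t.2.2 ∣ a
      · have g21 := hone hd
        subst g21
        rw [mul_one] at e1
        have : a / t.2.2 = a' := by
          rw [e2, e1]; exact mul_div_cancel_left₀ _ p1.ne_zero
        have hd2 : dens (2 * (cf t * h ^ 2) * (a * 1)) = dens (8 * a * h) := by
          have t2 : (2 : O) ≠ 0 := prime_two.ne_zero
          refine ms_dens (mul_ne_zero (mul_ne_zero t2 hk0) hM0) (by
            rw [show (8 : O) = 2 ^ 3 by norm_num]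
            exact mul_ne_zero (mul_ne_zero (pow_ne_zero _ t2) ha.1.ne_zero) h0) fun p hp => ?_
          rw [show (8 : O) = 2 ^ 3 by norm_num, mul_one]
          simp only [hp.dvd_mul, hp.dvd_pow_iff_dvd (show 3 ≠ 0 by norm_num),
            hp.dvd_pow_iff_dvd (show 2 ≠ 0 by norm_num)]
          have : p ∣ cf t → p ∣ h := fun u => u.trans hcfh
          tauto
        have e5 : y ^ (5 / 6 : ℝ) = y ^ (-(1 / 6) : ℝ) * y := by
          rw [← Real.rpow_add_one hy0.ne']; norm_num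
        rw [if_pos hd, this, hz, hd2, N_one, div_one, kub_sym3_one, map_one, e5,
          show (1 + -(1 / 6) : ℝ) = 5 / 6 by norm_num]
        push_cast; ring
      · have : sym3 h g2 = 0 := by
          rw [sym3_eq_zero_iff n2.1.ne_zero]
          intro hcop
          have := n2.1.eq_one_of_isUnit (hcop.isUnit_of_dvd' (hg2.trans hcfh) dvd_rfl)
          exact hd ⟨a', by rw [e1, this, mul_one, e2]⟩
        rw [if_neg hd, hz, this]; simp
    · rw [if_neg htt, if_neg, mul_zero]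
      intro hcu
      refine htt (cf_unique ht ht0 (ms_cube (pow_ne_zero 2 hk) ?_))
      rw [hh] at hcu
      convert hcu using 1
      ring
  rw [hmain, ← mul_sub, norm_mul]
  have hzn : ‖z‖ ≤ C2 * R * (2 * R) := by
    have a0 : t.1 * t.2.1 ≠ 0 := mul_ne_zero (XI_ne_zero m1) m2.1.ne_zero
    have a1 : ‖cc (t.1 * t.2.1)‖ ≤ C2 * R := by
      refine (h2 _ a0).trans (mul_le_mul_of_nonneg_left ?_ hC2.le)
      calc _ ≤ R ^ (1 / 3 : ℝ) := Real.rpow_le_rpow (N_nonneg _)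
            ((N_le_of_dvd ⟨t.2.2 ^ 2, rfl⟩ c0).trans m5) (by norm_num)
        _ ≤ R ^ (1 : ℝ) := Real.rpow_le_rpow_of_exponent_le hR (by norm_num)
        _ = R := Real.rpow_one R
    have a2 : N a' ^ (-(1 / 6) : ℝ) ≤ 1 :=
      Real.rpow_le_one_of_one_le_of_nonpos (one_le_N p3.ne_zero) (by norm_num)
    have a3 : (y / N g2) ^ (-(1 / 6) : ℝ) ≤ 2 * R := by
      rw [Real.rpow_neg hy'.le, ← Real.inv_rpow hy'.le, inv_div]
      have b1 : N g2 / y ≤ 2 * R := by rw [div_le_iff₀ hy0]; nlinarith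
      calc _ ≤ (2 * R) ^ (1 / 6 : ℝ) := Real.rpow_le_rpow (by positivity) b1 (by norm_num)
        _ ≤ (2 * R) ^ (1 : ℝ) := Real.rpow_le_rpow_of_exponent_le (by linarith) (by norm_num)
        _ = _ := Real.rpow_one _
    have a4 := norm_G_le t.2.2
    have a5 := norm_sym3_le (cf t) a'
    have a6 := norm_sym3_le h g2
    rw [hz]
    simp only [norm_mul, Complex.norm_conj, Complex.norm_real,
      Real.norm_of_nonneg (Real.rpow_nonneg (N_nonneg a') _),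
      Real.norm_of_nonneg (Real.rpow_nonneg hy'.le _)]
    have := Real.rpow_nonneg (N_nonneg a') (-(1 / 6))
    have := Real.rpow_nonneg hy'.le (-(1 / 6))
    calc _ ≤ 1 * (C2 * R) * 1 * 1 * 1 * (2 * R) := by gcongr
      _ = _ := by ring
  have b1 : N (cf t * h ^ 2) ≤ R ^ 3 := by
    rw [N_mul, N_pow]
    have := N_nonneg h
    have := N_nonneg (cf t)
    calc _ ≤ R * R ^ 2 := by gcongr
      _ = _ := by ring
  have b2 : N (a * g2) ^ ε ≤ (Z * Z) ^ ε := by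
    refine Real.rpow_le_rpow (N_nonneg _) ?_ hε.le
    rw [N_mul]
    exact mul_le_mul haZ (N2R.trans hRZ) (N_nonneg _) (by linarith)
  have b0 : y / N g2 ≤ y := div_le_self hy0.le N2
  have b3 : (1 + y / N g2) ^ ε ≤ (2 * Z) ^ ε := Real.rpow_le_rpow (by positivity) (by linarith) hε.le
  have b4 : √(y / N g2) ≤ √y := Real.sqrt_le_sqrt b0
  have hZ0 : 0 ≤ Z := by linarith
  have := N_nonneg (cf t * h ^ 2)
  have := Real.rpow_nonneg (N_nonneg (a * g2)) ε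
  calc _ ≤ C2 * R * (2 * R) * (C1 * R ^ 3 * (Z * Z) ^ ε * (2 * Z) ^ ε * √y) := by
        refine mul_le_mul hzn (key.trans ?_) (norm_nonneg _) (by positivity)
        gcongr
    _ = _ := by
        rw [Real.mul_rpow hZ0 hZ0, Real.mul_rpow (by norm_num) hZ0,
          show 3 * ε = ε + ε + ε by ring, Real.rpow_add (by linarith), Real.rpow_add (by linarith)]
        ring

/-- the model has the same main term -/
theorem ms : ∃ c0 : ℝ, 0 < c0 ∧ ∀ ε > (0 : ℝ), ∃ C : ℝ, 0 < C ∧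
    ∀ (Z R K y : ℝ) (a h : O), 1 ≤ R → R ≤ Z → 1 ≤ K → 1 / 2 ≤ y → y ≤ Z → NN a → N a ≤ Z →
    h ≠ 0 → N h ≤ R →
    ‖∑' m : O, mdl R (a * m) * conj (sym3 h m) * WK K 0 (N m / y) -
        G a * cc (8 * a * h) * ((dens (8 * a * h) * Fh K (5 / 6) * y ^ (5 / 6 : ℝ) : ℝ) : ℂ)‖ ≤
      C * Z ^ ε * R ^ c0 * √y := by
  refine ⟨7, by norm_num, fun ε hε => ?_⟩
  obtain ⟨C1, hC1, h1⟩ := ms_one (ε := ε / 3) (by positivity)
  obtain ⟨C2, hC2, h2⟩ := card_MI_le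
  obtain ⟨C3, hC3, h3⟩ := norm_cc_le
  refine ⟨C2 * C1, by positivity, fun Z R K y a h hR hRZ hK hy hyZ ha haZ hh hhR => ?_⟩
  have hy0 : 0 < y := by linarith
  obtain ⟨t0, ht0, k, hk, hhk⟩ := exists_cf hh
  have ht0' := MI_mono hhR ht0
  set F : O × O × O → O → ℂ := fun t m => (if NN (a * m) ∧ t.2.2 ∣ a * m then
    G t.2.2 * cc (t.1 * t.2.1) * sym3 (cf t) (a * m / t.2.2) *
      ((N (a * m / t.2.2) ^ (-(1 / 6) : ℝ) : ℝ) : ℂ) else 0) * conj (sym3 h m) with hF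
  have hs : ∀ t ∈ MI R, Summable fun m => F t m * WK K 0 (N m / y) := by
    intro t _
    refine ms_summ (B := ‖cc (t.1 * t.2.1)‖) (fun m => ?_) ?_ hK 0 hy0
    · simp only [hF]
      split_ifs with hm
      · have a0 : a * m / t.2.2 ≠ 0 := by
          intro h0
          have := EuclideanDomain.mul_div_cancel' (ne_zero_of_dvd_ne_zero hm.1.1.ne_zero hm.2) hm.2
          rw [h0, mul_zero] at this
          exact hm.1.1.ne_zero this.symm
        have a2 : N (a * m / t.2.2) ^ (-(1 / 6) : ℝ) ≤ 1 :=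
          Real.rpow_le_one_of_one_le_of_nonpos (one_le_N a0) (by norm_num)
        have a3 := Real.rpow_nonneg (N_nonneg (a * m / t.2.2)) (-(1 / 6))
        have a4 := norm_G_le t.2.2
        have a5 := norm_sym3_le (cf t) (a * m / t.2.2)
        have a6 := norm_sym3_le h m
        simp only [norm_mul, Complex.norm_conj, Complex.norm_real, Real.norm_of_nonneg a3]
        calc _ ≤ 1 * ‖cc (t.1 * t.2.1)‖ * 1 * 1 * 1 := by gcongr
          _ = _ := by ring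
      · simp
    · simp only [hF]
      rw [if_neg (fun h => h.1.1.ne_zero (mul_zero a)), zero_mul]
  have e : ∑' m : O, mdl R (a * m) * conj (sym3 h m) * WK K 0 (N m / y) =
      ∑ t ∈ MI R, ∑' m : O, F t m * WK K 0 (N m / y) := by
    rw [← Summable.tsum_finsetSum hs]
    refine tsum_congr fun m => ?_
    simp only [hF, mdl]
    by_cases hm : NN (a * m)
    · simp only [hm, true_and, if_true, Finset.sum_mul]
    · simp [hm]
  have e2 : G a * cc (8 * a * h) * ((dens (8 * a * h) * Fh K (5 / 6) * y ^ (5 / 6 : ℝ) : ℝ) : ℂ) =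
      ∑ t ∈ MI R, (if t = t0 then G a * cc (8 * a * h) *
        ((dens (8 * a * h) * Fh K (5 / 6) * y ^ (5 / 6 : ℝ) : ℝ) : ℂ) else 0) := by
    rw [Finset.sum_ite_eq' (MI R) t0, if_pos ht0']
  rw [e, e2, ← Finset.sum_sub_distrib]
  refine (norm_sum_le _ _).trans ((Finset.sum_le_card_nsmul _ _ _ fun t ht =>
    h1 Z R K y a h k t t0 hR hRZ hK hy hyZ ha haZ hk hhR ht ht0' hhk).trans ?_)
  rw [nsmul_eq_mul, show 3 * (ε / 3) = ε by ring, show (7 : ℝ) = (7 : ℕ) by norm_num,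
    Real.rpow_natCast]
  have : 0 ≤ Z ^ ε := Real.rpow_nonneg (by linarith) _
  calc _ ≤ C2 * R ^ 2 * (C1 * Z ^ ε * R ^ 5 * √y) := by gcongr; exact h2 R hR
    _ = _ := by ring

end

end Vale.Agent.P006
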