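import Vale.Agent.P006.CS
import Vale.Agent.P006.Sep

namespace Vale.Agent.P006

open Vale.Agent.P026 Complex MeasureTheory Filter Topology
open scoped Classical ComplexConjugate Real MatrixGroups

noncomputable section

theorem ud_c : ∃ B : ℝ, 0 < B ∧ ∀ (σ : SLO) (R : ℝ), 0 < R →
    ∑ n ∈ ballO R, ‖rho σ n‖ * N n ^ (1 / 6 : ℝ) ≤ B * R := by
  obtain ⟨C, hC⟩ := tau_bound rho_out
  obtain ⟨C1, hC1, h1⟩ := card_ballO_le
  refine ⟨|C| + C1, by positivity, fun σ R hR => ?_⟩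
  by_cases h : 1 ≤ R
  · have e : ∀ n ∈ ballO R, ‖rho σ n‖ * N n ^ (1 / 6 : ℝ) ≤ ‖tauOf rho σ n‖ ^ 2 + 1 := by
      intro n _
      have : ‖tauOf rho σ n‖ = ‖rho σ n‖ * N n ^ (1 / 6 : ℝ) := by
        rw [tauOf, norm_mul, Complex.norm_real,
          Real.norm_of_nonneg (Real.rpow_nonneg (N_nonneg n) _), mul_comm]
      rw [← this]
      nlinarith [sq_nonneg (‖tauOf rho σ n‖ - 1)]
    refine (Finset.sum_le_sum e).trans ?_
    rw [Finset.sum_add_distrib, Finset.sum_const, nsmul_eq_mul, mul_one]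
    have := hC σ R h
    have := h1 R hR.le
    have := mul_le_mul_of_nonneg_right (le_abs_self C) hR.le
    linarith
  · rw [ballO_eq_empty (not_le.1 h), Finset.sum_empty]; positivity

theorem ud_sum : ∃ C : ℝ, 0 < C ∧ ∀ (σ : SLO) (u : O → ℂ) (K a Y : ℝ),
    (∀ n, ‖u n‖ ≤ ‖rho σ n‖) → 1 ≤ K → |a| ≤ 1 → 0 < Y →
    Summable (fun n : O => if n ≠ 0 then u n * WK K a (N n / Y) else 0) ∧
    ‖∑' n : O, (if n ≠ 0 then u n * WK K a (N n / Y) else 0)‖ ≤ C * Y ^ (5 / 6 : ℝ) := by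
  obtain ⟨B, hB, hc⟩ := ud_c
  obtain ⟨C1, hC1, h1⟩ := WK_le (1 / 6) 1
  obtain ⟨C2, hC2, h2⟩ := WK_le (-(11 / 6)) 1
  refine ⟨C1 * B + C2 * (4 * B), by positivity, fun σ u K a Y hu hK ha hY => ?_⟩
  have ha' : |(a : ℂ).re| ≤ 1 := by simpa using ha
  set c : O → ℝ := fun n => ‖rho σ n‖ * N n ^ (1 / 6 : ℝ) with hcdef
  have hc0 : ∀ n, 0 ≤ c n := fun n => mul_nonneg (norm_nonneg _) (Real.rpow_nonneg (N_nonneg n) _)
  obtain ⟨t1, t2⟩ := lat_tail (s := 2) (by norm_num) hB.le hc0 (hc σ) hY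
  have s1 : HasSum (fun n => if n ∈ ballO Y then C1 * Y ^ (-(1 / 6) : ℝ) * c n else 0)
      (∑ n ∈ ballO Y, C1 * Y ^ (-(1 / 6) : ℝ) * c n) := by
    have := hasSum_sum_of_ne_finset_zero
      (f := fun n => if n ∈ ballO Y then C1 * Y ^ (-(1 / 6) : ℝ) * c n else 0) (s := ballO Y)
      (L := SummationFilter.unconditional O) (fun p hp => if_neg hp)
    rwa [Finset.sum_congr rfl (fun p hp => if_pos hp)] at this
  have s2 := s1.add (t1.hasSum.mul_left (C2 * Y ^ (11 / 6 : ℝ)))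
  have hb : ∀ n : O, ‖if n ≠ 0 then u n * WK K a (N n / Y) else 0‖ ≤
      (if n ∈ ballO Y then C1 * Y ^ (-(1 / 6) : ℝ) * c n else 0) +
        C2 * Y ^ (11 / 6 : ℝ) * (if Y < N n then c n * N n ^ (-(2 : ℝ)) else 0) := by
    intro n
    have := hc0 n
    have := N_nonneg n
    by_cases hn : n = 0
    · rw [if_neg (not_not.2 hn), norm_zero]
      split_ifs <;> positivity
    have hN := N_pos hn
    rw [if_pos hn, norm_mul]
    by_cases h : Y < N n
    · rw [if_neg (fun h' => not_le.2 h (mem_ballO.1 h').2), if_pos h, zero_add]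
      calc _ ≤ ‖rho σ n‖ * (C2 * (N n / Y) ^ (-(11 / 6) : ℝ)) := by
            gcongr
            · exact hu n
            · exact h2 K a _ hK ha' (div_pos hN hY)
        _ = _ := by
            have e : N n ^ (-(11 / 6) : ℝ) = N n ^ (1 / 6 : ℝ) * N n ^ (-(2 : ℝ)) := by
              rw [← Real.rpow_add hN]; norm_num
            rw [wb_div hN.le hY, e]; simp only [hcdef]; ring
    · rw [if_pos (mem_ballO.2 ⟨hn, not_lt.1 h⟩), if_neg h, mul_zero, add_zero]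
      calc _ ≤ ‖rho σ n‖ * (C1 * (N n / Y) ^ (1 / 6 : ℝ)) := by
            gcongr
            · exact hu n
            · exact h1 K a _ hK ha' (div_pos hN hY)
        _ = _ := by
            rw [Real.div_rpow hN.le hY.le, Real.rpow_neg hY.le]; simp only [hcdef]; ring
  refine ⟨Summable.of_norm_bounded s2.summable hb, (tsum_of_norm_bounded s2 hb).trans ?_⟩
  rw [← Finset.mul_sum]
  have e1 : Y ^ (-(1 / 6) : ℝ) * Y = Y ^ (5 / 6 : ℝ) := by
    rw [← Real.rpow_add_one hY.ne']; norm_num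
  have e2 : Y ^ (11 / 6 : ℝ) * Y ^ (1 - 2 : ℝ) = Y ^ (5 / 6 : ℝ) := by
    rw [← Real.rpow_add hY]; norm_num
  have e3 : 2 * B / (1 - (2 : ℝ) ^ (1 - 2 : ℝ)) = 4 * B := by
    rw [show (1 - 2 : ℝ) = -1 by norm_num, Real.rpow_neg_one]; ring
  rw [e3] at t2
  calc _ ≤ C1 * Y ^ (-(1 / 6) : ℝ) * (B * Y) + C2 * Y ^ (11 / 6 : ℝ) * (4 * B * Y ^ (1 - 2 : ℝ)) := by
        gcongr
        exact hc σ Y hY
    _ = C1 * B * (Y ^ (-(1 / 6) : ℝ) * Y) + C2 * (4 * B) * (Y ^ (11 / 6 : ℝ) * Y ^ (1 - 2 : ℝ)) := by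
        ring
    _ = _ := by rw [e1, e2]; ring

theorem ud_sumFS {σ : SLO} {u : O → ℂ} (hu : ∀ n, ‖u n‖ ≤ ‖rho σ n‖) {FS : ℝ → ℂ} {M L : ℝ}
    (hF : MRep FS (4 / 3) M) (hL : 0 < L) :
    Summable (fun n : O => if n ≠ 0 then u n * FS (N n / L) else 0) := by
  obtain ⟨B, hB, hc⟩ := ud_c
  have hs := lat_summable (s := 3 / 2) (by norm_num) hB.le
    (fun n => mul_nonneg (norm_nonneg _) (Real.rpow_nonneg (N_nonneg n) _)) (hc σ)
  refine Summable.of_norm_bounded (hs.mul_left (|M| * L ^ (4 / 3 : ℝ))) fun n => ?_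
  have := N_nonneg n
  by_cases hn : n = 0
  · rw [if_neg (not_not.2 hn), norm_zero]; positivity
  have hN := N_pos hn
  rw [if_pos hn, norm_mul]
  calc _ ≤ ‖rho σ n‖ * (|M| * (N n / L) ^ (-(4 / 3) : ℝ)) := by
        gcongr
        · exact hu n
        · exact (hF.norm_le (div_pos hN hL)).trans (by gcongr; exact le_abs_self M)
    _ = _ := by
        have e : N n ^ (-(4 / 3) : ℝ) = N n ^ (1 / 6 : ℝ) * N n ^ (-(3 / 2) : ℝ) := by
          rw [← Real.rpow_add hN]; norm_num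
        rw [wb_div hN.le hL, e]; ring

theorem ud_omc0 (c y : O) : omc c y 0 = 1 := by simp [omc, psi_zero]

theorem ud_norm_omc (c y n : O) : ‖omc c y n‖ = 1 := norm_psi _

theorem ud_vor (σ γ : SLO) (hc : γ 1 0 ≠ 0) {K a Y : ℝ} {FS : ℝ → ℂ} (hV : VT K a FS)
    (hY : 0 < Y) :
    ∑' n : O, (if n ≠ 0 then rho σ n * psi (toC n * toC (γ 0 0) / (9 * toC (γ 1 0))) *
        WK K a (N n / Y) else 0) =
      (((Y / (243 * N (γ 1 0))) ^ (2 / 3 : ℝ) : ℝ) : ℂ) *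
        (rho (σ * γ) 0 * ((b0r * Fh K (2 / 3 + a) : ℝ) : ℂ) +
          ∑' n : O, (if n ≠ 0 then rho (σ * γ) n * omc (γ 1 0) (γ 1 1) n *
            FS (N n / ((243 * N (γ 1 0)) ^ 2 / Y)) else 0)) := by
  obtain ⟨Bd, hBd⟩ := rho_out.bound
  have := N_pos hc
  have h := hV (fun n => rho σ n * psi (toC n * toC (γ 0 0) / (9 * toC (γ 1 0))))
    (fun n => rho (σ * γ) n * omc (γ 1 0) (γ 1 1) n) (243 * N (γ 1 0)) Bd (by positivity)
    (fun R hR => by simpa only [norm_mul, norm_psi, mul_one] using hBd σ R hR)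
    (fun R hR => by simpa only [norm_mul, ud_norm_omc, mul_one] using hBd (σ * γ) R hR)
    (fun x hx => vor_base σ γ hc hx) Y hY
  simp only [ud_omc0, mul_one] at h
  simp only [div_div_eq_mul_div]
  exact h

end

end Vale.Agent.P006
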