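import Vale.Agent.P006.CS
import Vale.Agent.P006.UD1
import Vale.Agent.P006.Sep

namespace Vale.Agent.P006

open Vale.Agent.P026 Complex MeasureTheory Filter Topology
open scoped Classical ComplexConjugate Real MatrixGroups

noncomputable section

theorem ud_one : ∃ C : ℝ, 0 < C ∧ ∀ (K a L : ℝ) (FS : ℝ → ℂ) (σ : SLO) (c y : O), 1 ≤ K →
    |a| ≤ 1 → 0 < L → VT K a FS → c ≠ 0 →
    ‖rho σ 0 * ((b0r * Fh K (2 / 3 + a) : ℝ) : ℂ) +
      ∑' n : O, (if n ≠ 0 then rho σ n * omc c y n * FS (N n / L) else 0)‖ ≤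
      C * N c * L ^ (-(1 / 6) : ℝ) := by
  obtain ⟨C, hC, h⟩ := ud_sum
  refine ⟨243 * C, by positivity, fun K a L FS σ c y hK ha hL hV hc => ?_⟩
  obtain ⟨c', hc'⟩ := EuclideanDomain.gcd_dvd_left c y
  obtain ⟨y', hy'⟩ := EuclideanDomain.gcd_dvd_right c y
  set g := EuclideanDomain.gcd c y with hg
  have hg0 : g ≠ 0 := fun h0 => hc (by rw [hc', h0, zero_mul])
  have hc0 : c' ≠ 0 := fun h0 => hc (by rw [hc', h0, mul_zero])
  have hcop : IsCoprime c' y' := by
    have := EuclideanDomain.gcd_eq_gcd_ab c y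
    refine ⟨EuclideanDomain.gcdA c y, EuclideanDomain.gcdB c y, mul_left_cancel₀ hg0 ?_⟩
    rw [← hg] at this
    linear_combination -this - EuclideanDomain.gcdA c y * hc' - EuclideanDomain.gcdB c y * hy'
  obtain ⟨γ, hγ⟩ := exists_row (x := (c', y')) hcop
  have g1 : γ 1 0 = c' := congrArg Prod.fst hγ
  have g2 : γ 1 1 = y' := congrArg Prod.snd hγ
  have ho : ∀ n, omc c' y' n = omc c y n := by
    intro n
    have := toC_ne_zero hg0
    have := toC_ne_zero hc0
    unfold omc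
    rw [hc', hy', map_mul, map_mul]
    congr 1
    field_simp
  have hN := N_pos hc0
  set Cc := 243 * N c' with hCc
  have hC0 : 0 < Cc := by positivity
  have hY : 0 < Cc ^ 2 / L := by positivity
  have v := ud_vor (σ * γ⁻¹) γ (by rw [g1]; exact hc0) hV hY
  rw [inv_mul_cancel_right] at v
  have b := (h (σ * γ⁻¹) (fun n => rho (σ * γ⁻¹) n * psi (toC n * toC (γ 0 0) / (9 * toC (γ 1 0))))
    K a _ (fun n => by rw [norm_mul, norm_psi, mul_one]) hK ha hY).2
  rw [v, g1, g2, ← hCc, show Cc ^ 2 / (Cc ^ 2 / L) = L by field_simp,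
    show Cc ^ 2 / L / Cc = Cc / L by field_simp, norm_mul, Complex.norm_real,
    Real.norm_of_nonneg (Real.rpow_nonneg (by positivity) _), ← le_div_iff₀'
      (Real.rpow_pos_of_pos (by positivity) _)] at b
  simp only [ho] at b
  refine b.trans ?_
  have e : C * (Cc ^ 2 / L) ^ (5 / 6 : ℝ) / (Cc / L) ^ (2 / 3 : ℝ) =
      C * Cc * L ^ (-(1 / 6) : ℝ) := by
    rw [Real.rpow_def_of_pos hY, Real.rpow_def_of_pos (by positivity : 0 < Cc / L),
      Real.rpow_def_of_pos hL, Real.log_div (by positivity) hL.ne', Real.log_div hC0.ne' hL.ne',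
      Real.log_pow, mul_div_assoc, ← Real.exp_sub, mul_assoc]
    conv_rhs => rw [← Real.exp_log hC0, ← Real.exp_add]
    congr 2
    push_cast; ring
  have hle : N c' ≤ N c := N_le_of_dvd ⟨g, by rw [hc']; ring⟩ hc
  rw [e, hCc]
  calc _ ≤ C * (243 * N c) * L ^ (-(1 / 6) : ℝ) := by gcongr
    _ = _ := by ring

/-- reverse Voronoi bound for small `d` -/
theorem ud : ∃ C : ℝ, 0 < C ∧ ∀ (K a L M : ℝ) (FS : ℝ → ℂ) (σ : SLO) (c y d : O), 1 ≤ K → |a| ≤ 1 →
    0 < L → MRep FS (4 / 3) M → VT K a FS → c ≠ 0 → d ≠ 0 →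
    ‖rho σ 0 * ((b0r * Fh K (2 / 3 + a) : ℝ) : ℂ) + Vd FS σ (omc c y) d L‖ ≤
      C * N c * N d * L ^ (-(1 / 6) : ℝ) := by
  obtain ⟨C, hC, h⟩ := ud_one
  refine ⟨C, hC, fun K a L M FS σ c y d hK ha hL hF hV hc hd => ?_⟩
  have hN := N_pos hd
  have hN' : ((N d : ℝ) : ℂ) ≠ 0 := by exact_mod_cast hN.ne'
  set b0 := rho σ 0 * ((b0r * Fh K (2 / 3 + a) : ℝ) : ℂ) with hb0
  have ho : ∀ z n, omc (c * d) (y * d - 9 * z * c) n =
      omc c y n * psi (toC n * toC z / toC d) := by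
    intro z n
    have := toC_ne_zero hc
    have := toC_ne_zero hd
    unfold omc
    rw [← psi_add]
    congr 1
    simp only [map_mul, map_sub, map_ofNat]
    field_simp
    ring
  have e : ((N d : ℝ) : ℂ) * (b0 + Vd FS σ (omc c y) d L) = ∑ z ∈ rs d, (b0 +
      ∑' n : O, (if n ≠ 0 then rho σ n * omc (c * d) (y * d - 9 * z * c) n * FS (N n / L)
        else 0)) := by
    rw [Finset.sum_add_distrib, Finset.sum_const, card_rs hd, nsmul_eq_mul, mul_add,
      ← Summable.tsum_finsetSum fun z _ => ud_sumFS (σ := σ)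
        (fun n => by rw [norm_mul, ud_norm_omc, mul_one]) hF hL, Vd, ← tsum_mul_left]
    congr 1
    refine tsum_congr fun n => ?_
    by_cases hn : n = 0
    · simp [hn]
    · simp only [ne_eq, hn, not_false_eq_true, true_and, if_true, ho]
      have : ∀ z, rho σ n * (omc c y n * psi (toC n * toC z / toC d)) * FS (N n / L) =
          rho σ n * omc c y n * FS (N n / L) * psi (toC n * toC z / toC d) := fun z => by ring
      simp only [this]
      rw [← Finset.mul_sum, sum_psi hd]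
      split_ifs <;> ring
  have b : ‖((N d : ℝ) : ℂ) * (b0 + Vd FS σ (omc c y) d L)‖ ≤
      N d * (C * N (c * d) * L ^ (-(1 / 6) : ℝ)) := by
    rw [e]
    refine (norm_sum_le _ _).trans ((Finset.sum_le_card_nsmul _ _ _ fun z _ =>
      h K a L FS σ _ _ hK ha hL hV (mul_ne_zero hc hd)).trans (le_of_eq ?_))
    rw [card_rs hd, nsmul_eq_mul]; rfl
  rw [norm_mul, Complex.norm_real, Real.norm_of_nonneg hN.le, N_mul] at b
  have := le_of_mul_le_mul_left b hN
  rwa [← mul_assoc] at this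

end

end Vale.Agent.P006
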