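import Vale.Agent.P006.N1a
import Vale.Agent.P006.UD
import Vale.Agent.P006.LD
import Vale.Agent.P006.Dy

namespace Vale.Agent.P006

open Vale.Agent.P026 Complex MeasureTheory Filter Topology
open scoped Classical ComplexConjugate Real MatrixGroups

noncomputable section

theorem wt_omc {c : O} (hc : c ≠ 0) (y : O) : Wt (9 * c) (omc c y) := by
  refine ⟨fun x x' h => ?_, fun n => (norm_omc _ _ _).le⟩
  have h9 : toC 9 = 9 := map_ofNat toC 9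
  have := psi_congr (mul_ne_zero sr_nine_ne hc) (x := x * y) (y := x' * y)
    (by rw [← sub_mul]; exact h.mul_right _)
  simp only [map_mul, h9] at this
  rw [omc, omc, psi_neg, psi_neg, this]

theorem Fh_le {K s : ℝ} (hK : 1 ≤ K) (hs : |s| ≤ 2) : |Fh K s| ≤ √π * Real.exp 1 := by
  rw [Fh, abs_of_nonneg (by positivity)]
  have h1 : s ^ 2 ≤ 4 := by nlinarith [abs_nonneg s, sq_abs s]
  have h2 : s ^ 2 / (4 * K ^ 2) ≤ 1 := by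
    rw [div_le_one (by positivity)]; nlinarith
  exact mul_le_mul (div_le_self (by positivity) hK) (Real.exp_le_exp.2 h2) (by positivity)
    (by positivity)

theorem n1_alg {A Y K : ℝ} (hA : 1 ≤ A) (hY : 1 ≤ Y) (hK : 1 ≤ K) :
    (Y / A) ^ (4 / 3 : ℝ) * ((K ^ (4 / 5 : ℝ) * (A ^ 2 / Y) ^ (2 / 5 : ℝ)) ^ 4 *
        ((A ^ 2 / Y) ^ (1 / 3 : ℝ))⁻¹ + (K ^ (4 / 5 : ℝ) * (A ^ 2 / Y) ^ (2 / 5 : ℝ)) ^ 2 +
        (A * (A ^ 2 / Y) ^ (2 / 3 : ℝ) + K ^ 4 * (A ^ 2 / Y) ^ (5 / 3 : ℝ) /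
          (K ^ (4 / 5 : ℝ) * (A ^ 2 / Y) ^ (2 / 5 : ℝ)) +
          K ^ (8 / 3 : ℝ) * (A ^ 2 / Y) ^ (4 / 3 : ℝ))) ≤
      3 * (A * Y ^ (2 / 3 : ℝ) + K ^ (16 / 5 : ℝ) *
        (A ^ (4 / 3 : ℝ) + A ^ (4 / 15 : ℝ) * Y ^ (8 / 15 : ℝ))) := by
  obtain ⟨a, ha, rfl⟩ := exists_root hA (n := 15) (by norm_num)
  obtain ⟨b, hb, rfl⟩ := exists_root hY (n := 15) (by norm_num)
  obtain ⟨k, hk, rfl⟩ := exists_root hK (n := 15) (by norm_num)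
  have a0 : 0 < a := by linarith
  have b0 : 0 < b := by linarith
  have k0 : 0 < k := by linarith
  have e1 : (a ^ 15) ^ 2 / b ^ 15 = (a ^ 2 / b) ^ 15 := by ring
  have q0 : 0 < a ^ 2 / b := by positivity
  rw [e1, ← div_pow, rp (div_pos b0 a0) 15 20 (by norm_num), rp q0 15 6 (by norm_num),
    rp q0 15 5 (by norm_num), rp q0 15 10 (by norm_num), rp q0 15 25 (by norm_num),
    rp q0 15 20 (by norm_num), rp k0 15 12 (by norm_num), rp k0 15 40 (by norm_num),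
    rp k0 15 48 (by norm_num), rp b0 15 10 (by norm_num), rp b0 15 8 (by norm_num),
    rp a0 15 20 (by norm_num), rp a0 15 4 (by norm_num)]
  have e2 : (b / a) ^ 20 * ((k ^ 12 * (a ^ 2 / b) ^ 6) ^ 4 * ((a ^ 2 / b) ^ 5)⁻¹ +
      (k ^ 12 * (a ^ 2 / b) ^ 6) ^ 2 + (a ^ 15 * (a ^ 2 / b) ^ 10 +
      (k ^ 15) ^ 4 * (a ^ 2 / b) ^ 25 / (k ^ 12 * (a ^ 2 / b) ^ 6) + k ^ 40 * (a ^ 2 / b) ^ 20)) =
      2 * (k ^ 48 * (a ^ 18 * b)) + k ^ 24 * (a ^ 4 * b ^ 8) + a ^ 15 * b ^ 10 + k ^ 40 * a ^ 20 := by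
    field_simp
    ring
  have h1 : a ^ 18 * b ≤ a ^ 20 + a ^ 4 * b ^ 8 := by
    rcases le_total b (a ^ 2) with h | h
    · have : a ^ 18 * b ≤ a ^ 18 * a ^ 2 := by gcongr
      have : 0 ≤ a ^ 4 * b ^ 8 := by positivity
      nlinarith
    · have : a ^ 4 * (a ^ 2) ^ 7 * b ≤ a ^ 4 * b ^ 7 * b := by gcongr
      have : 0 ≤ a ^ 20 := by positivity
      nlinarith
  have h2 : k ^ 24 * (a ^ 4 * b ^ 8) ≤ k ^ 48 * (a ^ 4 * b ^ 8) := by gcongr <;> norm_num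
  have h3 : k ^ 40 * a ^ 20 ≤ k ^ 48 * a ^ 20 := by gcongr <;> norm_num
  have h4 : k ^ 48 * (a ^ 18 * b) ≤ k ^ 48 * (a ^ 20 + a ^ 4 * b ^ 8) := by gcongr
  have h5 : 0 ≤ a ^ 15 * b ^ 10 := by positivity
  rw [e2]
  nlinarith

theorem n1_s1 : ∃ C : ℝ, 0 < C ∧ ∀ (W K a A M P L0 D0 : ℝ) (FS : ℝ → ℂ)
    (σ : SLO) (c y : O) (Lf : O → ℝ), 1 ≤ K → |a| ≤ 1 → 1 ≤ W → P ^ 2 ≤ W →
    MRep FS (4 / 3) M → VT K a FS → c ≠ 0 → N c ≤ P → 0 < L0 → 0 < D0 → (∀ d, L0 ≤ Lf d) →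
    ∑ d ∈ (ballN (2 * A)).filter (fun d => N d ≤ D0), N d * ‖Vd FS σ (omc c y) d (Lf d)‖ ^ 2 ≤
      C * W * (D0 ^ 4 * (L0 ^ (1 / 3 : ℝ))⁻¹ + D0 ^ 2) := by
  obtain ⟨C1, c1, H1⟩ := ud
  obtain ⟨C4, c4, H4⟩ := card_ballO_le
  obtain ⟨C5, c5, H5⟩ := norm_rho_le
  obtain ⟨C6, hC6⟩ : ∃ C6 : ℝ, C6 = C5 * (|b0r| * (√π * Real.exp 1)) := ⟨_, rfl⟩
  refine ⟨2 * C4 * (C1 ^ 2 + C6 ^ 2), by positivity,
    fun W K a A M P L0 D0 FS σ c y Lf hK ha z1 z2 f2 hV hc hcP hL hD hLf => ?_⟩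
  have hP : 1 ≤ P := (one_le_N hc).trans hcP
  have u0 : ‖rho σ 0 * ((b0r * Fh K (2 / 3 + a) : ℝ) : ℂ)‖ ≤ C6 := by
    have := H5 σ 0
    rw [N_zero, add_zero, Real.one_rpow, mul_one] at this
    rw [norm_mul, Complex.norm_real, Real.norm_eq_abs, abs_mul, hC6]
    have h2 := Fh_le hK (s := 2 / 3 + a) ((abs_add_le _ _).trans (by
      rw [abs_of_pos (by norm_num : (0 : ℝ) < 2 / 3)]; linarith))
    exact mul_le_mul this (mul_le_mul_of_nonneg_left h2 (abs_nonneg _)) (by positivity) c5.le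
  have hb : ∀ d ∈ (ballN (2 * A)).filter (fun d => N d ≤ D0),
      N d * ‖Vd FS σ (omc c y) d (Lf d)‖ ^ 2 ≤
      D0 * (2 * ((C1 * P * D0) ^ 2 * (L0 ^ (1 / 3 : ℝ))⁻¹ + C6 ^ 2)) := fun d hd => by
    obtain ⟨hd, hdD⟩ := Finset.mem_filter.1 hd
    have d0 := (mem_ballN.1 hd).1.ne_zero
    have l0 : 0 < Lf d := hL.trans_le (hLf d)
    have v1 := H1 K a (Lf d) _ FS σ c y d hK ha l0 f2 hV hc d0
    have v2 : ‖Vd FS σ (omc c y) d (Lf d)‖ ≤ C1 * P * D0 * L0 ^ (-(1 / 6) : ℝ) + C6 := by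
      have := norm_sub_le (rho σ 0 * ((b0r * Fh K (2 / 3 + a) : ℝ) : ℂ) +
        Vd FS σ (omc c y) d (Lf d)) (rho σ 0 * ((b0r * Fh K (2 / 3 + a) : ℝ) : ℂ))
      rw [add_sub_cancel_left] at this
      refine this.trans (add_le_add (v1.trans ?_) u0)
      have := N_nonneg c
      have := N_nonneg d
      have := Real.rpow_le_rpow_of_nonpos hL (hLf d) (by norm_num : (-(1 / 6) : ℝ) ≤ 0)
      gcongr
    have v3 : (L0 ^ (-(1 / 6) : ℝ)) ^ 2 = (L0 ^ (1 / 3 : ℝ))⁻¹ := by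
      rw [← Real.rpow_natCast, ← Real.rpow_mul hL.le, ← Real.rpow_neg hL.le]; norm_num
    refine mul_le_mul hdD ((pow_le_pow_left₀ (norm_nonneg _) v2 2).trans ?_) (by positivity) hD.le
    rw [← v3, ← mul_pow]
    nlinarith [sq_nonneg (C1 * P * D0 * L0 ^ (-(1 / 6) : ℝ) - C6)]
  refine (Finset.sum_le_card_nsmul _ _ _ hb).trans ?_
  have hcard : ((((ballN (2 * A)).filter (fun d => N d ≤ D0)).card : ℕ) : ℝ) ≤ C4 * D0 := by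
    refine le_trans ?_ (H4 D0 hD.le)
    exact_mod_cast Finset.card_le_card fun d hd => mem_ballO.2
      ⟨(mem_ballN.1 (Finset.mem_filter.1 hd).1).1.ne_zero, (Finset.mem_filter.1 hd).2⟩
  rw [nsmul_eq_mul]
  refine (mul_le_mul_of_nonneg_right hcard (by positivity)).trans ?_
  have w1 : C1 ^ 2 * P ^ 2 ≤ (C1 ^ 2 + C6 ^ 2) * W := by nlinarith [sq_nonneg C1, sq_nonneg C6]
  have w2 : C6 ^ 2 ≤ (C1 ^ 2 + C6 ^ 2) * W := by nlinarith [sq_nonneg C1, sq_nonneg C6]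
  calc _ = 2 * C4 * (C1 ^ 2 * P ^ 2 * (D0 ^ 4 * (L0 ^ (1 / 3 : ℝ))⁻¹) + C6 ^ 2 * D0 ^ 2) := by
        ring
    _ ≤ 2 * C4 * ((C1 ^ 2 + C6 ^ 2) * W * (D0 ^ 4 * (L0 ^ (1 / 3 : ℝ))⁻¹) +
        (C1 ^ 2 + C6 ^ 2) * W * D0 ^ 2) := by gcongr
    _ = _ := by ring

theorem n1_s2 {ε : ℝ} (hε : 0 < ε) : ∃ C : ℝ, 0 < C ∧ ∀ (Z K A M P L0 D D0 : ℝ) (FS : ℝ → ℂ)
    (σ : SLO) (c y : O) (Lf : O → ℝ), 1 ≤ K → K ≤ Z → 1 ≤ D → D ≤ 2 * A → 2 * A ≤ Z → 1 ≤ M →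
    MRep FS (1 / 3) M → MRep FS (4 / 3) (M * K ^ 4) → c ≠ 0 → N c ≤ P → 0 < L0 →
    P * L0 ≤ Z → 0 < D0 → D0 ≤ 2 * D → (∀ d, L0 ≤ Lf d ∧ Lf d ≤ P * L0) →
    2 * D * ∑ d ∈ (ballN (2 * D)).filter (fun d => D ≤ N d), ‖Vd FS σ (omc c y) d (Lf d)‖ ^ 2 ≤
      C * Z ^ ε * M ^ 2 * P ^ 3 * (A * L0 ^ (2 / 3 : ℝ) + K ^ 4 * L0 ^ (5 / 3 : ℝ) / D0 +
          K ^ (8 / 3 : ℝ) * L0 ^ (4 / 3 : ℝ)) := by
  obtain ⟨C2, c2, H2⟩ := ld hε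
  refine ⟨324 * C2, by positivity,
    fun Z K A M P L0 D D0 FS σ c y Lf hK hKZ hD1 hDA hAZ hM f1 f2 hc hcP hL hLZ hD hge hLf => ?_⟩
  have hZ : 1 ≤ Z := hK.trans hKZ
  have hP : 1 ≤ P := (one_le_N hc).trans hcP
  have v := H2 Z K D (P * L0) M FS σ (9 * c) (omc c y) Lf hK hKZ hD1 (hDA.trans hAZ)
    (by positivity) hLZ (mul_ne_zero sr_nine_ne hc) (wt_omc hc y) (by linarith) f1 f2
    fun d => ⟨hL.trans_le (hLf d).1, (hLf d).2⟩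
  have hp : ∀ r : ℝ, r ≤ 2 → (P * L0) ^ r ≤ P ^ 2 * L0 ^ r := fun r hr => by
    rw [Real.mul_rpow (by linarith) hL.le, ← Real.rpow_natCast]
    exact mul_le_mul_of_nonneg_right (Real.rpow_le_rpow_of_exponent_le hP (by
      simpa using hr)) (by positivity)
  have p1 := hp (2 / 3) (by norm_num)
  have p2 := hp (5 / 3) (by norm_num)
  have p3 := hp (4 / 3) (by norm_num)
  have D0' : 0 < D := by linarith
  calc _ ≤ 2 * D * (C2 * Z ^ ε * (81 * P) * M ^ 2 * (P ^ 2 * L0 ^ (2 / 3 : ℝ) +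
        K ^ 4 * (P ^ 2 * L0 ^ (5 / 3 : ℝ)) / D ^ 2 +
        K ^ (8 / 3 : ℝ) * (P ^ 2 * L0 ^ (4 / 3 : ℝ)) / D)) := by
        refine mul_le_mul_of_nonneg_left (v.trans ?_) (by positivity)
        rw [N_mul, N_ofNat, show ((9 : ℝ)) ^ 2 = 81 by norm_num]
        gcongr
    _ = 162 * C2 * Z ^ ε * M ^ 2 * P ^ 3 * (D * L0 ^ (2 / 3 : ℝ) +
        2 * (K ^ 4 * L0 ^ (5 / 3 : ℝ) / (2 * D)) + K ^ (8 / 3 : ℝ) * L0 ^ (4 / 3 : ℝ)) := by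
        field_simp; ring
    _ ≤ 162 * C2 * Z ^ ε * M ^ 2 * P ^ 3 * (2 * A * L0 ^ (2 / 3 : ℝ) +
        2 * (K ^ 4 * L0 ^ (5 / 3 : ℝ) / D0) + 2 * (K ^ (8 / 3 : ℝ) * L0 ^ (4 / 3 : ℝ))) := by
        refine mul_le_mul_of_nonneg_left (add_le_add (add_le_add (by gcongr) (by gcongr))
          (le_mul_of_one_le_left (by positivity) one_le_two)) (by positivity)
    _ = _ := by ring

theorem n1_blk {ε : ℝ} (hε : 0 < ε) : ∃ C : ℝ, 0 < C ∧ ∀ (Z K a A M P L0 D0 : ℝ) (FS : ℝ → ℂ)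
    (σ : SLO) (c y : O) (Lf : O → ℝ), 1 ≤ K → K ≤ Z → |a| ≤ 1 → 1 ≤ A → 2 * A ≤ Z → 1 ≤ M →
    MRep FS (1 / 3) M → MRep FS (4 / 3) (M * K ^ 4) → VT K a FS → c ≠ 0 → N c ≤ P → 0 < L0 →
    P * L0 ≤ Z → 0 < D0 → (∀ d, L0 ≤ Lf d ∧ Lf d ≤ P * L0) →
    ∑ d ∈ ballN (2 * A), N d * ‖Vd FS σ (omc c y) d (Lf d)‖ ^ 2 ≤
      C * Z ^ ε * M ^ 2 * P ^ 3 * (D0 ^ 4 * (L0 ^ (1 / 3 : ℝ))⁻¹ + D0 ^ 2 +
        (A * L0 ^ (2 / 3 : ℝ) + K ^ 4 * L0 ^ (5 / 3 : ℝ) / D0 +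
          K ^ (8 / 3 : ℝ) * L0 ^ (4 / 3 : ℝ))) := by
  obtain ⟨C1, c1, H1⟩ := n1_s1
  obtain ⟨C2, c2, H2⟩ := n1_s2 (half_pos hε)
  obtain ⟨C3, c3, H3⟩ := dyad (half_pos hε)
  refine ⟨C1 + C2 * C3, by positivity,
    fun Z K a A M P L0 D0 FS σ c y Lf hK hKZ ha hA hAZ hM f1 f2 hV hc hcP hL hLZ hD hLf => ?_⟩
  have hZ : 1 ≤ Z := hK.trans hKZ
  have hP : 1 ≤ P := (one_le_N hc).trans hcP
  have z1 : 1 ≤ Z ^ ε * M ^ 2 * P ^ 3 := one_le_mul_of_one_le_of_one_le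
    (one_le_mul_of_one_le_of_one_le (Real.one_le_rpow hZ hε.le) (one_le_pow₀ hM)) (one_le_pow₀ hP)
  have z2 : P ^ 2 ≤ Z ^ ε * M ^ 2 * P ^ 3 :=
    (pow_le_pow_right₀ hP (by norm_num)).trans (le_mul_of_one_le_left (by positivity)
      (one_le_mul_of_one_le_of_one_le (Real.one_le_rpow hZ hε.le) (one_le_pow₀ hM)))
  have s1 := H1 _ K a A _ P L0 D0 FS σ c y Lf hK ha z1 z2 f2 hV hc hcP hL hD fun d => (hLf d).1
  obtain ⟨T2, hT2⟩ : ∃ T2, T2 = A * L0 ^ (2 / 3 : ℝ) + K ^ 4 * L0 ^ (5 / 3 : ℝ) / D0 +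
    K ^ (8 / 3 : ℝ) * L0 ^ (4 / 3 : ℝ) := ⟨_, rfl⟩
  have t2 : 0 ≤ T2 := by rw [hT2]; positivity
  have s2 : ∑ d ∈ (ballN (2 * A)).filter (fun d => ¬ N d ≤ D0),
      N d * ‖Vd FS σ (omc c y) d (Lf d)‖ ^ 2 ≤ C2 * C3 * (Z ^ ε * M ^ 2 * P ^ 3) * T2 := by
    refine (H3 _ N _ (2 * A) (C2 * Z ^ (ε / 2) * M ^ 2 * P ^ 3 * T2) (by linarith)
      (by positivity) (fun d hd => ?_) (fun D hD1 hDA => ?_) fun d _ => by
        have := N_nonneg d; positivity).trans ?_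
    · have := mem_ballN.1 (Finset.mem_filter.1 hd).1
      exact ⟨one_le_N this.1.ne_zero, this.2⟩
    · rcases lt_or_ge (2 * D) D0 with hlt | hge
      · rw [Finset.sum_eq_zero fun d hd => ?_]
        · positivity
        · obtain ⟨h1, h2⟩ := Finset.mem_filter.1 hd
          exact absurd (h2.2.trans hlt.le) (Finset.mem_filter.1 h1).2
      refine le_trans ?_ (hT2 ▸ H2 Z K A M P L0 D D0 FS σ c y Lf hK hKZ hD1 hDA hAZ hM f1 f2 hc hcP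
        hL hLZ hD hge hLf)
      rw [Finset.mul_sum]
      refine (Finset.sum_le_sum fun d hd => mul_le_mul_of_nonneg_right
        (Finset.mem_filter.1 hd).2.2 (by positivity)).trans
        (Finset.sum_le_sum_of_subset_of_nonneg (fun d hd => ?_) fun _ _ _ => by positivity)
      obtain ⟨h1, h2⟩ := Finset.mem_filter.1 hd
      exact Finset.mem_filter.2 ⟨mem_ballN.2
        ⟨(mem_ballN.1 (Finset.mem_filter.1 h1).1).1, h2.2⟩, h2.1⟩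
    · have e : Z ^ ε = Z ^ (ε / 2) * Z ^ (ε / 2) := by
        rw [← Real.rpow_add (by linarith)]; norm_num
      have : (2 * A) ^ (ε / 2) ≤ Z ^ (ε / 2) := by gcongr
      calc _ ≤ C3 * Z ^ (ε / 2) * (C2 * Z ^ (ε / 2) * M ^ 2 * P ^ 3 * T2) := by gcongr
        _ = _ := by rw [e]; ring
  rw [← Finset.sum_filter_add_sum_filter_not (ballN (2 * A)) (fun d => N d ≤ D0), ← hT2]
  refine (add_le_add s1 s2).trans ?_
  have t1 : 0 ≤ D0 ^ 4 * (L0 ^ (1 / 3 : ℝ))⁻¹ + D0 ^ 2 := by positivity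
  generalize D0 ^ 4 * (L0 ^ (1 / 3 : ℝ))⁻¹ + D0 ^ 2 = T1 at t1
  have w1 : 0 ≤ C1 * (Z ^ ε * M ^ 2 * P ^ 3) * T2 := by positivity
  have w2 : 0 ≤ C2 * C3 * (Z ^ ε * M ^ 2 * P ^ 3) * T1 := by positivity
  calc _ ≤ C1 * (Z ^ ε * M ^ 2 * P ^ 3) * T1 + C2 * C3 * (Z ^ ε * M ^ 2 * P ^ 3) * T2 +
        (C1 * (Z ^ ε * M ^ 2 * P ^ 3) * T2 + C2 * C3 * (Z ^ ε * M ^ 2 * P ^ 3) * T1) := by linarith
    _ = _ := by ring

/-- splitting `b` into the part dividing `h` and the part coprime to `h` -/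
theorem n1_split (h b : O) : ∃ a g : O, NN b → b = a * g ∧ Prim a ∧ Prim g ∧ g ∣ h ∧
    IsCoprime a h := by
  by_cases hb : NN b
  swap
  · exact ⟨1, 1, fun h => absurd h hb⟩
  obtain ⟨g, hg, ⟨a, rfl⟩, h2, h3⟩ := exists_prim_gcd hb.1 h
  refine ⟨a, g, fun _ => ⟨mul_comm _ _, hb.1.of_mul hg, hg, h2, ?_⟩⟩
  rw [isCoprime_iff_no_prime (Or.inl (hb.1.of_mul hg).ne_zero)]
  intro p hp h4 h5
  exact hp.not_unit (hb.2.1 p (mul_dvd_mul (h3 p (h4.mul_left g) h5) h4))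

theorem n1_cnt : ∃ C : ℝ, 0 < C ∧ ∀ (D : ℝ) (h d : O) (B : Finset O) (α g : O → O), 0 < D →
    h ≠ 0 → d ≠ 0 → (∀ b ∈ B, b = α b * g b ∧ α b ≠ 0 ∧ g b ≠ 0 ∧ g b ∣ h ∧ N (α b) ≤ 2 * D) →
    ((B.filter (fun b => d ∣ α b)).card : ℝ) ≤ C * N h * D / N d := by
  obtain ⟨C4, c4, H4⟩ := card_ballO_le
  refine ⟨2 * C4 ^ 2, by positivity, fun D h d B α g hD hh d0 hs => ?_⟩
  have d1 := N_pos d0
  have n1 := N_pos hh
  have : (B.filter (fun b => d ∣ α b)).card ≤ (ballO (2 * D / N d) ×ˢ ballO (N h)).card := by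
    refine Finset.card_le_card_of_injOn (fun b => (α b / d, g b)) (fun b hb => ?_)
      fun b hb b' hb' e => ?_
    · obtain ⟨hb, k, hk⟩ := Finset.mem_filter.1 (Finset.mem_coe.1 hb)
      obtain ⟨-, p1, p2, p3, q2⟩ := hs b hb
      rw [hk, N_mul] at q2
      refine Finset.mem_coe.2 (Finset.mem_product.2 ⟨mem_ballO.2 ?_,
        mem_ballO.2 ⟨p2, N_le_of_dvd p3 hh⟩⟩)
      simp only [hk, mul_div_cancel_left₀ _ d0]
      exact ⟨right_ne_zero_of_mul (hk ▸ p1), by rw [le_div_iff₀' d1]; exact q2⟩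
    · obtain ⟨hb, k, hk⟩ := Finset.mem_filter.1 (Finset.mem_coe.1 hb)
      obtain ⟨hb', k', hk'⟩ := Finset.mem_filter.1 (Finset.mem_coe.1 hb')
      simp only [hk, hk', mul_div_cancel_left₀ _ d0, Prod.mk.injEq] at e
      rw [(hs b hb).1, (hs b' hb').1, hk, hk', e.1, e.2]
  rw [Finset.card_product] at this
  calc _ ≤ ((ballO (2 * D / N d)).card : ℝ) * (ballO (N h)).card := by exact_mod_cast this
    _ ≤ C4 * (2 * D / N d) * (C4 * N h) :=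
        mul_le_mul (H4 _ (by positivity)) (H4 _ (by positivity)) (by positivity) (by positivity)
    _ = _ := by ring

theorem n1_row {ε : ℝ} (hε : 0 < ε) : ∃ C : ℝ, 0 < C ∧ ∀ (Z A Y K a M D : ℝ) (h c y0 : O) (σ : SLO)
    (FS : ℝ → ℂ) (B : Finset O) (α g : O → O) (y : O → ℝ), 1 ≤ D → D ≤ A → A ≤ Z → 1 ≤ Y → Y ≤ Z →
    1 ≤ K → K ≤ Z → |a| ≤ 1 → h ≠ 0 → N h ≤ Z → 1 ≤ M → MRep FS (1 / 3) M →
    MRep FS (4 / 3) (M * K ^ 4) → VT K a FS → c ≠ 0 → N c ≤ 2916 * N h →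
    (∀ b, Y / 2 ≤ y b ∧ y b ≤ Y) →
    (∀ b ∈ B, b = α b * g b ∧ NN (α b) ∧ g b ≠ 0 ∧ g b ∣ h ∧ D ≤ N (α b) ∧ N (α b) ≤ 2 * D) →
    ∑ b ∈ B, (N (α b))⁻¹ * (Y / N (α b)) ^ (4 / 3 : ℝ) * ∑ d ∈ divs (α b), N d ^ 2 *
      ‖Vd FS σ (omc c y0) d ((81 * N c * N (α b)) ^ 2 / y b)‖ ^ 2 ≤
      C * Z ^ (4 * ε) * N h ^ 7 * M ^ 2 * (A * Y ^ (2 / 3 : ℝ) + K ^ (16 / 5 : ℝ) *
        (A ^ (4 / 3 : ℝ) + A ^ (4 / 15 : ℝ) * Y ^ (8 / 15 : ℝ))) := by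
  obtain ⟨C1, c1, H1⟩ := n1_blk hε
  obtain ⟨C4, c4, H4⟩ := n1_cnt
  obtain ⟨c, hc⟩ : ∃ c : ℝ, c = 2 * 162 ^ 2 * 2916 ^ 2 := ⟨_, rfl⟩
  have c8 : 2916 ≤ c := by rw [hc]; norm_num
  have c0' : 0 < c := by linarith
  refine ⟨C4 * (C1 * c ^ ε * c ^ 3) * 3, by positivity,
    fun Z A Y K a M D h c' y0 σ FS B α g y hD hDA hAZ hY hYZ hK hKZ ha hh hhZ hM f1 f2 hV hc' b2
      hy hs => ?_⟩
  have hZ : 1 ≤ Z := hK.trans hKZ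
  have n1 := one_le_N hh
  have b1 := one_le_N hc'
  have y0' : ∀ b, 0 < y b := fun b => by linarith [(hy b).1]
  have D0 : 0 < D := by linarith
  have hn : 1 ≤ c * N h ^ 2 := one_le_mul_of_one_le_of_one_le (by linarith) (one_le_pow₀ n1)
  have hLf : ∀ d, ∃ L : ℝ, (D ^ 2 / Y ≤ L ∧ L ≤ c * N h ^ 2 * (D ^ 2 / Y)) ∧
      ∀ b ∈ B, ‖Vd FS σ (omc c' y0) d ((81 * N c' * N (α b)) ^ 2 / y b)‖ ^ 2 ≤
        ‖Vd FS σ (omc c' y0) d L‖ ^ 2 := fun d => by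
    rcases B.eq_empty_or_nonempty with h0 | h0
    · refine ⟨D ^ 2 / Y, ⟨le_rfl, le_mul_of_one_le_left (by positivity) hn⟩, ?_⟩
      simp [h0]
    obtain ⟨b, hb, hm⟩ := B.exists_max_image
      (fun b => ‖Vd FS σ (omc c' y0) d ((81 * N c' * N (α b)) ^ 2 / y b)‖ ^ 2) h0
    obtain ⟨-, -, -, -, q1, q2⟩ := hs b hb
    refine ⟨_, ⟨?_, ?_⟩, hm⟩
    · have := y0' b
      have : D ≤ 81 * N c' * N (α b) := q1.trans (le_mul_of_one_le_left (N_nonneg _) (by linarith))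
      gcongr
      exact (hy b).2
    · have := N_nonneg (α b)
      calc _ ≤ (81 * (2916 * N h) * (2 * D)) ^ 2 / (Y / 2) := by
            gcongr; exact (hy b).1
        _ = _ := by rw [hc]; field_simp; norm_num
  choose Lf hLf hm using hLf
  have hZ4 : Z ≤ c * Z ^ 4 :=
    (le_self_pow₀ hZ (by norm_num)).trans (le_mul_of_one_le_left (by positivity) (by linarith))
  have blk := H1 (c * Z ^ 4) K a D M (c * N h ^ 2) (D ^ 2 / Y)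
    (K ^ (4 / 5 : ℝ) * (D ^ 2 / Y) ^ (2 / 5 : ℝ)) FS σ c' y0 Lf hK (hKZ.trans hZ4) ha hD
    (mul_le_mul (by linarith) ((hDA.trans hAZ).trans (le_self_pow₀ hZ (by norm_num))) D0.le c0'.le)
    hM f1 f2 hV hc' (b2.trans (mul_le_mul c8 (le_self_pow₀ n1 (by norm_num)) (by linarith) c0'.le))
    (by positivity) (by
      calc c * N h ^ 2 * (D ^ 2 / Y) ≤ c * Z ^ 2 * (Z ^ 2 / 1) := by gcongr; linarith
        _ = _ := by ring) (by positivity) hLf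
  have alg := n1_alg hD hY hK
  generalize (K ^ (4 / 5 : ℝ) * (D ^ 2 / Y) ^ (2 / 5 : ℝ)) ^ 4 * ((D ^ 2 / Y) ^ (1 / 3 : ℝ))⁻¹ +
    (K ^ (4 / 5 : ℝ) * (D ^ 2 / Y) ^ (2 / 5 : ℝ)) ^ 2 + _ = T at alg blk
  have eZ : (c * Z ^ 4) ^ ε = c ^ ε * Z ^ (4 * ε) := by
    rw [Real.mul_rpow c0'.le (by positivity), ← Real.rpow_natCast, ← Real.rpow_mul (by linarith)]
    norm_num
  calc _ ≤ ∑ b ∈ B, D⁻¹ * (Y / D) ^ (4 / 3 : ℝ) * ∑ d ∈ ballN (2 * D),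
        (if d ∣ α b then N d ^ 2 * ‖Vd FS σ (omc c' y0) d (Lf d)‖ ^ 2 else 0) := by
        refine Finset.sum_le_sum fun b hb => ?_
        obtain ⟨-, na, -, -, q1, q2⟩ := hs b hb
        have := N_pos na.ne_zero
        rw [← Finset.sum_filter]
        refine mul_le_mul (by gcongr) ((Finset.sum_le_sum fun d _ => mul_le_mul_of_nonneg_left
          (hm d b hb) (sq_nonneg _)).trans (Finset.sum_le_sum_of_subset_of_nonneg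
            (fun d hd => ?_) fun _ _ _ => mul_nonneg (sq_nonneg _) (sq_nonneg _)))
            (Finset.sum_nonneg fun _ _ => mul_nonneg (sq_nonneg _) (sq_nonneg _)) (by positivity)
        obtain ⟨r1, r2⟩ := (mem_divs na.ne_zero).1 hd
        exact Finset.mem_filter.2 ⟨mem_ballN.2 ⟨r1, (N_le_of_dvd r2 na.ne_zero).trans q2⟩, r2⟩
    _ ≤ D⁻¹ * (Y / D) ^ (4 / 3 : ℝ) * (C4 * N h * D * ∑ d ∈ ballN (2 * D),
        N d * ‖Vd FS σ (omc c' y0) d (Lf d)‖ ^ 2) := by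
        rw [← Finset.mul_sum, Finset.sum_comm, Finset.mul_sum (ballN (2 * D)) _ (C4 * _ * _)]
        refine mul_le_mul_of_nonneg_left (Finset.sum_le_sum fun d hd => ?_) (by positivity)
        have d0 := (mem_ballN.1 hd).1.ne_zero
        have d1 := N_pos d0
        rw [← Finset.sum_filter, Finset.sum_const, nsmul_eq_mul]
        refine (mul_le_mul_of_nonneg_right (H4 D h d B α g D0 hh d0 fun b hb => by
          obtain ⟨p0, p1, p2, p3, -, p4⟩ := hs b hb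
          exact ⟨p0, p1.ne_zero, p2, p3, p4⟩) (by positivity)).trans_eq ?_
        field_simp
    _ ≤ D⁻¹ * (Y / D) ^ (4 / 3 : ℝ) * (C4 * N h * D *
        (C1 * (c * Z ^ 4) ^ ε * M ^ 2 * (c * N h ^ 2) ^ 3 * T)) :=
        mul_le_mul_of_nonneg_left (mul_le_mul_of_nonneg_left blk (by positivity)) (by positivity)
    _ = C4 * N h * (C1 * (c * Z ^ 4) ^ ε * M ^ 2 * (c * N h ^ 2) ^ 3) *
        ((Y / D) ^ (4 / 3 : ℝ) * T) := by field_simp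
    _ ≤ C4 * N h * (C1 * (c * Z ^ 4) ^ ε * M ^ 2 * (c * N h ^ 2) ^ 3) *
        (3 * (A * Y ^ (2 / 3 : ℝ) + K ^ (16 / 5 : ℝ) *
        (A ^ (4 / 3 : ℝ) + A ^ (4 / 15 : ℝ) * Y ^ (8 / 15 : ℝ)))) := by
        refine mul_le_mul_of_nonneg_left (alg.trans ?_) (by positivity)
        gcongr
    _ = _ := by rw [eZ]; ring

theorem n1_pt {ε : ℝ} (hε : 0 < ε) : ∃ C : ℝ, 0 < C ∧ ∀ (Z Y y L C0 : ℝ) (α c y0 : O) (e : ℂ)
    (σ : SLO) (FS : ℝ → ℂ), α ≠ 0 → c ≠ 0 → N α ≤ Z → 0 < y → y ≤ Y → ‖e‖ ≤ C0 →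
    ‖e * ((N α ^ (-(1 / 2) : ℝ) * (y / (27 * N c * N α)) ^ (2 / 3 : ℝ) : ℝ) : ℂ) *
      ∑ d ∈ divs α, mu (α / d) * ((N d : ℝ) : ℂ) * Vd FS σ (omc c y0) d L‖ ^ 2 ≤
    C0 ^ 2 * (C * Z ^ ε) * ((N α)⁻¹ * (Y / N α) ^ (4 / 3 : ℝ) *
      ∑ d ∈ divs α, N d ^ 2 * ‖Vd FS σ (omc c y0) d L‖ ^ 2) := by
  obtain ⟨C2, c2, H2⟩ := dv_le hε
  refine ⟨C2, c2, fun Z Y y L C0 α c y0 e σ FS hα hc a2 yb hy w3 => ?_⟩
  have a1 := one_le_N hα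
  have b0 := one_le_N hc
  have hY : 0 < Y := yb.trans_le hy
  have w1 : (N α ^ (-(1 / 2) : ℝ) * (y / (27 * N c * N α)) ^ (2 / 3 : ℝ)) ^ 2 ≤
      (N α)⁻¹ * (Y / N α) ^ (4 / 3 : ℝ) := by
    rw [mul_pow, ← Real.rpow_natCast, ← Real.rpow_natCast, ← Real.rpow_mul (by positivity),
      ← Real.rpow_mul (by positivity), ← Real.rpow_neg_one]
    norm_num
    gcongr
    nlinarith
  have w2 : ‖∑ d ∈ divs α, mu (α / d) * ((N d : ℝ) : ℂ) * Vd FS σ (omc c y0) d L‖ ^ 2 ≤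
      C2 * Z ^ ε * ∑ d ∈ divs α, N d ^ 2 * ‖Vd FS σ (omc c y0) d L‖ ^ 2 := by
    refine (pow_le_pow_left₀ (norm_nonneg _) (norm_sum_le _ _) 2).trans
      (sq_sum_le_card_mul_sum_sq.trans (mul_le_mul ((card_divs_le _).trans ((H2 _ hα).trans
        (by gcongr))) (Finset.sum_le_sum fun d _ => ?_) (by positivity)
        (by have : 0 ≤ Z := by linarith
            positivity)))
    rw [← mul_pow, norm_mul, norm_mul, Complex.norm_real, Real.norm_of_nonneg (N_nonneg d)]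
    have := N_nonneg d
    gcongr
    exact mul_le_of_le_one_left this (norm_mu_le _)
  rw [norm_mul, norm_mul, Complex.norm_real, Real.norm_of_nonneg (by positivity), mul_pow, mul_pow]
  calc _ ≤ C0 ^ 2 * ((N α)⁻¹ * (Y / N α) ^ (4 / 3 : ℝ)) * (C2 * Z ^ ε * _) :=
        mul_le_mul (mul_le_mul (by gcongr) w1 (by positivity) (by positivity)) w2
          (by positivity) (by positivity)
    _ = _ := by ring

theorem nt1 : ∃ c0 : ℝ, 0 < c0 ∧ ∀ ε > (0 : ℝ), ∃ C : ℝ, 0 < C ∧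
    ∀ (Z A Y K a : ℝ) (h : O) (y : O → ℝ),
    1 ≤ A → A ≤ Z → 1 ≤ Y → Y ≤ Z → 1 ≤ K → K ≤ Z → |a| ≤ 1 → h ≠ 0 → N h ≤ Z →
    (∀ b, Y / 2 ≤ y b ∧ y b ≤ Y) →
    ∑ b ∈ ballN A, ‖TT K a (8 * b * h) (y b) -
        mth (8 * b * h) * ((Fh K (2 / 3 + a) * y b ^ (2 / 3 : ℝ) : ℝ) : ℂ)‖ ^ 2 ≤
      C * Z ^ ε * N h ^ c0 * (A * Y ^ (2 / 3 : ℝ) + K ^ (16 / 5 : ℝ) *
        (A ^ (4 / 3 : ℝ) + A ^ (4 / 15 : ℝ) * Y ^ (8 / 15 : ℝ))) := by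
  refine ⟨9, by norm_num, fun ε hε => ?_⟩
  obtain ⟨C0, c0, H0⟩ := n1a
  obtain ⟨M0, m0, HM⟩ := gt_theta
  obtain ⟨C1, c1, H1⟩ := n1_row (ε := ε / 6) (by positivity)
  obtain ⟨C2, c2, H2⟩ := n1_pt (ε := ε / 6) (by positivity)
  obtain ⟨C3, c3, H3⟩ := dyad (ε := ε / 6) (by positivity)
  obtain ⟨M, hM0, hM1⟩ : ∃ M : ℝ, M0 ≤ M ∧ 1 ≤ M := ⟨max M0 1, le_max_left _ _, le_max_right _ _⟩
  refine ⟨2916 ^ 2 * C0 ^ 2 * C2 * C3 * C1 * M ^ 2, by positivity,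
    fun Z A Y K a h y hA hAZ hY hYZ hK hKZ ha hh hhZ hy => ?_⟩
  obtain ⟨FS, f1, f2, hV⟩ := HM K a hK ha
  have f1' : MRep FS (1 / 3) M := by
    obtain ⟨m, h1, h2, h3⟩ := f1; exact ⟨m, h1, h2.trans hM0, h3⟩
  have f2' : MRep FS (4 / 3) (M * K ^ 4) := by
    obtain ⟨m, h1, h2, h3⟩ := f2
    exact ⟨m, h1, h2.trans (by gcongr), h3⟩
  obtain ⟨cc', yy, σ, hcc, H0⟩ := H0 h hh
  choose α g hs using n1_split h
  have hZ : 1 ≤ Z := hA.trans hAZ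
  have n1 := one_le_N hh
  have y0 : ∀ b, 0 < y b := fun b => by linarith [(hy b).1]
  have h54 : (54 : O) * h ≠ 0 := mul_ne_zero (by decide) hh
  have N54 : N (54 * h) = 2916 * N h := by rw [N_mul, N_ofNat]; norm_num
  have nα : ∀ b ∈ ballN A, NN (α b) ∧ 1 ≤ N (α b) ∧ N (α b) ≤ A := fun b hb => by
    obtain ⟨hb, hbA⟩ := mem_ballN.1 hb
    obtain ⟨e, p1, -⟩ := hs b hb
    have hd : α b ∣ b := Dvd.intro _ e.symm
    exact ⟨hb.of_dvd p1 hd, one_le_N p1.ne_zero, (N_le_of_dvd hd hb.ne_zero).trans hbA⟩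
  obtain ⟨Φ, hΦ⟩ : ∃ Φ, Φ = A * Y ^ (2 / 3 : ℝ) + K ^ (16 / 5 : ℝ) *
    (A ^ (4 / 3 : ℝ) + A ^ (4 / 15 : ℝ) * Y ^ (8 / 15 : ℝ)) := ⟨_, rfl⟩
  have Φ0 : 0 ≤ Φ := by rw [hΦ]; positivity
  obtain ⟨F, hF⟩ : ∃ F : O → O → ℝ, F = fun x b => (N (α b))⁻¹ * (Y / N (α b)) ^ (4 / 3 : ℝ) *
    ∑ d ∈ divs (α b), N d ^ 2 * ‖Vd FS (σ x) (omc (cc' x) (yy x)) d
      ((81 * N (cc' x) * N (α b)) ^ 2 / y b)‖ ^ 2 := ⟨_, rfl⟩
  have s1 : ∀ b ∈ ballN A, ‖TT K a (8 * b * h) (y b) -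
      mth (8 * b * h) * ((Fh K (2 / 3 + a) * y b ^ (2 / 3 : ℝ) : ℝ) : ℂ)‖ ^ 2 ≤
      2916 * N h * ∑ x ∈ rs (54 * h), C0 ^ 2 * (C2 * Z ^ (ε / 6)) * F x b := fun b hb => by
    obtain ⟨na, a1, a2⟩ := nα b hb
    obtain ⟨hb, hbA⟩ := mem_ballN.1 hb
    obtain ⟨e, p1, p2, p3, p4⟩ := hs b hb
    obtain ⟨e', he', H⟩ := H0 (α b) (g b) (e ▸ hb) p1 p2 p3 p4
    have := H K a (y b) FS _ hK ha (y0 b) f2 hV
    rw [← e] at this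
    rw [this]
    refine (pow_le_pow_left₀ (norm_nonneg _) (norm_sum_le _ _) 2).trans
      (sq_sum_le_card_mul_sum_sq.trans ?_)
    rw [card_rs h54, ← N54, hF]
    exact mul_le_mul_of_nonneg_left (Finset.sum_le_sum fun x _ => H2 Z Y _ _ _ _ _ _ _ _ _
      na.ne_zero (hcc x).1 (a2.trans hAZ) (y0 b) (hy b).2 (he' x)) (N_nonneg _)
  have s2 : ∀ x, ∑ b ∈ ballN A, F x b ≤
      C3 * Z ^ (ε / 6) * (C1 * Z ^ (4 * (ε / 6)) * N h ^ 7 * M ^ 2 * Φ) := fun x => by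
    refine (H3 _ (fun b => N (α b)) _ A (C1 * Z ^ (4 * (ε / 6)) * N h ^ 7 * M ^ 2 * Φ) hA
      (by positivity) (fun b hb => (nα b hb).2) (fun D hD hDA => ?_) fun b _ => ?_).trans (by gcongr)
    · rw [hF, hΦ]
      refine H1 Z A Y K a M D h _ _ _ FS _ α g y hD hDA hAZ hY hYZ hK hKZ ha hh hhZ hM1 f1' f2' hV
        (hcc x).1 (N54 ▸ N_le_of_dvd (hcc x).2 h54) hy fun b hb => ?_
      obtain ⟨hb, q⟩ := Finset.mem_filter.1 hb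
      obtain ⟨e, -, p2, p3, -⟩ := hs b (mem_ballN.1 hb).1
      exact ⟨e, (nα b hb).1, p2.ne_zero, p3, q⟩
    · have := N_nonneg (α b)
      rw [hF]
      exact mul_nonneg (by positivity) (Finset.sum_nonneg fun _ _ => by positivity)
  have eZ : Z ^ ε = Z ^ (ε / 6) * Z ^ (ε / 6) * Z ^ (4 * (ε / 6)) := by
    rw [← Real.rpow_add (by linarith), ← Real.rpow_add (by linarith)]
    congr 1; ring
  refine (Finset.sum_le_sum s1).trans ?_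
  rw [← Finset.mul_sum, Finset.sum_comm, ← hΦ]
  simp only [← Finset.mul_sum]
  refine (mul_le_mul_of_nonneg_left (mul_le_mul_of_nonneg_left (Finset.sum_le_card_nsmul _ _ _
    fun x _ => s2 x) (by positivity)) (by positivity)).trans_eq ?_
  rw [card_rs h54, nsmul_eq_mul, show ((Nm (54 * h) : ℕ) : ℝ) = 2916 * N h from N54, eZ,
    show (9 : ℝ) = (9 : ℕ) by norm_num, Real.rpow_natCast]
  ring

end

end Vale.Agent.P006
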