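import Vale.Agent.P006.VL
import Vale.Agent.P006.ER
import Vale.Agent.P006.GT
import Vale.Agent.P006.MR
import Vale.Agent.P026.Zk2

namespace Vale.Agent.P006

open Vale.Agent.P026 Complex MeasureTheory Filter Topology
open scoped Classical ComplexConjugate Real MatrixGroups

noncomputable section

theorem norm_Vd_le (σ : SLO) : ∃ S : ℝ, 0 ≤ S ∧ ∀ (FS : ℝ → ℂ) (M L : ℝ) (ω : O → ℂ) (d : O),
    MRep FS (4 / 3) M → 0 < L → (∀ n, ‖ω n‖ ≤ 1) → ‖Vd FS σ ω d L‖ ≤ M * L ^ (4 / 3 : ℝ) * S := by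
  obtain ⟨Bd, h⟩ := rho_out.bound
  have h1 : ∀ R : ℝ, 1 ≤ R → ∑ n ∈ ballO R, ‖rho σ n‖ ^ 2 ≤ max Bd 0 * R := fun R hR =>
    (h σ R hR).trans (mul_le_mul (le_max_left _ _) (by
      simpa using Real.rpow_le_rpow_of_exponent_le hR (by norm_num : (2 / 3 : ℝ) ≤ 1))
      (by positivity) (le_max_right _ _))
  have hs := summable_of_sq_bound h1 (s := 4 / 3) (by norm_num)
  refine ⟨∑' n : O, ‖rho σ n‖ * N n ^ (-(4 / 3) : ℝ), tsum_nonneg fun n => by
    have := N_nonneg n; positivity, fun FS M L ω d hF hL hω => ?_⟩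
  have hM : 0 ≤ M := by simpa using (norm_nonneg _).trans (hF.norm_le one_pos)
  rw [← tsum_mul_left]
  refine tsum_of_norm_bounded (hs.mul_left _).hasSum fun n => ?_
  have := N_nonneg n
  split_ifs with hn
  · have e := hF.norm_le (div_pos (N_pos hn.1) hL)
    rw [Real.div_rpow this hL.le, Real.rpow_neg hL.le, div_inv_eq_mul] at e
    rw [norm_mul, norm_mul]
    calc _ ≤ ‖rho σ n‖ * 1 * (M * (N n ^ (-(4 / 3) : ℝ) * L ^ (4 / 3 : ℝ))) := by
          gcongr; exact hω n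
      _ = _ := by ring
  · rw [norm_zero]; positivity

theorem n1a_ser {k : O} (hk : k ≠ 0) {s : ℂ} (hs : 3 < s.re) :
    ∑' n : O, (if Prim n then conj (th n * sym3 k n) else 0) * ((N n : ℝ) : ℂ) ^ (-(s - 2 / 3)) =
      (∏ p ∈ pf k, (1 - ((N p : ℝ) : ℂ) ^ (-(3 * s - 2)))) * ((1 - (3 : ℂ) ^ (-(3 * s - 2))) *
        riemannZeta (3 * s - 2) * DirichletCharacter.LFunction chi3D (3 * s - 2)) * Es k k s := by
  have hs' : 1 < (3 * s - 2).re := by simp; linarith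
  have hF : Summable fun m : O => ‖sym3 k m * conj (((N m : ℝ) : ℂ) ^ (-(s - 2 / 3)))‖ := by
    refine (summable_N_rpow (s := s.re - 2 / 3) (by linarith)).of_nonneg_of_le
      (fun _ => norm_nonneg _) fun m => ?_
    rw [norm_mul, RCLike.norm_conj, Complex.norm_cpow_eq_rpow_re_of_nonneg (N_nonneg m) (by
      simp; linarith)]
    have := N_nonneg m
    refine (mul_le_of_le_one_left (by positivity) (norm_sym3_le _ _)).trans_eq ?_
    simp
  have h1 := congrArg conj (tsum_th hF).2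
  rw [← zeta_prim hs', ← zeta_cop hk hs', Es, ← tsum_mul_right]
  simp only [Complex.conj_tsum] at h1
  refine (tsum_congr fun n => ?_).trans (h1.trans (tsum_congr fun e => ?_))
  · split_ifs <;> simp [mul_assoc]
  rw [← tsum_mul_left]
  refine tsum_congr fun a => ?_
  by_cases he : Prim e
  swap
  · simp [he]
  by_cases ha : Prim a
  swap
  · simp [ha]
  by_cases hca : IsCoprime a k
  swap
  · have : sym3 k (a * e ^ 3) = 0 := by
      rw [sym3_mul_right _ ha.ne_zero (he.pow 3).ne_zero,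
        (sym3_eq_zero_iff ha.ne_zero).2 (mt IsCoprime.symm hca), zero_mul]
    simp [hca, this]
  by_cases hsa : Squarefree a
  swap
  · simp [hsa, g3_nonsq ha hca hsa]
  by_cases hce : IsCoprime e k
  swap
  · have : sym3 k (a * e ^ 3) = 0 := by
      rw [sym3_mul_right _ ha.ne_zero (he.pow 3).ne_zero, sym3_pow_right _ he.ne_zero,
        (sym3_eq_zero_iff he.ne_zero).2 (mt IsCoprime.symm hce)]
      simp
    simp [hce, this]
  have a0 : ((N a : ℝ) : ℂ) ≠ 0 := by exact_mod_cast (N_pos ha.ne_zero).ne'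
  have e0 : ((N e : ℝ) : ℂ) ≠ 0 := by exact_mod_cast (N_pos he.ne_zero).ne'
  have e1 : ((N (a * e ^ 3) : ℝ) : ℂ) ^ (-(s - 2 / 3)) =
      ((N a : ℝ) : ℂ) ^ (-(s - 2 / 3)) * ((N e : ℝ) : ℂ) ^ (-(3 * s - 2)) := by
    rw [dr_cpow, ← Complex.cpow_nat_mul]
    congr 2; push_cast; ring
  have e2 : ((N a ^ (-(1 / 6) : ℝ) : ℝ) : ℂ) * ((N a : ℝ) : ℂ) ^ (-(s - 2 / 3)) =
      ((N a : ℝ) : ℂ) ^ (-s) * (‖toC a‖ : ℂ) := by
    rw [norm_toC, Real.sqrt_eq_rpow, Complex.ofReal_cpow (N_nonneg a),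
      Complex.ofReal_cpow (N_nonneg a), ← Complex.cpow_add _ _ a0, ← Complex.cpow_add _ _ a0]
    congr 1; push_cast; ring
  have z0 : (‖toC a‖ : ℂ) ≠ 0 := by
    exact_mod_cast norm_ne_zero_iff.2 (toC_ne_zero ha.ne_zero)
  have e3 : g3 (lam * k) a = conj (sym3 k a) * G0 a * (‖toC a‖ : ℂ) := by
    rw [G0, g3_twist' ha hsa (lam * k), g3_twist' ha hsa lam, sym3_mul_left, map_mul]
    field_simp
  rw [if_pos ⟨he, ha, hsa⟩, if_pos ⟨he, hce⟩, if_pos ⟨ha, hca⟩, e3,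
    sym3_mul_right _ ha.ne_zero (he.pow 3).ne_zero, sym3_pow_right _ he.ne_zero,
    sym3_cube hce.symm]
  simp only [map_mul, Complex.conj_conj, Complex.conj_ofReal, map_one, e1]
  linear_combination G0 a * conj (sym3 k a) * ((N e : ℝ) : ℂ) ^ (-(3 * s - 2)) * e2

theorem n1a_id {k : O} (hk : k ≠ 0) {M : ℂ} {C : ℝ} (h : ∀ Y : ℝ, 1 ≤ Y →
    ‖TT 1 0 k Y - M * ((Fh 1 (2 / 3) * Y ^ (2 / 3 : ℝ) : ℝ) : ℂ)‖ ≤ C) : M = mth k := by
  have r1 := mr (u := fun n => if Prim n then conj (th n * sym3 k n) else 0) (M := conj M) (C := C)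
    (fun n => by
      split_ifs
      · rw [RCLike.norm_conj, norm_mul]
        exact mul_le_one₀ (norm_th_le n) (norm_nonneg _) (norm_sym3_le _ _)
      · simp)
    (if_neg fun h => h.ne_zero rfl) fun Y hY => by
      refine le_of_eq_of_le ?_ (h Y hY)
      rw [← RCLike.norm_conj (TT 1 0 k Y - _), map_sub, map_mul, Complex.conj_ofReal, TT,
        Complex.conj_tsum]
      congr 3
      funext n
      split_ifs
      · rw [map_mul _ _ (WK _ _ _), WK, WK, ← Complex.exp_conj]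
        simp [-Complex.ofReal_log]
      · simp
  have hd : DifferentiableOn ℂ (fun s : ℂ => (∏ p ∈ pf k, (1 - ((N p : ℝ) : ℂ) ^ (-(3 * s - 2)))) *
      ((1 - (3 : ℂ) ^ (-(3 * s - 2))) * riemannZeta (3 * s - 2) *
        DirichletCharacter.LFunction chi3D (3 * s - 2))) {s | 1 < s.re} := fun s hs => by
    have h1 : 3 * s - 2 ≠ 1 := fun h => by
      have := congrArg Complex.re h
      have hs' : 1 < s.re := hs
      simp at this; linarith
    have h2 : DifferentiableAt ℂ (fun s : ℂ => 3 * s - 2) s := by fun_prop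
    refine DifferentiableAt.differentiableWithinAt (DifferentiableAt.mul ?_ (DifferentiableAt.mul
      (DifferentiableAt.mul ?_ ((differentiableAt_riemannZeta h1).comp s h2))
      ((DirichletCharacter.differentiable_LFunction chi3D_ne_one _).comp s h2)))
    · refine DifferentiableAt.fun_finset_prod fun p hp => (DifferentiableAt.const_cpow h2.neg
        (Or.inl ?_)).const_sub 1
      exact_mod_cast (N_pos ((mem_pf hk).1 hp).1.ne_zero).ne'
    · exact (DifferentiableAt.const_cpow h2.neg (Or.inl (by norm_num))).const_sub 1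
  have r2 := ((er_res hk hk).mul hd).congr fun s hs => (n1a_ser hk hs).symm
  have r3 := r1.unique r2
  have e2 : (3 * (4 / 3) - 2 : ℂ) = 2 := by norm_num
  have ez : ((zp2 : ℝ) : ℂ) = ∑' n : O, (if Prim n then ((N n : ℝ) : ℂ) ^ (-(2 : ℂ)) else 0) := by
    rw [zp2, Complex.ofReal_tsum]
    refine tsum_congr fun n => ?_
    split_ifs
    · rw [Complex.ofReal_cpow (N_nonneg n)]; norm_num
    · simp
  rw [e2, ← zeta_prim (by norm_num), ← ez] at r3
  have e4 : (∏ p ∈ pf k, (1 - ((N p : ℝ) : ℂ) ^ (-(2 : ℂ)))) *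
      ((∏ p ∈ pf k, (N p / (N p + 1)) : ℝ) : ℂ) = ((∏ p ∈ pf k, (1 - (N p)⁻¹) : ℝ) : ℂ) := by
    push_cast
    rw [← Finset.prod_mul_distrib]
    refine Finset.prod_congr rfl fun p hp => ?_
    obtain ⟨n0, n1, -⟩ := thr_ne ((mem_pf hk).1 hp).1 ((mem_pf hk).1 hp).2.1
    rw [Complex.cpow_neg, Complex.cpow_two]
    field_simp
    ring
  have hk0 : (kap : ℂ) ≠ 0 := by exact_mod_cast kap_pos.ne'
  have r4 : conj M = cc k * ((kap / 9 * ∏ p ∈ pf k, (1 - (N p)⁻¹) : ℝ) : ℂ) := by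
    rw [Complex.ofReal_mul, ← e4, cc, div_eq_iff Complex.I_ne_zero] at *
    rw [r3]
    push_cast
    field_simp
  rw [mth, ← Complex.conj_conj M, r4, map_mul, Complex.conj_ofReal]

theorem n1a : ∃ C : ℝ, 0 < C ∧ ∀ h : O, h ≠ 0 → ∃ (c y : O → O) (σ : O → SLO),
    (∀ x, c x ≠ 0 ∧ c x ∣ 54 * h) ∧
    ∀ a1 g : O, NN (a1 * g) → Prim a1 → Prim g → g ∣ h → IsCoprime a1 h →
      ∃ e : O → ℂ, (∀ x, ‖e x‖ ≤ C) ∧ ∀ (K a Y : ℝ) (FS : ℝ → ℂ) (M : ℝ), 1 ≤ K → |a| ≤ 1 →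
        0 < Y → MRep FS (4 / 3) M → VT K a FS →
        TT K a (8 * (a1 * g) * h) Y -
            mth (8 * (a1 * g) * h) * ((Fh K (2 / 3 + a) * Y ^ (2 / 3 : ℝ) : ℝ) : ℂ) =
          ∑ x ∈ rs (54 * h), e x *
            ((N a1 ^ (-(1 / 2) : ℝ) * (Y / (27 * N (c x) * N a1)) ^ (2 / 3 : ℝ) : ℝ) : ℂ) *
            ∑ d ∈ divs a1, mu (a1 / d) * ((N d : ℝ) : ℂ) *
              Vd FS (σ x) (omc (c x) (y x)) d ((81 * N (c x) * N a1) ^ 2 / Y) := by
  obtain ⟨u, hu, hρ⟩ := rho_nz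
  refine ⟨‖rho 1 (3 * u)‖⁻¹, inv_pos.2 (norm_pos_iff.2 hρ), fun h hh => ?_⟩
  have h54 : (54 : O) * h ≠ 0 := mul_ne_zero (by decide) hh
  obtain ⟨c, y, σ, hc, H⟩ := vl h54
  refine ⟨c, y, σ, hc, fun a1 g hag ha hg hgh hah => ?_⟩
  have na := ((nn_mul_iff ha hg).1 hag).1
  have u3 : (3 : O) * u ≠ 0 := mul_ne_zero (by decide) hu.ne_zero
  have hk : 8 * (a1 * g) * h ≠ 0 := mul_ne_zero (mul_ne_zero (by decide) hag.ne_zero) hh
  have hcop : IsCoprime a1 (54 * h) := by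
    refine IsCoprime.mul_right ?_ hah
    rw [show (54 : O) = 2 * 3 ^ 3 by norm_num]
    exact (oddO_iff_coprime.1 na.2.2).mul_right ha.coprime_three.pow_right
  set f : O → ℂ := fun n => if 3 * u ∣ n ∧ Prim (n / (3 * u)) then
    sym3 (u ^ 2 * (8 * g * h)) (n / (3 * u)) else 0 with hf
  have hfm : ∀ m, f (3 * u * m) = if Prim m then sym3 (u ^ 2 * (8 * g * h)) m else 0 := fun m => by
    simp only [hf, dvd_mul_right, true_and, mul_div_cancel_left₀ _ u3]
  have hW : Wt (54 * h) f := by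
    obtain ⟨v, hv⟩ := hu.exists_right_inv
    have key : ∀ x x', 54 * h ∣ x - x' → 3 * u ∣ x → f x = f x' := fun x x' ⟨j, hj⟩ ⟨m, hm⟩ => by
      have e : x' = 3 * u * (m - 18 * h * j * v) := by
        linear_combination -hj + hm + 54 * h * j * hv
      rw [hm, e, hfm, hfm]
      have d3 : (3 : O) ∣ m - (m - 18 * h * j * v) := ⟨6 * h * j * v, by ring⟩
      by_cases hP : Prim m
      · rw [if_pos hP, if_pos (hP.congr d3)]
        obtain ⟨w, hw⟩ := hgh
        exact sym3_per (q := 2 * h) (j := 3) hP (hP.congr d3) (mul_ne_zero prime_two.ne_zero hh)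
          ⟨j * v, by ring⟩ ⟨v ^ 2 * w * h, by
            rw [hw]; linear_combination -(8 * (g * w) ^ 3 * (u * v + 1)) * hv⟩
      · rw [if_neg hP, if_neg fun h' => hP (h'.congr (dvd_sub_comm.1 d3))]
    refine ⟨fun x x' hx => ?_, fun x => ?_⟩
    · by_cases h1 : 3 * u ∣ x
      · exact key x x' hx h1
      · by_cases h2 : 3 * u ∣ x'
        · exact (key x' x (dvd_sub_comm.1 hx) h2).symm
        · simp only [hf, h1, h2, false_and, if_false]
    · simp only [hf]; split_ifs; exacts [norm_sym3_le _ _, by simp]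
  obtain ⟨e, he, H⟩ := H f a1 hW na hcop
  have c3 : IsCoprime (3 * u) a1 := by
    obtain ⟨v, hv⟩ := hu.exists_right_inv
    exact ha.coprime_three.symm.mul_left ⟨v, 0, by rw [mul_comm, hv]; simp⟩
  set κ0 := conj (sym3 (3 * u) a1) / rho 1 (3 * u) with hκ
  have hA : ∀ K a Y : ℝ, TT K a (8 * (a1 * g) * h) Y = κ0 *
      ∑' n : O, (if n ≠ 0 then rho 1 n * f n * sym3 n a1 * WK K a (N n / (9 * Y)) else 0) := by
    intro K a Y
    rw [TT, ← (mul_right_injective₀ u3).tsum_eq (f := fun n => if n ≠ 0 then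
      rho 1 n * f n * sym3 n a1 * WK K a (N n / (9 * Y)) else 0), ← tsum_mul_left]
    · refine tsum_congr fun m => ?_
      simp only [hfm]
      by_cases hP : Prim m
      swap
      · simp [hP]
      have cu : IsCoprime u m := by
        obtain ⟨v, hv⟩ := hu.exists_right_inv
        exact ⟨v, 0, by rw [mul_comm, hv]; simp⟩
      have c1 := Complex.mul_conj' (sym3 (3 * u) a1)
      rw [norm_sym3 c3] at c1
      have c2 := sym3_cube cu
      have c4 := sym3_cube hP.coprime_three.symm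
      have e1 : N (3 * u * m) / (9 * Y) = N m / Y := by
        rw [N_mul, N_mul, N_unit hu, N_ofNat, mul_one, show ((3 : ℝ)) ^ 2 = 9 by norm_num,
          mul_div_mul_left _ _ (by norm_num)]
      rw [if_pos hP, if_pos hP, if_pos (mul_ne_zero u3 hP.ne_zero), e1,
        rho_th good_one hP (hP.coprime_three.symm.mul_left cu), sym3_mul_left (3 * u) m,
        cubic_recip hP ha, show 9 * (3 * u) = 3 ^ 3 * u by ring, sym3_mul_left (3 ^ 3),
        sym3_pow_left, c4, show 8 * (a1 * g) * h = a1 * (8 * g * h) by ring, sym3_mul_left a1,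
        sym3_mul_left (u ^ 2), sym3_pow_left, hκ]
      push_cast at c1
      field_simp
      linear_combination (-(th m * sym3 a1 m * sym3 (8 * g * h) m * WK K a (N m / Y))) *
        (sym3 u m ^ 3 * c1 + c2)
    · intro n hn
      by_contra h1
      refine hn ?_
      have : ¬ 3 * u ∣ n := fun ⟨m, hm⟩ => h1 ⟨m, hm.symm⟩
      simp [hf, this]
  have a0 := N_pos na.ne_zero
  set Mx : ℂ := ∑ x ∈ rs (54 * h), κ0 * e x *
    ((N a1 ^ (-(1 / 2) : ℝ) * (27 * N (c x) * N a1)⁻¹ ^ (2 / 3 : ℝ) : ℝ) : ℂ) *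
    ∑ d ∈ divs a1, mu (a1 / d) * ((N d : ℝ) : ℂ) * (rho (σ x) 0 * (b0r : ℂ)) with hMx
  have hB : ∀ (K a Y : ℝ) (FS : ℝ → ℂ) (M : ℝ), 1 ≤ K → |a| ≤ 1 →
      0 < Y → MRep FS (4 / 3) M → VT K a FS →
      TT K a (8 * (a1 * g) * h) Y - Mx * ((Fh K (2 / 3 + a) * Y ^ (2 / 3 : ℝ) : ℝ) : ℂ) =
        ∑ x ∈ rs (54 * h), κ0 * e x *
          ((N a1 ^ (-(1 / 2) : ℝ) * (Y / (27 * N (c x) * N a1)) ^ (2 / 3 : ℝ) : ℝ) : ℂ) *
          ∑ d ∈ divs a1, mu (a1 / d) * ((N d : ℝ) : ℂ) *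
            Vd FS (σ x) (omc (c x) (y x)) d ((81 * N (c x) * N a1) ^ 2 / Y) := by
    intro K a Y FS M hK ha' hY hF hV
    rw [hA, H K a (9 * Y) FS M hK ha' (by positivity) hF hV, hMx, Finset.mul_sum, Finset.sum_mul,
      ← Finset.sum_sub_distrib]
    refine Finset.sum_congr rfl fun x _ => ?_
    have b0 := N_pos (hc x).1
    have e1 : 9 * Y / (243 * N (c x) * N a1) = Y / (27 * N (c x) * N a1) := by field_simp; norm_num
    have e2 : (243 * N (c x) * N a1) ^ 2 / (9 * Y) = (81 * N (c x) * N a1) ^ 2 / Y := by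
      field_simp; norm_num
    have e3 : (Y / (27 * N (c x) * N a1)) ^ (2 / 3 : ℝ) =
        Y ^ (2 / 3 : ℝ) * (27 * N (c x) * N a1)⁻¹ ^ (2 / 3 : ℝ) := by
      rw [div_eq_mul_inv, Real.mul_rpow hY.le (by positivity)]
    rw [e1, e2, e3]
    simp only [mul_add, Finset.sum_add_distrib, ← Finset.sum_mul]
    push_cast
    ring
  have hM : Mx = mth (8 * (a1 * g) * h) := by
    obtain ⟨M, hM0, hG⟩ := gt_theta
    obtain ⟨FS, -, hF, hV⟩ := hG 1 0 le_rfl (by simp)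
    choose S hS hS' using norm_Vd_le
    refine n1a_id hk (C := ∑ x ∈ rs (54 * h), ‖κ0 * e x‖ *
      (N a1 ^ (-(1 / 2) : ℝ) * (27 * N (c x) * N a1)⁻¹ ^ (2 / 3 : ℝ)) *
      ∑ d ∈ divs a1, N d * (M * 1 ^ 4 * ((81 * N (c x) * N a1) ^ 2) ^ (4 / 3 : ℝ) * S (σ x)))
      fun Y hY => ?_
    have hY0 : 0 < Y := by linarith
    have := hB 1 0 Y FS _ le_rfl (by simp) hY0 hF hV
    rw [add_zero] at this
    rw [this]
    refine (norm_sum_le _ _).trans (Finset.sum_le_sum fun x _ => ?_)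
    have b0 := N_pos (hc x).1
    have e3 : (Y / (27 * N (c x) * N a1)) ^ (2 / 3 : ℝ) =
        (27 * N (c x) * N a1)⁻¹ ^ (2 / 3 : ℝ) * Y ^ (2 / 3 : ℝ) := by
      rw [div_eq_inv_mul, Real.mul_rpow (by positivity) hY0.le]
    rw [norm_mul, norm_mul _ ((_ : ℝ) : ℂ), Complex.norm_real, Real.norm_of_nonneg (by positivity),
      e3, ← mul_assoc, ← mul_assoc, mul_assoc _ (Y ^ _), mul_assoc ‖κ0 * e x‖]
    refine mul_le_mul_of_nonneg_left ?_ (by positivity)
    refine (mul_le_mul_of_nonneg_left (norm_sum_le _ _) (by positivity)).trans ?_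
    rw [Finset.mul_sum]
    refine Finset.sum_le_sum fun d _ => ?_
    have v1 := hS' (σ x) FS _ ((81 * N (c x) * N a1) ^ 2 / Y) (omc (c x) (y x)) d hF (by positivity)
      fun n => (norm_omc _ _ _).le
    have v2 : Y ^ (2 / 3 : ℝ) ≤ Y ^ (4 / 3 : ℝ) := Real.rpow_le_rpow_of_exponent_le hY (by norm_num)
    have v3 := N_nonneg d
    have v4 := hS (σ x)
    rw [Real.div_rpow (by positivity) hY0.le] at v1
    rw [norm_mul, norm_mul, Complex.norm_real, Real.norm_of_nonneg v3]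
    calc _ ≤ Y ^ (4 / 3 : ℝ) * (1 * N d * (M * 1 ^ 4 *
          (((81 * N (c x) * N a1) ^ 2) ^ (4 / 3 : ℝ) / Y ^ (4 / 3 : ℝ)) * S (σ x))) := by
          gcongr; exact norm_mu_le _
      _ = _ := by field_simp
  refine ⟨fun x => κ0 * e x, fun x => ?_, hM ▸ hB⟩
  rw [norm_mul, hκ, norm_div, RCLike.norm_conj, norm_sym3 c3, one_div]
  exact mul_le_of_le_one_right (by positivity) (he x)

end

end Vale.Agent.P006
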