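import Vale.Agent.P006.QGc

namespace Vale.Agent.P006

open Vale.Agent.P026 Complex MeasureTheory Filter Topology
open scoped Classical ComplexConjugate Real MatrixGroups

noncomputable section

theorem qg_pair {p : O} (hp : Prime p) (s : Finset O) (h1 : ∀ d ∈ s, ¬ p ∣ d → p * d ∈ s)
    (h2 : ∀ d, p * d ∈ s → d ∈ s) (g : O → ℂ) :
    ∑ e ∈ s, mu e * g e = ∑ d ∈ s.filter (fun d => ¬ p ∣ d), mu d * (g d - g (p * d)) := by
  rw [← Finset.sum_filter_add_sum_filter_not s (p ∣ ·)]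
  have h3 : (s.filter (fun e => ¬ p ∣ e)).image (p * ·) ⊆ s.filter (p ∣ ·) := by
    intro e he
    obtain ⟨d, hd, rfl⟩ := Finset.mem_image.1 he
    rw [Finset.mem_filter] at hd ⊢
    exact ⟨h1 d hd.1 hd.2, dvd_mul_right _ _⟩
  rw [← Finset.sum_subset h3, Finset.sum_image (fun a _ b _ h => mul_left_cancel₀ hp.ne_zero h),
    ← Finset.sum_add_distrib]
  · refine Finset.sum_congr rfl (fun e he => ?_)
    rw [mu_mul (hp.coprime_iff_not_dvd.2 (Finset.mem_filter.1 he).2), mu_prime hp]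
    ring
  · intro e he hne
    rw [Finset.mem_filter] at he
    obtain ⟨a1, d, rfl⟩ := he
    rw [div_mu_zero, zero_mul]
    intro hsq
    apply hne
    exact Finset.mem_image.2 ⟨d, Finset.mem_filter.2 ⟨h2 d a1,
      fun h => hp.not_isUnit (hsq p (mul_dvd_mul_left p h))⟩, rfl⟩

theorem qg_lam_eq {x p : O} (hx : Prim x) (hp : Prime p) (hP : Prim p) (hpx : p ∣ x) :
    qgLam x = ((Real.log (N p) : ℝ) : ℂ) *
      ∑ d ∈ ((ballO (N x)).filter (fun e => Prim e ∧ e ∣ x)).filter (fun d => ¬ p ∣ d), mu d := by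
  rw [qgLam, Finset.sum_neg_distrib, qg_pair hp _ (fun d hd h => by
      rw [zk2_mem hx.ne_zero] at hd ⊢
      exact ⟨hP.mul hd.1, (hp.coprime_iff_not_dvd.2 h).mul_dvd hpx hd.2⟩) (fun d hd => by
      rw [zk2_mem hx.ne_zero] at hd ⊢
      exact ⟨hd.1.of_mul hP, (dvd_mul_left _ _).trans hd.2⟩), Finset.mul_sum,
    ← Finset.sum_neg_distrib]
  refine Finset.sum_congr rfl fun d hd => ?_
  have := ((zk2_mem hx.ne_zero).1 (Finset.mem_filter.1 hd).1).1
  rw [N_mul, Real.log_mul (N_pos hp.ne_zero).ne' (N_pos this.ne_zero).ne']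
  push_cast
  ring

theorem qg_lam_pow {x p : O} (hx : Prim x) (hp : Prime p) (hP : Prim p) (hpx : p ∣ x)
    (h : ∀ q, Prime q → Prim q → q ∣ x → q = p) : qgLam x = ((Real.log (N p) : ℝ) : ℂ) := by
  rw [qg_lam_eq hx hp hP hpx, Finset.sum_eq_single 1, mu_one, mul_one]
  · intro d hd hd1
    rw [Finset.mem_filter, zk2_mem hx.ne_zero] at hd
    obtain ⟨q, m, hq, hQ, -, rfl⟩ := bas_prime_factor hd.1.1 hd1
    obtain rfl := h q hq hQ ((dvd_mul_right _ _).trans hd.1.2)
    exact absurd (dvd_mul_right _ _) hd.2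
  · intro hn
    exact absurd (Finset.mem_filter.2 ⟨(zk2_mem hx.ne_zero).2 ⟨prim_one, one_dvd _⟩,
      hp.not_dvd_one⟩) hn

theorem qg_lam_prime {p : O} (hp : Prime p) (hP : Prim p) :
    qgLam p = ((Real.log (N p) : ℝ) : ℂ) :=
  qg_lam_pow hP hp hP dvd_rfl fun _ hq hQ h =>
    hQ.eq_of_associated hP (hq.associated_of_dvd hp h)

theorem qg_lam_cases {x : O} (hx : Prim x) : qgLam x = 0 ∨
    ∃ (p : O) (k : ℕ), Prime p ∧ 1 ≤ k ∧ x = p ^ k ∧ qgLam x = ((Real.log (N p) : ℝ) : ℂ) := by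
  by_cases h1 : x = 1
  · left
    subst h1
    refine Finset.sum_eq_zero fun e he => ?_
    obtain ⟨a1, a2⟩ := (zk2_mem one_ne_zero).1 he
    rw [a1.eq_one_of_isUnit (isUnit_of_dvd_one a2), N_one]
    simp
  obtain ⟨p, m, hp, hP, -, hpm⟩ := bas_prime_factor hx h1
  have hpx : p ∣ x := ⟨m, hpm⟩
  by_cases h : ∀ q, Prime q → Prim q → q ∣ x → q = p
  · right
    have key : ∀ n, Prim n → (∀ q, Prime q → Prim q → q ∣ n → q = p) → ∃ k : ℕ, n = p ^ k := by
      refine Prim.induction (fun _ => ⟨0, by simp⟩) fun q n hq hQ _ ih h => ?_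
      obtain ⟨k, rfl⟩ := ih fun r hr hR h' => h r hr hR (h'.mul_left _)
      exact ⟨k + 1, by rw [h q hq hQ (dvd_mul_right _ _), pow_succ']⟩
    obtain ⟨k, hk⟩ := key x hx h
    refine ⟨p, k, hp, Nat.pos_of_ne_zero ?_, hk, qg_lam_pow hx hp hP hpx h⟩
    rintro rfl
    exact h1 (by simpa using hk)
  · left
    push Not at h
    obtain ⟨q, hq, hQ, hqx, hqp⟩ := h
    have hpq : ¬ p ∣ q := fun h => hqp (hP.eq_of_associated hQ (hp.associated_of_dvd hq h)).symm
    have := qg_pair hq (((ballO (N x)).filter (fun e => Prim e ∧ e ∣ x)).filter (fun d => ¬ p ∣ d))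
      (fun d hd h => by
        rw [Finset.mem_filter, zk2_mem hx.ne_zero] at hd ⊢
        exact ⟨⟨hQ.mul hd.1.1, (hq.coprime_iff_not_dvd.2 h).mul_dvd hqx hd.1.2⟩,
          fun h' => (hp.dvd_or_dvd h').elim hpq hd.2⟩) (fun d hd => by
        rw [Finset.mem_filter, zk2_mem hx.ne_zero] at hd ⊢
        exact ⟨⟨hd.1.1.of_mul hQ, (dvd_mul_left _ _).trans hd.1.2⟩,
          fun h' => hd.2 (h'.mul_left _)⟩) (fun _ => 1)
    simp only [mul_one, sub_self, mul_zero, Finset.sum_const_zero] at this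
    rw [qg_lam_eq hx hp hP hpx, this, mul_zero]

theorem qg_lam_le {x : O} (hx : Prim x) : ‖qgLam x‖ ≤ Real.log (N x) := by
  rcases qg_lam_cases hx with h | ⟨p, k, hp, hk, rfl, h⟩
  · rw [h, norm_zero]; exact Real.log_nonneg (one_le_N hx.ne_zero)
  · rw [h, norm_real, Real.norm_of_nonneg (Real.log_nonneg (one_le_N hp.ne_zero))]
    exact Real.log_le_log (N_pos hp.ne_zero)
      (N_le_of_dvd (dvd_pow_self p (by omega)) hx.ne_zero)

theorem qg_two_le {p : O} (hp : Prime p) : 2 ≤ N p := by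
  have h0 : Nm p ≠ 0 := fun h => hp.ne_zero (Nm_eq_zero.1 h)
  have h1 : Nm p ≠ 1 := fun h => hp.not_isUnit (isUnit_iff_Nm.2 h)
  have : 2 ≤ Nm p := by omega
  unfold N
  exact_mod_cast this

theorem qg_pp : ∃ C : ℝ, 0 < C ∧ ∀ y : ℝ, 1 ≤ y →
    ∑ x ∈ (ballO y).filter (fun x => Prim x ∧ ¬ Prime x), ‖qgLam x‖ ≤ C * y ^ (3 / 4 : ℝ) := by
  obtain ⟨C, hC, h⟩ := card_ballO_le
  refine ⟨C * 17 * 8, by positivity, fun y hy => ?_⟩
  have y0 : 0 < y := by linarith
  have l0 := Real.log_nonneg hy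
  have l1 : Real.log y ≤ 8 * y ^ (1 / 8 : ℝ) := by
    have := Real.log_le_rpow_div y0.le (ε := 1 / 8) (by norm_num)
    linarith
  have l2 : 1 ≤ y ^ (1 / 8 : ℝ) := Real.one_le_rpow hy (by norm_num)
  set T := (ballO (y ^ (1 / 2 : ℝ)) ×ˢ Finset.range (⌊2 * Real.log y⌋₊ + 1)).image
    (fun t : O × ℕ => t.1 ^ t.2) with hT
  have hc : (T.card : ℝ) ≤ C * y ^ (1 / 2 : ℝ) * (17 * y ^ (1 / 8 : ℝ)) := by
    have h1 : (T.card : ℝ) ≤ (ballO (y ^ (1 / 2 : ℝ))).card * ((⌊2 * Real.log y⌋₊ : ℝ) + 1) := by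
      have := Finset.card_image_le (s := ballO (y ^ (1 / 2 : ℝ)) ×ˢ
        Finset.range (⌊2 * Real.log y⌋₊ + 1)) (f := fun t : O × ℕ => t.1 ^ t.2)
      rw [Finset.card_product, Finset.card_range] at this
      exact_mod_cast this
    refine h1.trans (mul_le_mul (h _ (by positivity)) ?_ (by positivity) (by positivity))
    have := Nat.floor_le (show 0 ≤ 2 * Real.log y by positivity)
    linarith
  rw [← Finset.sum_filter_ne_zero]
  calc _ ≤ ∑ _x ∈ T, Real.log y := by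
        refine (Finset.sum_le_sum fun x hx => ?_).trans
          (Finset.sum_le_sum_of_subset_of_nonneg (fun x hx => ?_) fun _ _ _ => l0)
        · simp only [Finset.mem_filter, mem_ballO] at hx
          exact (qg_lam_le hx.1.2.1).trans (Real.log_le_log (N_pos hx.1.1.1) hx.1.1.2)
        · simp only [Finset.mem_filter, mem_ballO] at hx
          obtain ⟨⟨⟨a1, a2⟩, a3, a4⟩, a5⟩ := hx
          rcases qg_lam_cases a3 with h | ⟨p, k, hp, hk, rfl, -⟩
          · simp [h] at a5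
          · have k2 : 2 ≤ k := by
              by_contra hh
              obtain rfl : k = 1 := by omega
              exact a4 (by simpa using hp)
            have p2 := qg_two_le hp
            rw [N_pow] at a2
            refine Finset.mem_image.2 ⟨(p, k), Finset.mem_product.2 ⟨mem_ballO.2 ⟨hp.ne_zero, ?_⟩,
              Finset.mem_range.2 (Nat.lt_succ_of_le (Nat.le_floor ?_))⟩, rfl⟩
            · rw [← Real.sqrt_eq_rpow]
              exact Real.le_sqrt_of_sq_le ((pow_le_pow_right₀ (by linarith) k2).trans a2)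
            · have b1 := Real.log_le_log (by positivity)
                ((pow_le_pow_left₀ (by norm_num) p2 k).trans a2)
              rw [Real.log_pow] at b1
              have b2 := Real.log_two_gt_d9
              have b3 : (0 : ℝ) ≤ k := Nat.cast_nonneg k
              simp only
              nlinarith
    _ ≤ C * y ^ (1 / 2 : ℝ) * (17 * y ^ (1 / 8 : ℝ)) * (8 * y ^ (1 / 8 : ℝ)) := by
        rw [Finset.sum_const, nsmul_eq_mul]
        gcongr
    _ = C * 17 * 8 * (y ^ (1 / 2 : ℝ) * y ^ (1 / 8 : ℝ) * y ^ (1 / 8 : ℝ)) := by ring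
    _ = _ := by rw [← Real.rpow_add y0, ← Real.rpow_add y0]; norm_num

end

end Vale.Agent.P006
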