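import Vale.Agent.P006.QGe

namespace Vale.Agent.P006

open Vale.Agent.P026 Complex MeasureTheory Filter Topology
open scoped Classical ComplexConjugate Real MatrixGroups

noncomputable section

theorem qg_gi {K : ℝ} (hK : 0 < K) (a : ℝ) :
    Integrable fun u : ℝ => Real.exp (-K ^ 2 * (a - u) ^ 2) :=
  (integrable_exp_neg_mul_sq (b := K ^ 2) (by positivity)).comp_sub_left a

theorem qg_sqrt {K : ℝ} (hK : 0 < K) : √(π / K ^ 2) = √π / K := by
  rw [Real.sqrt_div Real.pi_pos.le, Real.sqrt_sq hK.le]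

theorem qg_tail {K a : ℝ} (hK : 0 < K) (ha : a ≤ 0) :
    ∫ u in Set.Ioi (0 : ℝ), Real.exp (-K ^ 2 * (a - u) ^ 2) ≤
      Real.exp (-(K ^ 2 * a ^ 2)) * (√π / K) := by
  have h := setIntegral_mono_on (μ := volume) (s := Set.Ioi (0 : ℝ)) (qg_gi hK a).integrableOn
    ((integrable_exp_neg_mul_sq (b := K ^ 2) (by positivity)).const_mul
      (Real.exp (-(K ^ 2 * a ^ 2)))).integrableOn measurableSet_Ioi (fun u hu => by
      rw [← Real.exp_add, Real.exp_le_exp]
      have hu' : 0 < u := hu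
      nlinarith [mul_nonneg (sq_nonneg K) (mul_nonneg (neg_nonneg.2 ha) hu'.le)])
  rw [integral_const_mul, integral_gaussian_Ioi, qg_sqrt hK] at h
  refine h.trans (mul_le_mul_of_nonneg_left (half_le_self (by positivity)) (Real.exp_pos _).le)

theorem qg_phi_approx {K : ℝ} (hK : 0 < K) (v : ℝ) :
    |K / √π * (∫ u in Set.Iic (0 : ℝ), Real.exp (-K ^ 2 * (v - u) ^ 2)) -
      (if v ≤ 0 then 1 else 0)| ≤ Real.exp (-(K ^ 2 * v ^ 2)) := by
  have p0 : 0 < √π := Real.sqrt_pos.2 Real.pi_pos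
  have e : ∀ z : ℝ, K / √π * (z * (√π / K)) = z := fun z => by field_simp
  split_ifs with hv
  · have h1 := intervalIntegral.integral_Iic_add_Ioi (μ := volume) (b := 0)
      (qg_gi hK v).integrableOn (qg_gi hK v).integrableOn
    rw [integral_sub_left_eq_self (fun u : ℝ => Real.exp (-K ^ 2 * u ^ 2)) volume v,
      integral_gaussian, qg_sqrt hK] at h1
    have h2 := qg_tail hK hv
    have h3 : 0 ≤ ∫ u in Set.Ioi (0 : ℝ), Real.exp (-K ^ 2 * (v - u) ^ 2) :=
      integral_nonneg fun _ => (Real.exp_pos _).le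
    have h4 := mul_le_mul_of_nonneg_left h2 (show 0 ≤ K / √π by positivity)
    have h5 := mul_nonneg (show 0 ≤ K / √π by positivity) h3
    rw [e] at h4
    have h6 := e 1
    rw [← eq_sub_iff_add_eq] at h1
    rw [h1, mul_sub, abs_le]
    rw [one_mul] at h6
    constructor <;> linarith [Real.exp_pos (-(K ^ 2 * v ^ 2))]
  · have h1 := integral_comp_neg_Ioi (0 : ℝ) fun u : ℝ => Real.exp (-K ^ 2 * (v - u) ^ 2)
    have h2 := qg_tail hK (a := -v) (by linarith)
    rw [neg_zero] at h1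
    have h3 : ∀ u : ℝ, (v - -u) ^ 2 = (-v - u) ^ 2 := fun u => by ring
    simp only [h3] at h1
    rw [← h1, sub_zero, abs_of_nonneg (mul_nonneg (by positivity)
      (integral_nonneg fun _ => (Real.exp_pos _).le))]
    have h4 := mul_le_mul_of_nonneg_left h2 (show 0 ≤ K / √π by positivity)
    rwa [e, neg_sq] at h4

theorem qg_WK_shift (K : ℝ) {x y : ℝ} (hx : 0 < x) (hy : 0 < y) (u : ℝ) :
    WK K 0 (x / (y * Real.exp u)) =
      ((Real.exp (-K ^ 2 * (Real.log (x / y) - u) ^ 2) : ℝ) : ℂ) := by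
  rw [WK, ← div_div, Real.log_div (div_pos hx hy).ne' (Real.exp_pos u).ne', Real.log_exp]
  push_cast
  congr 1
  ring

theorem qg_b_le {b : O → ℂ} (hb : ∀ n, n ≠ 0 → ‖b n‖ ≤ Real.log (N n)) {ε : ℝ} (hε : 0 < ε)
    {n : O} (hn : n ≠ 0) : ‖b n‖ ≤ N n ^ ε / ε :=
  (hb n hn).trans (Real.log_le_rpow_div (N_nonneg n) hε)

theorem qg_b_summ {b : O → ℂ} (h0 : b 0 = 0) (hb : ∀ n, n ≠ 0 → ‖b n‖ ≤ Real.log (N n)) :
    Summable fun n => ‖b n‖ * N n ^ (-2 : ℝ) := by
  refine ((summable_N_rpow (s := 3 / 2) (by norm_num)).mul_left 2).of_nonneg_of_le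
    (fun n => by have := N_nonneg n; positivity) fun n => ?_
  by_cases hn : n = 0
  · have := N_nonneg n
    rw [hn, h0, norm_zero, zero_mul, ← hn]; positivity
  · have n0 := N_pos hn
    calc _ ≤ N n ^ (1 / 2 : ℝ) / (1 / 2) * N n ^ (-2 : ℝ) := by
          gcongr; exact qg_b_le hb (by norm_num) hn
      _ = 2 * (N n ^ (1 / 2 : ℝ) * N n ^ (-2 : ℝ)) := by ring
      _ = _ := by rw [← Real.rpow_add n0]; norm_num

theorem qg_fub {K y : ℝ} (hK : 1 ≤ K) (hy : 0 < y) {b : O → ℂ} (h0 : b 0 = 0)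
    (hb : Summable fun n => ‖b n‖ * N n ^ (-2 : ℝ)) :
    HasSum (fun n : O => b n * ((∫ u in Set.Iic (0 : ℝ),
      Real.exp (-K ^ 2 * (Real.log (N n / y) - u) ^ 2) : ℝ) : ℂ))
      (∫ u in Set.Iic (0 : ℝ), ∑' n : O, b n * WK K 0 (N n / (y * Real.exp u))) := by
  have K0 : 0 < K := by linarith
  obtain ⟨C, hC, h⟩ := WK_le (-2) 0
  have e : ∀ n : O, (fun u => b n * WK K 0 (N n / (y * Real.exp u))) = fun u =>
      b n * ((Real.exp (-K ^ 2 * (Real.log (N n / y) - u) ^ 2) : ℝ) : ℂ) := fun n => by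
    by_cases hn : n = 0
    · simp [hn, h0]
    · exact funext fun u => by rw [qg_WK_shift K (N_pos hn) hy]
  have i2 := integrableOn_exp_mul_Iic (a := 2) two_pos 0
  have hs := hasSum_integral_of_summable_integral_norm (μ := volume.restrict (Set.Iic (0 : ℝ)))
    (F := fun (n : O) (u : ℝ) => b n * WK K 0 (N n / (y * Real.exp u))) (fun n => by
      rw [e]
      exact ((qg_gi K0 _).ofReal.const_mul _).integrableOn) (by
      refine (hb.mul_left (C * y ^ (2 : ℝ) * ∫ u in Set.Iic (0 : ℝ), Real.exp (2 * u))).of_nonneg_of_le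
        (fun n => integral_nonneg fun _ => norm_nonneg _) fun n => ?_
      rw [mul_right_comm, ← integral_const_mul]
      refine integral_mono_of_nonneg (.of_forall fun _ => norm_nonneg _) (i2.const_mul _)
        (.of_forall fun u => ?_)
      by_cases hn : n = 0
      · simp [hn, h0]
      · have n0 := N_pos hn
        have h1 := h K 0 (N n / (y * Real.exp u)) hK (by simp) (by positivity)
        rw [wb_div n0.le (by positivity), Real.mul_rpow hy.le (Real.exp_pos u).le,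
          ← Real.exp_mul, mul_comm u] at h1
        simp only [norm_mul]
        calc _ ≤ ‖b n‖ * (C * (y ^ (2 : ℝ) * Real.exp (2 * u) * N n ^ (-2 : ℝ))) := by gcongr
          _ = _ := by ring)
  simpa only [e, integral_const_mul, integral_complex_ofReal] using hs

/-- from smoothed sums to sharp sums -/
theorem qg_sharp : ∃ C : ℝ, 0 < C ∧ ∀ (B j y : ℝ) (b : O → ℂ), 0 ≤ B → 0 ≤ j → j ≤ 1 → 1 ≤ y →
    b 0 = 0 → (∀ n, n ≠ 0 → ‖b n‖ ≤ Real.log (N n)) →
    (∀ K X : ℝ, 1 ≤ K → 0 < X → ‖∑' n : O, b n * WK K 0 (N n / X) -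
      ((j * (X * (√π / K * Real.exp (1 / (4 * K ^ 2)))) : ℝ) : ℂ)‖ ≤
        B * K * X ^ (1999 / 2000 : ℝ)) →
    ‖∑ n ∈ ballO y, b n - ((j * y : ℝ) : ℂ)‖ ≤ C * (B + 1) * y ^ (1 - 1 / 16000 : ℝ) := by
  obtain ⟨C, hC, hW⟩ := sum_WK_thin (ε := 1 / 32000) (by norm_num) 1
  refine ⟨64000 * C + 3, by positivity, fun B j y b hB j0 j1 hy h0 hb hT => ?_⟩
  have y0 : 0 < y := by linarith
  have p1 : 1 ≤ √π := Real.one_le_sqrt.2 (by linarith [Real.pi_gt_three])
  set K := y ^ (1 / 8000 : ℝ) with hKd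
  have hK : 1 ≤ K := Real.one_le_rpow hy (by norm_num)
  have K0 : 0 < K := by linarith
  have hs := (qg_fub hK y0 h0 (qg_b_summ h0 hb)).mul_left ((K / √π : ℝ) : ℂ)
  set T : ℝ → ℂ := fun u => ∑' n : O, b n * WK K 0 (N n / (y * Real.exp u)) with hTd
  set c : ℝ := j * (y * (√π / K * Real.exp (1 / (4 * K ^ 2)))) with hc
  have i1 := integrableOn_exp_mul_Iic (a := 1999 / 2000) (by norm_num) 0
  have i2 : IntegrableOn (fun u : ℝ => ((c * Real.exp u : ℝ) : ℂ)) (Set.Iic 0) :=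
    ((integrableOn_exp_Iic 0).const_mul c).ofReal
  have b1 : ∀ u : ℝ, ‖T u - ((c * Real.exp u : ℝ) : ℂ)‖ ≤
      B * K * y ^ (1999 / 2000 : ℝ) * Real.exp (1999 / 2000 * u) := fun u => by
    have := hT K (y * Real.exp u) hK (by positivity)
    rw [Real.mul_rpow y0.le (Real.exp_pos u).le, ← Real.exp_mul, mul_comm u,
      ← mul_assoc (B * K)] at this
    have e : c * Real.exp u =
        j * (y * Real.exp u * (√π / K * Real.exp (1 / (4 * K ^ 2)))) := by rw [hc]; ring
    rw [e]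
    exact this
  have m1 : Measurable T := Measurable.tsum fun n => by unfold WK; fun_prop
  have i3 : IntegrableOn (fun u => T u - ((c * Real.exp u : ℝ) : ℂ)) (Set.Iic 0) :=
    (i1.const_mul _).mono' (m1.aestronglyMeasurable.sub i2.1) (.of_forall b1)
  have e1 : ∫ u in Set.Iic (0 : ℝ), T u =
      (∫ u in Set.Iic (0 : ℝ), (T u - ((c * Real.exp u : ℝ) : ℂ))) + (c : ℂ) := by
    have := integral_add i3 i2
    simp only [sub_add_cancel] at this
    rw [this, integral_complex_ofReal, integral_const_mul, integral_exp_Iic_zero, mul_one]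
  have b2 := norm_integral_le_of_norm_le (i1.const_mul _) (.of_forall b1)
    (μ := volume.restrict (Set.Iic (0 : ℝ)))
  rw [integral_const_mul, integral_exp_mul_Iic (by norm_num), mul_zero, Real.exp_zero] at b2
  obtain ⟨s1, s2⟩ := hW K y ((1 / 32000 : ℝ) : ℂ) hK hy (by rw [ofReal_re]; norm_num [abs_of_pos])
  have hf := hasSum_sum_of_ne_finset_zero (s := ballO y) (f := fun n => if n ∈ ballO y then b n else 0)
    (fun n hn => if_neg hn) (L := .unconditional O)
  rw [Finset.sum_congr rfl fun n hn => if_pos hn] at hf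
  have b3 := (hs.sub hf).norm_le_of_bounded (s1.mul_left (32000 * y ^ (1 / 32000 : ℝ))).hasSum
    (fun n => by
      by_cases hn : n = 0
      · simp [hn, h0]
      · have n0 := N_pos hn
        have a1 := qg_phi_approx K0 (Real.log (N n / y))
        have a2 : (if n ∈ ballO y then b n else 0) =
            b n * ((if Real.log (N n / y) ≤ 0 then 1 else 0 : ℝ) : ℂ) := by
          have : n ∈ ballO y ↔ Real.log (N n / y) ≤ 0 := by
            rw [mem_ballO, Real.log_nonpos_iff (by positivity), div_le_one y0]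
            exact ⟨fun h => h.2, fun h => ⟨hn, h⟩⟩
          simp only [this]
          split_ifs <;> simp
        rw [a2, mul_left_comm, ← mul_sub, norm_mul, ← ofReal_mul, ← ofReal_sub, norm_real,
          if_pos hn, norm_WK, ofReal_re, sub_eq_add_neg (1 / 32000 * _), Real.exp_add,
          mul_comm (1 / 32000),
          ← Real.rpow_def_of_pos (by positivity), Real.div_rpow n0.le y0.le]
        calc _ ≤ N n ^ (1 / 32000 : ℝ) / (1 / 32000) *
              Real.exp (-(K ^ 2 * Real.log (N n / y) ^ 2)) :=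
              mul_le_mul (qg_b_le hb (by norm_num) hn) a1 (abs_nonneg _) (by positivity)
          _ = _ := by field_simp)
  rw [tsum_mul_left, e1] at b3
  have b4 : |K / √π * c - j * y| ≤ y / K := by
    have a0 : 0 ≤ 1 / (4 * K ^ 2) := by positivity
    have a1 : 1 / (4 * K ^ 2) ≤ 1 := by rw [div_le_one (by positivity)]; nlinarith
    have a2 := Real.abs_exp_sub_one_le (x := 1 / (4 * K ^ 2)) (by rwa [abs_of_nonneg a0])
    have a3 : K / √π * c - j * y = j * (y * (Real.exp (1 / (4 * K ^ 2)) - 1)) := by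
      rw [hc]; field_simp
    rw [abs_of_nonneg a0] at a2
    have a4 : 2 * (1 / (4 * K ^ 2)) ≤ 1 / K := by
      rw [mul_one_div, div_le_div_iff₀ (by positivity) K0]; nlinarith
    rw [a3, abs_mul, abs_mul, abs_of_nonneg j0, abs_of_pos y0]
    calc _ ≤ 1 * (y * (1 / K)) := by gcongr; exact a2.trans a4
      _ = _ := by ring
  have e2 : ∑ n ∈ ballO y, b n - ((j * y : ℝ) : ℂ) =
      ((K / √π : ℝ) : ℂ) * (∫ u in Set.Iic (0 : ℝ), (T u - ((c * Real.exp u : ℝ) : ℂ))) +
        ((K / √π * c - j * y : ℝ) : ℂ) - (((K / √π : ℝ) : ℂ) *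
        ((∫ u in Set.Iic (0 : ℝ), (T u - ((c * Real.exp u : ℝ) : ℂ))) + (c : ℂ)) -
          ∑ n ∈ ballO y, b n) := by push_cast; ring
  have r1 : K * K * y ^ (1999 / 2000 : ℝ) ≤ y ^ (1 - 1 / 16000 : ℝ) := by
    rw [hKd, ← Real.rpow_add y0, ← Real.rpow_add y0]
    exact Real.rpow_le_rpow_of_exponent_le hy (by norm_num)
  have r2 : y / K = y ^ (1 - 1 / 8000 : ℝ) := by rw [hKd, Real.rpow_sub y0, Real.rpow_one]
  have r3 : y / K ≤ y ^ (1 - 1 / 16000 : ℝ) := by
    rw [r2]; exact Real.rpow_le_rpow_of_exponent_le hy (by norm_num)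
  have r4 : y ^ (1 / 32000 : ℝ) * y ^ (1 / 32000 : ℝ) * (y / K) = y ^ (1 - 1 / 16000 : ℝ) := by
    rw [r2, ← Real.rpow_add y0, ← Real.rpow_add y0]; norm_num
  have r5 : 1 ≤ y / K := by rw [r2]; exact Real.one_le_rpow hy (by norm_num)
  have b5 : ‖((K / √π : ℝ) : ℂ) * (∫ u in Set.Iic (0 : ℝ), (T u - ((c * Real.exp u : ℝ) : ℂ)))‖ ≤
      2 * B * y ^ (1 - 1 / 16000 : ℝ) := by
    rw [norm_mul, norm_real, Real.norm_of_nonneg (by positivity)]
    calc _ ≤ K * (B * K * y ^ (1999 / 2000 : ℝ) * 2) := by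
          gcongr
          · exact div_le_self K0.le p1
          · exact b2.trans (by gcongr; norm_num)
      _ = 2 * B * (K * K * y ^ (1999 / 2000 : ℝ)) := by ring
      _ ≤ _ := by gcongr
  have b6 := b3.trans (mul_le_mul_of_nonneg_left (s2.trans (mul_le_mul_of_nonneg_left
    (show y / K + 1 ≤ 2 * (y / K) by linarith) (by positivity))) (by positivity))
  have e3 : 32000 * y ^ (1 / 32000 : ℝ) * (C * y ^ (1 / 32000 : ℝ) * (2 * (y / K))) =
      64000 * C * y ^ (1 - 1 / 16000 : ℝ) := by rw [← r4]; ring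
  rw [e3] at b6
  rw [e2]
  refine (norm_sub_le _ _).trans ((add_le_add (norm_add_le _ _) b6).trans ?_)
  rw [norm_real, Real.norm_eq_abs]
  have : 0 ≤ y ^ (1 - 1 / 16000 : ℝ) := by positivity
  have : 0 ≤ C * B * y ^ (1 - 1 / 16000 : ℝ) := by positivity
  have : 0 ≤ B * y ^ (1 - 1 / 16000 : ℝ) := by positivity
  nlinarith

end

end Vale.Agent.P006
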