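import Vale.Agent.P006.Defs
import Vale.Agent.P006.NT
import Vale.Agent.P006.QGd
import Vale.Agent.P006.QGf

namespace Vale.Agent.P006

open Vale.Agent.P026 Complex MeasureTheory Filter Topology
open scoped Classical ComplexConjugate Real MatrixGroups

noncomputable section

theorem qg_theta : ∃ C : ℝ, 0 < C ∧ ∀ (q : O) (a : O → ℂ) (j : ℕ) (y : ℝ), q ≠ 0 →
    (∀ n, ‖a n‖ ≤ 1) → (∀ x y, a (x * y) = a x * a y) → a 1 = 1 → (∀ n, ¬ OddO n → a n = 0) →
    (Per q fun n => if Prim n then a n else 0) →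
    (j = 0 ∧ qgMean q (fun n => if Prim n then a n else 0) = 0 ∨
      j = 1 ∧ qgMean q (fun n => if Prim n then a n else 0) ≠ 0) → 1 ≤ y →
    ‖∑ p ∈ PP y, a p * ((Real.log (N p) : ℝ) : ℂ) - ((j * y : ℝ) : ℂ)‖ ≤
      C * (1 + Real.log (N q)) * y ^ (1 - 1 / 16000 : ℝ) := by
  obtain ⟨C1, p1, h1⟩ := qg_D
  obtain ⟨C2, p2, h2⟩ := qg_sharp
  obtain ⟨C3, p3, h3⟩ := qg_pp
  refine ⟨C2 * (60 * C1 + 7) + C3, by positivity, fun q a j y hq ha hm a1 he hp hj hy => ?_⟩
  obtain ⟨H, H1, H2⟩ := h1 q a j hq ha hm a1 he hp hj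
  have l0 := Real.log_nonneg (one_le_N hq)
  set b : O → ℂ := fun n => if Prim n then a n * qgLam n else 0 with hb
  have b0 : b 0 = 0 := if_neg fun h => h.ne_zero rfl
  have b1 : ∀ n, n ≠ 0 → ‖b n‖ ≤ Real.log (N n) := fun n hn => by
    simp only [hb]
    split_ifs with h
    · rw [norm_mul]
      exact (mul_le_of_le_one_left (norm_nonneg _) (ha n)).trans (qg_lam_le h)
    · rw [norm_zero]; exact Real.log_nonneg (one_le_N hn)
  have j0 : (0 : ℝ) ≤ j := Nat.cast_nonneg j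
  have j1 : (j : ℝ) ≤ 1 := by rcases hj with ⟨rfl, -⟩ | ⟨rfl, -⟩ <;> simp
  have h4 := h2 (60 * (C1 * (1 + Real.log (N q))) + 6) j y b (by positivity) j0 j1 hy b0 b1
    fun K X hK hX => qg_smooth hK hX (by positivity) (by norm_num) (by norm_num) (H := H)
      (fun s s1 s2 => ⟨(H1 s s1 s2).1, (H1 s s1 s2).2.trans (by
        rw [mul_assoc]
        refine mul_le_mul_of_nonneg_left ?_ p1.le
        nlinarith [abs_nonneg s.im])⟩) b0 (qg_b_summ b0 b1) j0 j1 fun s hs => by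
      rw [ofReal_natCast, ← H2 s hs]
      refine tsum_congr fun n => ?_
      simp only [hb]
      split_ifs
      · ring
      · simp
  have e : ∑ n ∈ ballO y, b n = ∑ p ∈ PP y, a p * ((Real.log (N p) : ℝ) : ℂ) +
      ∑ x ∈ (ballO y).filter (fun x => Prim x ∧ ¬ Prime x), a x * qgLam x := by
    rw [PP, ballN, Finset.filter_filter, Finset.sum_filter, Finset.sum_filter,
      ← Finset.sum_add_distrib]
    refine Finset.sum_congr rfl fun n _ => ?_
    simp only [hb]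
    by_cases c1 : Prim n
    · by_cases c2 : Prime n
      · by_cases c3 : OddO n
        · simp [c1, c2, qg_lam_prime c2 c1, (show NN n from ⟨c1, c2.squarefree, c3⟩)]
        · simp [he n c3]
      · simp [c1, c2]
    · simp [c1, (show ¬ NN n from fun h => c1 h.1)]
  have h5 : ‖∑ x ∈ (ballO y).filter (fun x => Prim x ∧ ¬ Prime x), a x * qgLam x‖ ≤
      C3 * y ^ (1 - 1 / 16000 : ℝ) := by
    refine (norm_sum_le _ _).trans ((Finset.sum_le_sum fun x _ => ?_).trans ((h3 y hy).trans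
      (mul_le_mul_of_nonneg_left (Real.rpow_le_rpow_of_exponent_le hy (by norm_num)) p3.le)))
    rw [norm_mul]
    exact mul_le_of_le_one_left (norm_nonneg _) (ha x)
  rw [e, add_sub_right_comm] at h4
  have h6 := (norm_le_add_norm_add _ _).trans (add_le_add h4 h5)
  refine h6.trans ?_
  have : 0 ≤ y ^ (1 - 1 / 16000 : ℝ) := by positivity
  rw [← add_mul]
  refine mul_le_mul_of_nonneg_right ?_ this
  nlinarith [mul_nonneg p2.le l0, mul_nonneg p3.le l0]

def qgA (h n : O) : ℂ := if OddO n then sym3 h n else 0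

theorem qgA_eq (h : O) : (fun n => if Prim n then qgA h n else 0) =
    fun x => if Prim x ∧ OddO x ∧ IsCoprime x 1 then sym3 h x else 0 := by
  funext x
  by_cases c1 : Prim x <;> by_cases c2 : OddO x <;> simp [qgA, c1, c2, isCoprime_one_right]

theorem qgA_theta : ∃ C : ℝ, 0 < C ∧ ∀ (h : O) (j : ℕ) (y : ℝ), h ≠ 0 →
    (j = 0 ∧ ¬ IsCube h ∨ j = 1 ∧ h = 1) → 1 ≤ y →
    ‖∑ p ∈ PP y, sym3 h p * ((Real.log (N p) : ℝ) : ℂ) - ((j * y : ℝ) : ℂ)‖ ≤
      C * (1 + Real.log (N h)) * y ^ (1 - 1 / 16000 : ℝ) := by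
  obtain ⟨C, hC, h1⟩ := qg_theta
  refine ⟨C * 324, by positivity, fun h j y hh hj hy => ?_⟩
  have h18 : N (18 : O) = 324 := by rw [N_ofNat]; norm_num
  have hq : 18 * h * 1 ≠ 0 := mul_ne_zero (mul_ne_zero (fun h0 => by
    rw [h0, N_zero] at h18; norm_num at h18) hh) one_ne_zero
  have o1 : OddO 1 := prime_two.not_dvd_one
  have hp : Per (18 * h * 1) fun n => if Prim n then qgA h n else 0 := by
    rw [qgA_eq]; exact per_sym3 hh
  have h2 := h1 (18 * h * 1) (qgA h) j y hq (fun n => by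
      unfold qgA; split_ifs; exacts [norm_sym3_le _ _, by simp]) (fun x y => by
      unfold qgA
      by_cases c1 : OddO x
      · by_cases c2 : OddO y
        · rw [if_pos (oddO_mul.2 ⟨c1, c2⟩), if_pos c1, if_pos c2,
            sym3_mul_right h (n := x) (m := y) (fun h => c1 (by rw [h]; exact dvd_zero _))
              (fun h => c2 (by rw [h]; exact dvd_zero _))]
        · simp [oddO_mul, c2]
      · simp [oddO_mul, c1]) (by simp [qgA, o1, sym3, UniqueFactorizationMonoid.factors_one]) (fun n hn => if_neg hn) hp (by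
      rcases hj with ⟨rfl, hc⟩ | ⟨rfl, rfl⟩
      · refine Or.inl ⟨rfl, ?_⟩
        rw [qgA_eq, qgMean, nt_sum hh hc one_ne_zero, zero_div]
      · refine Or.inr ⟨rfl, div_ne_zero ?_ (ofReal_ne_zero.2 (N_pos hq).ne')⟩
        obtain ⟨x, hx, hx1⟩ := rs_exists hq 1
        have e1 := hp 1 x hx1
        rw [qgA_eq] at e1 ⊢
        simp only [sym3_one_left] at e1 ⊢
        rw [if_pos ⟨prim_one, o1, isCoprime_one_right⟩] at e1
        rw [Finset.sum_boole, Nat.cast_ne_zero, Finset.card_ne_zero]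
        refine ⟨x, Finset.mem_filter.2 ⟨hx, ?_⟩⟩
        by_contra hn
        rw [if_neg hn] at e1
        exact one_ne_zero e1) hy
  have e : ∑ p ∈ PP y, qgA h p * ((Real.log (N p) : ℝ) : ℂ) =
      ∑ p ∈ PP y, sym3 h p * ((Real.log (N p) : ℝ) : ℂ) :=
    Finset.sum_congr rfl fun p hp => by
      rw [qgA, if_pos (mem_ballN.1 (Finset.mem_filter.1 hp).1).1.2.2]
  rw [e, mul_one, N_mul, h18, Real.log_mul (by norm_num) (N_pos hh).ne'] at h2
  refine h2.trans (mul_le_mul_of_nonneg_right ?_ (by positivity))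
  have l0 := Real.log_nonneg (one_le_N hh)
  have l1 := Real.log_le_sub_one_of_pos (show (0 : ℝ) < 324 by norm_num)
  rw [mul_assoc]
  exact mul_le_mul_of_nonneg_left (by linarith) hC.le

theorem qg_mem_PP {y : ℝ} {p : O} : p ∈ PP y ↔ (NN p ∧ N p ≤ y) ∧ Prime p := by
  rw [PP, Finset.mem_filter, mem_ballN]

theorem qg_abel (a : O → ℂ) {T : ℝ} (M : ℕ)
    (h : ∀ k ≤ M, ‖∑ p ∈ PP k, a p * ((Real.log (N p) : ℝ) : ℂ)‖ ≤ T) :
    ‖∑ p ∈ PP M, a p‖ ≤ 2 * T := by
  set w : ℕ → ℝ := fun k => (Real.log (max (k : ℝ) 2))⁻¹ with hw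
  have l2 := Real.log_two_gt_d9
  have wl : ∀ k : ℕ, Real.log 2 ≤ Real.log (max (k : ℝ) 2) := fun k =>
    Real.log_le_log two_pos (le_max_right _ _)
  have w0 : ∀ k, 0 ≤ w k := fun k => inv_nonneg.2 (by linarith [wl k])
  have wm : ∀ k, w (k + 1) ≤ w k := fun k => inv_anti₀ (by linarith [wl k])
    (Real.log_le_log (by positivity) (max_le_max (by push_cast; linarith) le_rfl))
  have key : ∀ m ≤ M, ‖∑ p ∈ PP m, a p - (w m : ℂ) * ∑ p ∈ PP m, a p * ((Real.log (N p) : ℝ) : ℂ)‖ ≤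
      T * (w 0 - w m) := by
    intro m
    induction m with
    | zero =>
      intro _
      have : PP ((0 : ℕ) : ℝ) = ∅ := by
        rw [PP, ballN, ballO_eq_empty (by simp)]; simp
      rw [this]
      simp
    | succ m ih =>
      intro hm
      have e : ∑ p ∈ PP ((m + 1 : ℕ) : ℝ), a p -
          (w (m + 1) : ℂ) * ∑ p ∈ PP ((m + 1 : ℕ) : ℝ), a p * ((Real.log (N p) : ℝ) : ℂ) =
          ∑ p ∈ PP m, a p - (w (m + 1) : ℂ) * ∑ p ∈ PP m, a p * ((Real.log (N p) : ℝ) : ℂ) := by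
        rw [Finset.mul_sum, Finset.mul_sum, ← Finset.sum_sub_distrib, ← Finset.sum_sub_distrib]
        refine (Finset.sum_subset (fun p hp => ?_) fun p hp hn => ?_).symm
        · rw [qg_mem_PP] at hp ⊢
          exact ⟨⟨hp.1.1, hp.1.2.trans (by push_cast; linarith)⟩, hp.2⟩
        · rw [qg_mem_PP] at hp hn
          have a1 : Nm p ≤ m + 1 := by have := hp.1.2; unfold N at this; exact_mod_cast this
          have a2 : ¬ Nm p ≤ m := fun c => hn ⟨⟨hp.1.1, by unfold N; exact_mod_cast c⟩, hp.2⟩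
          have a3 : N p = ((m + 1 : ℕ) : ℝ) := by unfold N; congr 1; omega
          have a4 := qg_two_le hp.2
          have a5 : w (m + 1) * Real.log (N p) = 1 := by
            simp only [hw]
            rw [← a3, max_eq_left a4]
            exact inv_mul_cancel₀ (Real.log_pos (by linarith)).ne'
          rw [mul_left_comm, ← ofReal_mul, a5]
          simp
      have e2 : ∀ A θ : ℂ, A - (w (m + 1) : ℂ) * θ =
          (A - (w m : ℂ) * θ) + ((w m - w (m + 1) : ℝ) : ℂ) * θ := fun A θ => by push_cast; ring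
      rw [e, e2]
      refine (norm_add_le _ _).trans ?_
      rw [norm_mul, norm_real, Real.norm_of_nonneg (sub_nonneg.2 (wm m))]
      have b1 := ih (by omega)
      have b2 := mul_le_mul_of_nonneg_left (h m (by omega)) (sub_nonneg.2 (wm m))
      linarith
  have T0 : 0 ≤ T := (norm_nonneg _).trans (h 0 (Nat.zero_le _))
  have b1 := key M le_rfl
  have b2 := mul_le_mul_of_nonneg_left (h M le_rfl) (w0 M)
  have b3 := norm_le_norm_sub_add (∑ p ∈ PP M, a p)
    ((w M : ℂ) * ∑ p ∈ PP M, a p * ((Real.log (N p) : ℝ) : ℂ))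
  rw [norm_mul, norm_real, Real.norm_of_nonneg (w0 M)] at b3
  have b4 : w 0 ≤ 2 := by
    refine inv_le_of_inv_le₀ two_pos ?_
    exact le_trans (by linarith) (wl 0)
  nlinarith

/-- prime sums with a non-cube cubic character, uniform in the conductor -/
theorem qg_char : ∃ δ : ℝ, 0 < δ ∧ ∃ C : ℝ, 0 < C ∧ ∀ (Z y : ℝ) (h : O),
    1 ≤ y → y ≤ Z → h ≠ 0 → N h ≤ Z → ¬ IsCube h →
    ‖∑ p ∈ PP y, sym3 h p‖ ≤ C * y ^ (1 - δ) * Real.log (Z + 2) ^ 2 := by
  obtain ⟨C, hC, h1⟩ := qgA_theta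
  refine ⟨1 / 16000, by norm_num, 4 * C, by positivity, fun Z y h hy hZ hh hhZ hc => ?_⟩
  have l0 := Real.log_nonneg (one_le_N hh)
  have e : PP y = PP (⌊y⌋₊ : ℝ) := by
    ext p
    rw [qg_mem_PP, qg_mem_PP]
    unfold N
    rw [Nat.cast_le, Nat.le_floor_iff (by linarith)]
  rw [e]
  refine (qg_abel (T := C * (1 + Real.log (N h)) * y ^ (1 - 1 / 16000 : ℝ)) _ _
    fun k hk => ?_).trans ?_
  · rcases Nat.eq_zero_or_pos k with rfl | k0
    · have : PP ((0 : ℕ) : ℝ) = ∅ := by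
        rw [PP, ballN, ballO_eq_empty (by simp)]; simp
      rw [this, Finset.sum_empty, norm_zero]
      positivity
    · have h2 := h1 h 0 k hh (Or.inl ⟨rfl, hc⟩) (by exact_mod_cast k0)
      simp only [Nat.cast_zero, zero_mul, ofReal_zero, sub_zero] at h2
      refine h2.trans ?_
      have : (k : ℝ) ≤ y := (Nat.le_floor_iff (by linarith)).1 hk
      gcongr
  · have l1 : 1 ≤ Real.log (Z + 2) := by
      rw [Real.le_log_iff_exp_le (by linarith)]
      linarith [Real.exp_one_lt_d9]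
    have l2 : Real.log (N h) ≤ Real.log (Z + 2) := Real.log_le_log (N_pos hh) (by linarith)
    have l3 : 1 + Real.log (N h) ≤ 2 * Real.log (Z + 2) ^ 2 := by nlinarith
    calc _ ≤ 2 * (C * (2 * Real.log (Z + 2) ^ 2) * y ^ (1 - 1 / 16000 : ℝ)) := by gcongr
      _ = _ := by ring

theorem qg_one : ∃ δ : ℝ, 0 < δ ∧ ∃ C : ℝ, 0 < C ∧ ∀ y : ℝ, 1 ≤ y →
    |∑ p ∈ PP y, Real.log (N p) - y| ≤ C * y ^ (1 - δ) := by
  obtain ⟨C, hC, h1⟩ := qgA_theta
  refine ⟨1 / 16000, by norm_num, C, hC, fun y hy => ?_⟩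
  have h2 := h1 1 1 y one_ne_zero (Or.inr ⟨rfl, rfl⟩) hy
  simp only [sym3_one_left, one_mul, Nat.cast_one, N_one, Real.log_one, add_zero, mul_one] at h2
  rwa [← ofReal_sum, ← ofReal_sub, norm_real] at h2

end

end Vale.Agent.P006
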