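import Mathlib

namespace Vale.Agent.P006

open Complex Metric

/-- logarithmic derivative bound on a disc -/
theorem qg_disc {E : ℂ → ℂ} {c : ℂ} {M : ℝ} (hM : 0 < M)
    (hE : DifferentiableOn ℂ E (ball c (501 / 1000)))
    (h0 : ∀ z ∈ ball c (501 / 1000), E z ≠ 0)
    (hb : ∀ z ∈ ball c (501 / 1000), ‖E z‖ ≤ Real.exp M * ‖E c‖)
    {z : ℂ} (hz : ‖z - c‖ ≤ 1001 / 2000) : ‖deriv E z / E z‖ ≤ 20000000 * M := by
  have hc : c ∈ ball c (501 / 1000 : ℝ) := mem_ball_self (by norm_num)
  have hd : DifferentiableOn ℂ (fun z => deriv E z / E z) (ball c (501 / 1000)) :=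
    (hE.deriv isOpen_ball).div hE h0
  obtain ⟨g, g0, hg⟩ := hd.isExactOn_ball.with_val_at c 0
  have hE' : ∀ z ∈ ball c (501 / 1000 : ℝ), HasDerivAt E (deriv E z) z := fun z hz =>
    (hE.differentiableAt (isOpen_ball.mem_nhds hz)).hasDerivAt
  have key : ∀ z ∈ ball c (501 / 1000 : ℝ), E z * exp (-g z) = E c := by
    intro z hz
    have := isOpen_ball.is_const_of_deriv_eq_zero (convex_ball c (501 / 1000 : ℝ)).isPreconnected
      (f := fun z => E z * exp (-g z))
      (fun z hz => ((hE' z hz).mul (hg z hz).neg.cexp).differentiableAt.differentiableWithinAt)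
      (fun z hz => by
        refine ((hE' z hz).mul (hg z hz).neg.cexp).deriv.trans ?_
        have := h0 z hz
        simp only [Pi.zero_apply, Pi.neg_apply]
        field_simp
        ring) hz hc
    simpa [g0] using this
  have hre : ∀ z ∈ ball c (501 / 1000 : ℝ), (g z).re ≤ M := by
    intro z hz
    have h1 := congrArg (‖·‖) (key z hz)
    simp only [norm_mul, norm_exp, neg_re] at h1
    have h2 := hb z hz
    rw [← h1, ← mul_assoc, mul_comm _ ‖E z‖, mul_assoc, ← Real.exp_add] at h2
    have h3 : 1 ≤ Real.exp (M + -(g z).re) :=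
      le_of_mul_le_mul_left (by simpa using h2) (norm_pos_iff.2 (h0 z hz))
    have := Real.one_le_exp_iff.1 h3
    linarith
  have hgd : DifferentiableOn ℂ g (ball c (501 / 1000)) := fun z hz =>
    (hg z hz).differentiableAt.differentiableWithinAt
  have hmem : ∀ w ∈ ball (0 : ℂ) (501 / 1000), c + w ∈ ball c (501 / 1000 : ℝ) := fun w hw => by
    simpa using hw
  have hbc : ∀ w : ℂ, ‖w - c‖ ≤ 2003 / 4000 → ‖g w‖ ≤ 4006 * M := by
    intro w hw
    have := borelCaratheodory_zero (f := fun w => g (c + w)) hM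
      (hgd.comp (by fun_prop) hmem) (fun w hw => hre _ (hmem w hw)) (by norm_num)
      (z := w - c) (mem_ball_zero_iff.2 (by linarith)) (by simpa using g0)
    simp only [add_sub_cancel] at this
    refine this.trans ?_
    rw [div_le_iff₀ (by linarith)]
    nlinarith [norm_nonneg (w - c)]
  have hsub : closedBall z (1 / 4000) ⊆ ball c (501 / 1000) := by
    intro w hw
    rw [mem_closedBall, dist_eq_norm] at hw
    rw [mem_ball, dist_eq_norm]
    have := norm_add_le (w - z) (z - c)
    rw [sub_add_sub_cancel] at this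
    linarith
  have hz' : z ∈ ball c (501 / 1000 : ℝ) := hsub (mem_closedBall_self (by norm_num))
  have := norm_deriv_le_of_forall_mem_sphere_norm_le (c := z) (R := 1 / 4000) (by norm_num)
    (hgd.diffContOnCl_ball hsub) (C := 4006 * M) (fun w hw => hbc w (by
      rw [mem_sphere, dist_eq_norm] at hw
      have := norm_add_le (w - z) (z - c)
      rw [sub_add_sub_cancel] at this
      linarith))
  rw [(hg z hz').deriv] at this
  linarith

/-- logarithmic derivative bound on a strip -/
theorem qg_strip {E : ℂ → ℂ} {B m : ℝ} (hB : 1 ≤ B) (hm : 0 < m) (hm1 : m ≤ 1)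
    (hE : ∀ s : ℂ, 999 / 1000 < s.re → s.re < 5 / 2 → DifferentiableAt ℂ E s)
    (h0 : ∀ s : ℂ, 999 / 1000 < s.re → s.re < 5 / 2 → E s ≠ 0)
    (hb : ∀ s : ℂ, 999 / 1000 < s.re → s.re < 5 / 2 → ‖E s‖ ≤ B * Real.exp (5 * |s.im|))
    (hl : ∀ s : ℂ, s.re = 3 / 2 → m ≤ ‖E s‖)
    {s : ℂ} (h1 : 1999 / 2000 ≤ s.re) (h2 : s.re ≤ 2) :
    ‖deriv E s / E s‖ ≤ 20000000 * (Real.log B - Real.log m + 5 + 5 * |s.im|) := by
  set c : ℂ := 3 / 2 + s.im * I with hc
  have cre : c.re = 3 / 2 := by simp [hc]
  have cim : c.im = s.im := by simp [hc]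
  have hin : ∀ z ∈ ball c (501 / 1000 : ℝ),
      999 / 1000 < z.re ∧ z.re < 5 / 2 ∧ |z.im| ≤ |s.im| + 1 := by
    intro z hz
    rw [mem_ball, dist_eq_norm] at hz
    have a1 := abs_lt.1 ((abs_re_le_norm (z - c)).trans_lt hz)
    have a2 := (abs_im_le_norm (z - c)).trans_lt hz
    rw [sub_re, cre] at a1
    rw [sub_im, cim] at a2
    have a3 := abs_sub_abs_le_abs_sub z.im s.im
    exact ⟨by linarith, by linarith, by linarith⟩
  have lB := Real.log_nonneg hB
  have lm := Real.log_nonpos hm.le hm1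
  refine qg_disc (c := c) (by have := abs_nonneg s.im; linarith)
    (fun z hz => (hE z (hin z hz).1 (hin z hz).2.1).differentiableWithinAt)
    (fun z hz => h0 z (hin z hz).1 (hin z hz).2.1) (fun z hz => ?_) ?_
  · refine (hb z (hin z hz).1 (hin z hz).2.1).trans ?_
    have e : Real.exp (Real.log B - Real.log m + 5 + 5 * |s.im|) * m =
        B * Real.exp (5 * (|s.im| + 1)) := by
      rw [show Real.log B - Real.log m + 5 + 5 * |s.im| =
        Real.log B - Real.log m + 5 * (|s.im| + 1) by ring, Real.exp_add, Real.exp_sub,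
        Real.exp_log hm, Real.exp_log (by linarith)]
      field_simp
    calc B * Real.exp (5 * |z.im|) ≤ B * Real.exp (5 * (|s.im| + 1)) := by
          have := (hin z hz).2.2
          gcongr
      _ ≤ _ := by
          rw [← e]
          exact mul_le_mul_of_nonneg_left (hl c cre) (Real.exp_pos _).le
  · have : s - c = ((s.re - 3 / 2 : ℝ) : ℂ) := by
      apply Complex.ext <;> simp [hc]
    rw [this, norm_real, Real.norm_eq_abs, abs_le]
    constructor <;> linarith

end Vale.Agent.P006
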