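import Vale.Agent.P026.Pois
import Vale.Agent.P026.GamB
import Vale.Agent.P026.Wb

namespace Vale.Agent.P006

open Vale.Agent.P026 Complex MeasureTheory Filter Topology
open scoped Classical ComplexConjugate Real MatrixGroups

noncomputable section

def qgTh (f : O → ℂ) (t : ℝ) : ℂ := ∑' n : O, f n * ((Real.exp (-(kap * N n) * t) : ℝ) : ℂ)

def qgMean (q : O) (f : O → ℂ) : ℂ := (∑ x ∈ rs q, f x) / ((N q : ℝ) : ℂ)

theorem qg_sum_rs_le {q : O} (hq : q ≠ 0) {g : O → ℂ} (hg : ∀ x, ‖g x‖ ≤ 1) :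
    ‖∑ x ∈ rs q, g x‖ ≤ N q := by
  refine (norm_sum_le _ _).trans ((Finset.sum_le_sum fun x _ => hg x).trans ?_)
  simp [card_rs hq, N]

theorem qg_mean_le {q : O} (hq : q ≠ 0) {f : O → ℂ} (hf : ∀ x, ‖f x‖ ≤ 1) : ‖qgMean q f‖ ≤ 1 := by
  rw [qgMean, norm_div, norm_real, Real.norm_of_nonneg (N_nonneg q), div_le_one (N_pos hq)]
  exact qg_sum_rs_le hq hf

theorem qg_th_summ {f : O → ℂ} (hf : ∀ x, ‖f x‖ ≤ 1) {t : ℝ} (ht : 0 < t) :
    Summable fun n : O => f n * ((Real.exp (-(kap * N n) * t) : ℝ) : ℂ) := by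
  refine (pois_summ hf (T := t⁻¹) (by positivity)).congr fun n => ?_
  rw [div_inv_eq_mul, neg_mul]

theorem qg_th_zero : ∃ C : ℝ, 0 < C ∧ ∀ (q : O) (f : O → ℂ) (t : ℝ), q ≠ 0 → Per q f →
    (∀ x, ‖f x‖ ≤ 1) → 0 < t → ‖qgTh f t - qgMean q f / t‖ ≤ C * N q := by
  obtain ⟨C, hC, h⟩ := sum_exp_le kap_pos
  refine ⟨C, hC, fun q f t hq hf h1 ht => ?_⟩
  have q0 := N_pos hq
  have hp := poisson_char hq hf (Y := t⁻¹) (by positivity)
  have e1 : qgTh f t = ∑' m : O, f m * ((Real.exp (-(kap * N m / t⁻¹)) : ℝ) : ℂ) :=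
    tsum_congr fun n => by rw [div_inv_eq_mul, neg_mul]
  obtain ⟨s1, s2⟩ := h (t * N q) (by positivity)
  have hb : ∀ h : O, ‖∑ x ∈ rs q, f x * psi (toC h * toC x / toC q)‖ ≤ N q := fun h =>
    qg_sum_rs_le hq fun x => by rw [norm_mul, norm_psi, mul_one]; exact h1 x
  have e2 : ∀ h : O, kap * N h * t⁻¹ / N q = kap * N h / (t * N q) := fun h => by field_simp
  simp only [e2] at hp
  have s3 := pois_summ hb (T := t * N q) (by positivity)
  rw [e1, hp, s3.tsum_eq_add_tsum_ite 0, mul_add]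
  have e3 : ((t⁻¹ / N q : ℝ) : ℂ) * ((∑ x ∈ rs q, f x * psi (toC 0 * toC x / toC q)) *
      ((Real.exp (-(kap * N 0 / (t * N q))) : ℝ) : ℂ)) = qgMean q f / t := by
    simp only [map_zero, zero_mul, zero_div, psi_zero, mul_one, N_zero, mul_zero, neg_zero,
      Real.exp_zero, ofReal_one, qgMean]
    push_cast
    ring
  rw [e3, add_sub_cancel_left, norm_mul, norm_real, Real.norm_of_nonneg (by positivity)]
  have s4 : Summable fun h : O => if h ≠ 0 then Real.exp (-(kap * N h / (t * N q))) else 0 :=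
    s1.of_nonneg_of_le (fun h => by positivity) fun h => by split_ifs; exacts [le_rfl, by positivity]
  have h5 := tsum_of_norm_bounded (s4.mul_left (N q)).hasSum
    (f := fun h : O => if h = 0 then 0 else (∑ x ∈ rs q, f x * psi (toC h * toC x / toC q)) *
      ((Real.exp (-(kap * N h / (t * N q))) : ℝ) : ℂ)) (fun h => by
      by_cases h0 : h = 0
      · simp [h0]
      · rw [if_neg h0, if_pos h0, norm_mul, norm_real, Real.norm_of_nonneg (Real.exp_pos _).le]
        exact mul_le_mul_of_nonneg_right (hb h) (Real.exp_pos _).le)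
  rw [tsum_mul_left] at h5
  calc _ ≤ t⁻¹ / N q * (N q * (C * (t * N q))) := by gcongr; exact h5.trans (by gcongr)
    _ = C * N q := by field_simp

theorem qg_th_top : ∃ C : ℝ, 0 < C ∧ ∀ (f : O → ℂ) (t : ℝ), (∀ x, ‖f x‖ ≤ 1) → f 0 = 0 → 0 < t →
    ‖qgTh f t‖ ≤ C * t ^ (-3 : ℝ) := by
  have hs := summable_N_rpow (s := 3) (by norm_num)
  have k0 := kap_pos
  refine ⟨6 / kap ^ 3 * (∑' n : O, N n ^ (-3 : ℝ)) + 1, by
    have : 0 ≤ ∑' n : O, N n ^ (-3 : ℝ) := tsum_nonneg fun n => Real.rpow_nonneg (N_nonneg n) _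
    positivity, fun f t h1 h0 ht => ?_⟩
  have h5 := tsum_of_norm_bounded (hs.mul_left (6 / kap ^ 3 * t ^ (-3 : ℝ))).hasSum
    (f := fun n : O => f n * ((Real.exp (-(kap * N n) * t) : ℝ) : ℂ)) (fun n => by
      by_cases hn : n = 0
      · have := N_nonneg n
        rw [hn, h0, zero_mul, norm_zero, ← hn]
        positivity
      · have n0 := N_pos hn
        rw [norm_mul, norm_real, Real.norm_of_nonneg (Real.exp_pos _).le]
        refine (mul_le_of_le_one_left (Real.exp_pos _).le (h1 n)).trans ?_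
        have h6 := Real.pow_div_factorial_le_exp (kap * N n * t) (by positivity) 3
        rw [neg_mul, Real.exp_neg, Real.rpow_neg ht.le, Real.rpow_neg n0.le]
        refine (inv_anti₀ (by positivity) h6).trans (le_of_eq ?_)
        simp only [Nat.factorial, Real.rpow_ofNat]
        field_simp
        norm_num)
  rw [tsum_mul_left] at h5
  refine h5.trans ?_
  have : 0 ≤ t ^ (-3 : ℝ) := by positivity
  nlinarith

theorem qg_th_cont {f : O → ℂ} (hf : ∀ x, ‖f x‖ ≤ 1) : ContinuousOn (qgTh f) (Set.Ioi 0) := by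
  intro t ht
  have ht' : 0 < t / 2 := half_pos ht
  refine ContinuousAt.continuousWithinAt (ContinuousOn.continuousAt (s := Set.Ioi (t / 2)) ?_
    (Ioi_mem_nhds (half_lt_self ht)))
  refine continuousOn_tsum (fun n => by fun_prop)
    (qg_th_summ (f := fun _ => 1) (by simp) ht').norm fun n x hx => ?_
  rw [norm_mul, norm_mul, norm_one, one_mul, norm_real, norm_real,
    Real.norm_of_nonneg (Real.exp_pos _).le, Real.norm_of_nonneg (Real.exp_pos _).le]
  refine (mul_le_of_le_one_left (Real.exp_pos _).le (hf n)).trans (Real.exp_le_exp.2 ?_)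
  have := mul_nonneg kap_pos.le (N_nonneg n)
  have hx' : t / 2 < x := hx
  nlinarith

theorem qg_phi : IntegrableOn (fun t : ℝ => min (t ^ (-(1 / 2) : ℝ)) (t ^ (-(3 / 2) : ℝ)))
    (Set.Ioi 0) := by
  have m : Measurable fun t : ℝ => min (t ^ (-(1 / 2) : ℝ)) (t ^ (-(3 / 2) : ℝ)) := by fun_prop
  rw [← Set.Ioc_union_Ioi_eq_Ioi zero_le_one]
  refine IntegrableOn.union ?_ ?_
  · refine ((intervalIntegrable_iff_integrableOn_Ioc_of_le zero_le_one).1
      (intervalIntegral.intervalIntegrable_rpow' (r := -(1 / 2)) (by norm_num))).mono'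
      m.aestronglyMeasurable ((ae_restrict_iff' measurableSet_Ioc).2 (.of_forall fun t ht => ?_))
    have := ht.1
    rw [Real.norm_of_nonneg (by positivity)]
    exact min_le_left _ _
  · refine (integrableOn_Ioi_rpow_of_lt (a := -(3 / 2)) (by norm_num) one_pos).mono'
      m.aestronglyMeasurable ((ae_restrict_iff' measurableSet_Ioi).2 (.of_forall fun t ht => ?_))
    have : 0 < t := one_pos.trans ht
    rw [Real.norm_of_nonneg (by positivity)]
    exact min_le_right _ _

theorem qg_kap : 1 ≤ kap ∧ kap ≤ 8 := by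
  have h3 : 1 ≤ √3 := Real.one_le_sqrt.2 (by norm_num)
  have h4 : √3 ≤ 2 := Real.sqrt_le_iff.2 (by norm_num)
  have := Real.pi_gt_three
  have := Real.pi_le_four
  unfold kap
  constructor
  · rw [le_div_iff₀ (by linarith)]; linarith
  · rw [div_le_iff₀ (by linarith)]; linarith

/-- continuation of a Dirichlet series with periodic coefficients -/
theorem qg_cont : ∃ C : ℝ, 1 ≤ C ∧ ∀ (q : O) (f : O → ℂ), q ≠ 0 → Per q f → (∀ x, ‖f x‖ ≤ 1) →
    f 0 = 0 → ∃ F : ℂ → ℂ, (∀ s : ℂ, 0 < s.re → s.re < 3 → DifferentiableAt ℂ F s) ∧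
      (∀ s : ℂ, 1 / 2 ≤ s.re → s.re ≤ 5 / 2 → ‖F s‖ ≤ C * N q * Real.exp (4 * |s.im|)) ∧
      ∀ s : ℂ, 1 < s.re → s.re < 3 → ∑' n : O, f n * ((N n : ℝ) : ℂ) ^ (-s) =
        F s + (kap : ℂ) ^ s * qgMean q f / (s - 1) := by
  obtain ⟨C1, p1, h1⟩ := qg_th_zero
  obtain ⟨C2, p2, h2⟩ := qg_th_top
  obtain ⟨C3, p3, h3⟩ := inv_Gamma_le (1 / 2) (5 / 2)
  set J := ∫ t in Set.Ioi (0 : ℝ), min (t ^ (-(1 / 2) : ℝ)) (t ^ (-(3 / 2) : ℝ)) with hJ
  have J0 : 0 ≤ J := setIntegral_nonneg measurableSet_Ioi fun t ht => by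
    have : 0 < t := ht
    positivity
  refine ⟨1 + 512 * C3 * ((C1 + C2 + 3) * J), by
    have : 0 ≤ 512 * C3 * ((C1 + C2 + 3) * J) := by positivity
    linarith, fun q f hq hf hf1 hf0 => ?_⟩
  have q1 := one_le_N hq
  have k0 := kap_pos
  set c := qgMean q f with hc
  have c1 : ‖c‖ ≤ 1 := qg_mean_le hq hf1
  set g : ℝ → ℂ := fun t => qgTh f t - c * ((t : ℂ) ^ (-1 : ℂ) • ((Real.exp (-t) : ℝ) : ℂ))
    with hg
  have ge : ∀ t : ℝ, g t = qgTh f t - c / t * ((Real.exp (-t) : ℝ) : ℂ) := fun t => by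
    simp only [hg, cpow_neg_one, smul_eq_mul]; ring
  have g0 : ∀ t : ℝ, 0 < t → ‖g t‖ ≤ (C1 + C2 + 3) * N q := by
    intro t ht
    have e : g t = (qgTh f t - c / t) + c * (((1 - Real.exp (-t)) / t : ℝ) : ℂ) := by
      rw [ge]; push_cast; ring
    have a1 : 0 ≤ (1 - Real.exp (-t)) / t :=
      div_nonneg (sub_nonneg.2 (Real.exp_le_one_iff.2 (by linarith))) ht.le
    have a2 : (1 - Real.exp (-t)) / t ≤ 1 := by
      rw [div_le_one ht]; linarith [Real.add_one_le_exp (-t)]
    rw [e]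
    refine (norm_add_le _ _).trans ?_
    rw [norm_mul, norm_real, Real.norm_of_nonneg a1]
    have := h1 q f t hq hf hf1 ht
    have := mul_le_one₀ c1 a1 a2
    nlinarith
  have g1 : ∀ t : ℝ, 0 < t → ‖g t‖ ≤ (C1 + C2 + 3) * N q * t ^ (-3 : ℝ) := by
    intro t ht
    rw [ge]
    refine (norm_sub_le _ _).trans ?_
    have a1 := h2 f t hf1 hf0 ht
    have a2 : ‖c / t * ((Real.exp (-t) : ℝ) : ℂ)‖ ≤ 2 * t ^ (-3 : ℝ) := by
      rw [norm_mul, norm_div, norm_real, norm_real, Real.norm_of_nonneg ht.le,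
        Real.norm_of_nonneg (Real.exp_pos _).le, Real.exp_neg, Real.rpow_neg ht.le]
      have h6 := Real.pow_div_factorial_le_exp t ht.le 2
      calc _ ≤ 1 / t * (t ^ 2 / (Nat.factorial 2 : ℕ))⁻¹ := by gcongr
        _ = _ := by
          simp only [Nat.factorial, Real.rpow_ofNat]
          field_simp
          norm_num
    have a3 : 0 ≤ t ^ (-3 : ℝ) := by positivity
    have a4 : C2 + 2 ≤ (C1 + C2 + 3) * N q := by nlinarith
    nlinarith
  have gc : ContinuousOn g (Set.Ioi 0) := by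
    rw [show g = fun t => qgTh f t - c / t * ((Real.exp (-t) : ℝ) : ℂ) from funext ge]
    refine (qg_th_cont hf1).sub (ContinuousOn.mul (continuousOn_const.div (by fun_prop) ?_)
      (by fun_prop))
    intro t ht
    exact ofReal_ne_zero.2 (ne_of_gt ht)
  have gl := gc.locallyIntegrableOn (μ := volume) measurableSet_Ioi
  have gtop : g =O[atTop] (· ^ (-3 : ℝ)) := by
    refine Asymptotics.IsBigO.of_bound ((C1 + C2 + 3) * N q) ?_
    filter_upwards [eventually_gt_atTop 0] with t ht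
    rw [Real.norm_of_nonneg (by positivity)]
    exact g1 t ht
  have gbot : g =O[𝓝[>] 0] (· ^ (-0 : ℝ)) := by
    refine Asymptotics.IsBigO.of_bound ((C1 + C2 + 3) * N q) ?_
    filter_upwards [self_mem_nhdsWithin] with t ht
    simpa using g0 t ht
  have kc : (kap : ℂ) ≠ 0 := ofReal_ne_zero.2 k0.ne'
  refine ⟨fun s => (kap : ℂ) ^ s * (Complex.Gamma s)⁻¹ * mellin g s, fun s a1 a2 => ?_,
    fun s a1 a2 => ?_, fun s a1 a2 => ?_⟩
  · exact ((differentiableAt_id.const_cpow (Or.inl kc)).mul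
      (Complex.differentiable_one_div_Gamma s)).mul
      (mellin_differentiableAt_of_isBigO_rpow gl gtop a2 gbot a1)
  · have b1 : ‖(kap : ℂ) ^ s‖ ≤ 512 := by
      rw [norm_cpow_eq_rpow_re_of_pos k0]
      calc kap ^ s.re ≤ kap ^ (3 : ℝ) := Real.rpow_le_rpow_of_exponent_le qg_kap.1 (by linarith)
        _ ≤ 8 ^ (3 : ℝ) := Real.rpow_le_rpow k0.le qg_kap.2 (by norm_num)
        _ = 512 := by norm_num
    have b2 : ‖(Complex.Gamma s)⁻¹‖ ≤ C3 * Real.exp (4 * |s.im|) := (h3 s a1 a2).trans (by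
      have := Real.pi_le_four
      gcongr)
    have b3 : ‖mellin g s‖ ≤ (C1 + C2 + 3) * N q * J := by
      rw [hJ, ← integral_const_mul]
      refine norm_integral_le_of_norm_le (qg_phi.const_mul _)
        ((ae_restrict_iff' measurableSet_Ioi).2 (.of_forall fun t ht => ?_))
      have t0 : 0 < t := ht
      rw [norm_smul, norm_cpow_eq_rpow_re_of_pos t0, sub_re, one_re]
      rcases le_total t 1 with t1 | t1
      · rw [min_eq_left (Real.rpow_le_rpow_of_exponent_ge t0 t1 (by norm_num)), mul_comm]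
        exact mul_le_mul (g0 t t0) (Real.rpow_le_rpow_of_exponent_ge t0 t1 (by linarith))
          (by positivity) (by positivity)
      · rw [min_eq_right (Real.rpow_le_rpow_of_exponent_le t1 (by norm_num))]
        refine (mul_le_mul_of_nonneg_left (g1 t t0) (by positivity)).trans ?_
        rw [mul_comm, mul_assoc, ← Real.rpow_add t0]
        exact mul_le_mul_of_nonneg_left (Real.rpow_le_rpow_of_exponent_le t1 (by linarith))
          (by positivity)
    rw [norm_mul, norm_mul]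
    calc _ ≤ 512 * (C3 * Real.exp (4 * |s.im|)) * ((C1 + C2 + 3) * N q * J) := by gcongr
      _ = 512 * C3 * ((C1 + C2 + 3) * J) * N q * Real.exp (4 * |s.im|) := by ring
      _ ≤ _ := by gcongr; linarith
  · have s0 : 0 < s.re := by linarith
    have hs := hasSum_mellin (a := f) (p := fun n => kap * N n) (F := qgTh f) (s := s)
      (fun n => by
        by_cases hn : n = 0
        · exact Or.inl (hn ▸ hf0)
        · exact Or.inr (mul_pos k0 (N_pos hn))) s0 (fun t ht => (qg_th_summ hf1 ht).hasSum) (by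
        refine ((summable_N_rpow a1).mul_left (kap ^ s.re)⁻¹).of_nonneg_of_le
          (fun n => by have := N_nonneg n; positivity) fun n => ?_
        have := N_nonneg n
        rw [Real.mul_rpow k0.le this, Real.rpow_neg this, ← mul_inv, div_eq_mul_inv]
        exact mul_le_of_le_one_left (by positivity) (hf1 n))
    have s1 : 0 < (s + -1).re := by simp; linarith
    have m1 : MellinConvergent (fun t : ℝ => (t : ℂ) ^ (-1 : ℂ) • ((Real.exp (-t) : ℝ) : ℂ)) s := by
      rw [MellinConvergent.cpow_smul]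
      simpa only [MellinConvergent, smul_eq_mul, mul_comm] using Complex.GammaIntegral_convergent s1
    have m2 : mellin (fun t : ℝ => (t : ℂ) ^ (-1 : ℂ) • ((Real.exp (-t) : ℝ) : ℂ)) s =
        Complex.Gamma (s + -1) := by
      rw [mellin_cpow_smul, Complex.Gamma_eq_integral s1, GammaIntegral_eq_mellin]
    have m3 := hasMellin_add (mellinConvergent_of_isBigO_rpow gl gtop a2 gbot s0)
      (hasMellin_const_smul m1 c).1
    have m4 : (fun t => g t + c • ((t : ℂ) ^ (-1 : ℂ) • ((Real.exp (-t) : ℝ) : ℂ))) = qgTh f :=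
      funext fun t => by simp [hg]
    have m5 := m3.2
    rw [m4, (hasMellin_const_smul m1 c).2, m2] at m5
    have hs1 : s - 1 ≠ 0 := fun h => by
      have := congrArg re h
      simp at this; linarith
    have G1 : Complex.Gamma s = (s - 1) * Complex.Gamma (s + -1) := by
      have := Complex.Gamma_add_one (s + -1) (by rwa [← sub_eq_add_neg])
      rw [neg_add_cancel_right] at this
      rw [this, sub_eq_add_neg]
    have G0 : Complex.Gamma s ≠ 0 := Complex.Gamma_ne_zero_of_re_pos s0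
    have G2 : Complex.Gamma (s + -1) ≠ 0 := Complex.Gamma_ne_zero_of_re_pos s1
    have kk : (kap : ℂ) ^ s ≠ 0 := by simp [kc]
    have h7 := (hs.mul_left ((kap : ℂ) ^ s * (Complex.Gamma s)⁻¹)).tsum_eq
    rw [m5] at h7
    have h8 : ∀ n : O, (kap : ℂ) ^ s * (Complex.Gamma s)⁻¹ *
        (Complex.Gamma s * f n / ((kap * N n : ℝ) : ℂ) ^ s) = f n * ((N n : ℝ) : ℂ) ^ (-s) := by
      intro n
      rw [ofReal_mul, mul_cpow_ofReal_nonneg k0.le (N_nonneg n), cpow_neg]
      field_simp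
    rw [tsum_congr h8] at h7
    rw [h7, smul_eq_mul, mul_add]
    congr 1
    rw [G1]
    field_simp

end

end Vale.Agent.P006
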