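import Vale.Agent.P026.Main
import Vale.Agent.P006.QGa
import Vale.Agent.P006.QGb

namespace Vale.Agent.P006

open Vale.Agent.P026 Complex MeasureTheory Filter Topology
open scoped Classical ComplexConjugate Real MatrixGroups

noncomputable section

def qgL (a : O → ℂ) (s : ℂ) : ℂ := ∑' n : O, if Prim n then a n * ((N n : ℝ) : ℂ) ^ (-s) else 0
def qgM (a : O → ℂ) (s : ℂ) : ℂ :=
  ∑' n : O, if Prim n then mu n * (a n * ((N n : ℝ) : ℂ) ^ (-s)) else 0
def qgLam (x : O) : ℂ :=
  ∑ e ∈ (ballO (N x)).filter (fun e => Prim e ∧ e ∣ x), -(mu e * ((Real.log (N e) : ℝ) : ℂ))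
def qgD (a : O → ℂ) (s : ℂ) : ℂ :=
  ∑' x : O, if Prim x then a x * ((N x : ℝ) : ℂ) ^ (-s) * qgLam x else 0

theorem qg_log_le {x σ : ℝ} (hx : 1 ≤ x) (hσ : 7 / 4 ≤ σ) :
    Real.log x * x ^ (-σ) ≤ 4 * x ^ (-(3 / 2) : ℝ) := by
  have x0 : 0 < x := by linarith
  have h1 := Real.log_le_rpow_div x0.le (ε := 1 / 4) (by norm_num)
  calc Real.log x * x ^ (-σ) ≤ x ^ (1 / 4 : ℝ) / (1 / 4) * x ^ (-(7 / 4) : ℝ) :=
        mul_le_mul h1 (Real.rpow_le_rpow_of_exponent_le hx (by linarith)) (by positivity)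
          (by positivity)
    _ = 4 * (x ^ (1 / 4 : ℝ) * x ^ (-(7 / 4) : ℝ)) := by ring
    _ = _ := by rw [← Real.rpow_add x0]; norm_num

theorem qg_term_le {a : O → ℂ} (ha : ∀ n, ‖a n‖ ≤ 1) {s : ℂ} (hs : 7 / 4 ≤ s.re) (n : O) :
    ‖if Prim n then -(mu n * ((Real.log (N n) : ℝ) : ℂ)) * (a n * ((N n : ℝ) : ℂ) ^ (-s)) else 0‖ ≤
      4 * N n ^ (-(3 / 2) : ℝ) := by
  split_ifs with h
  · have n1 := one_le_N h.ne_zero
    have l0 := Real.log_nonneg n1
    rw [norm_mul, norm_neg, norm_mul, norm_mul, norm_real, Real.norm_of_nonneg l0,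
      norm_cpow_eq_rpow_re_of_pos (by linarith), neg_re]
    refine le_trans ?_ (qg_log_le n1 hs)
    exact mul_le_mul (mul_le_of_le_one_left l0 (norm_mu_le n))
      (mul_le_of_le_one_left (by positivity) (ha n)) (by positivity) l0
  · have := N_nonneg n
    rw [norm_zero]; positivity

theorem qg_dM {a : O → ℂ} (ha : ∀ n, ‖a n‖ ≤ 1) {s : ℂ} (hs : 7 / 4 < s.re) :
    HasDerivAt (qgM a) (∑' n : O, if Prim n then
      -(mu n * ((Real.log (N n) : ℝ) : ℂ)) * (a n * ((N n : ℝ) : ℂ) ^ (-s)) else 0) s := by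
  refine hasDerivAt_tsum_of_isPreconnected
    ((summable_N_rpow (s := 3 / 2) (by norm_num)).mul_left 4)
    (isOpen_lt continuous_const continuous_re) (convex_halfSpace_re_gt (7 / 4)).isPreconnected
    (g := fun n s => if Prim n then mu n * (a n * ((N n : ℝ) : ℂ) ^ (-s)) else 0)
    (g' := fun n s => if Prim n then
      -(mu n * ((Real.log (N n) : ℝ) : ℂ)) * (a n * ((N n : ℝ) : ℂ) ^ (-s)) else 0)
    (fun n y _ => ?_) (fun n y hy => qg_term_le ha (le_of_lt hy) n) hs ?_ hs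
  · by_cases h : Prim n
    · simp only [if_pos h]
      have n0 := N_pos h.ne_zero
      have := ((((hasDerivAt_id y).neg).const_cpow (c := ((N n : ℝ) : ℂ))
        (Or.inl (ofReal_ne_zero.2 n0.ne'))).const_mul (a n)).const_mul (mu n)
      refine this.congr_deriv ?_
      rw [ofReal_log n0.le]
      simp only [Pi.neg_apply, id]
      ring
    · simp only [if_neg h]
      exact hasDerivAt_const _ _
  · refine Summable.of_norm ?_
    simpa only [mul_assoc] using zk2_summ (s := s) (by linarith) (fun n => mu n * a n) fun n => by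
      rw [norm_mul]
      exact mul_le_one₀ (norm_mu_le n) (norm_nonneg _) (ha n)

theorem qg_conv {a : O → ℂ} (ha : ∀ n, ‖a n‖ ≤ 1) (hm : ∀ x y, a (x * y) = a x * a y) {s : ℂ}
    (hs : 7 / 4 < s.re) : deriv (qgM a) s * qgL a s = qgD a s := by
  rw [(qg_dM ha hs).deriv]
  exact zk2_conv (fun n => -(mu n * ((Real.log (N n) : ℝ) : ℂ)))
    (fun n => a n * ((N n : ℝ) : ℂ) ^ (-s)) (fun x y => by rw [hm, zk2_cpow_mul]; ring)
    (((summable_N_rpow (s := 3 / 2) (by norm_num)).mul_left 4).of_nonneg_of_le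
      (fun _ => norm_nonneg _) (qg_term_le ha hs.le)) (zk2_summ (by linarith) a ha)

theorem qg_M_le {a : O → ℂ} (ha : ∀ n, ‖a n‖ ≤ 1) {s : ℂ} (hs : s.re = 3 / 2) :
    ‖qgM a s‖ ≤ ∑' n : O, N n ^ (-(3 / 2) : ℝ) := by
  refine tsum_of_norm_bounded (summable_N_rpow (s := 3 / 2) (by norm_num)).hasSum fun n => ?_
  split_ifs with h
  · rw [norm_mul, norm_mul, norm_cpow_eq_rpow_re_of_pos (N_pos h.ne_zero), neg_re, hs]
    have := N_nonneg n
    exact mul_le_of_le_one_left (by positivity) (norm_mu_le n) |>.trans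
      (mul_le_of_le_one_left (by positivity) (ha n))
  · rw [norm_zero]; exact Real.rpow_nonneg (N_nonneg n) _

theorem qg_zero {q : O} (hq : q ≠ 0) {a : O → ℂ} (ha : ∀ n, ‖a n‖ ≤ 1)
    (hm : ∀ x y, a (x * y) = a x * a y) (h1 : a 1 = 1) (he : ∀ n, ¬ OddO n → a n = 0)
    (hp : Per q fun n => if Prim n then a n else 0) {E : ℂ → ℂ} {j : ℕ}
    (hE : ∀ s : ℂ, 0 < s.re → s.re < 3 → DifferentiableAt ℂ E s)
    (hL : ∀ s : ℂ, 1 < s.re → s.re < 3 → E s = (s - 1) ^ j * qgL a s)
    {s : ℂ} (s1 : 999 / 1000 < s.re) (s2 : s.re < 3) (h : (s - 1) ^ j ≠ 0) : E s ≠ 0 := by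
  set f : O → ℂ := fun n => if Prim n then a n else 0 with hf
  have f1 : ∀ n, ‖f n‖ ≤ 1 := fun n => by
    simp only [hf]; split_ifs; exacts [ha n, by simp]
  obtain ⟨C, hC⟩ := fin1 (ha_final (q0 := 36 * q) (mul_ne_zero (by norm_num) hq) (dvd_mul_right _ _))
    (ω := f) ⟨fun x y h => hp x y ((dvd_mul_left _ _).trans h), f1⟩
  have hα : ∀ n, NN n → ‖mu n * f n‖ ≤ 1 := fun n _ => by
    rw [norm_mul]; exact mul_le_one₀ (norm_mu_le n) (norm_nonneg _) (f1 n)
  have op : IsOpen {s : ℂ | 999 / 1000 < s.re ∧ s.re < 3} :=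
    (isOpen_lt continuous_const continuous_re).inter (isOpen_lt continuous_re continuous_const)
  have a1 : AnalyticOnNhd ℂ (fun s => mellin (fun X => AA (fun n => mu n * f n) 1 X 0 1) (-s) * E s)
      {s : ℂ | 999 / 1000 < s.re ∧ s.re < 3} :=
    DifferentiableOn.analyticOnNhd (fun s hs => ((fin2_diff hα hC hs.1).mul
      (hE s (by linarith [hs.1]) hs.2)).differentiableWithinAt) op
  have a2 : AnalyticOnNhd ℂ (fun s : ℂ => (s - 1) ^ j * (((√π : ℝ) : ℂ) * Complex.exp (s ^ 2 / 4)))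
      {s : ℂ | 999 / 1000 < s.re ∧ s.re < 3} :=
    DifferentiableOn.analyticOnNhd (Differentiable.differentiableOn (by fun_prop)) op
  have e := a1.eqOn_of_preconnected_of_eventuallyEq a2
    ((convex_halfSpace_re_gt _).inter (convex_halfSpace_re_lt _)).isPreconnected (z₀ := 2)
    ⟨by norm_num, by norm_num⟩ (by
      filter_upwards [((isOpen_lt continuous_const continuous_re).inter
        (isOpen_lt continuous_re continuous_const)).mem_nhds
        (show (2 : ℂ) ∈ {s : ℂ | 1 < s.re} ∩ {s : ℂ | s.re < 3} from ⟨by simp, by norm_num⟩)]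
        with z hz
      have e1 : (∑' n : O, if NN n then mu n * f n * ((N n : ℝ) : ℂ) ^ (-z) else 0) = qgM a z := by
        refine tsum_congr fun n => ?_
        by_cases c1 : NN n
        · simp only [hf, if_pos c1, if_pos c1.1, mul_assoc]
        · rw [if_neg c1]
          split_ifs with c2
          · by_cases c3 : Squarefree n
            · rw [he n fun c4 => c1 ⟨c2, c3, c4⟩]; simp
            · rw [div_mu_zero c3]; simp
          · rfl
      have e2 : qgM a z * qgL a z = 1 := zk2_mob hz.1 a ha hm h1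
      rw [fin2_sum hα hz.1, e1, hL z hz.1 hz.2]
      linear_combination ((z - 1) ^ j * (((√π : ℝ) : ℂ) * Complex.exp (z ^ 2 / 4))) * e2) ⟨s1, s2⟩
  intro c
  simp only [c, mul_zero] at e
  exact mul_ne_zero h (mul_ne_zero (ofReal_ne_zero.2 (Real.sqrt_pos.2 Real.pi_pos).ne')
    (Complex.exp_ne_zero _)) e.symm

theorem qg_alg {s E0 E' M0 M' L0 : ℂ} {j : ℕ} (hs : s - 1 ≠ 0) (h0 : E0 ≠ 0) (e2 : M0 * L0 = 1)
    (e3 : E0 = (s - 1) ^ j * L0) (d4 : M' * E0 + M0 * E' = j * (s - 1) ^ (j - 1))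
    (hj : j = 0 ∨ j = 1) : M' * L0 = j / (s - 1) + -(E' / E0) := by
  rcases hj with rfl | rfl
  · simp only [pow_zero, one_mul, Nat.cast_zero, zero_mul, zero_div, zero_add] at *
    subst e3
    field_simp
    linear_combination E0 * d4 - E' * e2
  · simp only [pow_one, Nat.cast_one, Nat.sub_self, pow_zero, mul_one] at *
    field_simp
    linear_combination (s - 1) * L0 * d4 - (s - 1) * E' * e2 - e3

theorem qg_D : ∃ C : ℝ, 0 < C ∧ ∀ (q : O) (a : O → ℂ) (j : ℕ), q ≠ 0 → (∀ n, ‖a n‖ ≤ 1) →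
    (∀ x y, a (x * y) = a x * a y) → a 1 = 1 → (∀ n, ¬ OddO n → a n = 0) →
    (Per q fun n => if Prim n then a n else 0) →
    (j = 0 ∧ qgMean q (fun n => if Prim n then a n else 0) = 0 ∨
      j = 1 ∧ qgMean q (fun n => if Prim n then a n else 0) ≠ 0) →
    ∃ H : ℂ → ℂ, (∀ s : ℂ, 1999 / 2000 ≤ s.re → s.re ≤ 2 →
        DifferentiableAt ℂ H s ∧ ‖H s‖ ≤ C * (1 + Real.log (N q) + |s.im|)) ∧
      ∀ s : ℂ, s.re = 2 → qgD a s = j / (s - 1) + H s := by
  obtain ⟨C, C1, hC⟩ := qg_cont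
  set S := ∑' n : O, N n ^ (-(3 / 2) : ℝ) with hS
  have S0 : 0 ≤ S := tsum_nonneg fun n => Real.rpow_nonneg (N_nonneg n) _
  set m := (2 * (S + 1))⁻¹ with hmd
  have m0 : 0 < m := by positivity
  have m1 : m ≤ 1 := inv_le_one_of_one_le₀ (by linarith)
  have lm := Real.log_nonpos m0.le m1
  have lC := Real.log_nonneg (show 1 ≤ 2 * C + 512 by linarith)
  refine ⟨20000000 * (Real.log (2 * C + 512) - Real.log m + 5), by linarith,
    fun q a j hq ha hm h1 he hp hj => ?_⟩
  set f : O → ℂ := fun n => if Prim n then a n else 0 with hf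
  have f1 : ∀ n, ‖f n‖ ≤ 1 := fun n => by
    simp only [hf]; split_ifs; exacts [ha n, by simp]
  obtain ⟨F, F1, F2, F3⟩ := hC q f hq hp f1 (if_neg fun h => h.ne_zero rfl)
  set c := qgMean q f with hc
  have c1 : ‖c‖ ≤ 1 := qg_mean_le hq f1
  have q1 := one_le_N hq
  have k0 := kap_pos
  have kc : (kap : ℂ) ≠ 0 := ofReal_ne_zero.2 k0.ne'
  set E : ℂ → ℂ := fun s => (s - 1) ^ j * F s + (kap : ℂ) ^ s * c with hE
  have E1 : ∀ s : ℂ, 0 < s.re → s.re < 3 → DifferentiableAt ℂ E s := fun s a1 a2 =>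
    (((differentiableAt_id.sub_const 1).pow j).mul (F1 s a1 a2)).add
      ((differentiableAt_id.const_cpow (Or.inl kc)).mul_const c)
  have E2 : ∀ s : ℂ, 1 < s.re → s.re < 3 → E s = (s - 1) ^ j * qgL a s := by
    intro s a1 a2
    have hs1 : s - 1 ≠ 0 := fun h => by
      have := congrArg re h
      simp at this; linarith
    have e : qgL a s = ∑' n : O, f n * ((N n : ℝ) : ℂ) ^ (-s) :=
      tsum_congr fun n => by simp only [hf]; split_ifs <;> simp
    rw [e, F3 s a1 a2]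
    simp only [hE]
    rcases hj with ⟨rfl, h⟩ | ⟨rfl, -⟩
    · rw [h]; simp
    · field_simp
  have E3 : ∀ s : ℂ, 999 / 1000 < s.re → s.re < 3 → E s ≠ 0 := by
    intro s a1 a2
    by_cases h : (s - 1) ^ j = 0
    · rcases hj with ⟨rfl, -⟩ | ⟨rfl, h'⟩
      · simp at h
      · simp only [hE, h, zero_mul, zero_add]
        exact mul_ne_zero (by simp [kc]) h'
    · exact qg_zero hq ha hm h1 he hp E1 E2 a1 a2 h
  have E4 : ∀ s : ℂ, 999 / 1000 < s.re → s.re < 5 / 2 →
      ‖E s‖ ≤ (2 * C + 512) * N q * Real.exp (5 * |s.im|) := by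
    intro s a1 a2
    have t0 := abs_nonneg s.im
    have b1 : ‖(kap : ℂ) ^ s‖ ≤ 512 := by
      rw [norm_cpow_eq_rpow_re_of_pos k0]
      calc kap ^ s.re ≤ kap ^ (3 : ℝ) := Real.rpow_le_rpow_of_exponent_le qg_kap.1 (by linarith)
        _ ≤ 8 ^ (3 : ℝ) := Real.rpow_le_rpow k0.le qg_kap.2 (by norm_num)
        _ = 512 := by norm_num
    have b0 := Real.add_one_le_exp |s.im|
    have b2 : ‖(s - 1) ^ j‖ ≤ 2 * Real.exp |s.im| := by
      rcases hj with ⟨rfl, -⟩ | ⟨rfl, -⟩
      · rw [pow_zero, norm_one]; linarith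
      · rw [pow_one]
        refine (norm_le_abs_re_add_abs_im _).trans ?_
        have : |(s - 1).re| ≤ 2 := by rw [sub_re, one_re, abs_le]; constructor <;> linarith
        rw [sub_im, one_im, sub_zero]
        linarith
    have b3 := F2 s (by linarith) a2.le
    have b4 : Real.exp (5 * |s.im|) = Real.exp |s.im| * Real.exp (4 * |s.im|) := by
      rw [← Real.exp_add]; ring_nf
    have b5 : 1 ≤ N q * Real.exp (5 * |s.im|) :=
      one_le_mul_of_one_le_of_one_le q1 (Real.one_le_exp (by positivity))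
    refine (norm_add_le _ _).trans ?_
    rw [norm_mul, norm_mul]
    calc _ ≤ 2 * Real.exp |s.im| * (C * N q * Real.exp (4 * |s.im|)) + 512 * 1 := by gcongr
      _ ≤ 2 * Real.exp |s.im| * (C * N q * Real.exp (4 * |s.im|)) +
          512 * (N q * Real.exp (5 * |s.im|)) := by gcongr
      _ = _ := by rw [b4]; ring
  have E5 : ∀ s : ℂ, s.re = 3 / 2 → m ≤ ‖E s‖ := by
    intro s hs
    have b1 := congrArg (‖·‖) (zk2_mob (s := s) (by rw [hs]; norm_num) a ha hm h1)
    simp only [norm_mul, norm_one] at b1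
    have b2 := qg_M_le ha hs
    have b3 : 1 / 2 ≤ ‖(s - 1) ^ j‖ := by
      rcases hj with ⟨rfl, -⟩ | ⟨rfl, -⟩
      · rw [pow_zero, norm_one]; norm_num
      · rw [pow_one]
        refine le_trans ?_ ((le_abs_self _).trans (abs_re_le_norm _))
        rw [sub_re, hs, one_re]; norm_num
    have b4 : 1 ≤ (S + 1) * ‖qgL a s‖ := by
      rw [← b1]
      exact mul_le_mul_of_nonneg_right (b2.trans (by linarith)) (norm_nonneg _)
    rw [E2 s (by rw [hs]; norm_num) (by rw [hs]; norm_num), norm_mul, hmd,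
      inv_le_iff_one_le_mul₀ (by positivity)]
    nlinarith [norm_nonneg (qgL a s)]
  have op : IsOpen {s : ℂ | 0 < s.re ∧ s.re < 3} :=
    (isOpen_lt continuous_const continuous_re).inter (isOpen_lt continuous_re continuous_const)
  have E6 : DifferentiableOn ℂ (deriv E) {s : ℂ | 0 < s.re ∧ s.re < 3} :=
    DifferentiableOn.deriv (fun s hs => (E1 s hs.1 hs.2).differentiableWithinAt) op
  refine ⟨fun s => -(deriv E s / E s), fun s a1 a2 => ⟨?_, ?_⟩, fun s hs => ?_⟩
  · exact ((E6.differentiableAt (op.mem_nhds ⟨by linarith, by linarith⟩)).div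
      (E1 s (by linarith) (by linarith)) (E3 s (by linarith) (by linarith))).neg
  · rw [norm_neg]
    refine (qg_strip (one_le_mul_of_one_le_of_one_le (by linarith) q1) m0 m1
      (fun s a1 a2 => E1 s (by linarith) (by linarith))
      (fun s a1 a2 => E3 s a1 (by linarith)) E4 E5 a1 a2).trans ?_
    rw [Real.log_mul (by linarith) (by linarith)]
    have := Real.log_nonneg q1
    have := abs_nonneg s.im
    nlinarith
  · have hs1 : s - 1 ≠ 0 := fun h => by
      have := congrArg re h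
      simp at this; linarith
    have d1 := (qg_dM ha (s := s) (by rw [hs]; norm_num)).differentiableAt.hasDerivAt
    have d2 := (E1 s (by rw [hs]; norm_num) (by rw [hs]; norm_num)).hasDerivAt
    have d3 : (fun z => qgM a z * E z) =ᶠ[𝓝 s] fun z => (z - 1) ^ j := by
      filter_upwards [((isOpen_lt continuous_const continuous_re).inter
        (isOpen_lt continuous_re continuous_const)).mem_nhds
        (show s ∈ {s : ℂ | 1 < s.re} ∩ {s : ℂ | s.re < 3} from
          ⟨by simp [hs], by simp [hs]; norm_num⟩)] with z hz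
      have e2 : qgM a z * qgL a z = 1 := zk2_mob hz.1 a ha hm h1
      rw [E2 z hz.1 hz.2]
      linear_combination (z - 1) ^ j * e2
    have d4 := ((d1.mul d2).congr_of_eventuallyEq d3.symm).unique
      (((hasDerivAt_id s).sub_const 1).pow j)
    have e2 : qgM a s * qgL a s = 1 := zk2_mob (by rw [hs]; norm_num) a ha hm h1
    have e3 := E2 s (by rw [hs]; norm_num) (by rw [hs]; norm_num)
    have e4 := E3 s (by rw [hs]; norm_num) (by rw [hs]; norm_num)
    rw [← qg_conv ha hm (by rw [hs]; norm_num)]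
    refine qg_alg hs1 e4 e2 e3 ?_ (by omega)
    simpa using d4

end

end Vale.Agent.P006
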