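import Vale.Agent.P006.Sep
import Vale.Agent.P026.GamB

namespace Vale.Agent.P006

open Vale.Agent.P026 Complex MeasureTheory Filter Topology
open scoped Classical ComplexConjugate Real MatrixGroups

noncomputable section

def qgW (K X : ℝ) (s : ℂ) : ℂ :=
  ((√π / K : ℝ) : ℂ) * Complex.exp (s ^ 2 / (4 * K ^ 2)) * (X : ℂ) ^ s

theorem qgW_diff (K : ℝ) {X : ℝ} (hX : 0 < X) : Differentiable ℂ (qgW K X) := by
  intro s
  unfold qgW
  exact DifferentiableAt.mul (by fun_prop)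
    (differentiableAt_id.const_cpow (Or.inl (ofReal_ne_zero.2 hX.ne')))

theorem qgW_norm {K X : ℝ} (hK : 0 < K) (hX : 0 < X) (s : ℂ) :
    ‖qgW K X s‖ = √π / K * Real.exp ((s.re ^ 2 - s.im ^ 2) / (4 * K ^ 2)) * X ^ s.re := by
  have : (s ^ 2 / (4 * K ^ 2)).re = (s.re ^ 2 - s.im ^ 2) / (4 * K ^ 2) := by
    rw [show (4 * (K : ℂ) ^ 2) = ((4 * K ^ 2 : ℝ) : ℂ) by push_cast; ring, div_ofReal_re]
    simp [pow_two]
  rw [qgW, norm_mul, norm_mul, norm_real, Real.norm_of_nonneg (by positivity), norm_exp, this,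
    norm_cpow_eq_rpow_re_of_pos hX]

theorem qgW_le {K X : ℝ} (hK : 1 ≤ K) (hX : 0 < X) {s : ℂ} (h0 : 0 ≤ s.re) (h2 : s.re ≤ 2) :
    ‖qgW K X s‖ * (1 + |s.im|) ≤
      √π * Real.exp 3 * X ^ s.re * Real.exp (-(1 / (8 * K ^ 2)) * s.im ^ 2) := by
  have K0 : 0 < K := by linarith
  rw [qgW_norm K0 hX]
  have h1 : 1 + |s.im| ≤ K * Real.exp (2 + s.im ^ 2 / (8 * K ^ 2)) := by
    have a1 : 1 + |s.im| ≤ K * (|s.im| / K + 1) := by
      rw [mul_add, mul_div_cancel₀ _ K0.ne']; linarith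
    refine a1.trans (mul_le_mul_of_nonneg_left ((Real.add_one_le_exp _).trans
      (Real.exp_le_exp.2 ?_)) K0.le)
    have : s.im ^ 2 / (8 * K ^ 2) = (|s.im| / K) ^ 2 / 8 := by rw [div_pow, sq_abs]; field_simp
    rw [this]
    nlinarith [sq_nonneg (|s.im| / K - 4)]
  have h3 : s.re ^ 2 / (4 * K ^ 2) ≤ 1 := by
    rw [div_le_one (by positivity)]; nlinarith
  calc _ ≤ √π / K * Real.exp ((s.re ^ 2 - s.im ^ 2) / (4 * K ^ 2)) * X ^ s.re *
        (K * Real.exp (2 + s.im ^ 2 / (8 * K ^ 2))) := by gcongr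
    _ = √π * X ^ s.re * (Real.exp ((s.re ^ 2 - s.im ^ 2) / (4 * K ^ 2)) *
        Real.exp (2 + s.im ^ 2 / (8 * K ^ 2))) := by field_simp
    _ ≤ √π * X ^ s.re * (Real.exp 3 * Real.exp (-(1 / (8 * K ^ 2)) * s.im ^ 2)) := by
        rw [← Real.exp_add, ← Real.exp_add]
        refine mul_le_mul_of_nonneg_left (Real.exp_le_exp.2 ?_) (by positivity)
        have : (s.re ^ 2 - s.im ^ 2) / (4 * K ^ 2) + (2 + s.im ^ 2 / (8 * K ^ 2)) =
            s.re ^ 2 / (4 * K ^ 2) + 2 + -(1 / (8 * K ^ 2)) * s.im ^ 2 := by field_simp; ring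
        linarith
    _ = _ := by ring

theorem qgW_le' {K X : ℝ} (hK : 1 ≤ K) (hX : 0 < X) {s : ℂ} (h0 : 0 ≤ s.re) (h2 : s.re ≤ 2) :
    ‖qgW K X s‖ ≤ √π * Real.exp 3 * X ^ s.re * Real.exp (-(1 / (8 * K ^ 2)) * s.im ^ 2) :=
  (le_mul_of_one_le_right (norm_nonneg _) (by linarith [abs_nonneg s.im])).trans
    (qgW_le hK hX h0 h2)

theorem qgW_int {K X : ℝ} (hK : 1 ≤ K) (hX : 0 < X) :
    Integrable fun τ : ℝ => qgW K X ((2 : ℝ) + τ * Complex.I) :=
  gamB_line (fun s _ => qgW_diff K hX s)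
    ((integrable_exp_neg_mul_sq (b := 1 / (8 * K ^ 2)) (by positivity)).const_mul
      (√π * Real.exp 3 * X ^ (2 : ℝ))) fun s hs => by
      have := qgW_le' hK hX (s := s) (by linarith) hs.le
      rwa [hs] at this

theorem qgW_inv {K X x : ℝ} (hK : 0 < K) (hX : 0 < X) (hx : 0 < x) :
    WK K 0 (x / X) = 1 / (2 * π) * ∫ τ : ℝ, qgW K X ((2 : ℝ) + τ * Complex.I) *
      (x : ℂ) ^ (-((2 : ℝ) + τ * Complex.I)) := by
  rw [WK_inv_mellin hK 0 2 (div_pos hx hX)]
  congr 1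
  refine integral_congr_ae (.of_forall fun τ => ?_)
  simp only [qgW, add_zero]
  rw [div_eq_mul_inv x, ofReal_mul, mul_cpow_ofReal_nonneg hx.le (inv_pos.2 hX).le, ofReal_inv,
    inv_cpow _ _ (by rw [arg_ofReal_of_nonneg hX.le]; exact Real.pi_pos.ne), cpow_neg (X : ℂ),
    inv_inv]
  ring

theorem qg_step1 {K X : ℝ} (hK : 1 ≤ K) (hX : 0 < X) {b : O → ℂ} (h0 : b 0 = 0)
    (hb : Summable fun n => ‖b n‖ * N n ^ (-2 : ℝ)) :
    ∑' n : O, b n * WK K 0 (N n / X) = 1 / (2 * π) * ∫ τ : ℝ, qgW K X ((2 : ℝ) + τ * Complex.I) *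
      ∑' n : O, b n * ((N n : ℝ) : ℂ) ^ (-((2 : ℝ) + τ * Complex.I)) := by
  have hi := qgW_int hK hX
  have hn : ∀ (n : O) (τ : ℝ), ‖qgW K X ((2 : ℝ) + τ * Complex.I) *
      (b n * ((N n : ℝ) : ℂ) ^ (-((2 : ℝ) + τ * Complex.I)))‖ =
      ‖qgW K X ((2 : ℝ) + τ * Complex.I)‖ * (‖b n‖ * N n ^ (-2 : ℝ)) := by
    intro n τ
    by_cases h : n = 0
    · simp [h, h0]
    · rw [norm_mul, norm_mul, norm_cpow_eq_rpow_re_of_pos (N_pos h)]
      simp
  have h := hasSum_integral_of_summable_integral_norm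
    (F := fun (n : O) (τ : ℝ) => qgW K X ((2 : ℝ) + τ * Complex.I) *
      (b n * ((N n : ℝ) : ℂ) ^ (-((2 : ℝ) + τ * Complex.I)))) (μ := volume) (fun n => by
      by_cases h : n = 0
      · simp [h, h0]
      · refine (hi.norm.mul_const (‖b n‖ * N n ^ (-2 : ℝ))).mono' (hi.1.mul
          (Continuous.aestronglyMeasurable (continuous_const.mul ?_)))
          (.of_forall fun τ => (hn n τ).le)
        exact Continuous.const_cpow (by fun_prop) (Or.inl (ofReal_ne_zero.2 (N_pos h).ne')))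
    (by simp only [hn, integral_mul_const]; exact hb.mul_left _)
  simp only [tsum_mul_left] at h
  rw [← h.tsum_eq, ← tsum_mul_left]
  refine tsum_congr fun n => ?_
  by_cases h : n = 0
  · simp [h, h0]
  · rw [qgW_inv (by linarith) hX (N_pos h), mul_left_comm, ← integral_const_mul (b n)]
    simp only [mul_left_comm (b n)]

theorem qg_step2 {K X : ℝ} (hK : 1 ≤ K) (hX : 0 < X) :
    ∫ x in Set.Ioi (1 : ℝ), WK K 0 (x / X) = 1 / (2 * π) * ∫ τ : ℝ,
      qgW K X ((2 : ℝ) + τ * Complex.I) * (1 / ((2 : ℝ) + τ * Complex.I - 1)) := by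
  have hi := qgW_int hK hX
  rw [setIntegral_congr_fun measurableSet_Ioi fun x hx =>
    qgW_inv (by linarith) hX (one_pos.trans hx), integral_const_mul, integral_integral_swap]
  · congr 1
    refine integral_congr_ae (.of_forall fun τ => ?_)
    simp only
    rw [integral_const_mul, integral_Ioi_cpow_of_lt (by simp) one_pos, ofReal_one, one_cpow,
      ← neg_div_neg_eq]
    congr 2 <;> ring
  · refine ((integrableOn_Ioi_rpow_of_lt (a := -2) (by norm_num) one_pos).mul_prod hi.norm).mono'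
      (AEStronglyMeasurable.mul hi.1.comp_snd (Measurable.aestronglyMeasurable (by fun_prop))) ?_
    rw [← Measure.restrict_univ (μ := (volume : Measure ℝ)), Measure.restrict_restrict,
      Set.inter_univ, Measure.prod_restrict, ae_restrict_iff' (measurableSet_Ioi.prod .univ)]
    · refine .of_forall fun z hz => le_of_eq ?_
      have : 0 < z.1 := one_pos.trans hz.1
      simp only [Function.uncurry]
      rw [norm_mul, norm_cpow_eq_rpow_re_of_pos this, mul_comm]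
      simp
    · exact measurableSet_Ioi

theorem qg_main {K X : ℝ} (hK : 1 ≤ K) (hX : 0 < X) {σ : ℝ} (h0 : 0 ≤ σ) (h1 : σ ≤ 1) :
    ‖(∫ x in Set.Ioi (1 : ℝ), WK K 0 (x / X)) -
      ((X * (√π / K * Real.exp (1 / (4 * K ^ 2))) : ℝ) : ℂ)‖ ≤ 6 * X ^ σ := by
  have K0 : 0 < K := by linarith
  obtain ⟨m1, m2⟩ := WK_mellin K0 0 1
  have m3 : IntegrableOn (fun x => WK K 0 (x / X)) (Set.Ioi 0) := by
    have := (MellinConvergent.comp_mul_left (f := WK K 0) (s := 1) (inv_pos.2 hX)).2 m1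
    simpa only [MellinConvergent, sub_self, cpow_zero, one_smul, div_eq_inv_mul] using this
  have m4 : ∫ x in Set.Ioi (0 : ℝ), WK K 0 (x / X) =
      ((X * (√π / K * Real.exp (1 / (4 * K ^ 2))) : ℝ) : ℂ) := by
    have := mellin_comp_mul_right (WK K 0) 1 (inv_pos.2 hX)
    rw [m2] at this
    simp only [mellin, sub_self, cpow_zero, one_smul, cpow_neg_one, ofReal_inv, inv_inv,
      smul_eq_mul, add_zero, one_pow, one_mul] at this
    simp only [div_eq_mul_inv _ X, this]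
    push_cast
    ring
  have m5 : ∀ x, WK K 0 x = ((‖WK K 0 x‖ : ℝ) : ℂ) := fun x => by
    rw [norm_WK]; simp [WK]
  rw [← m4, ← Set.Ioc_union_Ioi_eq_Ioi zero_le_one, setIntegral_union Set.Ioc_disjoint_Ioi_same
    measurableSet_Ioi (m3.mono_set Set.Ioc_subset_Ioi_self)
    (m3.mono_set (Set.Ioi_subset_Ioi zero_le_one)), sub_add_cancel_right, norm_neg]
  rcases le_total 1 X with hx | hx
  · have := norm_setIntegral_le_of_norm_le_const (μ := volume) (s := Set.Ioc (0 : ℝ) 1)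
      (f := fun x => WK K 0 (x / X)) (C := 1) (by simp) (fun x _ => by
        rw [norm_WK, Real.exp_le_one_iff]
        simp only [zero_re, zero_mul, zero_sub, Left.neg_nonpos_iff]
        positivity)
    have h2 := Real.one_le_rpow hx h0
    simp only [Measure.real, Real.volume_Ioc, sub_zero, ENNReal.ofReal_one, ENNReal.toReal_one,
      mul_one] at this
    linarith
  · refine (norm_integral_le_integral_norm _).trans ((setIntegral_mono_set m3.norm
      (.of_forall fun _ => norm_nonneg _) Set.Ioc_subset_Ioi_self.eventuallyLE).trans ?_)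
    rw [setIntegral_congr_fun measurableSet_Ioi fun x _ => m5 (x / X), integral_complex_ofReal,
      ofReal_inj] at m4
    rw [m4]
    have h2 : X ≤ X ^ σ := Real.self_le_rpow_of_le_one hX.le hx h1
    have h3 : √π / K ≤ 2 := by
      rw [div_le_iff₀ K0]
      have : √π ≤ 2 := Real.sqrt_le_iff.2 ⟨by norm_num, by linarith [Real.pi_le_four]⟩
      linarith
    have h4 : Real.exp (1 / (4 * K ^ 2)) ≤ 3 := by
      refine (Real.exp_le_exp.2 (show 1 / (4 * K ^ 2) ≤ 1 from ?_)).trans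
        (Real.exp_one_lt_d9.le.trans (by norm_num))
      rw [div_le_one (by positivity)]; nlinarith
    calc _ ≤ X ^ σ * (2 * 3) := by gcongr
      _ = _ := by ring

theorem qg_step3 {K X B σ : ℝ} (hK : 1 ≤ K) (hX : 0 < X) (hB : 0 ≤ B) (h0 : 0 ≤ σ) (h1 : σ ≤ 1)
    {H : ℂ → ℂ} (hH : ∀ s : ℂ, σ ≤ s.re → s.re ≤ 2 →
      DifferentiableAt ℂ H s ∧ ‖H s‖ ≤ B * (1 + |s.im|)) :
    Integrable (fun τ : ℝ => qgW K X ((2 : ℝ) + τ * Complex.I) * H ((2 : ℝ) + τ * Complex.I)) ∧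
    ‖1 / (2 * π) * ∫ τ : ℝ, qgW K X ((2 : ℝ) + τ * Complex.I) * H ((2 : ℝ) + τ * Complex.I)‖ ≤
      60 * B * K * X ^ σ := by
  have K0 : 0 < K := by linarith
  have b0 : 0 < 1 / (8 * K ^ 2) := by positivity
  have hi := integrable_exp_neg_mul_sq b0
  have hb : ∀ s : ℂ, σ ≤ s.re → s.re ≤ 2 → ‖qgW K X s * H s‖ ≤
      B * (√π * Real.exp 3 * X ^ s.re * Real.exp (-(1 / (8 * K ^ 2)) * s.im ^ 2)) := by
    intro s a1 a2
    rw [norm_mul]
    refine (mul_le_mul_of_nonneg_left (hH s a1 a2).2 (norm_nonneg _)).trans ?_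
    rw [mul_left_comm]
    exact mul_le_mul_of_nonneg_left (qgW_le hK hX (by linarith) a2) hB
  have hd : ∀ s : ℂ, σ ≤ s.re → s.re ≤ 2 → DifferentiableAt ℂ (fun s => qgW K X s * H s) s :=
    fun s a1 a2 => (qgW_diff K hX s).mul (hH s a1 a2).1
  refine ⟨gamB_line (F := fun s => qgW K X s * H s) (fun s hs => hd s (by linarith) hs.le)
    ((hi.const_mul (√π * Real.exp 3 * X ^ (2 : ℝ))).const_mul B) fun s hs => ?_, ?_⟩
  · have := hb s (by linarith) hs.le
    rwa [hs] at this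
  rw [← shift_strip (F := fun s => qgW K X s * H s) (by linarith : σ ≤ 2) hd
    ((hi.const_mul (√π * Real.exp 3 * (X ^ σ + X ^ (2 : ℝ)))).const_mul B) ?_ ?_]
  · have h2 := norm_integral_le_of_norm_le ((hi.const_mul (√π * Real.exp 3 * X ^ σ)).const_mul B)
      (f := fun τ : ℝ => qgW K X (σ + τ * Complex.I) * H (σ + τ * Complex.I))
      (.of_forall fun τ => by simpa using hb (σ + τ * Complex.I) (by simp) (by simp; linarith))
    rw [integral_const_mul, integral_const_mul, integral_gaussian] at h2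
    have h3 : √(π / (1 / (8 * K ^ 2))) ≤ 6 * K := by
      refine Real.sqrt_le_iff.2 ⟨by positivity, ?_⟩
      rw [div_div_eq_mul_div, div_one]
      nlinarith [Real.pi_le_four, sq_nonneg K]
    have h4 : √π ≤ 2 := Real.sqrt_le_iff.2 ⟨by norm_num, by linarith [Real.pi_le_four]⟩
    have h5 : Real.exp 3 ≤ 27 := by
      rw [show (3 : ℝ) = (3 : ℕ) * 1 by norm_num, Real.exp_nat_mul]
      exact (pow_le_pow_left₀ (Real.exp_pos _).le
        (Real.exp_one_lt_d9.le.trans (by norm_num : _ ≤ (3 : ℝ))) 3).trans (by norm_num)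
    have h6 : ‖(1 / (2 * π) : ℂ)‖ ≤ 1 / 6 := by
      rw [norm_div, norm_one, norm_mul, Complex.norm_two, norm_real,
        Real.norm_of_nonneg Real.pi_pos.le]
      exact one_div_le_one_div_of_le (by norm_num) (by linarith [Real.pi_gt_three])
    rw [norm_mul]
    calc _ ≤ 1 / 6 * (B * (2 * 27 * X ^ σ * (6 * K))) := by
          gcongr
          exact h2.trans (by gcongr)
      _ = 54 * (B * K * X ^ σ) := by ring
      _ ≤ 60 * (B * K * X ^ σ) := by gcongr; norm_num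
      _ = _ := by ring
  · have := ((tendsto_rpow_abs_mul_exp_neg_mul_sq_cocompact b0 0).const_mul
      (√π * Real.exp 3 * (X ^ σ + X ^ (2 : ℝ)))).const_mul B
    simpa using this
  · intro s a1 a2
    refine (hb s a1 a2).trans ?_
    have : X ^ s.re ≤ X ^ σ + X ^ (2 : ℝ) := by
      rcases le_total 1 X with hx | hx
      · exact (Real.rpow_le_rpow_of_exponent_le hx a2).trans (le_add_of_nonneg_left (by positivity))
      · exact (Real.rpow_le_rpow_of_exponent_ge hX hx a1).trans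
          (le_add_of_nonneg_right (by positivity))
    gcongr

/-- smoothed sums from a continuation of the Dirichlet series -/
theorem qg_smooth {K X B σ : ℝ} (hK : 1 ≤ K) (hX : 0 < X) (hB : 0 ≤ B) (h0 : 0 ≤ σ) (h1 : σ ≤ 1)
    {H : ℂ → ℂ} (hH : ∀ s : ℂ, σ ≤ s.re → s.re ≤ 2 →
      DifferentiableAt ℂ H s ∧ ‖H s‖ ≤ B * (1 + |s.im|)) {b : O → ℂ} (hb0 : b 0 = 0)
    (hb : Summable fun n => ‖b n‖ * N n ^ (-2 : ℝ)) {j : ℝ} (j0 : 0 ≤ j) (j1 : j ≤ 1)
    (hD : ∀ s : ℂ, s.re = 2 → ∑' n : O, b n * ((N n : ℝ) : ℂ) ^ (-s) = j / (s - 1) + H s) :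
    ‖∑' n : O, b n * WK K 0 (N n / X) -
      ((j * (X * (√π / K * Real.exp (1 / (4 * K ^ 2)))) : ℝ) : ℂ)‖ ≤ (60 * B + 6) * K * X ^ σ := by
  obtain ⟨i1, i2⟩ := qg_step3 hK hX hB h0 h1 hH
  have i3 : Integrable fun τ : ℝ =>
      qgW K X ((2 : ℝ) + τ * Complex.I) * (1 / ((2 : ℝ) + τ * Complex.I - 1)) := by
    refine (qgW_int hK hX).mul_bdd (c := 1) (Measurable.aestronglyMeasurable (by fun_prop))
      (.of_forall fun τ => ?_)
    rw [norm_div, norm_one]
    refine div_le_one_of_le₀ (le_trans ?_ ((le_abs_self _).trans (abs_re_le_norm _))) (norm_nonneg _)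
    simp
    norm_num
  rw [qg_step1 hK hX hb0 hb]
  have e : ∀ τ : ℝ, qgW K X ((2 : ℝ) + τ * Complex.I) *
      ∑' n : O, b n * ((N n : ℝ) : ℂ) ^ (-((2 : ℝ) + τ * Complex.I)) =
      j * (qgW K X ((2 : ℝ) + τ * Complex.I) * (1 / ((2 : ℝ) + τ * Complex.I - 1))) +
        qgW K X ((2 : ℝ) + τ * Complex.I) * H ((2 : ℝ) + τ * Complex.I) := fun τ => by
    rw [hD _ (by simp)]; ring
  simp only [e]
  rw [integral_add (i3.const_mul _) i1, integral_const_mul, mul_add, mul_left_comm,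
    ← qg_step2 hK hX, add_sub_right_comm, ofReal_mul, ← mul_sub]
  refine (norm_add_le _ _).trans ?_
  rw [norm_mul, norm_real, Real.norm_of_nonneg j0]
  have h2 := qg_main hK hX h0 h1
  have h3 := mul_le_of_le_one_left (norm_nonneg _) j1 |>.trans h2
  have h4 : 0 ≤ X ^ σ := by positivity
  nlinarith

end

end Vale.Agent.P006
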