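import Vale.Agent.P006.S2Fac

namespace Vale.Agent.P006

open Vale.Agent.P026 Complex MeasureTheory Filter Topology
open scoped Classical ComplexConjugate Real MatrixGroups

noncomputable section

namespace S2F

lemma four (F : O → ℂ) {W Lo Hi : Finset O} (hW : W = Lo ∪ Hi) (hd : Disjoint Lo Hi) {B : ℝ}
    (h1 : ‖∑ a ∈ W, ∑ b ∈ W, ∑ c ∈ Hi, F (a * b * c)‖ ≤ B)
    (h2 : ‖∑ a ∈ W, ∑ b ∈ Lo, ∑ c ∈ Hi, F (a * b * c)‖ ≤ B)
    (h3 : ‖∑ a ∈ Lo, ∑ b ∈ Lo, ∑ c ∈ Hi, F (a * b * c)‖ ≤ B)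
    (h4 : ‖∑ a ∈ Lo, ∑ b ∈ Lo, ∑ c ∈ Lo, F (a * b * c)‖ ≤ B) :
    ‖∑ a ∈ W, ∑ b ∈ W, ∑ c ∈ W, F (a * b * c)‖ ≤ 4 * B := by
  have sp : ∀ g : O → ℂ, ∑ a ∈ W, g a = ∑ a ∈ Lo, g a + ∑ a ∈ Hi, g a := fun g => by
    rw [hW, Finset.sum_union hd]
  have e1 : ∑ a ∈ W, ∑ b ∈ W, ∑ c ∈ W, F (a * b * c) =
      ∑ a ∈ W, ∑ b ∈ W, ∑ c ∈ Lo, F (a * b * c) + ∑ a ∈ W, ∑ b ∈ W, ∑ c ∈ Hi, F (a * b * c) := by
    simp only [← Finset.sum_add_distrib, ← sp]
  have e2 : ∑ a ∈ W, ∑ b ∈ W, ∑ c ∈ Lo, F (a * b * c) =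
      ∑ a ∈ W, ∑ b ∈ Lo, ∑ c ∈ Lo, F (a * b * c) + ∑ a ∈ W, ∑ b ∈ Lo, ∑ c ∈ Hi, F (a * b * c) := by
    rw [← Finset.sum_add_distrib]
    refine Finset.sum_congr rfl fun a _ => ?_
    rw [sp, Finset.sum_comm (s := Hi)]
    simp only [mul_right_comm a]
  have e3 : ∑ a ∈ W, ∑ b ∈ Lo, ∑ c ∈ Lo, F (a * b * c) =
      ∑ a ∈ Lo, ∑ b ∈ Lo, ∑ c ∈ Lo, F (a * b * c) + ∑ a ∈ Lo, ∑ b ∈ Lo, ∑ c ∈ Hi, F (a * b * c) := by
    rw [sp, Finset.sum_comm (s := Hi)]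
    congr 1
    refine Finset.sum_congr rfl fun b _ => ?_
    rw [Finset.sum_comm]
    refine Finset.sum_congr rfl fun c _ => Finset.sum_congr rfl fun a _ => ?_
    congr 1; ring
  rw [e1, e2, e3]
  refine (norm_add_le _ _).trans ?_
  have := (norm_add_le _ _).trans (add_le_add ((norm_add_le _ _).trans (add_le_add h4 h3)) h2)
  linarith

lemma mem_PP {y : ℝ} {p : O} : p ∈ PP y ↔ NN p ∧ Prime p ∧ N p ≤ y := by
  simp only [PP, Finset.mem_filter, mem_ballN]; tauto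

lemma le_ceil (p : O) (b : ℝ) : N p ≤ (⌈b⌉₊ : ℝ) - 1 ↔ N p < b := by
  unfold N
  rw [← Nat.lt_ceil, le_sub_iff_add_le]
  exact_mod_cast Iff.rfl

lemma mem_PI' {a b : ℝ} {p : O} :
    p ∈ PI a ((⌈b⌉₊ : ℝ) - 1) ↔ NN p ∧ Prime p ∧ a ≤ N p ∧ N p < b := by
  simp only [PI, Finset.mem_filter, mem_PP, le_ceil]; tauto

lemma mem_Win {X η : ℝ} {p : O} : p ∈ Win X η ↔
    NN p ∧ Prime p ∧ X ^ (1 / 3 - 2 * η) ≤ N p ∧ N p < X ^ (1 / 3 + η) := by
  simp only [Win, Finset.mem_filter, mem_PP]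
  constructor
  · tauto
  · rintro ⟨a, b, c, d⟩; exact ⟨⟨a, b, d.le⟩, c, d⟩

lemma gw_eq (S B : ℝ) (p : O) : gw S B p = ‖WK S (0 : ℝ) (N p / B)‖ := by
  rw [norm_WK]; simp [gw]

lemma core : ∃ δ : ℝ, 0 < δ ∧ ∃ C : ℝ, 0 < C ∧ ∀ (x η S T M m : ℝ), 0 < η → η ≤ 1 / 1000 →
    2 ≤ Real.exp (η * x) → 1 ≤ 4 * η * x → 1 ≤ T → T ≤ S → 0 ≤ M → 0 ≤ m →
    (∀ z : ℝ, |z - x / 3| ≤ 10 * η * x →
      ∑ p ∈ Win (Real.exp x) η, gw S (Real.exp z) p ≤ M * Real.exp z / S) →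
    ∑ p ∈ Win (Real.exp x) η, (N p)⁻¹ ≤ m →
    ‖∑ p1 ∈ Win (Real.exp x) η, ∑ p2 ∈ Win (Real.exp x) η, ∑ p3 ∈ Win (Real.exp x) η,
        G (p1 * p2 * p3) * WK S 0 (N (p1 * p2 * p3) / Real.exp x)‖ ≤
      C * (Real.exp (5 / 6 * x) * √m * M * (T ^ (-(1 / 4) : ℝ) + 4 * η * x * √(M / (S * (η * x))) +
        4 * η * x * Real.exp (300 * η * x) * T ^ 4 * Real.exp (-(δ * x))) +
        S * ((Win (Real.exp x) η).card : ℝ) ^ 3 * Real.exp (-(4 * η ^ 2 * x ^ 2))) := by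
  obtain ⟨δ, hδ, C, hC, H⟩ := s2_fac
  refine ⟨δ / 3, by positivity, 4 * C, by positivity, ?_⟩
  intro x η S T M m hη hη1 hD hR hT hTS hM hm hc hme
  have hx : 0 < x := by nlinarith
  have hηx : 0 < η * x := by positivity
  set W := Win (Real.exp x) η with hW
  have mW : ∀ p, p ∈ W ↔ NN p ∧ Prime p ∧ Real.exp (x * (1 / 3 - 2 * η)) ≤ N p ∧
      N p < Real.exp (x * (1 / 3 + η)) := fun p => by
    rw [hW, mem_Win, ← Real.exp_mul, ← Real.exp_mul]
  have e12 : Real.exp (5 * η * x) ^ 12 ≤ Real.exp (x / 3) := by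
    rw [← Real.exp_nat_mul]; apply Real.exp_le_exp.2; push_cast; nlinarith
  have key : ∀ (W1 W2 : Finset O) (a b : ℝ), W1 ⊆ W → W2 ⊆ W → x * (1 / 3 - 2 * η) ≤ a →
      b ≤ x * (1 / 3 + η) → (x / 3 ≤ a ∨ ∀ p ∈ W1 ∪ W2, N p ≤ Real.exp (x / 3)) →
      ‖∑ p1 ∈ W1, ∑ p2 ∈ W2, ∑ p3 ∈ PI (Real.exp a) ((⌈Real.exp b⌉₊ : ℝ) - 1),
        G (p1 * p2 * p3) * WK S 0 (N (p1 * p2 * p3) / Real.exp x)‖ ≤
      C * (Real.exp (5 / 6 * x) * √m * M * (T ^ (-(1 / 4) : ℝ) + 4 * η * x * √(M / (S * (η * x))) +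
        4 * η * x * Real.exp (300 * η * x) * T ^ 4 * Real.exp (-(δ / 3 * x))) +
        S * (W.card : ℝ) ^ 3 * Real.exp (-(4 * η ^ 2 * x ^ 2))) := by
    intro W1 W2 a b h1 h2 ha hb hcase
    have := H (Real.exp (x / 3)) (Real.exp (5 * η * x)) (Real.exp (η * x)) T S (4 * η * x) M m
      (Real.exp a) ((⌈Real.exp b⌉₊ : ℝ) - 1) W W1 W2 hD
      (Real.exp_le_exp.2 (by nlinarith)) e12 hT hTS hR (Real.exp_le_exp.2 (by nlinarith)) hM hm
      (fun p hp => by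
        obtain ⟨g1, g2, g3, g4⟩ := (mW p).1 hp
        have n0 := N_pos g1.ne_zero
        refine ⟨g1, g2, ?_⟩
        rw [Real.log_div n0.ne' (Real.exp_pos _).ne', Real.log_exp]
        have a1 := (Real.le_log_iff_exp_le n0).2 g3
        have a2 := (Real.log_le_iff_le_exp n0).2 g4.le
        rw [abs_le]; constructor <;> nlinarith)
      h1 h2 (fun p hp => by
        obtain ⟨g1, g2, g3, g4⟩ := mem_PI'.1 hp
        exact (mW p).2 ⟨g1, g2, (Real.exp_le_exp.2 ha).trans g3,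
          g4.trans_le (Real.exp_le_exp.2 hb)⟩)
      (by rw [← Real.exp_sub]; apply Real.exp_le_exp.2; nlinarith)
      (by
        have := Nat.ceil_lt_add_one (Real.exp_pos b).le
        have h3 : Real.exp b ≤ Real.exp (x / 3) * Real.exp (5 * η * x) := by
          rw [← Real.exp_add]; apply Real.exp_le_exp.2; nlinarith
        linarith)
      (hcase.imp_left fun h => Real.exp_le_exp.2 h)
      (fun B hB1 hB2 => by
        have hB : 0 < B := lt_of_lt_of_le (by positivity) hB1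
        rw [← Real.exp_nat_mul, ← Real.exp_sub] at hB1
        rw [← Real.exp_nat_mul, ← Real.exp_add] at hB2
        have a1 := (Real.le_log_iff_exp_le hB).2 hB1
        have a2 := (Real.log_le_iff_le_exp hB).2 hB2
        have := hc (Real.log B) (by push_cast at a1 a2; rw [abs_le]; constructor <;> linarith)
        rwa [Real.exp_log hB] at this) hme
    have r1 : Real.exp (x / 3) ^ 3 = Real.exp x := by
      rw [← Real.exp_nat_mul]; congr 1; push_cast; ring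
    have r2 : Real.exp (5 * η * x) ^ 60 = Real.exp (300 * η * x) := by
      rw [← Real.exp_nat_mul]; congr 1; push_cast; ring
    have r3 : Real.exp (x / 3) ^ (5 / 2 : ℝ) = Real.exp (5 / 6 * x) := by
      rw [← Real.exp_mul]; congr 1; ring
    have r4 : Real.exp (x / 3) ^ (-δ) = Real.exp (-(δ / 3 * x)) := by
      rw [← Real.exp_mul]; congr 1; ring
    have r5 : (4 * η * x) ^ 2 / 4 = 4 * η ^ 2 * x ^ 2 := by ring
    rwa [r1, r2, r3, r4, r5, Real.log_exp] at this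
  rw [mul_assoc 4 C]
  refine four (fun n => G n * WK S 0 (N n / Real.exp x))
    (Lo := PI (Real.exp (x * (1 / 3 - 2 * η))) ((⌈Real.exp (x / 3)⌉₊ : ℝ) - 1))
    (Hi := PI (Real.exp (x / 3)) ((⌈Real.exp (x * (1 / 3 + η))⌉₊ : ℝ) - 1)) ?_ ?_ ?_ ?_ ?_ ?_
  · ext p
    rw [mW, Finset.mem_union, mem_PI', mem_PI']
    have a1 : Real.exp (x * (1 / 3 - 2 * η)) ≤ Real.exp (x / 3) := Real.exp_le_exp.2 (by nlinarith)
    have a2 : Real.exp (x / 3) ≤ Real.exp (x * (1 / 3 + η)) := Real.exp_le_exp.2 (by nlinarith)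
    constructor
    · rintro ⟨g1, g2, g3, g4⟩
      rcases lt_or_ge (N p) (Real.exp (x / 3)) with h | h
      exacts [Or.inl ⟨g1, g2, g3, h⟩, Or.inr ⟨g1, g2, h, g4⟩]
    · rintro (⟨g1, g2, g3, g4⟩ | ⟨g1, g2, g3, g4⟩)
      exacts [⟨g1, g2, g3, g4.trans_le a2⟩, ⟨g1, g2, a1.trans g3, g4⟩]
  · rw [Finset.disjoint_left]
    intro p h1 h2
    linarith [(mem_PI'.1 h1).2.2.2, (mem_PI'.1 h2).2.2.1]
  all_goals
    have hLo : PI (Real.exp (x * (1 / 3 - 2 * η))) ((⌈Real.exp (x / 3)⌉₊ : ℝ) - 1) ⊆ W := by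
      intro p hp
      obtain ⟨g1, g2, g3, g4⟩ := mem_PI'.1 hp
      exact (mW p).2 ⟨g1, g2, g3, g4.trans_le (Real.exp_le_exp.2 (by nlinarith))⟩
  · exact key _ _ _ _ le_rfl le_rfl (by nlinarith) le_rfl (Or.inl le_rfl)
  · exact key _ _ _ _ le_rfl hLo (by nlinarith) le_rfl (Or.inl le_rfl)
  · exact key _ _ _ _ hLo hLo (by nlinarith) le_rfl (Or.inl le_rfl)
  · exact key _ _ _ _ hLo hLo le_rfl (by nlinarith) (Or.inr fun p hp => by
      rw [Finset.union_self] at hp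
      exact (mem_PI'.1 hp).2.2.2.le)

lemma mert : ∃ δ : ℝ, 0 < δ ∧ ∃ C : ℝ, 0 < C ∧ ∀ x η : ℝ, 0 < η → η ≤ 1 / 1000 → 4 ≤ x →
    ∑ p ∈ Win (Real.exp x) η, (N p)⁻¹ ≤ 10 * η + C * Real.exp (-(δ * x)) := by
  obtain ⟨δ, hδ, C, hC, H⟩ := pr_mertens
  refine ⟨δ / 4, by positivity, C, hC, fun x η hη hη1 hx => ?_⟩
  have h1 := H (Real.exp (x * (1 / 3 - 2 * η))) (Real.exp (x * (1 / 3 + η)))
    (by linarith [Real.add_one_le_exp (x * (1 / 3 - 2 * η)), show 1 ≤ x * (1 / 3 - 2 * η) by nlinarith])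
    (Real.exp_le_exp.2 (by nlinarith))
  refine le_trans ?_ (h1.trans ?_)
  · refine Finset.sum_le_sum_of_subset_of_nonneg (fun p hp => ?_)
      fun p _ _ => inv_nonneg.2 (N_nonneg p)
    rw [mem_Win, ← Real.exp_mul, ← Real.exp_mul] at hp
    exact Finset.mem_filter.2 ⟨mem_PP.2 ⟨hp.1, hp.2.1, hp.2.2.2.le⟩, hp.2.2.1⟩
  · rw [Real.log_exp, Real.log_exp, ← Real.exp_mul]
    have hx0 : 0 < x := by linarith
    have h2 : 0 < 1 / 3 - 2 * η := by linarith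
    apply add_le_add
    · refine (Real.log_le_sub_one_of_pos (by positivity)).trans ?_
      rw [sub_le_iff_le_add, div_le_iff₀ (by positivity)]
      nlinarith [mul_pos hx0 hη]
    · gcongr
      nlinarith [mul_pos hx0 hδ]

lemma cntI : ∃ δ : ℝ, 0 < δ ∧ ∃ C : ℝ, 0 < C ∧ ∀ x η S z : ℝ, 0 < η → η ≤ 1 / 1000 → 4 ≤ x →
    1 ≤ S → S * x ≤ Real.exp (δ * x) → |z - x / 3| ≤ 10 * η * x →
    ∑ p ∈ Win (Real.exp x) η, gw S (Real.exp z) p ≤ C / x * Real.exp z / S := by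
  obtain ⟨δ, hδ, C, hC, H⟩ := pr_thin
  refine ⟨δ / 4, by positivity, 5 * C, by positivity, fun x η S z hη hη1 hx hS hSx hz => ?_⟩
  have hz1 : x / 4 ≤ z := by nlinarith [(abs_le.1 hz).1]
  have h1 := H (Real.exp z) S (Real.exp x ^ (1 / 3 + η)) 0
    (by linarith [Real.add_one_le_exp z]) hS (by simp)
  simp only [gw_eq]
  refine (Finset.sum_le_sum_of_subset_of_nonneg (Finset.filter_subset _ _)
    fun p _ _ => norm_nonneg _).trans (h1.trans ?_)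
  have hx0 : 0 < x := by linarith
  have hS0 : 0 < S := by linarith
  rw [Real.log_exp, ← Real.exp_mul]
  have h2 : Real.exp z / (S * z) ≤ 4 * (Real.exp z / (S * x)) := by
    calc _ ≤ Real.exp z / (S * (x / 4)) := by gcongr
      _ = _ := by field_simp
  have h3 : Real.exp (z * (1 - δ)) ≤ Real.exp z / (S * x) := by
    rw [le_div_iff₀ (by positivity)]
    calc _ ≤ Real.exp (z * (1 - δ)) * Real.exp (δ / 4 * x) := by gcongr
      _ ≤ _ := by rw [← Real.exp_add]; apply Real.exp_le_exp.2; nlinarith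
  calc _ ≤ C * (4 * (Real.exp z / (S * x)) + Real.exp z / (S * x)) := by gcongr
    _ = _ := by field_simp; ring

lemma cntII {η : ℝ} (hη : 0 < η) (hη1 : η ≤ 1 / 1000) : ∃ C : ℝ, 0 < C ∧ ∀ x S z : ℝ, 0 ≤ x →
    1 ≤ S → S ≤ Real.exp (x / 4) → |z - x / 3| ≤ 10 * η * x →
    ∑ p ∈ Win (Real.exp x) η, gw S (Real.exp z) p ≤
      C * Real.exp (η / 100 * x) * Real.exp z / S := by
  obtain ⟨C, hC, H⟩ := sum_WK_thin (ε := η / 100) (by positivity) 0
  refine ⟨2 * C, by positivity, fun x S z hx hS hSx hz => ?_⟩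
  have hz1 : x / 4 ≤ z := by nlinarith [(abs_le.1 hz).1]
  have hz2 : z ≤ x := by nlinarith [(abs_le.1 hz).2]
  obtain ⟨h1, h2⟩ := H S (Real.exp z) (0 : ℝ) hS (Real.one_le_exp (by linarith)) (by simp)
  have hS0 : 0 < S := by linarith
  calc _ = ∑ p ∈ Win (Real.exp x) η, (if p ≠ 0 then ‖WK S (0 : ℝ) (N p / Real.exp z)‖ else 0) :=
        Finset.sum_congr rfl fun p hp => by rw [if_pos (mem_Win.1 hp).1.ne_zero, gw_eq]
    _ ≤ _ := h1.sum_le_tsum _ fun n _ => by split_ifs <;> positivity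
    _ ≤ _ := h2
    _ ≤ C * Real.exp (η / 100 * x) * (Real.exp z / S + Real.exp z / S) := by
        rw [← Real.exp_mul, mul_comm z]
        gcongr
        rw [le_div_iff₀ hS0, one_mul]; exact hSx.trans (Real.exp_le_exp.2 hz1)
    _ = _ := by ring

lemma ev_poly {a K : ℝ} (ha : 0 < a) (hK : 0 < K) :
    ∀ᶠ x : ℝ in atTop, K * x ≤ Real.exp (a * x) := by
  filter_upwards [eventually_ge_atTop (2 * K / a ^ 2), eventually_ge_atTop 0] with x hx hx0
  have h1 := Real.quadratic_le_exp_of_nonneg (x := a * x) (by positivity)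
  rw [div_le_iff₀ (by positivity)] at hx
  nlinarith [mul_nonneg ha.le hx0]

lemma tail {η K : ℝ} (hη : 0 < η) (hη1 : η ≤ 1 / 1000) (hK : 0 < K) :
    ∀ᶠ x : ℝ in atTop, ∀ S : ℝ, 0 ≤ S → S ≤ Real.exp (x / 4) →
      K * (S * ((Win (Real.exp x) η).card : ℝ) ^ 3 * Real.exp (-(4 * η ^ 2 * x ^ 2))) ≤ 1 / 2 := by
  obtain ⟨C, hC, H⟩ := card_ballO_le
  filter_upwards [eventually_ge_atTop (2 / η ^ 2), eventually_ge_atTop 1,
    ev_poly (K := 2 * K * C ^ 3) one_pos (by positivity)] with x h1 h2 h3 S hS0 hS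
  have h4 : ((Win (Real.exp x) η).card : ℝ) ≤ C * Real.exp x := by
    refine le_trans ?_ (H (Real.exp x) (Real.exp_pos x).le)
    gcongr
    intro p hp
    rw [mem_Win, ← Real.exp_mul, ← Real.exp_mul] at hp
    exact mem_ballO.2 ⟨hp.1.ne_zero, hp.2.2.2.le.trans (Real.exp_le_exp.2 (by nlinarith))⟩
  rw [div_le_iff₀ (by positivity)] at h1
  have h5 : Real.exp (x / 4) * Real.exp x ^ 3 * Real.exp (-(4 * η ^ 2 * x ^ 2)) ≤
      (Real.exp (1 * x))⁻¹ := by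
    rw [← Real.exp_nat_mul, ← Real.exp_add, ← Real.exp_add, ← Real.exp_neg]
    apply Real.exp_le_exp.2; push_cast; nlinarith
  have h6 : 2 * K * C ^ 3 ≤ Real.exp (1 * x) := le_trans (by nlinarith [mul_pos hK (pow_pos hC 3)]) h3
  calc _ ≤ K * (Real.exp (x / 4) * (C * Real.exp x) ^ 3 * Real.exp (-(4 * η ^ 2 * x ^ 2))) := by
        gcongr
    _ = K * C ^ 3 * (Real.exp (x / 4) * Real.exp x ^ 3 * Real.exp (-(4 * η ^ 2 * x ^ 2))) := by ring
    _ ≤ K * C ^ 3 * (Real.exp (1 * x))⁻¹ := by gcongr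
    _ ≤ 1 / 2 := by
        rw [← div_eq_mul_inv, div_le_iff₀ (Real.exp_pos _)]; linarith

lemma regI {x η S C Ca δ ε κ : ℝ} (hC : 0 < C) (hCa : 0 < Ca) (hη : 0 < η) (hη1 : η ≤ 1 / 1000)
    (hηδ : 400 * η ≤ δ) (hκ : κ = η / 10) (hx : 1 ≤ x) (hS : 1 ≤ S) (hS1 : S ≤ Real.exp (η * x))
    (hε : C * Ca * (1 + 4 * √Ca) * √(20 * η) ≤ ε) (hE : 2 * C * Ca * x ≤ Real.exp (η / 10 * x)) :
    C * (Real.exp (5 / 6 * x) * √(20 * η) * (Ca / x) * (S ^ (-(1 / 4) : ℝ) +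
      4 * η * x * √(Ca / x / (S * (η * x))) +
      4 * η * x * Real.exp (300 * η * x) * S ^ 4 * Real.exp (-(δ * x)))) ≤
      ε * S ^ (-(1 / 4) : ℝ) * Real.exp (5 / 6 * x) / x + Real.exp ((5 / 6 - κ) * x) / 2 := by
  have hS0 : 0 < S := by linarith
  have hx0 : 0 < x := by linarith
  set s := S ^ (-(1 / 4) : ℝ) with hs
  have hs0 : 0 < s := by positivity
  have h1 : η * x * √(Ca / x / (S * (η * x))) ≤ √Ca * s := by
    have e1 : s ^ 2 = (√S)⁻¹ := by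
      rw [hs, ← Real.rpow_natCast, ← Real.rpow_mul hS0.le, Real.sqrt_eq_rpow,
        ← Real.rpow_neg hS0.le]
      norm_num
    refine (abs_le_of_sq_le_sq' ?_ (by positivity)).2
    rw [mul_pow, mul_pow (√Ca), Real.sq_sqrt (by positivity), Real.sq_sqrt hCa.le, e1]
    have e2 : √S ≤ S := by rw [Real.sqrt_le_left hS0.le]; nlinarith
    have e3 : 0 < √S := Real.sqrt_pos.2 hS0
    calc (η * x) ^ 2 * (Ca / x / (S * (η * x))) = Ca * η / S := by field_simp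
      _ ≤ Ca * 1 / √S := by gcongr; linarith
      _ = _ := by rw [mul_one, div_eq_mul_inv]
  have h2 : Real.exp (300 * η * x) * S ^ 4 * Real.exp (-(δ * x)) ≤ Real.exp (-(η / 5 * x)) := by
    calc _ ≤ Real.exp (300 * η * x) * Real.exp (η * x) ^ 4 * Real.exp (-(δ * x)) := by gcongr
      _ ≤ _ := by
        rw [← Real.exp_nat_mul, ← Real.exp_add, ← Real.exp_add]
        apply Real.exp_le_exp.2; push_cast; nlinarith
  have h3 : √(20 * η) ≤ 1 := Real.sqrt_le_one.2 (by linarith)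
  have h4 : Real.exp (η / 10 * x) * (Real.exp (5 / 6 * x) * Real.exp (-(η / 5 * x))) =
      Real.exp ((5 / 6 - κ) * x) := by
    rw [← Real.exp_add, ← Real.exp_add, hκ]; congr 1; ring
  set E := Real.exp (5 / 6 * x) with hEE
  have hE0 : 0 < E := Real.exp_pos _
  have h5 : C * (E * √(20 * η) * (Ca / x) *
      (4 * η * x * Real.exp (300 * η * x) * S ^ 4 * Real.exp (-(δ * x)))) ≤
      Real.exp ((5 / 6 - κ) * x) / 2 := by
    calc _ = C * Ca * (4 * η) * √(20 * η) *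
          (E * (Real.exp (300 * η * x) * S ^ 4 * Real.exp (-(δ * x)))) := by field_simp
      _ ≤ C * Ca * x * 1 * (E * Real.exp (-(η / 5 * x))) := by gcongr; linarith
      _ ≤ Real.exp (η / 10 * x) / 2 * (E * Real.exp (-(η / 5 * x))) := by gcongr; linarith
      _ = _ := by rw [← h4]; ring
  have h6 : C * (E * √(20 * η) * (Ca / x) * (s + 4 * η * x * √(Ca / x / (S * (η * x))))) ≤
      ε * s * E / x := by
    calc _ ≤ C * (E * √(20 * η) * (Ca / x) * (s + 4 * (√Ca * s))) := by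
          gcongr C * (E * √(20 * η) * (Ca / x) * (s + ?_)); linarith
      _ = C * Ca * (1 + 4 * √Ca) * √(20 * η) * s * E / x := by ring
      _ ≤ _ := by gcongr
  linarith

lemma regII {x η S C Cb δ κ : ℝ} (hC : 0 < C) (hCb : 0 < Cb) (hη : 0 < η) (hη1 : η ≤ 1 / 1000)
    (hηδ : 400 * η ≤ δ) (hκ : κ = η / 10) (hx : 1 ≤ x) (hηx : 1 ≤ 4 * η * x)
    (hS1 : Real.exp (η * x) ≤ S) (hE : 2 * C * Cb * (2 + 2 * √Cb) * x ≤ Real.exp (η / 10 * x)) :
    C * (Real.exp (5 / 6 * x) * √(20 * η) * (Cb * Real.exp (η / 100 * x)) *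
      (Real.exp (η * x) ^ (-(1 / 4) : ℝ) +
      4 * η * x * √(Cb * Real.exp (η / 100 * x) / (S * (η * x))) +
      4 * η * x * Real.exp (300 * η * x) * Real.exp (η * x) ^ 4 * Real.exp (-(δ * x)))) ≤
      Real.exp ((5 / 6 - κ) * x) / 2 := by
  have hx0 : 0 < x := by linarith
  have hS0 : 0 < S := (Real.exp_pos _).trans_le hS1
  set s := Real.exp (-(η / 4 * x)) with hs
  have hs0 : 0 < s := Real.exp_pos _
  have h0 : Real.exp (η * x) ^ (-(1 / 4) : ℝ) = s := by rw [← Real.exp_mul]; congr 1; ring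
  have h1 : √(Cb * Real.exp (η / 100 * x) / (S * (η * x))) ≤ 2 * √Cb * s := by
    rw [Real.sqrt_le_left (by positivity), mul_pow, mul_pow, Real.sq_sqrt hCb.le]
    have e1 : Real.exp (η / 100 * x) ≤ s ^ 2 * Real.exp (η * x) := by
      rw [hs, ← Real.exp_nat_mul, ← Real.exp_add]; apply Real.exp_le_exp.2; push_cast; nlinarith
    calc _ ≤ Cb * (s ^ 2 * Real.exp (η * x)) / (Real.exp (η * x) * (1 / 4)) := by
          gcongr; linarith
      _ = _ := by field_simp; ring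
  have h2 : Real.exp (300 * η * x) * Real.exp (η * x) ^ 4 * Real.exp (-(δ * x)) ≤ s := by
    rw [← Real.exp_nat_mul, ← Real.exp_add, ← Real.exp_add]
    apply Real.exp_le_exp.2; push_cast; nlinarith
  have h3 : √(20 * η) ≤ 1 := Real.sqrt_le_one.2 (by linarith)
  have h4 : Real.exp (η / 10 * x) * (Real.exp (5 / 6 * x) * Real.exp (η / 100 * x) * s) ≤
      Real.exp ((5 / 6 - κ) * x) := by
    rw [← Real.exp_add, ← Real.exp_add, ← Real.exp_add, hκ]; apply Real.exp_le_exp.2; nlinarith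
  have h5 : 4 * η * x ≤ x := by nlinarith
  have h6 : s + 4 * η * x * √(Cb * Real.exp (η / 100 * x) / (S * (η * x))) +
      4 * η * x * Real.exp (300 * η * x) * Real.exp (η * x) ^ 4 * Real.exp (-(δ * x)) ≤
      (2 + 2 * √Cb) * x * s := by
    have a1 : 4 * η * x * √(Cb * Real.exp (η / 100 * x) / (S * (η * x))) ≤ x * (2 * √Cb * s) := by
      gcongr
    have a2 : 4 * η * x * (Real.exp (300 * η * x) * Real.exp (η * x) ^ 4 * Real.exp (-(δ * x))) ≤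
      x * s := by gcongr
    have a3 : s ≤ x * s := le_mul_of_one_le_left hs0.le hx
    linarith
  rw [h0]
  calc _ ≤ C * (Real.exp (5 / 6 * x) * 1 * (Cb * Real.exp (η / 100 * x)) *
        ((2 + 2 * √Cb) * x * s)) := by gcongr
    _ = C * Cb * (2 + 2 * √Cb) * x * (Real.exp (5 / 6 * x) * Real.exp (η / 100 * x) * s) := by ring
    _ ≤ Real.exp (η / 10 * x) / 2 * (Real.exp (5 / 6 * x) * Real.exp (η / 100 * x) * s) := by
        gcongr; linarith
    _ ≤ _ := by linarith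

end S2F

/-- the three-prime box -/
theorem s2 : ∃ c : ℝ, 0 < c ∧ ∀ ε > (0 : ℝ), ∃ η0 : ℝ, 0 < η0 ∧ ∀ η : ℝ, 0 < η → η ≤ η0 →
    ∃ κ : ℝ, 0 < κ ∧ ∃ X0 : ℝ, ∀ X S : ℝ, X0 ≤ X → 1 ≤ S → S ≤ X ^ (1 / 6 + 1 / 1000 : ℝ) →
      ‖∑ p1 ∈ Win X η, ∑ p2 ∈ Win X η, ∑ p3 ∈ Win X η,
          G (p1 * p2 * p3) * WK S 0 (N (p1 * p2 * p3) / X)‖ ≤
        ε * S ^ (-c) * X ^ (5 / 6 : ℝ) / Real.log X + X ^ (5 / 6 - κ) := by
  obtain ⟨δ, hδ, C, hC, H⟩ := S2F.core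
  obtain ⟨δm, hδm, Cm, hCm, Hm⟩ := S2F.mert
  obtain ⟨δa, hδa, Ca, hCa, Ha⟩ := S2F.cntI
  refine ⟨1 / 4, by norm_num, fun ε hε => ?_⟩
  set K := C * Ca * (1 + 4 * √Ca) with hK
  have hK0 : 0 < K := by positivity
  refine ⟨min (min (1 / 1000) (δ / 400)) (min (δa / 2) ((ε / K) ^ 2 / 20)), by positivity,
    fun η hη hη0 => ?_⟩
  simp only [le_min_iff] at hη0
  obtain ⟨⟨e1, e2⟩, e3, e4⟩ := hη0
  obtain ⟨Cb, hCb, Hb⟩ := S2F.cntII hη e1
  have hεK : K * √(20 * η) ≤ ε := by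
    rw [← le_div_iff₀' hK0, Real.sqrt_le_left (by positivity)]; linarith
  have hev := Real.tendsto_log_atTop.eventually ((eventually_ge_atTop 4).and
    ((eventually_ge_atTop (1 / η)).and
    ((S2F.ev_poly (K := Cm / (10 * η)) hδm (by positivity)).and
    ((S2F.ev_poly (K := 1) (half_pos hδa) one_pos).and
    ((S2F.ev_poly (K := 2 * C * Ca) (a := η / 10) (by positivity) (by positivity)).and
    ((S2F.ev_poly (K := 2 * C * Cb * (2 + 2 * √Cb)) (a := η / 10) (by positivity)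
      (by positivity)).and (S2F.tail hη e1 hC)))))))
  obtain ⟨X0, hX0⟩ := eventually_atTop.1 (hev.and (eventually_gt_atTop 0))
  refine ⟨η / 10, by positivity, X0, fun X S hX hS hSX => ?_⟩
  obtain ⟨⟨g1, g2, g3, g4, g5, g6, g7⟩, hXpos⟩ := hX0 X hX
  obtain ⟨x, rfl⟩ : ∃ x, X = Real.exp x := ⟨Real.log X, (Real.exp_log hXpos).symm⟩
  rw [Real.log_exp] at g1 g2 g3 g4 g5 g6 g7 ⊢
  rw [← Real.exp_mul] at hSX
  rw [← Real.exp_mul, ← Real.exp_mul, mul_comm x, mul_comm x]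
  rw [div_le_iff₀ hη] at g2
  have hS4 : S ≤ Real.exp (x / 4) := hSX.trans (Real.exp_le_exp.2 (by linarith))
  have hD : 2 ≤ Real.exp (η * x) := by linarith [Real.add_one_le_exp (η * x)]
  have hm : ∑ p ∈ Win (Real.exp x) η, (N p)⁻¹ ≤ 20 * η := by
    refine (Hm x η hη e1 g1).trans ?_
    have : Cm * Real.exp (-(δm * x)) ≤ 10 * η := by
      rw [Real.exp_neg, ← div_eq_mul_inv, div_le_iff₀ (Real.exp_pos _), ← div_le_iff₀' (by positivity)]
      refine le_trans ?_ g3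
      exact le_mul_of_one_le_right (by positivity) (by linarith)
    linarith
  have ht := g7 S (by linarith) hS4
  have h1 : 1 ≤ Real.exp ((5 / 6 - η / 10) * x) := Real.one_le_exp (by nlinarith)
  rcases le_total S (Real.exp (η * x)) with h | h
  · have hSx : S * x ≤ Real.exp (δa * x) := by
      calc S * x ≤ Real.exp (η * x) * Real.exp (δa / 2 * x) := by gcongr; linarith
        _ ≤ _ := by rw [← Real.exp_add]; apply Real.exp_le_exp.2; nlinarith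
    have := H x η S S (Ca / x) (20 * η) hη e1 hD (by linarith) hS le_rfl (by positivity)
      (by positivity) (fun z hz => Ha x η S z hη e1 g1 hS hSx hz) hm
    have h2 := S2F.regI (δ := δ) hC hCa hη e1 (by linarith) rfl (by linarith) hS h hεK g5
    rw [mul_add C] at this
    linarith
  · have := H x η S (Real.exp (η * x)) (Cb * Real.exp (η / 100 * x)) (20 * η) hη e1 hD
      (by linarith) (by linarith) h (by positivity) (by positivity)
      (fun z hz => Hb x S z (by linarith) hS hS4 hz) hm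
    have h2 := S2F.regII (δ := δ) hC hCb hη e1 (by linarith) rfl (by linarith) (by linarith) h g6
    rw [mul_add C] at this
    have h3 : 0 ≤ ε * S ^ (-(1 / 4) : ℝ) * Real.exp (5 / 6 * x) / x := by
      have : 0 < x := by linarith
      positivity
    linarith

end

end Vale.Agent.P006
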