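import Vale.Agent.P006.Defs

namespace Vale.Agent.P006

open Vale.Agent.P026 Complex MeasureTheory Filter Topology
open scoped Classical ComplexConjugate Real MatrixGroups

noncomputable section

/-- odd primary primes with norm in `[y1, y2]` -/
def PI (y1 y2 : ℝ) : Finset O := (PP y2).filter (fun p => y1 ≤ N p)
/-- real Gaussian weight in the logarithm of the norm -/
def gw (K B : ℝ) (b : O) : ℝ := Real.exp (-(K ^ 2 * Real.log (N b / B) ^ 2))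
/-- thin majorant of width `1 / T` around `x = 1` -/
def Vt (T x : ℝ) : ℝ := Real.exp (kap * (1 - x) - kap ^ 2 * T ^ 2 * (1 - x) ^ 2)
/-- complex Gaussian -/
def Ez (ζ : ℂ) (A : ℝ) (a : O) : ℂ := Complex.exp (-(kap * ζ * N a / A))
/-- dual complex Gaussian -/
def Ed (ζ : ℂ) (t : ℝ) (h : O) : ℂ := Complex.exp (-(kap * N h * t / ζ))
/-- inner prime sum -/
def RR (K B y1 y2 : ℝ) (a : O) : ℂ :=
  ∑ b ∈ PI y1 y2, G b * (gw K B b : ℂ) * conj (sym3 a b)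
/-- off-diagonal part of `‖RR‖ ^ 2` -/
def Of (K B y1 y2 : ℝ) (a : O) : ℂ :=
  ∑ b2 ∈ PI y1 y2, ∑ b1 ∈ (PI y1 y2).erase b2,
    (gw K B b1 : ℂ) * (gw K B b2 : ℂ) * (G b1 * conj (G b2)) * (conj (sym3 a b1) * sym3 a b2)
def bb1 (K B y1 y2 : ℝ) : ℝ := ∑ b ∈ PI y1 y2, gw K B b
def bb3 (K B y1 y2 : ℝ) : ℝ := ∑ b ∈ PI y1 y2, gw K B b * N b ^ (-(1 / 6) : ℝ)
/-- sieve majorant -/
def nu (D : ℝ) (ρ : O → ℝ) (a : O) : ℝ := ∑ d ∈ (ballN (D ^ 2)).filter (· ∣ a), ρ d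
/-- upper bound sieve weights of level `D ^ 2` -/
def Sieve (D C : ℝ) (ρ : O → ℝ) : Prop :=
  (∀ a, 0 ≤ nu D ρ a) ∧ (∀ a, (∀ p, NN p → Prime p → p ∣ a → D < N p) → nu D ρ a = 1) ∧
    |∑ d ∈ ballN (D ^ 2), ρ d / N d| ≤ C / Real.log D ∧ ∑ d ∈ ballN (D ^ 2), |ρ d| ≤ C * D ^ 4

end

end Vale.Agent.P006
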