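import Vale.Agent.P006.S2Qb

namespace Vale.Agent.P006

open Vale.Agent.P026 Complex MeasureTheory Filter Topology
open scoped Classical ComplexConjugate Real MatrixGroups

noncomputable section

namespace Fac

lemma pt (S u v σ : ℝ) :
    Real.exp (-(2 * S ^ 2 * (u - σ) ^ 2)) * Real.exp (-(2 * S ^ 2 * (v + σ) ^ 2)) =
      Real.exp (-(S ^ 2 * (u + v) ^ 2)) * Real.exp (-(4 * S ^ 2) * (σ - (u - v) / 2) ^ 2) := by
  rw [← Real.exp_add, ← Real.exp_add]; congr 1; ring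

lemma gint {S : ℝ} (hS : 0 < S) (u v : ℝ) : Integrable fun σ : ℝ =>
    Real.exp (-(2 * S ^ 2 * (u - σ) ^ 2)) * Real.exp (-(2 * S ^ 2 * (v + σ) ^ 2)) := by
  simp_rw [pt]
  exact ((integrable_exp_neg_mul_sq (b := 4 * S ^ 2) (by positivity)).comp_sub_right _).const_mul _

lemma gfac {S : ℝ} (hS : 0 < S) (u v : ℝ) : 2 * S / √π * ∫ σ : ℝ,
    Real.exp (-(2 * S ^ 2 * (u - σ) ^ 2)) * Real.exp (-(2 * S ^ 2 * (v + σ) ^ 2)) =
      Real.exp (-(S ^ 2 * (u + v) ^ 2)) := by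
  simp_rw [pt]
  rw [integral_const_mul, integral_sub_right_eq_self
    (fun σ : ℝ => Real.exp (-(4 * S ^ 2) * σ ^ 2)), integral_gaussian,
    Real.sqrt_div Real.pi_pos.le, show 4 * S ^ 2 = (2 * S) ^ 2 by ring,
    Real.sqrt_sq (by positivity)]
  have := Real.sqrt_pos.2 Real.pi_pos
  field_simp

lemma gw_exp (S z : ℝ) {b : O} (hb : b ≠ 0) :
    gw S (Real.exp z) b = Real.exp (-(S ^ 2 * (Real.log (N b) - z) ^ 2)) := by
  unfold gw
  rw [Real.log_div (N_pos hb).ne' (Real.exp_pos z).ne', Real.log_exp]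

lemma gw_K (S z : ℝ) {b : O} (hb : b ≠ 0) :
    gw (√2 * S) (Real.exp z) b = Real.exp (-(2 * S ^ 2 * (Real.log (N b) - z) ^ 2)) := by
  rw [gw_exp _ _ hb, mul_pow, Real.sq_sqrt (by norm_num)]

lemma gw_K_eq (S B : ℝ) (b : O) : gw (√2 * S) B b = gw S B b * gw S B b := by
  unfold gw
  rw [← Real.exp_add, mul_pow, Real.sq_sqrt (by norm_num)]; congr 1; ring

lemma gw_pos (S B : ℝ) (b : O) : 0 < gw S B b := Real.exp_pos _

lemma gw_le_one (S B : ℝ) (b : O) : gw S B b ≤ 1 := by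
  unfold gw
  apply Real.exp_le_one_iff.2
  have : 0 ≤ S ^ 2 * Real.log (N b / B) ^ 2 := by positivity
  linarith

/-- the sum for a fixed window position -/
def TT (S y y1 y2 : ℝ) (W1 W2 : Finset O) (σ : ℝ) : ℂ :=
  ∑ p1 ∈ W1, ∑ p2 ∈ W2, G (p1 * p2) * (gw (√2 * S) (Real.exp (2 * y + σ)) (p1 * p2) : ℂ) *
    RR (√2 * S) (Real.exp (y - σ)) y1 y2 (p1 * p2)

lemma mem_PI {y1 y2 : ℝ} {p : O} (h : p ∈ PI y1 y2) : NN p ∧ Prime p ∧ y1 ≤ N p ∧ N p ≤ y2 := by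
  simp only [PI, PP, Finset.mem_filter, ballN, mem_ballO] at h
  exact ⟨h.1.1.2, h.1.2, h.2, h.1.1.1.2⟩

lemma ident {S : ℝ} (hS : 0 < S) (y y1 y2 : ℝ) {W1 W2 : Finset O} (h1 : ∀ p ∈ W1, NN p)
    (h2 : ∀ p ∈ W2, NN p) :
    ∑ p1 ∈ W1, ∑ p2 ∈ W2, ∑ p3 ∈ PI y1 y2,
        G (p1 * p2 * p3) * WK S 0 (N (p1 * p2 * p3) / Real.exp y ^ 3) =
      ((2 * S / √π : ℝ) : ℂ) * ∫ σ : ℝ, TT S y y1 y2 W1 W2 σ := by
  set F : O → O → O → ℝ → ℂ := fun p1 p2 p3 σ => G (p1 * p2 * p3) *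
    ((Real.exp (-(2 * S ^ 2 * ((Real.log (N (p1 * p2)) - 2 * y) - σ) ^ 2)) *
      Real.exp (-(2 * S ^ 2 * ((Real.log (N p3) - y) + σ) ^ 2)) : ℝ) : ℂ) with hF
  have hint : ∀ p1 p2 p3, Integrable (F p1 p2 p3) := fun p1 p2 p3 =>
    (gint hS _ _).ofReal.const_mul _
  have e1 : ∀ σ, TT S y y1 y2 W1 W2 σ = ∑ p1 ∈ W1, ∑ p2 ∈ W2, ∑ p3 ∈ PI y1 y2, F p1 p2 p3 σ := by
    intro σ
    unfold TT RR
    refine Finset.sum_congr rfl fun p1 hp1 => Finset.sum_congr rfl fun p2 hp2 => ?_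
    rw [Finset.mul_sum]
    refine Finset.sum_congr rfl fun p3 hp3 => ?_
    have h3 := (mem_PI hp3).1
    simp only [hF]
    rw [G_mul ((h1 p1 hp1).1.mul (h2 p2 hp2).1) h3.1,
      gw_K _ _ (mul_ne_zero (h1 p1 hp1).ne_zero (h2 p2 hp2).ne_zero), gw_K _ _ h3.ne_zero]
    have a1 : Real.log (N (p1 * p2)) - (2 * y + σ) = Real.log (N (p1 * p2)) - 2 * y - σ := by ring
    have a2 : Real.log (N p3) - (y - σ) = Real.log (N p3) - y + σ := by ring
    rw [a1, a2]; push_cast; ring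
  simp_rw [e1]
  rw [integral_finsetSum _ fun p1 _ => integrable_finsetSum _ fun p2 _ =>
    integrable_finsetSum _ fun p3 _ => hint p1 p2 p3, Finset.mul_sum]
  refine Finset.sum_congr rfl fun p1 hp1 => ?_
  rw [integral_finsetSum _ fun p2 _ => integrable_finsetSum _ fun p3 _ => hint p1 p2 p3,
    Finset.mul_sum]
  refine Finset.sum_congr rfl fun p2 hp2 => ?_
  rw [integral_finsetSum _ fun p3 _ => hint p1 p2 p3, Finset.mul_sum]
  refine Finset.sum_congr rfl fun p3 hp3 => ?_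
  have h3 := (mem_PI hp3).1
  have n12 := N_pos (mul_ne_zero (h1 p1 hp1).ne_zero (h2 p2 hp2).ne_zero)
  have n3 := N_pos h3.ne_zero
  simp only [hF]
  rw [integral_const_mul, integral_complex_ofReal, mul_left_comm, ← Complex.ofReal_mul, gfac hS]
  congr 1
  unfold WK
  rw [N_mul (p1 * p2), Real.log_div (by positivity) (by positivity), Real.log_mul n12.ne' n3.ne',
    Real.log_pow, Real.log_exp]
  push_cast
  congr 1; ring

lemma norm_RR_le (K B y1 y2 : ℝ) (a : O) : ‖RR K B y1 y2 a‖ ≤ bb1 K B y1 y2 := by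
  unfold RR bb1
  refine (norm_sum_le _ _).trans (Finset.sum_le_sum fun b _ => ?_)
  rw [norm_mul, norm_mul, Complex.norm_conj, Complex.norm_real,
    Real.norm_of_nonneg (gw_pos K B b).le]
  have := gw_pos K B b
  calc ‖G b‖ * gw K B b * ‖sym3 a b‖ ≤ 1 * gw K B b * 1 := by
        gcongr
        · exact norm_G_le b
        · exact norm_sym3_le a b
    _ = _ := by ring

lemma norm_TT_le (S y y1 y2 : ℝ) (W1 W2 : Finset O) (σ : ℝ) :
    ‖TT S y y1 y2 W1 W2 σ‖ ≤ ∑ p1 ∈ W1, ∑ p2 ∈ W2, gw (√2 * S) (Real.exp (2 * y + σ)) (p1 * p2) *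
      ‖RR (√2 * S) (Real.exp (y - σ)) y1 y2 (p1 * p2)‖ := by
  unfold TT
  refine (norm_sum_le _ _).trans (Finset.sum_le_sum fun p1 _ =>
    (norm_sum_le _ _).trans (Finset.sum_le_sum fun p2 _ => ?_))
  rw [norm_mul, norm_mul, Complex.norm_real, Real.norm_of_nonneg (gw_pos _ _ _).le, mul_assoc]
  exact mul_le_of_le_one_left (mul_nonneg (gw_pos _ _ _).le (norm_nonneg _)) (norm_G_le _)

lemma cs (W1 W2 : Finset O) (w r : O → O → ℝ) (hw : ∀ a b, 0 ≤ w a b) :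
    (∑ a ∈ W1, ∑ b ∈ W2, w a b * r a b) ^ 2 ≤
      (∑ a ∈ W1, ∑ b ∈ W2, w a b) * ∑ a ∈ W1, ∑ b ∈ W2, w a b * r a b ^ 2 := by
  rw [← Finset.sum_product', ← Finset.sum_product', ← Finset.sum_product']
  have := Finset.sum_mul_sq_le_sq_mul_sq (W1 ×ˢ W2) (fun t => √(w t.1 t.2))
    (fun t => √(w t.1 t.2) * r t.1 t.2)
  simp only [← mul_assoc, mul_pow, Real.mul_self_sqrt (hw _ _), Real.sq_sqrt (hw _ _)] at this
  exact this

lemma tail {S y y1 y2 R σ : ℝ} {W W1 W2 : Finset O} (hS : 1 ≤ S) (hR : 0 ≤ R)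
    (hW : ∀ p ∈ W, NN p ∧ |Real.log (N p) - y| ≤ R / 2) (h1 : W1 ⊆ W) (h2 : W2 ⊆ W)
    (h3 : PI y1 y2 ⊆ W) (hσ : R < |σ|) :
    ‖TT S y y1 y2 W1 W2 σ‖ ≤
      (W.card : ℝ) ^ 3 * Real.exp (-(R ^ 2 / 4)) * Real.exp (-(1 / 4) * σ ^ 2) := by
  have hb : bb1 (√2 * S) (Real.exp (y - σ)) y1 y2 ≤
      W.card * (Real.exp (-(R ^ 2 / 4)) * Real.exp (-(1 / 4) * σ ^ 2)) := by
    unfold bb1
    refine (Finset.sum_le_card_nsmul _ _ (Real.exp (-(R ^ 2 / 4)) * Real.exp (-(1 / 4) * σ ^ 2))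
      fun b hb => ?_).trans ?_
    · obtain ⟨g1, g2⟩ := hW b (h3 hb)
      rw [gw_K _ _ g1.ne_zero, ← Real.exp_add]
      apply Real.exp_le_exp.2
      have a1 : |σ| / 2 ≤ |Real.log (N b) - (y - σ)| := by
        have := abs_sub_abs_le_abs_sub σ (-(Real.log (N b) - y))
        rw [abs_neg, show σ - -(Real.log (N b) - y) = Real.log (N b) - (y - σ) by ring] at this
        linarith
      have a2 : (|σ| / 2) ^ 2 ≤ (Real.log (N b) - (y - σ)) ^ 2 := by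
        rw [← sq_abs (Real.log (N b) - (y - σ))]; gcongr
      have a3 : R ^ 2 ≤ |σ| ^ 2 := by gcongr
      have a4 : 1 ≤ S ^ 2 := one_le_pow₀ hS
      rw [div_pow, sq_abs] at a2
      rw [sq_abs] at a3
      nlinarith [sq_nonneg (Real.log (N b) - (y - σ))]
    · rw [nsmul_eq_mul]
      gcongr
  refine (norm_TT_le S y y1 y2 W1 W2 σ).trans ?_
  set E := W.card * (Real.exp (-(R ^ 2 / 4)) * Real.exp (-(1 / 4) * σ ^ 2)) with hE
  have hE0 : 0 ≤ E := by positivity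
  calc _ ≤ ∑ _p1 ∈ W1, ∑ _p2 ∈ W2, E := by
        refine Finset.sum_le_sum fun p1 _ => Finset.sum_le_sum fun p2 _ => ?_
        exact (mul_le_of_le_one_left (norm_nonneg _) (gw_le_one _ _ _)).trans
          ((norm_RR_le _ _ _ _ _).trans hb)
    _ = W1.card * (W2.card * E) := by simp
    _ ≤ W.card * (W.card * E) := by gcongr
    _ = _ := by rw [hE]; ring

/-- extra decay on the side of small inner variable -/
def EE (σ : ℝ) : ℝ := if σ ≤ 0 then 1 else Real.exp (-σ ^ 2)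

lemma EE_pos (σ : ℝ) : 0 < EE σ := by unfold EE; split_ifs <;> positivity

lemma EE_dec (σ : ℝ) : EE σ * Real.exp σ ≤ (14 * (1 + σ ^ 2)⁻¹) ^ 2 := by
  have h1 : EE σ * Real.exp σ ≤ Real.exp 1 * Real.exp (-|σ|) := by
    unfold EE
    split_ifs with h
    · rw [one_mul, abs_of_nonpos h, neg_neg]
      exact le_mul_of_one_le_left (Real.exp_pos _).le (Real.one_le_exp zero_le_one)
    · rw [← Real.exp_add, ← Real.exp_add, abs_of_pos (by linarith)]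
      apply Real.exp_le_exp.2; nlinarith [sq_nonneg (σ - 1)]
  have h2 : Real.exp (-(|σ| / 2)) ≤ 8 * (1 + σ ^ 2)⁻¹ := by
    have h3 := Real.quadratic_le_exp_of_nonneg (x := |σ| / 2) (by positivity)
    rw [Real.exp_neg, ← div_eq_mul_inv, inv_eq_one_div, div_le_div_iff₀ (Real.exp_pos _)
      (by positivity)]
    nlinarith [sq_abs σ, abs_nonneg σ]
  have h3 : Real.exp (-|σ|) = Real.exp (-(|σ| / 2)) ^ 2 := by
    rw [← Real.exp_nat_mul]; congr 1; ring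
  have h4 : Real.exp 1 ≤ 3 := Real.exp_one_lt_three.le
  have h5 : 0 < (1 + σ ^ 2)⁻¹ := by positivity
  calc _ ≤ 3 * (8 * (1 + σ ^ 2)⁻¹) ^ 2 := by
        refine h1.trans ?_
        rw [h3]; gcongr
    _ ≤ _ := by nlinarith [sq_nonneg ((1 + σ ^ 2)⁻¹)]

lemma gw_le_EE {S z σ : ℝ} (hS : 1 ≤ S) {b : O} (hb : b ≠ 0)
    (h : 0 < σ → σ ≤ |Real.log (N b) - z|) : gw S (Real.exp z) b ≤ EE σ := by
  unfold EE
  split_ifs with h0
  · exact gw_le_one _ _ _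
  · rw [gw_exp _ _ hb]
    apply Real.exp_le_exp.2
    have h1 : σ ^ 2 ≤ (Real.log (N b) - z) ^ 2 := by
      rw [← sq_abs (Real.log (N b) - z)]
      have := h (by linarith)
      gcongr; linarith
    have a4 : 1 ≤ S ^ 2 := one_le_pow₀ hS
    nlinarith [sq_nonneg (Real.log (N b) - z)]

lemma bb3_le {S z y1 y2 : ℝ} (hS : 1 ≤ S) : bb3 (√2 * S) (Real.exp z) y1 y2 ≤
    2 * Real.exp (-(z / 6)) * ∑ b ∈ PI y1 y2, gw S (Real.exp z) b := by
  unfold bb3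
  rw [Finset.mul_sum]
  refine Finset.sum_le_sum fun b hb => ?_
  have h0 := (mem_PI hb).1.ne_zero
  rw [gw_K_eq, mul_assoc, mul_comm]
  apply mul_le_mul_of_nonneg_right _ (gw_pos _ _ _).le
  rw [gw_exp _ _ h0, Real.rpow_def_of_pos (N_pos h0), ← Real.exp_add]
  have h2 : Real.exp (1 / 2) ≤ 2 := by
    have h3 : Real.exp (1 / 2) ^ 2 ≤ 2 ^ 2 := by
      rw [← Real.exp_nat_mul]; norm_num; linarith [Real.exp_one_lt_three]
    exact le_of_sq_le_sq h3 (by norm_num) |> fun h => (abs_le.1 (by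
      rwa [abs_of_pos (Real.exp_pos _)])).2
  calc _ ≤ Real.exp (1 / 2 + -(z / 6)) := by
        apply Real.exp_le_exp.2
        have a4 : 1 ≤ S ^ 2 := one_le_pow₀ hS
        nlinarith [sq_nonneg (Real.log (N b) - z), sq_nonneg (Real.log (N b) - z + 1 / 12)]
    _ ≤ _ := by rw [Real.exp_add]; gcongr

lemma counts {S y y1 y2 R σ M m U : ℝ} {W W1 W2 : Finset O} (hS : 1 ≤ S) (hR : 0 ≤ R)
    (hU : Real.exp R ≤ U) (hM : 0 ≤ M)
    (hW : ∀ p ∈ W, NN p ∧ |Real.log (N p) - y| ≤ R / 2) (h1 : W1 ⊆ W) (h2 : W2 ⊆ W)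
    (h3 : PI y1 y2 ⊆ W) (hσ : |σ| ≤ R)
    (hc : ∀ B : ℝ, Real.exp y / U ^ 2 ≤ B → B ≤ Real.exp y * U ^ 2 →
      ∑ p ∈ W, gw S B p ≤ M * B / S) (hm : ∑ p ∈ W, (N p)⁻¹ ≤ m) :
    ∑ p1 ∈ W1, ∑ p2 ∈ W2, gw S (Real.exp (2 * y + σ)) (p1 * p2) ≤
      M * m * Real.exp (2 * y + σ) / S ∧
    ∑ b ∈ PI y1 y2, gw S (Real.exp (y - σ)) b ≤ M * Real.exp (y - σ) / S := by
  have hc' : ∀ z : ℝ, |z - y| ≤ 2 * R → ∑ p ∈ W, gw S (Real.exp z) p ≤ M * Real.exp z / S := by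
    intro z hz
    have e1 : Real.exp (2 * R) ≤ U ^ 2 := by
      rw [show (2 : ℝ) * R = (2 : ℕ) * R by norm_num, Real.exp_nat_mul]; gcongr
    have hz' := abs_le.1 hz
    apply hc
    · rw [div_le_iff₀ ((Real.exp_pos _).trans_le e1)]
      calc Real.exp y ≤ Real.exp z * Real.exp (2 * R) := by
            rw [← Real.exp_add]; apply Real.exp_le_exp.2; linarith [hz'.1]
        _ ≤ _ := by gcongr
    · calc Real.exp z ≤ Real.exp y * Real.exp (2 * R) := by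
            rw [← Real.exp_add]; apply Real.exp_le_exp.2; linarith [hz'.2]
        _ ≤ _ := by gcongr
  have hσ' := abs_le.1 hσ
  have hS0 : 0 < S := by linarith
  constructor
  · calc _ ≤ ∑ p1 ∈ W1, M * Real.exp (2 * y + σ) / S * (N p1)⁻¹ := by
          refine Finset.sum_le_sum fun p1 hp1 => ?_
          obtain ⟨g1, g2⟩ := hW p1 (h1 hp1)
          have g3 := abs_le.1 g2
          have n1 := N_pos g1.ne_zero
          have := hc' (2 * y + σ - Real.log (N p1)) (abs_le.2 ⟨by linarith, by linarith⟩)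
          calc _ = ∑ p2 ∈ W2, gw S (Real.exp (2 * y + σ - Real.log (N p1))) p2 := by
                refine Finset.sum_congr rfl fun p2 hp2 => ?_
                have g4 := (hW p2 (h2 hp2)).1.ne_zero
                rw [gw_exp _ _ g4, gw_exp _ _ (mul_ne_zero g1.ne_zero g4), N_mul,
                  Real.log_mul n1.ne' (N_pos g4).ne']
                congr 3; ring
            _ ≤ ∑ p2 ∈ W, gw S (Real.exp (2 * y + σ - Real.log (N p1))) p2 :=
                Finset.sum_le_sum_of_subset_of_nonneg h2 fun _ _ _ => (gw_pos _ _ _).le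
            _ ≤ _ := by
                refine this.trans (le_of_eq ?_)
                rw [Real.exp_sub, Real.exp_log n1]; field_simp
      _ ≤ M * Real.exp (2 * y + σ) / S * m := by
          rw [← Finset.mul_sum]
          refine mul_le_mul_of_nonneg_left (le_trans ?_ hm) (by positivity)
          exact Finset.sum_le_sum_of_subset_of_nonneg h1 fun p _ _ => inv_nonneg.2 (N_nonneg p)
      _ = _ := by ring
  · exact (Finset.sum_le_sum_of_subset_of_nonneg h3 fun _ _ _ => (gw_pos _ _ _).le).trans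
      (hc' (y - σ) (abs_le.2 ⟨by linarith, by linarith⟩))

lemma decay {S y y1 y2 σ na nb : ℝ} {W1 W2 : Finset O} (hS : 1 ≤ S)
    (h1 : ∀ p ∈ W1 ∪ W2, NN p) (hcase : Real.exp y ≤ y1 ∨ ∀ p ∈ W1 ∪ W2, N p ≤ Real.exp y)
    (ha : ∑ p1 ∈ W1, ∑ p2 ∈ W2, gw S (Real.exp (2 * y + σ)) (p1 * p2) ≤ na)
    (hb : ∑ b ∈ PI y1 y2, gw S (Real.exp (y - σ)) b ≤ nb) :
    ∑ p1 ∈ W1, ∑ p2 ∈ W2, gw (√2 * S) (Real.exp (2 * y + σ)) (p1 * p2) ≤ na ∧
    bb1 (√2 * S) (Real.exp (y - σ)) y1 y2 ≤ nb ∧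
    (∑ p1 ∈ W1, ∑ p2 ∈ W2, gw (√2 * S) (Real.exp (2 * y + σ)) (p1 * p2)) *
      bb1 (√2 * S) (Real.exp (y - σ)) y1 y2 ≤ EE σ * (na * nb) := by
  have ga : ∀ e : ℝ, 0 ≤ e → (∀ p1 ∈ W1, ∀ p2 ∈ W2, gw S (Real.exp (2 * y + σ)) (p1 * p2) ≤ e) →
      ∑ p1 ∈ W1, ∑ p2 ∈ W2, gw (√2 * S) (Real.exp (2 * y + σ)) (p1 * p2) ≤ e * na := by
    intro e he h
    refine le_trans ?_ (mul_le_mul_of_nonneg_left ha he)
    rw [Finset.mul_sum]
    refine Finset.sum_le_sum fun p1 hp1 => ?_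
    rw [Finset.mul_sum]
    refine Finset.sum_le_sum fun p2 hp2 => ?_
    rw [gw_K_eq]
    exact mul_le_mul_of_nonneg_right (h p1 hp1 p2 hp2) (gw_pos _ _ _).le
  have gb : ∀ e : ℝ, 0 ≤ e → (∀ b ∈ PI y1 y2, gw S (Real.exp (y - σ)) b ≤ e) →
      bb1 (√2 * S) (Real.exp (y - σ)) y1 y2 ≤ e * nb := by
    intro e he h
    refine le_trans ?_ (mul_le_mul_of_nonneg_left hb he)
    unfold bb1
    rw [Finset.mul_sum]
    refine Finset.sum_le_sum fun b hb => ?_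
    rw [gw_K_eq]
    exact mul_le_mul_of_nonneg_right (h b hb) (gw_pos _ _ _).le
  have a1 := ga 1 zero_le_one fun _ _ _ _ => gw_le_one _ _ _
  have b1 := gb 1 zero_le_one fun _ _ => gw_le_one _ _ _
  rw [one_mul] at a1 b1
  have a0 : 0 ≤ ∑ p1 ∈ W1, ∑ p2 ∈ W2, gw (√2 * S) (Real.exp (2 * y + σ)) (p1 * p2) :=
    Finset.sum_nonneg fun _ _ => Finset.sum_nonneg fun _ _ => (gw_pos _ _ _).le
  have b0 : 0 ≤ bb1 (√2 * S) (Real.exp (y - σ)) y1 y2 :=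
    Finset.sum_nonneg fun _ _ => (gw_pos _ _ _).le
  refine ⟨a1, b1, ?_⟩
  rcases hcase with h | h
  · have b2 := gb (EE σ) (EE_pos σ).le fun b hb => by
      obtain ⟨g1, -, g2, -⟩ := mem_PI hb
      refine gw_le_EE hS g1.ne_zero fun h0 => le_trans ?_ (le_abs_self _)
      have : y ≤ Real.log (N b) := (Real.le_log_iff_exp_le (N_pos g1.ne_zero)).2 (h.trans g2)
      linarith
    calc _ ≤ na * (EE σ * nb) := mul_le_mul a1 b2 b0 (a0.trans a1)
      _ = _ := by ring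
  · have a2 := ga (EE σ) (EE_pos σ).le fun p1 hp1 p2 hp2 => by
      have m1 := Finset.mem_union_left W2 hp1
      have m2 := Finset.mem_union_right W1 hp2
      have n1 := N_pos (h1 p1 m1).ne_zero
      have n2 := N_pos (h1 p2 m2).ne_zero
      refine gw_le_EE hS (mul_ne_zero (h1 p1 m1).ne_zero (h1 p2 m2).ne_zero) fun h0 =>
        le_trans ?_ (neg_le_abs _)
      have e1 := (Real.log_le_iff_le_exp n1).2 (h p1 m1)
      have e2 := (Real.log_le_iff_le_exp n2).2 (h p2 m2)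
      rw [N_mul, Real.log_mul n1.ne' n2.ne']
      linarith
    calc _ ≤ EE σ * na * nb := mul_le_mul a2 b1 b0 (a0.trans a2)
      _ = _ := by ring

lemma alg {x a2 b1 b3 C S T L V M m y σ δ : ℝ} (hC : 0 ≤ C) (hS : 0 < S) (hT : 0 < T)
    (hL : 0 < L) (hV : 0 ≤ V) (hM : 0 ≤ M) (hm : 0 ≤ m) (ha0 : 0 ≤ a2) (hb0 : 0 ≤ b1) (hb30 : 0 ≤ b3)
    (ha : a2 ≤ M * m * Real.exp (2 * y + σ) / S) (hb : b1 ≤ M * Real.exp (y - σ) / S)
    (hab : a2 * b1 ≤ EE σ * (M * m * Real.exp (2 * y + σ) / S * (M * Real.exp (y - σ) / S)))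
    (hb3 : b3 ≤ 2 * Real.exp (-((y - σ) / 6)) * (M * Real.exp (y - σ) / S))
    (hx : x ^ 2 ≤ a2 * (C * (Real.exp (2 * y + σ) / √T * b1 +
      Real.exp (2 * y + σ) ^ (2 / 3 : ℝ) / L * b3 ^ 2 +
      V ^ 2 * Real.exp y ^ (2 - δ) * b1))) :
    x ≤ √C * (Real.exp (5 / 2 * y) * √m * M / S) * (14 * T ^ (-(1 / 4) : ℝ) * (1 + σ ^ 2)⁻¹ +
      (2 * √(M / (S * L)) + V * Real.exp (-(δ / 2 * y)))) := by
  set P := Real.exp (5 / 2 * y) * √m * M / S with hP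
  have hP0 : 0 ≤ P := by positivity
  have hP2 : P ^ 2 = Real.exp (5 * y) * m * M ^ 2 / S ^ 2 := by
    rw [hP, div_pow, mul_pow, mul_pow, Real.sq_sqrt hm, ← Real.exp_nat_mul]
    congr 4; push_cast; ring
  set t1 := 14 * T ^ (-(1 / 4) : ℝ) * (1 + σ ^ 2)⁻¹ with ht1
  set t2 := 2 * √(M / (S * L)) with ht2
  set t3 := V * Real.exp (-(δ / 2 * y)) with ht3
  have t10 : 0 ≤ t1 := by positivity
  have t20 : 0 ≤ t2 := by positivity
  have t30 : 0 ≤ t3 := by positivity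
  have k1 : a2 * (Real.exp (2 * y + σ) / √T * b1) ≤ P ^ 2 * t1 ^ 2 := by
    have e1 : (T ^ (-(1 / 4) : ℝ)) ^ 2 = (√T)⁻¹ := by
      rw [← Real.rpow_natCast, ← Real.rpow_mul hT.le, Real.sqrt_eq_rpow, ← Real.rpow_neg hT.le]
      norm_num
    have e2 : Real.exp (2 * y + σ) * (Real.exp (2 * y + σ) * Real.exp (y - σ)) =
        Real.exp (5 * y) * Real.exp σ := by
      rw [← Real.exp_add, ← Real.exp_add, ← Real.exp_add]; congr 1; ring
    calc _ = Real.exp (2 * y + σ) / √T * (a2 * b1) := by ring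
      _ ≤ Real.exp (2 * y + σ) / √T * (EE σ *
          (M * m * Real.exp (2 * y + σ) / S * (M * Real.exp (y - σ) / S))) := by gcongr
      _ = (Real.exp (2 * y + σ) * (Real.exp (2 * y + σ) * Real.exp (y - σ))) * EE σ *
          (m * M ^ 2 / S ^ 2 * (√T)⁻¹) := by ring
      _ = (EE σ * Real.exp σ) * (P ^ 2 * (√T)⁻¹) := by rw [e2, hP2]; ring
      _ ≤ (14 * (1 + σ ^ 2)⁻¹) ^ 2 * (P ^ 2 * (√T)⁻¹) := by gcongr; exact EE_dec σ
      _ = _ := by rw [ht1, ← e1]; ring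
  have k2 : a2 * (Real.exp (2 * y + σ) ^ (2 / 3 : ℝ) / L * b3 ^ 2) ≤ P ^ 2 * t2 ^ 2 := by
    have e2 : Real.exp (2 * y + σ) * Real.exp (2 * y + σ) ^ (2 / 3 : ℝ) *
        (Real.exp (-((y - σ) / 6)) * Real.exp (y - σ)) ^ 2 = Real.exp (5 * y) := by
      rw [← Real.exp_mul, ← Real.exp_add, ← Real.exp_add, ← Real.exp_nat_mul, ← Real.exp_add]
      congr 1; push_cast; ring
    calc _ ≤ M * m * Real.exp (2 * y + σ) / S * (Real.exp (2 * y + σ) ^ (2 / 3 : ℝ) / L *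
          (2 * Real.exp (-((y - σ) / 6)) * (M * Real.exp (y - σ) / S)) ^ 2) := by gcongr
      _ = (Real.exp (2 * y + σ) * Real.exp (2 * y + σ) ^ (2 / 3 : ℝ) *
          (Real.exp (-((y - σ) / 6)) * Real.exp (y - σ)) ^ 2) * m * M ^ 2 / S ^ 2 *
          (4 * (M / (S * L))) := by field_simp; ring
      _ = _ := by rw [e2, hP2, ht2, mul_pow, Real.sq_sqrt (by positivity)]; ring
  have k3 : a2 * (V ^ 2 * Real.exp y ^ (2 - δ) * b1) ≤ P ^ 2 * t3 ^ 2 := by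
    have e2 : Real.exp (2 * y + σ) * Real.exp y ^ (2 - δ) * Real.exp (y - σ) =
        Real.exp (5 * y) * Real.exp (-(δ / 2 * y)) ^ 2 := by
      rw [← Real.exp_mul, ← Real.exp_add, ← Real.exp_add, ← Real.exp_nat_mul, ← Real.exp_add]
      congr 1; push_cast; ring
    calc _ ≤ M * m * Real.exp (2 * y + σ) / S * (V ^ 2 * Real.exp y ^ (2 - δ) *
          (M * Real.exp (y - σ) / S)) := by gcongr
      _ = (Real.exp (2 * y + σ) * Real.exp y ^ (2 - δ) * Real.exp (y - σ)) *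
          (m * M ^ 2 / S ^ 2 * (V ^ 2)) := by ring
      _ = _ := by rw [e2, hP2, ht3]; ring
  refine (le_abs_self x).trans (abs_le_of_sq_le_sq' ?_ (by positivity)).2
  rw [sq_abs]
  rw [mul_pow, mul_pow, Real.sq_sqrt hC]
  have k4 : t1 ^ 2 + t2 ^ 2 + t3 ^ 2 ≤ (t1 + (t2 + t3)) ^ 2 := by
    nlinarith [mul_nonneg t10 t20, mul_nonneg t10 t30, mul_nonneg t20 t30]
  calc x ^ 2 ≤ _ := hx
    _ = C * (a2 * (Real.exp (2 * y + σ) / √T * b1) +
        a2 * (Real.exp (2 * y + σ) ^ (2 / 3 : ℝ) / L * b3 ^ 2) +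
        a2 * (V ^ 2 * Real.exp y ^ (2 - δ) * b1)) := by ring
    _ ≤ C * (P ^ 2 * t1 ^ 2 + P ^ 2 * t2 ^ 2 + P ^ 2 * t3 ^ 2) := by gcongr
    _ = C * P ^ 2 * (t1 ^ 2 + t2 ^ 2 + t3 ^ 2) := by ring
    _ ≤ C * P ^ 2 * (t1 + (t2 + t3)) ^ 2 := by gcongr

lemma int_bound {f : ℝ → ℂ} {c1 c2 c3 R : ℝ} (hR : 0 ≤ R) (h1 : 0 ≤ c1) (h3 : 0 ≤ c3)
    (ha : ∀ σ, |σ| ≤ R → ‖f σ‖ ≤ c1 * (1 + σ ^ 2)⁻¹ + c2)
    (hb : ∀ σ, R < |σ| → ‖f σ‖ ≤ c3 * Real.exp (-(1 / 4) * σ ^ 2)) :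
    ‖∫ σ, f σ‖ ≤ 4 * c1 + 2 * R * c2 + 4 * c3 := by
  have i1 := integrable_inv_one_add_sq.const_mul c1
  have i2 : Integrable ((Set.Icc (-R) R).indicator fun _ : ℝ => c2) :=
    (integrable_indicator_iff measurableSet_Icc).2 continuous_const.integrableOn_Icc
  have i3 := (integrable_exp_neg_mul_sq (b := 1 / 4) (by norm_num)).const_mul c3
  refine (norm_integral_le_of_norm_le ((i1.add i2).add i3) (Eventually.of_forall fun σ => ?_)).trans ?_
  · simp only [Pi.add_apply]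
    by_cases h : |σ| ≤ R
    · rw [Set.indicator_of_mem (Set.mem_Icc.2 (abs_le.1 h))]
      have : 0 ≤ c3 * Real.exp (-(1 / 4) * σ ^ 2) := by positivity
      linarith [ha σ h]
    · rw [Set.indicator_of_notMem (fun h' => h (abs_le.2 (Set.mem_Icc.1 h')))]
      have : 0 ≤ c1 * (1 + σ ^ 2)⁻¹ := by positivity
      linarith [hb σ (not_le.1 h)]
  · rw [integral_add' (i1.add i2) i3, integral_add' i1 i2, integral_const_mul, integral_const_mul,
      integral_univ_inv_one_add_sq, integral_gaussian, integral_indicator_const _ measurableSet_Icc,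
      Real.volume_real_Icc_of_le (by linarith), smul_eq_mul]
    have e1 : √(π / (1 / 4)) ≤ 4 := by
      rw [Real.sqrt_le_left (by norm_num)]; linarith [Real.pi_le_four]
    nlinarith [Real.pi_le_four]

end Fac

/-- Gaussian factorisation, Cauchy-Schwarz and the integral over the window position -/
theorem s2_fac : ∃ δ : ℝ, 0 < δ ∧ ∃ C : ℝ, 0 < C ∧
    ∀ (Y U D T S R M m y1 y2 : ℝ) (W W1 W2 : Finset O), 2 ≤ D → D ≤ U → U ^ 12 ≤ Y → 1 ≤ T →
    T ≤ S → 1 ≤ R → Real.exp R ≤ U → 0 ≤ M → 0 ≤ m →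
    (∀ p ∈ W, NN p ∧ Prime p ∧ |Real.log (N p / Y)| ≤ R / 2) →
    W1 ⊆ W → W2 ⊆ W → PI y1 y2 ⊆ W → Y / U ≤ y1 → y2 ≤ Y * U →
    (Y ≤ y1 ∨ ∀ p ∈ W1 ∪ W2, N p ≤ Y) →
    (∀ B : ℝ, Y / U ^ 2 ≤ B → B ≤ Y * U ^ 2 → ∑ p ∈ W, gw S B p ≤ M * B / S) →
    ∑ p ∈ W, (N p)⁻¹ ≤ m →
    ‖∑ p1 ∈ W1, ∑ p2 ∈ W2, ∑ p3 ∈ PI y1 y2,
        G (p1 * p2 * p3) * WK S 0 (N (p1 * p2 * p3) / Y ^ 3)‖ ≤
      C * (Y ^ (5 / 2 : ℝ) * √m * M * (T ^ (-(1 / 4) : ℝ) + R * √(M / (S * Real.log D)) +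
        R * U ^ 60 * T ^ 4 * Y ^ (-δ)) + S * (W.card : ℝ) ^ 3 * Real.exp (-(R ^ 2 / 4))) := by
  obtain ⟨δ, hδ, C, hC, H⟩ := s2_qb
  refine ⟨δ / 2, by positivity, 112 * √C + 8, by positivity, ?_⟩
  intro Y U D T S R M m y1 y2 W W1 W2 hD hDU hUY hT hTS hR hRU hM hm hW h1 h2 h3 hy1 hy2 hcase hc hme
  have hU : 2 ≤ U := hD.trans hDU
  have hY : 0 < Y := lt_of_lt_of_le (by positivity) hUY
  obtain ⟨y, rfl⟩ : ∃ y, Y = Real.exp y := ⟨Real.log Y, (Real.exp_log hY).symm⟩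
  have hS : 1 ≤ S := hT.trans hTS
  have hS0 : 0 < S := by linarith
  have hL : 0 < Real.log D := Real.log_pos (by linarith)
  have hW' : ∀ p ∈ W, NN p ∧ |Real.log (N p) - y| ≤ R / 2 := fun p hp => by
    obtain ⟨g1, -, g3⟩ := hW p hp
    rw [Real.log_div (N_pos g1.ne_zero).ne' hY.ne', Real.log_exp] at g3
    exact ⟨g1, g3⟩
  have hrange : ∀ z : ℝ, |z - y| ≤ R → Real.exp y / U ≤ Real.exp z ∧ Real.exp z ≤ Real.exp y * U := by
    intro z hz
    have hz' := abs_le.1 hz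
    constructor
    · rw [div_le_iff₀ (by linarith)]
      calc Real.exp y ≤ Real.exp z * Real.exp R := by
            rw [← Real.exp_add]; apply Real.exp_le_exp.2; linarith [hz'.1]
        _ ≤ _ := by gcongr
    · calc Real.exp z ≤ Real.exp y * Real.exp R := by
            rw [← Real.exp_add]; apply Real.exp_le_exp.2; linarith [hz'.2]
        _ ≤ _ := by gcongr
  have h12 : W1 ∪ W2 ⊆ W := Finset.union_subset h1 h2
  have hTK : T ≤ √2 * S := by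
    have : 1 ≤ √2 := Real.one_le_sqrt.2 (by norm_num)
    nlinarith
  rw [Fac.ident hS0 y y1 y2 (fun p hp => (hW p (h1 hp)).1) (fun p hp => (hW p (h2 hp)).1)]
  set P := √C * (Real.exp (5 / 2 * y) * √m * M / S) with hP
  have hP0 : 0 ≤ P := by positivity
  have hI := Fac.int_bound (f := Fac.TT S y y1 y2 W1 W2) (R := R)
    (c1 := P * (14 * T ^ (-(1 / 4) : ℝ)))
    (c2 := P * (2 * √(M / (S * Real.log D)) + U ^ 60 * T ^ 4 * Real.exp (-(δ / 2 * y))))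
    (c3 := (W.card : ℝ) ^ 3 * Real.exp (-(R ^ 2 / 4))) (by linarith) (by positivity)
    (by positivity) (fun σ hσ => by
      obtain ⟨c1, c2⟩ := Fac.counts hS (by linarith) hRU hM hW' h1 h2 h3 hσ hc hme
      obtain ⟨d1, d2, d3⟩ := Fac.decay hS (fun p hp => (hW p (h12 hp)).1) hcase c1 c2
      have hB := hrange (y - σ) (by rw [sub_sub_cancel_left, abs_neg]; exact hσ)
      have hQ := H (Real.exp y) U D T (√2 * S) (Real.exp (2 * y + σ)) (Real.exp (y - σ)) y1 y2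
        W1 W2 hD hDU hUY hT hTK (fun p hp => by
          obtain ⟨g1, g2⟩ := hW' p (h12 hp)
          have := hrange (Real.log (N p)) (by linarith)
          rw [Real.exp_log (N_pos g1.ne_zero)] at this
          exact ⟨g1, (hW p (h12 hp)).2.1, this⟩) hy1 hy2 hB.1 hB.2 (Real.exp_pos _)
      have a0 : 0 ≤ ∑ p1 ∈ W1, ∑ p2 ∈ W2, gw (√2 * S) (Real.exp (2 * y + σ)) (p1 * p2) :=
        Finset.sum_nonneg fun _ _ => Finset.sum_nonneg fun _ _ => (Fac.gw_pos _ _ _).le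
      rw [show U ^ 120 * T ^ 8 = (U ^ 60 * T ^ 4) ^ 2 by rw [mul_pow, ← pow_mul, ← pow_mul]] at hQ
      have := Fac.alg (x := ‖Fac.TT S y y1 y2 W1 W2 σ‖) hC.le hS0 (by linarith) hL
        (mul_nonneg (pow_nonneg (by linarith) _) (pow_nonneg (by linarith) _))
        hM hm a0 (Finset.sum_nonneg fun _ _ => (Fac.gw_pos _ _ _).le)
        (Finset.sum_nonneg fun b _ => mul_nonneg (Fac.gw_pos _ _ _).le
          (Real.rpow_nonneg (N_nonneg b) _)) d1 d2 d3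
        ((Fac.bb3_le hS).trans (by gcongr))
        (((pow_le_pow_left₀ (norm_nonneg _) (Fac.norm_TT_le S y y1 y2 W1 W2 σ) 2).trans
          (Fac.cs W1 W2 _ _ fun _ _ => (Fac.gw_pos _ _ _).le)).trans
          (mul_le_mul_of_nonneg_left hQ a0))
      refine this.trans (le_of_eq ?_)
      rw [hP]; ring)
    (fun σ hσ => Fac.tail hS (by linarith) hW' h1 h2 h3 hσ)
  have hπ : 2 * S / √π ≤ 2 * S := div_le_self (by positivity)
    (Real.one_le_sqrt.2 (by linarith [Real.pi_gt_three]))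
  rw [norm_mul, Complex.norm_real, Real.norm_of_nonneg (by positivity), ← Real.exp_mul,
    ← Real.exp_mul]
  refine (mul_le_mul hπ hI (norm_nonneg _) (by positivity)).trans ?_
  rw [mul_comm y (5 / 2), show y * -(δ / 2) = -(δ / 2 * y) by ring]
  set Q := Real.exp (5 / 2 * y) * √m * M with hQ
  set u1 := T ^ (-(1 / 4) : ℝ) with hu1
  set u2 := R * √(M / (S * Real.log D)) with hu2
  set u3 := R * U ^ 60 * T ^ 4 * Real.exp (-(δ / 2 * y)) with hu3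
  set u4 := S * (W.card : ℝ) ^ 3 * Real.exp (-(R ^ 2 / 4)) with hu4
  have q0 : 0 ≤ Q := by positivity
  have v1 : 0 ≤ Q * u1 := by positivity
  have v2 : 0 ≤ Q * u2 := by positivity
  have v3 : 0 ≤ Q * u3 := by positivity
  have v4 : 0 ≤ u4 := by positivity
  have c0 : 0 ≤ √C := Real.sqrt_nonneg C
  calc _ = √C * (112 * (Q * u1) + 8 * (Q * u2) + 4 * (Q * u3)) + 8 * u4 := by
        rw [hP, hu2, hu3, hu4]; field_simp; ring
    _ ≤ _ := by
        nlinarith [mul_nonneg c0 v2, mul_nonneg c0 v3, mul_nonneg c0 v4]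

end

end Vale.Agent.P006
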