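import Vale.Agent.P006.PR
import Vale.Agent.P006.Bas
import Vale.Agent.P006.Sep

namespace Vale.Agent.P006

open Vale.Agent.P026 Complex MeasureTheory Filter Topology
open scoped Classical ComplexConjugate Real MatrixGroups

noncomputable section

theorem s2m_split : ∃ C : ℝ, 0 < C ∧ ∀ R : ℝ, 1 ≤ R → ∃ T : Finset (O × O × O),
    (∀ t ∈ T, cf t ≠ 0 ∧ N (cf t) ≤ R ∧ ¬ IsCube (cf t)) ∧ ∑ t ∈ T, ‖cc (cf t)‖ ≤ C * R ^ 3 ∧
    ∀ n, NN n → (∀ q, Prime q → q ∣ n → R < N q) →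
      mdl R n = (cc 1 + ∑ t ∈ T, cc (cf t) * sym3 (cf t) n) *
        ((N n ^ (-(1 / 6) : ℝ) : ℝ) : ℂ) := by
  obtain ⟨C1, hC1, h1⟩ := card_MI_le
  obtain ⟨C2, hC2, h2⟩ := norm_cc_le
  refine ⟨C1 * C2, by positivity, fun R hR => ?_⟩
  have hcf1 : cf ((1 : O), (1 : O), (1 : O)) = 1 := by simp [cf]
  have hone : ((1 : O), (1 : O), (1 : O)) ∈ MI R :=
    mem_MI.2 ⟨one_mem_XI, nn_one, nn_one, isCoprime_one_left, by rw [hcf1, N_one]; exact hR⟩
  set T0 := (MI R).filter (fun t => t.2.2 = 1) with hT0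
  have hone0 : ((1 : O), (1 : O), (1 : O)) ∈ T0 := Finset.mem_filter.2 ⟨hone, rfl⟩
  have hsub : T0.erase (1, 1, 1) ⊆ MI R :=
    (Finset.erase_subset _ _).trans (Finset.filter_subset _ _)
  refine ⟨T0.erase (1, 1, 1), fun t ht => ⟨cf_ne_zero (hsub ht), (mem_MI.1 (hsub ht)).2.2.2.2, ?_⟩,
    ?_, ?_⟩
  · intro hc
    refine (Finset.mem_erase.1 ht).1 (cf_unique (hsub ht) hone ?_)
    rw [hcf1]; simpa using hc
  · have hb : ∀ t ∈ T0.erase (1, 1, 1), ‖cc (cf t)‖ ≤ C2 * R := by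
      intro t ht
      refine (h2 _ (cf_ne_zero (hsub ht))).trans ?_
      have a1 : N (cf t) ^ (1 / 3 : ℝ) ≤ R ^ (1 / 3 : ℝ) :=
        Real.rpow_le_rpow (Nat.cast_nonneg _) (mem_MI.1 (hsub ht)).2.2.2.2 (by norm_num)
      have a2 : R ^ (1 / 3 : ℝ) ≤ R := by
        conv_rhs => rw [← Real.rpow_one R]
        exact Real.rpow_le_rpow_of_exponent_le hR (by norm_num)
      exact mul_le_mul_of_nonneg_left (a1.trans a2) hC2.le
    refine (Finset.sum_le_card_nsmul _ _ _ hb).trans ?_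
    rw [nsmul_eq_mul]
    have a3 : ((T0.erase (1, 1, 1)).card : ℝ) ≤ C1 * R ^ 2 :=
      le_trans (by exact_mod_cast Finset.card_le_card hsub) (h1 R hR)
    calc _ ≤ C1 * R ^ 2 * (C2 * R) := by gcongr
      _ = _ := by ring
  · intro n hn hq
    have hG1 : G 1 = 1 := by rw [G, if_pos nn_one, G0_one]
    have e1 : mdl R n = ∑ t ∈ T0, cc (cf t) * sym3 (cf t) n *
        ((N n ^ (-(1 / 6) : ℝ) : ℝ) : ℂ) := by
      rw [mdl, if_pos hn, hT0, Finset.sum_filter]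
      refine Finset.sum_congr rfl fun t ht => ?_
      by_cases h : t.2.2 = 1
      · have hcf : cf t = t.1 * t.2.1 := by simp [cf, h]
        rw [if_pos h, h, if_pos (one_dvd _), hG1, EuclideanDomain.div_one, one_mul, hcf]
      · rw [if_neg h, if_neg]
        intro hd
        obtain ⟨p, m, hp, -, -, hpm⟩ := bas_prime_factor (mem_MI.1 ht).2.2.1.1 h
        have hpd : p ∣ t.2.2 := ⟨m, hpm⟩
        have a1 := hq p hp (hpd.trans hd)
        have a2 : N p ≤ N (cf t) := N_le_of_dvd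
          (hpd.trans ⟨t.1 * t.2.1 * t.2.2, by simp only [cf]; ring⟩) (cf_ne_zero ht)
        have a3 := (mem_MI.1 ht).2.2.2.2
        linarith
    rw [e1, ← Finset.sum_mul, ← Finset.add_sum_erase _ _ hone0, hcf1, sym3_one_left, mul_one]

theorem s2m_W (S : ℝ) {X y : ℝ} (hX : 0 < X) (hy : 0 < y) :
    ((y ^ (-(1 / 6) : ℝ) : ℝ) : ℂ) * WK S 0 (y / X) = ((X ^ (-(1 / 6) : ℝ) : ℝ) : ℂ) *
      WK S (((-(1 / 6) : ℝ) : ℂ) + ((0 : ℝ) : ℂ) * Complex.I) (y / X) := by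
  unfold WK
  rw [Real.rpow_def_of_pos hX, Real.rpow_def_of_pos hy, Real.log_div hy.ne' hX.ne']
  push_cast
  rw [← Complex.exp_add, ← Complex.exp_add]
  congr 1
  ring

theorem s2m_log {ρ : ℝ} (hρ : 0 < ρ) (hρ1 : ρ ≤ 1) : ∃ C : ℝ, 0 < C ∧ ∀ X Z : ℝ, 1 ≤ X → 0 ≤ Z →
    Z ≤ X ^ 2 → Real.log (Z + 2) ^ 2 ≤ C * X ^ ρ := by
  refine ⟨(12 / ρ) ^ 2, by positivity, fun X Z hX hZ hZX => ?_⟩
  have hX0 : 0 < X := by linarith
  have h1 : Real.log (Z + 2) ≤ (Z + 2) ^ (ρ / 4) / (ρ / 4) :=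
    Real.log_le_rpow_div (by linarith) (by linarith)
  have h2 : (Z + 2) ^ (ρ / 4) ≤ 3 * X ^ (ρ / 2) := by
    have a1 : Z + 2 ≤ 3 * X ^ 2 := by nlinarith
    have a2 : (3 : ℝ) ^ (ρ / 4) ≤ 3 := by
      conv_rhs => rw [← Real.rpow_one 3]
      exact Real.rpow_le_rpow_of_exponent_le (by norm_num) (by linarith)
    calc _ ≤ (3 * X ^ 2) ^ (ρ / 4) := Real.rpow_le_rpow (by linarith) a1 (by linarith)
      _ = 3 ^ (ρ / 4) * X ^ (ρ / 2) := by
          rw [Real.mul_rpow (by norm_num) (by positivity), ← Real.rpow_natCast X,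
            ← Real.rpow_mul hX0.le]
          congr 2; push_cast; ring
      _ ≤ _ := by gcongr
  have h3 : Real.log (Z + 2) ≤ 12 / ρ * X ^ (ρ / 2) := by
    refine h1.trans ?_
    rw [div_le_iff₀ (by linarith)]
    refine h2.trans (le_of_eq ?_)
    field_simp; ring
  have h4 : 0 ≤ Real.log (Z + 2) := Real.log_nonneg (by linarith)
  calc _ ≤ (12 / ρ * X ^ (ρ / 2)) ^ 2 := by gcongr
    _ = _ := by
        rw [mul_pow, ← Real.rpow_natCast (X ^ (ρ / 2)), ← Real.rpow_mul hX0.le]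
        congr 2; push_cast; ring

theorem s2m_win {X η : ℝ} {p : O} : p ∈ Win X η ↔
    NN p ∧ Prime p ∧ X ^ (1 / 3 - 2 * η) ≤ N p ∧ N p < X ^ (1 / 3 + η) := by
  simp only [Win, Finset.mem_filter, pr_mem]
  constructor
  · rintro ⟨⟨h1, -, h2⟩, h3, h4⟩; exact ⟨h1, h2, h3, h4⟩
  · rintro ⟨h1, h2, h3, h4⟩; exact ⟨⟨h1, h4.le, h2⟩, h3, h4⟩

theorem s2m_win_eq (X η : ℝ) : Win X η =
    (PP ((⌈X ^ (1 / 3 + η)⌉ : ℝ) - 1)).filter (fun p => X ^ (1 / 3 - 2 * η) ≤ N p) := by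
  ext p
  simp only [s2m_win, Finset.mem_filter, pr_mem, pr_lt_iff]
  tauto

theorem s2m_drop {s : Finset O} {p1 p2 : O} (hs : ∀ p ∈ s, NN p ∧ Prime p) (h1 : p1 ∈ s)
    (h2 : p2 ∈ s) (f : O → ℂ) {M : ℝ} (hM : ∀ p, ‖f p‖ ≤ M) :
    ‖∑ p ∈ s.filter (fun p => NN (p1 * p2 * p)), f p‖ ≤ ‖∑ p ∈ s, f p‖ + 2 * M := by
  have hM0 : 0 ≤ M := (norm_nonneg _).trans (hM 0)
  have hP : Prim (p1 * p2) := (hs _ h1).1.1.mul (hs _ h2).1.1
  by_cases h12 : NN (p1 * p2)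
  · rw [← Finset.sum_filter_add_sum_filter_not s (fun p => NN (p1 * p2 * p)) f]
    have hsub : s.filter (fun p => ¬ NN (p1 * p2 * p)) ⊆ {p1, p2} := by
      intro p hp
      obtain ⟨hp, hn⟩ := Finset.mem_filter.1 hp
      obtain ⟨hN, hpr⟩ := hs p hp
      have hc : ¬ IsCoprime (p1 * p2) p := fun hc => hn ((nn_mul_iff hP hN.1).2 ⟨h12, hN, hc⟩)
      have hd : p ∣ p1 * p2 := by
        by_contra hd
        exact hc ((hpr.irreducible.coprime_iff_not_dvd).2 hd).symm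
      rcases hpr.dvd_or_dvd hd with hd | hd
      · have := hN.1.eq_of_associated (hs _ h1).1.1
          ((hpr.irreducible.dvd_irreducible_iff_associated (hs _ h1).2.irreducible).1 hd)
        simp [this]
      · have := hN.1.eq_of_associated (hs _ h2).1.1
          ((hpr.irreducible.dvd_irreducible_iff_associated (hs _ h2).2.irreducible).1 hd)
        simp [this]
    have hb : ‖∑ p ∈ s.filter (fun p => ¬ NN (p1 * p2 * p)), f p‖ ≤ 2 * M := by
      refine (norm_sum_le _ _).trans ((Finset.sum_le_card_nsmul _ _ _ fun p _ => hM p).trans ?_)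
      rw [nsmul_eq_mul]
      have : ((s.filter (fun p => ¬ NN (p1 * p2 * p))).card : ℝ) ≤ 2 := by
        exact_mod_cast (Finset.card_le_card hsub).trans Finset.card_le_two
      gcongr
    have := norm_sub_le (∑ p ∈ s.filter (fun p => NN (p1 * p2 * p)), f p +
      ∑ p ∈ s.filter (fun p => ¬ NN (p1 * p2 * p)), f p)
      (∑ p ∈ s.filter (fun p => ¬ NN (p1 * p2 * p)), f p)
    rw [add_sub_cancel_right] at this
    linarith
  · rw [Finset.filter_false_of_mem, Finset.sum_empty, norm_zero]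
    · positivity
    · intro p hp hn
      exact h12 ((nn_mul_iff hP (hs p hp).1.1).1 hn).1

theorem s2m_id {X R S : ℝ} {s : Finset O} {T : Finset (O × O × O)} {p1 p2 : O} (hX0 : 0 < X)
    (hs : ∀ p ∈ s, Prime p ∧ R < N p) (h1 : p1 ∈ s) (h2 : p2 ∈ s)
    (hT3 : ∀ n, NN n → (∀ q, Prime q → q ∣ n → R < N q) →
      mdl R n = (cc 1 + ∑ t ∈ T, cc (cf t) * sym3 (cf t) n) *
        ((N n ^ (-(1 / 6) : ℝ) : ℝ) : ℂ)) (W : O → ℂ)
    (hW : ∀ p, W p = WK S (((-(1 / 6) : ℝ) : ℂ) + ((0 : ℝ) : ℂ) * Complex.I)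
      (N p / (X / (N p1 * N p2)))) :
    ∑ p3 ∈ s, mdl R (p1 * p2 * p3) * WK S 0 (N (p1 * p2 * p3) / X) =
      ((X ^ (-(1 / 6) : ℝ) : ℝ) : ℂ) *
        (cc 1 * ∑ p ∈ s.filter (fun p => NN (p1 * p2 * p)), W p +
        ∑ t ∈ T, cc (cf t) * sym3 (cf t) (p1 * p2) *
          ∑ p ∈ s.filter (fun p => NN (p1 * p2 * p)), sym3 (cf t) p * W p) := by
  have e1 : ∑ p3 ∈ s, mdl R (p1 * p2 * p3) * WK S 0 (N (p1 * p2 * p3) / X) =
      ∑ p3 ∈ s.filter (fun p => NN (p1 * p2 * p)),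
        mdl R (p1 * p2 * p3) * WK S 0 (N (p1 * p2 * p3) / X) := by
    rw [Finset.sum_filter]
    refine Finset.sum_congr rfl fun p _ => ?_
    split_ifs with hn
    · rfl
    · rw [mdl, if_neg hn, zero_mul]
  rw [e1]
  simp only [Finset.mul_sum]
  rw [Finset.sum_comm, ← Finset.sum_add_distrib, Finset.mul_sum]
  refine Finset.sum_congr rfl fun p hp => ?_
  obtain ⟨hp, hn⟩ := Finset.mem_filter.1 hp
  have hq : ∀ q, Prime q → q ∣ p1 * p2 * p → R < N q := by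
    intro q hq hd
    have key : ∀ r ∈ s, q ∣ r → R < N q := by
      intro r hr hqr
      have := (hq.irreducible.dvd_irreducible_iff_associated (hs r hr).1.irreducible).1 hqr
      exact (hs r hr).2.trans_le (N_le_of_dvd this.symm.dvd hq.ne_zero)
    rcases hq.dvd_or_dvd hd with hd | hd
    · rcases hq.dvd_or_dvd hd with hd | hd
      · exact key _ h1 hd
      · exact key _ h2 hd
    · exact key _ hp hd
  have hN1 := N_pos (hs _ h1).1.ne_zero
  have hN2 := N_pos (hs _ h2).1.ne_zero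
  have e2 : N (p1 * p2 * p) / X = N p / (X / (N p1 * N p2)) := by
    rw [N_mul, N_mul]; field_simp
  have hP12 : p1 * p2 ≠ 0 := mul_ne_zero (hs _ h1).1.ne_zero (hs _ h2).1.ne_zero
  rw [hT3 _ hn hq, mul_assoc, s2m_W S hX0 (N_pos hn.1.ne_zero), e2, add_mul, Finset.sum_mul,
    mul_add, Finset.mul_sum, ← hW]
  congr 1
  · ring
  · refine Finset.sum_congr rfl fun t _ => ?_
    rw [sym3_mul_right _ hP12 (hs _ hp).1.ne_zero]
    ring

theorem s2m_16 {X : ℝ} (hX : 16 ≤ X) : 2 ≤ X ^ (1 / 4 : ℝ) := by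
  have : (2 : ℝ) = 16 ^ (1 / 4 : ℝ) := by
    rw [show (16 : ℝ) = 2 ^ (4 : ℕ) by norm_num, ← Real.rpow_natCast,
      ← Real.rpow_mul (by norm_num)]
    norm_num
  rw [this]
  exact Real.rpow_le_rpow (by norm_num) hX (by norm_num)

theorem s2m_B {X η : ℝ} {p1 p2 : O} (hη : 0 < η) (hη' : η ≤ 1 / 48) (hX : 16 ≤ X)
    (h1 : p1 ∈ Win X η) (h2 : p2 ∈ Win X η) :
    X ^ (1 / 4 : ℝ) ≤ X / (N p1 * N p2) ∧ X / (N p1 * N p2) ≤ X := by
  have hX0 : 0 < X := by linarith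
  have hX1 : 1 ≤ X := by linarith
  have hN1 := one_le_N (s2m_win.1 h1).2.1.ne_zero
  have hN2 := one_le_N (s2m_win.1 h2).2.1.ne_zero
  refine ⟨?_, div_le_self hX0.le (one_le_mul_of_one_le_of_one_le hN1 hN2)⟩
  rw [le_div_iff₀ (by positivity)]
  have a1 := (s2m_win.1 h1).2.2.2.le
  have a2 := (s2m_win.1 h2).2.2.2.le
  calc _ ≤ X ^ (1 / 4 : ℝ) * (X ^ (1 / 3 + η) * X ^ (1 / 3 + η)) := by gcongr
    _ = X ^ (1 / 4 + (1 / 3 + η + (1 / 3 + η))) := by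
        rw [← Real.rpow_add hX0, ← Real.rpow_add hX0]
    _ ≤ X ^ (1 : ℝ) := Real.rpow_le_rpow_of_exponent_le hX1 (by linarith)
    _ = X := Real.rpow_one X

theorem s2m_pow {X B δ d : ℝ} (hX : 16 ≤ X) (hB4 : X ^ (1 / 4 : ℝ) ≤ B) (hδ : 0 < δ) (hd : δ ≤ d) :
    B ^ (1 - d) ≤ B * X ^ (-(δ / 4)) := by
  have h16 := s2m_16 hX
  have hX0 : 0 < X := by linarith
  have hB0 : 0 < B := by linarith
  have a1 : B ^ (1 - d) ≤ B ^ (1 - δ) :=
    Real.rpow_le_rpow_of_exponent_le (by linarith) (by linarith)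
  have a2 : B ^ (-δ) ≤ (X ^ (1 / 4 : ℝ)) ^ (-δ) :=
    Real.rpow_le_rpow_of_nonpos (by linarith) hB4 (by linarith)
  rw [← Real.rpow_mul hX0.le, show 1 / 4 * -δ = -(δ / 4) by ring] at a2
  refine a1.trans ?_
  rw [sub_eq_add_neg, Real.rpow_add hB0, Real.rpow_one]
  exact mul_le_mul_of_nonneg_left a2 hB0.le

theorem s2m_fin {c Ct Cs K R U B V L Y x1 x2 : ℝ} (hc : 0 ≤ c) (hCt : 0 < Ct) (hCs : 0 < Cs)
    (hK : 0 < K) (hBL : 0 ≤ B / L) (b1 : x1 ≤ Ct * (4 * B / L + U))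
    (b3 : x2 ≤ Cs * R ^ 3 * (K * (U * Y))) (b4 : R ^ 3 * (U * Y) ≤ B * V) (b5 : U ≤ B * V) :
    c * x1 + x2 ≤ B * ((4 * c * Ct + 1) / L + (c * Ct + Cs * K) * V) := by
  have b7 := mul_le_mul_of_nonneg_left b1 hc
  have b8 := mul_le_mul_of_nonneg_left b4 (by positivity : 0 ≤ Cs * K)
  have b9 := mul_le_mul_of_nonneg_left b5 (by positivity : 0 ≤ c * Ct)
  have b11 : B * ((4 * c * Ct + 1) / L + (c * Ct + Cs * K) * V) =
      c * (Ct * (4 * B / L)) + B / L + c * Ct * (B * V) + Cs * K * (B * V) := by ring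
  have b12 : c * (Ct * (4 * B / L + U)) = c * (Ct * (4 * B / L)) + c * Ct * U := by ring
  have b13 : Cs * R ^ 3 * (K * (U * Y)) = Cs * K * (R ^ 3 * (U * Y)) := by ring
  rw [b11]
  linarith

theorem s2m_inner : ∃ δ : ℝ, 0 < δ ∧ δ ≤ 1 / 2 ∧ ∃ K1 K2 : ℝ, 0 < K1 ∧ 0 < K2 ∧
    ∀ (η X R S : ℝ) (p1 p2 : O), 0 < η → η ≤ 1 / 48 → 16 ≤ X → 1 ≤ R → R ≤ X ^ (δ / 32) → 1 ≤ S →
      p1 ∈ Win X η → p2 ∈ Win X η →
      ‖∑ p3 ∈ Win X η, mdl R (p1 * p2 * p3) * WK S 0 (N (p1 * p2 * p3) / X)‖ ≤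
        (N p1)⁻¹ * (N p2)⁻¹ * (X ^ (5 / 6 : ℝ) * (K1 / (S * Real.log X) + K2 * X ^ (-(δ / 8)))) := by
  obtain ⟨δt, hδt, Ct, hCt, ht⟩ := pr_thin
  obtain ⟨δc, hδc, Cc, hCc, hc⟩ := pr_char
  obtain ⟨Cs, hCs, hs⟩ := s2m_split
  set δ := min (min δt δc) (1 / 2) with hδ
  have hδ0 : 0 < δ := lt_min (lt_min hδt hδc) (by norm_num)
  have hδ1 : δ ≤ 1 / 2 := min_le_right _ _
  have hδ2 : δ ≤ δt := (min_le_left _ _).trans (min_le_left _ _)
  have hδ3 : δ ≤ δc := (min_le_left _ _).trans (min_le_right _ _)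
  obtain ⟨Cl, hCl, hl⟩ := s2m_log (ρ := δ / 32) (by positivity) (by linarith)
  refine ⟨δ, hδ0, hδ1, 4 * ‖cc 1‖ * Ct + 1, ‖cc 1‖ * Ct + Cs * (Cc * Cl + 2 * Real.exp 4),
    by positivity, by positivity, ?_⟩
  intro η X R S p1 p2 hη hη' hX hR hRX hS h1 h2
  have hX0 : 0 < X := by linarith
  have hX1 : 1 ≤ X := by linarith
  have hS0 : 0 < S := by linarith
  obtain ⟨T, hT1, hT2, hT3⟩ := hs R hR
  have hN : ∀ p ∈ Win X η, 1 ≤ N p := fun p hp => one_le_N (s2m_win.1 hp).2.1.ne_zero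
  have hN1 := hN _ h1
  have hN2 := hN _ h2
  set B := X / (N p1 * N p2) with hB
  have hB0 : 0 < B := by positivity
  have hBX : B ≤ X := (s2m_B hη hη' hX h1 h2).2
  have hB4 : X ^ (1 / 4 : ℝ) ≤ B := (s2m_B hη hη' hX h1 h2).1
  have h16 := s2m_16 hX
  have hB2 : 2 ≤ B := h16.trans hB4
  have hlX : 0 < Real.log X := Real.log_pos (by linarith)
  have hlB : Real.log X / 4 ≤ Real.log B := by
    have := Real.log_le_log (Real.rpow_pos_of_pos hX0 _) hB4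
    rw [Real.log_rpow hX0] at this; linarith
  set U := B * X ^ (-(δ / 4)) with hU
  have hpow : ∀ d : ℝ, δ ≤ d → B ^ (1 - d) ≤ U := fun d hd => s2m_pow hX hB4 hδ0 hd
  have hU1 : 1 ≤ U := by
    have := hpow 1 (by linarith)
    rwa [sub_self, Real.rpow_zero] at this
  set W : O → ℂ := fun p => WK S (((-(1 / 6) : ℝ) : ℂ) + ((0 : ℝ) : ℂ) * Complex.I) (N p / B)
    with hW
  have hWr : ∀ p, W p = WK S ((-(1 / 6) : ℝ) : ℂ) (N p / B) := by
    intro p; simp only [hW]; congr 1; simp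
  have ha : |(-(1 / 6) : ℝ)| ≤ 4 := by rw [abs_neg, abs_of_pos] <;> norm_num
  set D := (Win X η).filter (fun p => NN (p1 * p2 * p)) with hD
  have hbig : ∀ p ∈ Win X η, R < N p := by
    intro p hp
    refine lt_of_le_of_lt hRX (lt_of_lt_of_le ?_ (s2m_win.1 hp).2.2.1)
    exact Real.rpow_lt_rpow_of_exponent_lt (by linarith) (by linarith)
  have e := s2m_id (S := S) hX0 (fun p hp => ⟨(s2m_win.1 hp).2.1, hbig p hp⟩) h1 h2 hT3 W
    (fun p => rfl)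
  rw [← hD] at e
  have b1 : ‖∑ p ∈ D, W p‖ ≤ Ct * (4 * B / (S * Real.log X) + U) := by
    have a1 : D ⊆ PP (X ^ (1 / 3 + η)) :=
      (Finset.filter_subset _ _).trans (Finset.filter_subset _ _)
    have a2 : B / (S * Real.log B) ≤ 4 * B / (S * Real.log X) := by
      rw [div_le_div_iff₀ (by have : 0 < Real.log B := by linarith
                              positivity) (by positivity)]
      have := mul_le_mul_of_nonneg_left hlB (by positivity : 0 ≤ 4 * B * S)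
      nlinarith
    have a3 := hpow δt hδ2
    calc _ ≤ ∑ p ∈ D, ‖W p‖ := norm_sum_le _ _
      _ ≤ ∑ p ∈ PP (X ^ (1 / 3 + η)), ‖W p‖ :=
          Finset.sum_le_sum_of_subset_of_nonneg a1 fun _ _ _ => norm_nonneg _
      _ ≤ Ct * (B / (S * Real.log B) + B ^ (1 - δt)) := by
          simp only [hWr]; exact ht B S _ _ hB2 hS ha
      _ ≤ _ := by gcongr
  have hXr : 1 ≤ X ^ (δ / 32) := Real.one_le_rpow hX1 (by positivity)
  have b2 : ∀ t ∈ T, ‖∑ p ∈ D, sym3 (cf t) p * W p‖ ≤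
      (Cc * Cl + 2 * Real.exp 4) * (U * X ^ (δ / 32)) := by
    intro t htT
    obtain ⟨c1, c2, c3⟩ := hT1 t htT
    have hRX' : R ≤ X := by
      refine hRX.trans ?_
      conv_rhs => rw [← Real.rpow_one X]
      exact Real.rpow_le_rpow_of_exponent_le hX1 (by linarith)
    have hy : (⌈X ^ (1 / 3 + η)⌉ : ℝ) - 1 ≤ X := by
      have a1 := Int.ceil_lt_add_one (X ^ (1 / 3 + η))
      have a2 : X ^ (1 / 3 + η) ≤ X ^ (1 : ℝ) :=
        Real.rpow_le_rpow_of_exponent_le hX1 (by linarith)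
      rw [Real.rpow_one] at a2
      linarith
    have a1 := hc X B S (X ^ (1 / 3 - 2 * η)) _ 0 (-(1 / 6)) (cf t) (by linarith) hBX hS ha hy c1
      (c2.trans hRX') c3
    rw [← s2m_win_eq] at a1
    have a2 := s2m_drop (fun p hp => ⟨(s2m_win.1 hp).1, (s2m_win.1 hp).2.1⟩) h1 h2
      (fun p => sym3 (cf t) p * W p) (M := Real.exp 4) (by
        intro p
        rw [norm_mul, hWr]
        exact (mul_le_of_le_one_left (norm_nonneg _) (norm_sym3_le _ _)).trans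
          (pr_WK_le hS ha _))
    have a3 := hl X X hX1 hX0.le (by nlinarith)
    have a4 := hpow δc hδ3
    have a5 : Cc * (1 + |(0 : ℝ)|) * B ^ (1 - δc) * Real.log (X + 2) ^ 2 ≤
        Cc * U * (Cl * X ^ (δ / 32)) := by
      rw [abs_zero, add_zero, mul_one]; gcongr
    have a6 : 1 ≤ U * X ^ (δ / 32) := one_le_mul_of_one_le_of_one_le hU1 hXr
    have a7 := mul_le_mul_of_nonneg_left a6 (by positivity : 0 ≤ 2 * Real.exp 4)
    refine a2.trans ?_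
    have a8 := a1.trans a5
    simp only [hW] at a8 ⊢
    nlinarith
  have b3 : ‖∑ t ∈ T, cc (cf t) * sym3 (cf t) (p1 * p2) * ∑ p ∈ D, sym3 (cf t) p * W p‖ ≤
      Cs * R ^ 3 * ((Cc * Cl + 2 * Real.exp 4) * (U * X ^ (δ / 32))) := by
    refine (norm_sum_le _ _).trans ?_
    refine le_trans (Finset.sum_le_sum (g := fun t => ‖cc (cf t)‖ *
      ((Cc * Cl + 2 * Real.exp 4) * (U * X ^ (δ / 32)))) fun t ht => ?_) ?_
    · rw [norm_mul, norm_mul]
      have := norm_sym3_le (cf t) (p1 * p2)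
      have := b2 t ht
      calc _ ≤ ‖cc (cf t)‖ * 1 * ((Cc * Cl + 2 * Real.exp 4) * (U * X ^ (δ / 32))) := by gcongr
        _ = _ := by ring
    · rw [← Finset.sum_mul]; gcongr
  set V := X ^ (-(δ / 8)) with hV
  have hV0 : 0 < V := Real.rpow_pos_of_pos hX0 _
  have b4 : R ^ 3 * (U * X ^ (δ / 32)) ≤ B * V := by
    calc _ ≤ (X ^ (δ / 32)) ^ 3 * (U * X ^ (δ / 32)) := by gcongr
      _ = B * ((X ^ (δ / 32)) ^ 4 * X ^ (-(δ / 4))) := by rw [hU]; ring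
      _ = B * V := by
          rw [← Real.rpow_natCast, ← Real.rpow_mul hX0.le, ← Real.rpow_add hX0, hV]
          congr 2; push_cast; ring
  have b5 : U ≤ B * V := by
    rw [hU, hV]
    gcongr
    linarith
  have b6 : X ^ (-(1 / 6) : ℝ) * B = (N p1)⁻¹ * (N p2)⁻¹ * X ^ (5 / 6 : ℝ) := by
    have : X ^ (5 / 6 : ℝ) = X ^ (-(1 / 6) : ℝ) * X := by
      rw [← Real.rpow_add_one hX0.ne']; norm_num
    rw [this, hB]; field_simp
  have b0 : 0 ≤ X ^ (-(1 / 6) : ℝ) := Real.rpow_nonneg hX0.le _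
  rw [e, norm_mul, Complex.norm_real, Real.norm_of_nonneg b0, ← mul_assoc, ← b6, mul_assoc]
  refine mul_le_mul_of_nonneg_left ((norm_add_le _ _).trans ?_) b0
  rw [norm_mul]
  exact s2m_fin (norm_nonneg _) hCt hCs (by positivity) (by positivity) b1 b3 b4 b5

/-- the model on the three-prime box -/
theorem s2m : ∃ ρ1 : ℝ, 0 < ρ1 ∧ ∀ ε > (0 : ℝ), ∃ η0 : ℝ, 0 < η0 ∧ ∀ η : ℝ, 0 < η → η ≤ η0 →
    ∃ κ : ℝ, 0 < κ ∧ ∃ X0 : ℝ, ∀ X R S : ℝ, X0 ≤ X → 1 ≤ R → R ≤ X ^ ρ1 → 1 ≤ S →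
      ‖∑ p1 ∈ Win X η, ∑ p2 ∈ Win X η, ∑ p3 ∈ Win X η,
          mdl R (p1 * p2 * p3) * WK S 0 (N (p1 * p2 * p3) / X)‖ ≤
        ε * S⁻¹ * X ^ (5 / 6 : ℝ) / Real.log X + X ^ (5 / 6 - κ) := by
  obtain ⟨δ, hδ, hδ', K1, K2, hK1, hK2, h⟩ := s2m_inner
  obtain ⟨δm, hδm, Cm, hCm, hm⟩ := pr_mertens
  refine ⟨δ / 32, by positivity, fun ε hε => ⟨min (1 / 48) (ε / (169 * K1)),
    lt_min (by norm_num) (by positivity), fun η hη hη0 => ⟨δ / 16, by positivity, ?_⟩⟩⟩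
  have hη1 : η ≤ 1 / 48 := hη0.trans (min_le_left _ _)
  have hη2 : η ≤ ε / (169 * K1) := hη0.trans (min_le_right _ _)
  have t1 : Tendsto (fun X : ℝ => Cm * X ^ (-(δm / 4))) atTop (𝓝 0) := by
    simpa using (tendsto_rpow_neg_atTop (by positivity : 0 < δm / 4)).const_mul Cm
  have t2 : Tendsto (fun X : ℝ => X ^ (δ / 16)) atTop atTop := tendsto_rpow_atTop (by positivity)
  obtain ⟨X0, hX0⟩ := eventually_atTop.1 ((t1.eventually (gt_mem_nhds hη)).and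
    ((t2.eventually_ge_atTop K2).and (eventually_ge_atTop 16)))
  refine ⟨X0, fun X R S hX hR hRX hS => ?_⟩
  obtain ⟨c1, c2, c3⟩ := hX0 X hX
  have hX0 : 0 < X := by linarith
  have hX1 : 1 ≤ X := by linarith
  have hS0 : 0 < S := by linarith
  have hlX : 0 < Real.log X := Real.log_pos (by linarith)
  have h4 : X ^ (1 / 4 : ℝ) ≤ X ^ (1 / 3 - 2 * η) :=
    Real.rpow_le_rpow_of_exponent_le hX1 (by linarith)
  have h16 := s2m_16 c3
  set σ := ∑ p ∈ Win X η, (N p)⁻¹ with hσ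
  have hσ0 : 0 ≤ σ := Finset.sum_nonneg fun p _ => inv_nonneg.2 (Nat.cast_nonneg _)
  have hσ1 : σ ≤ 13 * η := by
    have a1 := hm (X ^ (1 / 3 - 2 * η)) (X ^ (1 / 3 + η)) (h16.trans h4)
      (Real.rpow_le_rpow_of_exponent_le hX1 (by linarith))
    have a2 : σ ≤ ∑ p ∈ (PP (X ^ (1 / 3 + η))).filter (fun p => X ^ (1 / 3 - 2 * η) ≤ N p),
        (N p)⁻¹ := by
      refine Finset.sum_le_sum_of_subset_of_nonneg ?_ fun p _ _ => inv_nonneg.2 (Nat.cast_nonneg _)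
      intro p hp
      rw [Win, Finset.mem_filter] at hp
      exact Finset.mem_filter.2 ⟨hp.1, hp.2.1⟩
    have a3 : Real.log (X ^ (1 / 3 + η)) / Real.log (X ^ (1 / 3 - 2 * η)) =
        (1 / 3 + η) / (1 / 3 - 2 * η) := by
      rw [Real.log_rpow hX0, Real.log_rpow hX0, mul_div_mul_right _ _ hlX.ne']
    have a0 : 0 < 1 / 3 - 2 * η := by linarith
    have a4 : Real.log ((1 / 3 + η) / (1 / 3 - 2 * η)) ≤ 12 * η := by
      refine (Real.log_le_sub_one_of_pos (by positivity)).trans ?_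
      rw [sub_le_iff_le_add, div_le_iff₀ a0]
      nlinarith
    have a5 : (X ^ (1 / 3 - 2 * η)) ^ (-δm) ≤ X ^ (-(δm / 4)) := by
      have := Real.rpow_le_rpow_of_nonpos (by linarith) h4 (by linarith : -δm ≤ 0)
      rwa [← Real.rpow_mul hX0.le (1 / 4), show 1 / 4 * -δm = -(δm / 4) by ring] at this
    rw [a3] at a1
    have a6 := mul_le_mul_of_nonneg_left a5 hCm.le
    linarith
  set Q := X ^ (5 / 6 : ℝ) * (K1 / (S * Real.log X) + K2 * X ^ (-(δ / 8))) with hQ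
  have hb : ‖∑ p1 ∈ Win X η, ∑ p2 ∈ Win X η, ∑ p3 ∈ Win X η,
      mdl R (p1 * p2 * p3) * WK S 0 (N (p1 * p2 * p3) / X)‖ ≤ σ * σ * Q := by
    refine (norm_sum_le _ _).trans ?_
    rw [hσ, Finset.sum_mul_sum, Finset.sum_mul]
    refine Finset.sum_le_sum fun p1 h1 => (norm_sum_le _ _).trans ?_
    rw [Finset.sum_mul]
    exact Finset.sum_le_sum fun p2 h2 => h η X R S p1 p2 hη hη1 c3 hR hRX hS h1 h2
  refine hb.trans ?_
  have hp : 0 < X ^ (5 / 6 : ℝ) := Real.rpow_pos_of_pos hX0 _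
  have d1 : σ * σ ≤ 169 * η := by nlinarith
  have d2 : σ * σ ≤ 1 := by nlinarith
  have d3 : σ * σ * K1 ≤ ε := by
    rw [le_div_iff₀ (by positivity)] at hη2
    nlinarith
  have d4 : X ^ (5 / 6 : ℝ) * (K2 * X ^ (-(δ / 8))) ≤ X ^ (5 / 6 - δ / 16) := by
    calc _ ≤ X ^ (5 / 6 : ℝ) * (X ^ (δ / 16) * X ^ (-(δ / 8))) := by gcongr
      _ = _ := by
          rw [← Real.rpow_add hX0, ← Real.rpow_add hX0]; congr 1; ring
  have d5 : σ * σ * Q = σ * σ * K1 * (S⁻¹ * X ^ (5 / 6 : ℝ) / Real.log X) +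
      σ * σ * (X ^ (5 / 6 : ℝ) * (K2 * X ^ (-(δ / 8)))) := by
    rw [hQ]; field_simp
  rw [d5]
  refine add_le_add ?_ ?_
  · calc _ ≤ ε * (S⁻¹ * X ^ (5 / 6 : ℝ) / Real.log X) := by gcongr
      _ = _ := by ring
  · exact (mul_le_of_le_one_left (by positivity) d2).trans d4

/-- the model on primes -/
theorem prm : ∃ ρ1 : ℝ, 0 < ρ1 ∧ ∃ κ : ℝ, 0 < κ ∧ ∃ C : ℝ, ∀ X R S : ℝ,
    1 ≤ X → 1 ≤ R → R ≤ X ^ ρ1 → 1 ≤ S →
      ‖∑' p : O, (if NN p ∧ Prime p then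
          (mdl R p - cc 1 * ((N p ^ (-(1 / 6) : ℝ) : ℝ) : ℂ)) * WK S 0 (N p / X) else 0)‖ ≤
        C * X ^ (5 / 6 - κ) := by
  obtain ⟨δc, hδc, Cc, hCc, hc⟩ := pr_char
  obtain ⟨Cs, hCs, hs⟩ := s2m_split
  obtain ⟨Cm, hCm, hm⟩ := norm_mdl_le
  obtain ⟨Cb, hCb, hb⟩ := card_ballO_le
  obtain ⟨Ct, hCt, ht⟩ := tail_WK_le (a := 2) le_rfl 0
  obtain ⟨Cw, hCw, hw⟩ := sum_WK_thin (ε := 1) one_pos 0
  set δ := min δc (1 / 2) with hδ
  have hδ0 : 0 < δ := lt_min hδc (by norm_num)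
  have hδ1 : δ ≤ 1 / 2 := min_le_right _ _
  have hδ2 : δ ≤ δc := min_le_left _ _
  obtain ⟨Cl, hCl, hl⟩ := s2m_log (ρ := δ / 8) (by positivity) (by linarith)
  set K := Cm + ‖cc 1‖ with hK
  have hK0 : 0 < K := by positivity
  refine ⟨δ / 8, by positivity, δ / 2, by positivity,
    Cs * Cc * Cl + 2 * Cb * K * Real.exp 4 + K * Ct, fun X R S hX hR hRX hS => ?_⟩
  have hX0 : 0 < X := by linarith
  have hR0 : 0 < R := by linarith
  obtain ⟨T, hT1, hT2, hT3⟩ := hs R hR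
  set f : O → ℂ := fun p => (mdl R p - cc 1 * ((N p ^ (-(1 / 6) : ℝ) : ℝ) : ℂ)) *
    WK S 0 (N p / X) with hf
  have hR3 : 1 ≤ R ^ 3 := one_le_pow₀ hR
  have hfb : ∀ p, p ≠ 0 → ‖f p‖ ≤ K * R ^ 3 * ‖WK S 0 (N p / X)‖ := by
    intro p hp
    have a0 : 0 ≤ N p ^ (-(1 / 6) : ℝ) := Real.rpow_nonneg (Nat.cast_nonneg _) _
    have a1 : N p ^ (-(1 / 6) : ℝ) ≤ 1 :=
      Real.rpow_le_one_of_one_le_of_nonpos (one_le_N hp) (by norm_num)
    simp only [hf]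
    rw [norm_mul]
    refine mul_le_mul_of_nonneg_right ((norm_sub_le _ _).trans ?_) (norm_nonneg _)
    rw [norm_mul, Complex.norm_real, Real.norm_of_nonneg a0]
    have a2 := (hm R p hR).trans (mul_le_of_le_one_right (by positivity) a1)
    have a3 := mul_le_of_le_one_right (norm_nonneg (cc 1)) a1
    have a4 := le_mul_of_one_le_right (norm_nonneg (cc 1)) hR3
    rw [hK]; linarith
  set Z := X ^ 2 with hZ
  have hXZ : X ≤ Z := by rw [hZ]; nlinarith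
  set F2 : O → ℂ := fun p => if (NN p ∧ Prime p) ∧ Z < N p then f p else 0 with hF2
  have hsW : Summable (fun n : O => if Z < N n then ‖WK S 0 (N n / X)‖ else 0) := by
    refine (hw S X 0 hS hX (by simp)).1.of_nonneg_of_le (fun n => ?_) fun n => ?_
    · split_ifs <;> positivity
    · by_cases h : Z < N n
      · have : n ≠ 0 := by
          rintro rfl
          rw [N_zero] at h; linarith
        rw [if_pos h, if_pos this]
      · rw [if_neg h]; split_ifs <;> positivity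
  have hF2b : ∀ p, ‖F2 p‖ ≤ K * R ^ 3 * (if Z < N p then ‖WK S 0 (N p / X)‖ else 0) := by
    intro p
    simp only [hF2]
    by_cases h : (NN p ∧ Prime p) ∧ Z < N p
    · rw [if_pos h, if_pos h.2]; exact hfb p h.1.2.ne_zero
    · rw [if_neg h, norm_zero]; split_ifs <;> positivity
  have hs2 : Summable F2 := Summable.of_norm_bounded (hsW.mul_left _) hF2b
  have hn2 : ‖∑' p, F2 p‖ ≤ K * R ^ 3 * Ct := by
    refine (tsum_of_norm_bounded (hsW.mul_left _).hasSum hF2b).trans ?_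
    rw [tsum_mul_left]
    refine mul_le_mul_of_nonneg_left ((ht S X Z 0 hS (by simp) hX0 (by linarith)).trans
      (le_of_eq ?_)) (by positivity)
    rw [hZ, Real.rpow_two]; field_simp
  have hs1 : HasSum (fun p => if p ∈ PP Z then f p else 0) (∑ p ∈ PP Z, f p) := by
    have := hasSum_sum_of_ne_finset_zero (f := fun p => if p ∈ PP Z then f p else 0) (s := PP Z)
      (L := SummationFilter.unconditional O) (fun p hp => if_neg hp)
    rwa [Finset.sum_congr rfl (fun p hp => if_pos hp)] at this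
  have e : ∑' p : O, (if NN p ∧ Prime p then f p else 0) = ∑ p ∈ PP Z, f p + ∑' p, F2 p := by
    rw [← (hs1.add hs2.hasSum).tsum_eq]
    refine tsum_congr fun p => ?_
    simp only [hF2, pr_mem]
    by_cases h1 : NN p ∧ Prime p
    · by_cases h2 : N p ≤ Z
      · rw [if_pos h1, if_pos ⟨h1.1, h2, h1.2⟩, if_neg (fun h => not_lt.2 h2 h.2), add_zero]
      · rw [if_pos h1, if_neg (fun h => h2 h.2.1), if_pos ⟨h1, not_le.1 h2⟩, zero_add]
    · rw [if_neg h1, if_neg (fun h => h1 ⟨h.1, h.2.2⟩), if_neg (fun h => h1 h.1), add_zero]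
  change ‖∑' p : O, (if NN p ∧ Prime p then f p else 0)‖ ≤ _
  rw [e, ← Finset.sum_filter_add_sum_filter_not (PP Z) (fun p => R + 1 ≤ N p) f]
  have ha : |(-(1 / 6) : ℝ)| ≤ 4 := by rw [abs_neg, abs_of_pos] <;> norm_num
  have hRr : R ^ 4 ≤ X ^ (5 / 6 - δ / 2) := by
    calc _ ≤ (X ^ (δ / 8)) ^ 4 := by gcongr
      _ = X ^ (δ / 8 * (4 : ℕ)) := by rw [← Real.rpow_natCast, ← Real.rpow_mul hX0.le]
      _ ≤ _ := Real.rpow_le_rpow_of_exponent_le hX (by push_cast; linarith)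
  have b1 : ‖∑ p ∈ (PP Z).filter (fun p => ¬ R + 1 ≤ N p), f p‖ ≤
      2 * Cb * K * Real.exp 4 * R ^ 4 := by
    have a1 : ∀ p ∈ (PP Z).filter (fun p => ¬ R + 1 ≤ N p), ‖f p‖ ≤ K * R ^ 3 * Real.exp 4 := by
      intro p hp
      refine (hfb p (pr_mem.1 (Finset.mem_filter.1 hp).1).2.2.ne_zero).trans ?_
      have := pr_WK_le (a := 0) hS (by simp) (N p / X)
      rw [Complex.ofReal_zero] at this
      gcongr
    refine (norm_sum_le _ _).trans ((Finset.sum_le_card_nsmul _ _ _ a1).trans ?_)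
    rw [nsmul_eq_mul]
    have a2 : (PP Z).filter (fun p => ¬ R + 1 ≤ N p) ⊆ ballO (2 * R) := by
      intro p hp
      rw [Finset.mem_filter] at hp
      exact mem_ballO.2 ⟨(pr_mem.1 hp.1).2.2.ne_zero, by linarith [not_le.1 hp.2]⟩
    have a3 : (((PP Z).filter (fun p => ¬ R + 1 ≤ N p)).card : ℝ) ≤ Cb * (2 * R) :=
      le_trans (by exact_mod_cast Finset.card_le_card a2) (hb _ (by linarith))
    calc _ ≤ Cb * (2 * R) * (K * R ^ 3 * Real.exp 4) := by gcongr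
      _ = _ := by ring
  have b2 : ‖∑ p ∈ (PP Z).filter (fun p => R + 1 ≤ N p), f p‖ ≤
      Cs * Cc * Cl * X ^ (5 / 6 - δ / 2) := by
    have e2 : ∑ p ∈ (PP Z).filter (fun p => R + 1 ≤ N p), f p =
        ((X ^ (-(1 / 6) : ℝ) : ℝ) : ℂ) * ∑ t ∈ T, cc (cf t) *
          ∑ p ∈ (PP Z).filter (fun p => R + 1 ≤ N p), sym3 (cf t) p *
            WK S (((-(1 / 6) : ℝ) : ℂ) + ((0 : ℝ) : ℂ) * Complex.I) (N p / X) := by
      simp only [Finset.mul_sum]
      rw [Finset.sum_comm]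
      refine Finset.sum_congr rfl fun p hp => ?_
      obtain ⟨hp, hpR⟩ := Finset.mem_filter.1 hp
      obtain ⟨hn, -, hpr⟩ := pr_mem.1 hp
      have hq : ∀ q, Prime q → q ∣ p → R < N q := by
        intro q hq hd
        have := (hq.irreducible.dvd_irreducible_iff_associated hpr.irreducible).1 hd
        have := N_le_of_dvd this.symm.dvd hq.ne_zero
        linarith
      simp only [hf]
      rw [hT3 p hn hq, add_mul, add_sub_cancel_left, mul_assoc, s2m_W S hX0 (N_pos hpr.ne_zero),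
        Finset.sum_mul]
      exact Finset.sum_congr rfl fun t _ => by ring
    have b0 : 0 ≤ X ^ (-(1 / 6) : ℝ) := Real.rpow_nonneg hX0.le _
    have hRX' : R ≤ X := by
      refine hRX.trans ?_
      conv_rhs => rw [← Real.rpow_one X]
      exact Real.rpow_le_rpow_of_exponent_le hX (by linarith)
    have a1 : ∀ t ∈ T, ‖cc (cf t) * ∑ p ∈ (PP Z).filter (fun p => R + 1 ≤ N p), sym3 (cf t) p *
        WK S (((-(1 / 6) : ℝ) : ℂ) + ((0 : ℝ) : ℂ) * Complex.I) (N p / X)‖ ≤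
        ‖cc (cf t)‖ * (Cc * X ^ (1 - δ) * (Cl * X ^ (δ / 8))) := by
      intro t htT
      obtain ⟨c1, c2, c3⟩ := hT1 t htT
      rw [norm_mul]
      refine mul_le_mul_of_nonneg_left ((hc Z X S (R + 1) Z 0 (-(1 / 6)) (cf t) hX hXZ hS ha le_rfl
        c1 (c2.trans (hRX'.trans hXZ)) c3).trans ?_) (norm_nonneg _)
      have a3 := hl X Z hX (by linarith) le_rfl
      have a4 : X ^ (1 - δc) ≤ X ^ (1 - δ) := Real.rpow_le_rpow_of_exponent_le hX (by linarith)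
      rw [abs_zero, add_zero, mul_one]
      gcongr
    rw [e2, norm_mul, Complex.norm_real, Real.norm_of_nonneg b0]
    have a2 := (norm_sum_le _ _).trans (Finset.sum_le_sum a1)
    rw [← Finset.sum_mul] at a2
    calc _ ≤ X ^ (-(1 / 6) : ℝ) * (Cs * (X ^ (δ / 8)) ^ 3 *
          (Cc * X ^ (1 - δ) * (Cl * X ^ (δ / 8)))) := by
          refine mul_le_mul_of_nonneg_left (a2.trans ?_) b0
          refine mul_le_mul_of_nonneg_right (hT2.trans ?_) (by positivity)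
          gcongr
      _ = Cs * Cc * Cl * (X ^ (-(1 / 6) : ℝ) * X ^ (1 - δ) * (X ^ (δ / 8)) ^ 4) := by ring
      _ = _ := by
          rw [← Real.rpow_natCast, ← Real.rpow_mul hX0.le, ← Real.rpow_add hX0,
            ← Real.rpow_add hX0]
          congr 2; push_cast; ring
  have b3 : R ^ 3 ≤ X ^ (5 / 6 - δ / 2) := (pow_le_pow_right₀ hR (by norm_num)).trans hRr
  have b4 := mul_le_mul_of_nonneg_left hRr (by positivity : 0 ≤ 2 * Cb * K * Real.exp 4)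
  have b5 := mul_le_mul_of_nonneg_left b3 (by positivity : 0 ≤ K * Ct)
  refine (norm_add_le _ _).trans ((add_le_add (norm_add_le _ _) le_rfl).trans ?_)
  nlinarith

end

end Vale.Agent.P006
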