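import Vale.Agent.P006.S2D
import Vale.Agent.P006.PR
import Vale.Agent.P006.Sep

namespace Vale.Agent.P006

open Vale.Agent.P026 Complex MeasureTheory Filter Topology
open scoped Classical ComplexConjugate Real MatrixGroups

noncomputable section

namespace Nc

lemma mem_PP {y : ℝ} {p : O} : p ∈ PP y ↔ NN p ∧ Prime p ∧ N p ≤ y := by
  unfold PP
  rw [Finset.mem_filter, mem_ballN]; tauto

lemma mem_PI {y1 y2 : ℝ} {p : O} : p ∈ PI y1 y2 ↔ NN p ∧ Prime p ∧ y1 ≤ N p ∧ N p ≤ y2 := by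
  unfold PI
  rw [Finset.mem_filter, mem_PP]; tauto

lemma abel (T : Finset O) (c : O → ℂ) (f : ℕ → ℂ) {n0 Y : ℕ} {D : ℝ}
    (hT : ∀ p ∈ T, n0 ≤ Nm p ∧ Nm p ≤ Y)
    (hD : ∀ n : ℕ, ‖∑ p ∈ T.filter (fun p => Nm p ≤ n), c p‖ ≤ D) :
    ‖∑ p ∈ T, c p * f (Nm p)‖ ≤ D * (‖f Y‖ + ∑ n ∈ Finset.Ico n0 Y, ‖f (n + 1) - f n‖) := by
  have e1 : ∀ p ∈ T, c p * f (Nm p) = c p * f Y -
      ∑ n ∈ Finset.Ico n0 Y, (if Nm p ≤ n then c p * (f (n + 1) - f n) else 0) := by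
    intro p hp
    obtain ⟨h1, h2⟩ := hT p hp
    rw [← Finset.sum_filter, ← Finset.mul_sum]
    have : (Finset.Ico n0 Y).filter (fun n => Nm p ≤ n) = Finset.Ico (Nm p) Y := by
      ext n; simp only [Finset.mem_filter, Finset.mem_Ico]; omega
    rw [this, Finset.sum_Ico_sub f h2]; ring
  rw [Finset.sum_congr rfl e1, Finset.sum_sub_distrib, Finset.sum_comm, ← Finset.sum_mul, mul_add,
    Finset.mul_sum]
  refine (norm_sub_le _ _).trans (add_le_add ?_ ((norm_sum_le _ _).trans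
    (Finset.sum_le_sum fun n _ => ?_)))
  · rw [norm_mul]
    have := hD Y
    rw [Finset.filter_true_of_mem fun p hp => (hT p hp).2] at this
    gcongr
  · rw [← Finset.sum_filter, ← Finset.sum_mul, norm_mul]
    gcongr
    exact hD n

lemma exp_sub {u v : ℂ} {r : ℝ} (hu : u.re ≤ r) (hv : v.re ≤ r) :
    ‖Complex.exp u - Complex.exp v‖ ≤ Real.exp r * ‖u - v‖ :=
  Convex.norm_image_sub_le_of_norm_deriv_le (f := Complex.exp) (s := {z : ℂ | z.re ≤ r})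
    (fun _ _ => Complex.differentiable_exp.differentiableAt)
    (fun z hz => by
      rw [Complex.deriv_exp, Complex.norm_exp]; exact Real.exp_le_exp.2 hz)
    (convex_halfSpace_re_le r) hv hu

lemma re_eq (c τ : ℝ) {x : ℝ} (hx : 0 < x) :
    (-((c : ℂ) / ((1 + τ * I) * x))).re = -(c / ((1 + τ ^ 2) * x)) := by
  rw [neg_re, Complex.div_re]
  simp [Complex.normSq_apply]
  field_simp

lemma re_le {c τ x y : ℝ} (hc : 0 ≤ c) (hx : 0 < x) (hxy : x ≤ y) :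
    (-((c : ℂ) / ((1 + τ * I) * x))).re ≤ -(c / ((1 + τ ^ 2) * y)) := by
  rw [re_eq c τ hx, neg_le_neg_iff]
  gcongr

lemma one_le_norm (τ : ℝ) : 1 ≤ ‖(1 + τ * I : ℂ)‖ := by
  have := Complex.re_le_norm (1 + τ * I : ℂ)
  simpa using this

lemma var {c τ y1 y2 : ℝ} (hc : 0 ≤ c) (h1 : 1 ≤ y1) (h12 : y1 ≤ y2) :
    ‖Complex.exp (-((c : ℂ) / ((1 + τ * I) * ((⌊y2⌋₊ : ℕ) : ℝ))))‖ +
      ∑ n ∈ Finset.Ico ⌈y1⌉₊ ⌊y2⌋₊, ‖Complex.exp (-((c : ℂ) / ((1 + τ * I) * ((n + 1 : ℕ) : ℝ)))) -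
        Complex.exp (-((c : ℂ) / ((1 + τ * I) * ((n : ℕ) : ℝ))))‖ ≤
      (1 + c / y1) * Real.exp (-(c / ((1 + τ ^ 2) * y2))) := by
  have hf : (⌊y2⌋₊ : ℝ) ≤ y2 := Nat.floor_le (by linarith)
  have hf1 : 1 ≤ ⌊y2⌋₊ := Nat.le_floor (by simpa using h1.trans h12)
  have hc1 : y1 ≤ (⌈y1⌉₊ : ℝ) := Nat.le_ceil y1
  set E := Real.exp (-(c / ((1 + τ ^ 2) * y2))) with hE
  have hE0 : 0 < E := Real.exp_pos _
  rw [add_mul 1 (c / y1) E, one_mul E]
  apply add_le_add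
  · rw [Complex.norm_exp]
    exact Real.exp_le_exp.2 (re_le hc (by exact_mod_cast hf1) hf)
  · calc _ ≤ ∑ n ∈ Finset.Ico ⌈y1⌉₊ ⌊y2⌋₊, E * c * (-((n + 1 : ℕ) : ℝ)⁻¹ - -((n : ℕ) : ℝ)⁻¹) := by
          refine Finset.sum_le_sum fun n hn => ?_
          rw [Finset.mem_Ico] at hn
          have a1 : (⌈y1⌉₊ : ℝ) ≤ n := by exact_mod_cast hn.1
          have a2 : ((n + 1 : ℕ) : ℝ) ≤ ⌊y2⌋₊ := by exact_mod_cast hn.2
          have a3 : (0 : ℝ) < n := by linarith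
          have a4 : (n : ℝ) < ((n + 1 : ℕ) : ℝ) := by push_cast; linarith
          refine (exp_sub (re_le hc (a3.trans a4) (a2.trans hf))
            (re_le hc a3 (a4.le.trans (a2.trans hf)))).trans ?_
          rw [mul_assoc]
          apply mul_le_mul_of_nonneg_left _ hE0.le
          have a5 : (1 + τ * I : ℂ) ≠ 0 := by
            intro h; have := one_le_norm τ; rw [h, norm_zero] at this; linarith
          have a6 : -((c : ℂ) / ((1 + τ * I) * ((n + 1 : ℕ) : ℝ))) -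
              -((c : ℂ) / ((1 + τ * I) * ((n : ℕ) : ℝ))) =
              ((c * (-((n + 1 : ℕ) : ℝ)⁻¹ - -((n : ℕ) : ℝ)⁻¹) : ℝ) : ℂ) / (1 + τ * I) := by
            simp only [div_eq_mul_inv, mul_inv]; push_cast; ring
          have a7 : 0 ≤ -((n + 1 : ℕ) : ℝ)⁻¹ - -((n : ℕ) : ℝ)⁻¹ := by
            have := inv_anti₀ a3 a4.le; linarith
          rw [a6, norm_div, Complex.norm_real, Real.norm_of_nonneg (by positivity)]
          exact div_le_self (by positivity) (one_le_norm τ)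
      _ ≤ c / y1 * E := by
          rw [← Finset.mul_sum]
          rcases le_total ⌈y1⌉₊ ⌊y2⌋₊ with h | h
          · rw [Finset.sum_Ico_sub (fun n : ℕ => -((n : ℕ) : ℝ)⁻¹) h]
            have b1 : ((⌈y1⌉₊ : ℕ) : ℝ)⁻¹ ≤ y1⁻¹ := inv_anti₀ (by linarith) hc1
            have b2 : 0 ≤ ((⌊y2⌋₊ : ℕ) : ℝ)⁻¹ := by positivity
            calc _ ≤ E * c * y1⁻¹ := by gcongr; linarith
              _ = _ := by ring
          · rw [Finset.Ico_eq_empty_of_le h, Finset.sum_empty, mul_zero]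
            have : 0 < y1 := by linarith
            positivity

lemma wk_eq (K : ℝ) {B : ℝ} (hB : 0 < B) {p : O} (hp : p ≠ 0) (x : ℂ) :
    (gw K B p : ℂ) * (x / (‖toC p‖ : ℂ)) =
      ((√B)⁻¹ : ℝ) * (x * WK K ((-(1 / 2) : ℝ) + (0 : ℝ) * I) (N p / B)) := by
  have hN := N_pos hp
  have e1 : WK K ((-(1 / 2) : ℝ) + (0 : ℝ) * I) (N p / B) =
      ((Real.exp (Real.log (N p / B) * (-(1 / 2))) * gw K B p : ℝ) : ℂ) := by
    unfold WK gw
    rw [← Real.exp_add]; push_cast; congr 1; ring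
  rw [e1, ← Real.rpow_def_of_pos (by positivity), Real.rpow_neg (by positivity),
    ← Real.sqrt_eq_rpow, Real.sqrt_div hN.le, norm_toC]
  have h1 : ((√B : ℝ) : ℂ) ≠ 0 := by exact_mod_cast (Real.sqrt_pos.2 hB).ne'
  have h2 : ((√(N p) : ℝ) : ℂ) ≠ 0 := by exact_mod_cast (Real.sqrt_pos.2 hN).ne'
  push_cast; field_simp

end Nc

/-- cancellation in the inner sum for a non-cube frequency -/
theorem s2_nc : ∃ δ : ℝ, 0 < δ ∧ ∃ C : ℝ, 0 < C ∧ ∀ (Z B K y1 y2 c τ : ℝ) (k b2 : O),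
    1 ≤ B → B ≤ Z → 1 ≤ K → 1 ≤ y1 → y2 ≤ Z → 0 ≤ c → k ≠ 0 → N k ≤ Z → ¬ IsCube k →
    ‖∑ b ∈ (PI y1 y2).erase b2, (gw K B b : ℂ) * (sym3 k b / (‖toC b‖ : ℂ)) *
        Complex.exp (-(c / ((1 + τ * I) * N b)))‖ ≤
      C * B ^ (1 / 2 - δ) * Real.log (Z + 2) ^ 2 * (1 + c / y1) *
        Real.exp (-(c / ((1 + τ ^ 2) * y2))) := by
  obtain ⟨δ, hδ, C, hC, H⟩ := pr_char
  refine ⟨min δ (1 / 2), by positivity, C + 1, by positivity, ?_⟩
  intro Z B K y1 y2 c τ k b2 hB hBZ hK hy1 hy2 hc hk hkZ hcube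
  have hB0 : 0 < B := by linarith
  have hy10 : 0 < y1 := by linarith
  rcases lt_or_ge y2 y1 with h12 | h12
  · have : PI y1 y2 = ∅ := by
      refine Finset.eq_empty_of_forall_notMem fun p hp => ?_
      rw [Nc.mem_PI] at hp
      linarith [hp.2.2.1, hp.2.2.2]
    rw [this, Finset.erase_empty, Finset.sum_empty, norm_zero]
    positivity
  have hm : ∀ p ∈ PI y1 y2, p ≠ 0 ∧ y1 ≤ N p ∧ N p ≤ y2 := fun p hp => by
    rw [Nc.mem_PI] at hp
    exact ⟨hp.1.ne_zero, hp.2.2⟩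
  set E := Real.exp (-(c / ((1 + τ ^ 2) * y2))) with hE
  have hE0 : 0 < E := Real.exp_pos _
  set L := Real.log (Z + 2) ^ 2 with hL
  have hL1 : 1 ≤ L := one_le_pow₀ (by
    rw [Real.le_log_iff_exp_le (by linarith)]; linarith [Real.exp_one_lt_three])
  set Q := B ^ (1 / 2 - min δ (1 / 2)) with hQ
  have hQ1 : 1 ≤ Q := Real.one_le_rpow hB (by linarith [min_le_right δ (1 / 2)])
  have h1 := Nc.abel (PI y1 y2) (fun b => (gw K B b : ℂ) * (sym3 k b / (‖toC b‖ : ℂ)))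
    (fun n => Complex.exp (-((c : ℂ) / ((1 + τ * I) * ((n : ℕ) : ℝ))))) (n0 := ⌈y1⌉₊) (Y := ⌊y2⌋₊)
    (D := C * Q * L) (fun p hp => ⟨Nat.ceil_le.2 (hm p hp).2.1, Nat.le_floor (hm p hp).2.2⟩)
    (fun n => by
      have e1 : (PI y1 y2).filter (fun p => Nm p ≤ n) =
          (PP (min n y2)).filter (fun p => y1 ≤ N p) := by
        ext p
        rw [Finset.mem_filter, Finset.mem_filter, Nc.mem_PI, Nc.mem_PP, le_min_iff]
        have : N p ≤ n ↔ Nm p ≤ n := Nat.cast_le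
        tauto
      rw [Finset.sum_congr rfl fun p hp => Nc.wk_eq K hB0 (hm p (Finset.mem_filter.1 hp).1).1 _,
        ← Finset.mul_sum, e1, norm_mul, Complex.norm_real, Real.norm_of_nonneg (by positivity)]
      have h2 := H Z B K y1 (min n y2) 0 (-(1 / 2)) k hB hBZ hK (by norm_num [abs_of_nonneg])
        ((min_le_right _ _).trans hy2) hk hkZ hcube
      rw [abs_zero, add_zero, mul_one] at h2
      have h3 : (√B)⁻¹ * B ^ (1 - δ) ≤ Q := by
        rw [Real.sqrt_eq_rpow, ← Real.rpow_neg hB0.le, ← Real.rpow_add hB0]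
        exact Real.rpow_le_rpow_of_exponent_le hB (by linarith [min_le_left δ (1 / 2)])
      calc _ ≤ (√B)⁻¹ * (C * B ^ (1 - δ) * L) := by gcongr
        _ = C * ((√B)⁻¹ * B ^ (1 - δ)) * L := by ring
        _ ≤ _ := by gcongr)
  have h2 := h1.trans (mul_le_mul_of_nonneg_left (Nc.var (τ := τ) hc hy1 h12) (by positivity))
  have h3 : ∀ b ∈ PI y1 y2, ‖(gw K B b : ℂ) * (sym3 k b / (‖toC b‖ : ℂ)) *
      Complex.exp (-(c / ((1 + τ * I) * N b)))‖ ≤ E := fun b hb => by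
    obtain ⟨g1, g2, g3⟩ := hm b hb
    have a1 : ‖(gw K B b : ℂ)‖ ≤ 1 := by
      rw [Complex.norm_real, Real.norm_of_nonneg (show 0 ≤ gw K B b from (Real.exp_pos _).le)]
      exact Real.exp_le_one_iff.2 (neg_nonpos.2 (by positivity))
    have a2 : ‖sym3 k b / (‖toC b‖ : ℂ)‖ ≤ 1 := by
      rw [norm_div, Complex.norm_real, norm_norm, norm_toC]
      exact div_le_one_of_le₀ ((norm_sym3_le _ _).trans (Real.one_le_sqrt.2 (one_le_N g1)))
        (Real.sqrt_nonneg _)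
    rw [norm_mul, norm_mul, Complex.norm_exp]
    calc _ ≤ 1 * 1 * E := by
          gcongr
          exact Real.exp_le_exp.2 (Nc.re_le hc (N_pos g1) g3)
      _ = E := by ring
  have h4 : 1 ≤ 1 + c / y1 := le_add_of_nonneg_right (by positivity)
  have h5 : E ≤ Q * L * (1 + c / y1) * E :=
    le_mul_of_one_le_left hE0.le (one_le_mul_of_one_le_of_one_le
      (one_le_mul_of_one_le_of_one_le hQ1 hL1) h4)
  change ‖∑ p ∈ PI y1 y2, (gw K B p : ℂ) * (sym3 k p / (‖toC p‖ : ℂ)) *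
    Complex.exp (-(c / ((1 + τ * I) * N p)))‖ ≤ _ at h2
  by_cases hb : b2 ∈ PI y1 y2
  · rw [Finset.sum_erase_eq_sub hb]
    refine (norm_sub_le _ _).trans ?_
    have := h3 b2 hb
    nlinarith
  · rw [Finset.erase_eq_of_notMem hb]
    nlinarith

end

end Vale.Agent.P006
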