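import Vale.Agent.P006.S2Po
import Vale.Agent.P006.S2Nc

namespace Vale.Agent.P006

open Vale.Agent.P026 Complex MeasureTheory Filter Topology
open scoped Classical ComplexConjugate Real MatrixGroups

noncomputable section

namespace Off

lemma zre (τ : ℝ) : 0 < (1 + τ * I : ℂ).re := by simp

lemma znorm (τ : ℝ) : ‖(1 + τ * I : ℂ)‖ = √(1 + τ ^ 2) := by
  simpa using Complex.norm_add_mul_I 1 τ

lemma one_le_kap : 1 ≤ kap := by
  unfold kap
  rw [le_div_iff₀ (by positivity), one_mul]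
  have : √3 ≤ 2 := Real.sqrt_le_iff.2 (by norm_num)
  linarith [Real.pi_gt_three]

lemma sumEz {A : ℝ} (τ : ℝ) (hA : 0 < A) : Summable fun a => ‖Ez (1 + τ * I) A a‖ := by
  obtain ⟨C, -, H⟩ := sum_exp_le kap_pos
  simpa only [norm_Ez] using (H A hA).1

lemma nEd {t : ℝ} (τ : ℝ) (ht : 0 < t) (h : O) :
    ‖Ed (1 + τ * I) t h‖ = Real.exp (-(kap * N h / ((1 + τ ^ 2) / t))) := by
  rw [norm_Ed]; congr 2; field_simp

lemma sumEd {t : ℝ} (τ : ℝ) (ht : 0 < t) : Summable fun a => ‖Ed (1 + τ * I) t a‖ := by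
  obtain ⟨C, -, H⟩ := sum_exp_le kap_pos
  simpa only [nEd τ ht] using (H ((1 + τ ^ 2) / t) (by positivity)).1

lemma sumF {A M : ℝ} (τ : ℝ) (hA : 0 < A) {F : O → ℂ} (hF : ∀ a, ‖F a‖ ≤ M) (d : O) :
    Summable fun a => if d ∣ a then F a * Ez (1 + τ * I) A a else 0 := by
  refine Summable.of_norm_bounded ((sumEz τ hA).mul_left M) fun a => ?_
  have hM := (norm_nonneg _).trans (hF a)
  split_ifs
  · rw [norm_mul]; gcongr; exact hF a
  · rw [norm_zero]; positivity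

lemma nu_eq (D : ℝ) (ρ : O → ℝ) (a : O) (x : ℂ) : (nu D ρ a : ℂ) * x =
    ∑ d ∈ ballN (D ^ 2), (ρ d : ℂ) * (if d ∣ a then x else 0) := by
  rw [nu, Finset.sum_filter]
  push_cast
  rw [Finset.sum_mul]
  refine Finset.sum_congr rfl fun d _ => ?_
  split_ifs <;> simp

lemma sumN {A M : ℝ} (D τ : ℝ) (ρ : O → ℝ) (hA : 0 < A) {F : O → ℂ} (hF : ∀ a, ‖F a‖ ≤ M) :
    Summable fun a => (nu D ρ a : ℂ) * (F a * Ez (1 + τ * I) A a) := by
  simp_rw [nu_eq]
  exact summable_sum fun d _ => (sumF τ hA hF d).mul_left _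

lemma swap {A M : ℝ} (D τ : ℝ) (ρ : O → ℝ) (hA : 0 < A) {F : O → ℂ} (hF : ∀ a, ‖F a‖ ≤ M) :
    ∑' a : O, (nu D ρ a : ℂ) * (F a * Ez (1 + τ * I) A a) = ∑ d ∈ ballN (D ^ 2), (ρ d : ℂ) *
      ∑' a : O, (if d ∣ a then F a * Ez (1 + τ * I) A a else 0) := by
  simp_rw [nu_eq]
  rw [Summable.tsum_finsetSum fun d _ => (sumF τ hA hF d).mul_left _]
  simp_rw [tsum_mul_left]

lemma norm_rho {D C0 : ℝ} {ρ : O → ℝ} (h : Sieve D C0 ρ) :
    ‖∑ d ∈ ballN (D ^ 2), (ρ d : ℂ) / N d‖ ≤ C0 / Real.log D := by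
  have := h.2.2.1
  rw [← Real.norm_eq_abs, ← Complex.norm_real] at this
  push_cast at this
  exact this

lemma cube_iff {d h : O} (hd : NN d) :
    IsCube (h * (lam * d) ^ 2) ↔ ∃ c, h = lam * d * c ∧ IsCube c := by
  constructor
  · rintro ⟨k, hk⟩
    have h0 : lam * d ≠ 0 := mul_ne_zero prime_lam.ne_zero hd.ne_zero
    have hs : Squarefree (lam * d) := squarefree_mul_iff.2
      ⟨prime_lam.irreducible.isRelPrime_iff_not_dvd.2 hd.1.not_lam_dvd, prime_lam.squarefree, hd.2.1⟩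
    obtain ⟨j, rfl⟩ := (hs.dvd_pow_iff_dvd (by norm_num : 3 ≠ 0)).1
      (show lam * d ∣ k ^ 3 from ⟨h * (lam * d), by rw [← hk]; ring⟩)
    refine ⟨j ^ 3, mul_right_cancel₀ (pow_ne_zero 2 h0) ?_, j, rfl⟩
    rw [hk]; ring
  · rintro ⟨_, rfl, j, rfl⟩
    exact ⟨lam * d * j, by ring⟩

/-- normalised symbol -/
def X (k b : O) : ℂ := sym3 k b / (‖toC b‖ : ℂ)

lemma nX (k b : O) : ‖X k b‖ ≤ (√(N b))⁻¹ := by
  rw [X, norm_div, Complex.norm_real, norm_norm, norm_toC, ← one_div]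
  gcongr; exact norm_sym3_le _ _

lemma nX1 (k : O) {b : O} (hb : b ≠ 0) : ‖X k b‖ ≤ 1 :=
  (nX k b).trans (inv_le_one_of_one_le₀ (Real.one_le_sqrt.2 (one_le_N hb)))

def Ph (τ A : ℝ) (d b1 b2 h : O) : ℂ := X (h * (lam * d) ^ 2) b1 * conj (X (h * (lam * d) ^ 2) b2) *
  Ed (1 + τ * I) (A / (N d * N b1 * N b2)) h

def Cb (τ A : ℝ) (b1 b2 : O) : ℂ := ∑' c : O, if IsCube c then
  X c b1 * conj (X c b2) * Ed (1 + τ * I) (3 * A / (N b1 * N b2)) c else 0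

lemma sumPh {A : ℝ} (τ : ℝ) (hA : 0 < A) {d b1 b2 : O} (hd : d ≠ 0) (h1 : b1 ≠ 0) (h2 : b2 ≠ 0)
    (p : O → Prop) [DecidablePred p] : Summable fun h => if p h then Ph τ A d b1 b2 h else 0 := by
  have := N_pos hd; have := N_pos h1; have := N_pos h2
  refine Summable.of_norm_bounded (sumEd τ (t := A / (N d * N b1 * N b2)) (by positivity))
    fun a => ?_
  split_ifs
  · rw [Ph, norm_mul, norm_mul, Complex.norm_conj]
    exact mul_le_of_le_one_left (norm_nonneg _)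
      (mul_le_one₀ (nX1 _ h1) (norm_nonneg _) (nX1 _ h2))
  · rw [norm_zero]; positivity

lemma cube_eq (τ A : ℝ) {d b1 b2 : O} (hd : NN d) (h1 : IsCoprime (lam * d) b1)
    (h2 : IsCoprime (lam * d) b2) :
    ∑' h : O, (if IsCube (h * (lam * d) ^ 2) then Ph τ A d b1 b2 h else 0) = Cb τ A b1 b2 := by
  have h0 : lam * d ≠ 0 := mul_ne_zero prime_lam.ne_zero hd.ne_zero
  have e : ∀ h : O, (if IsCube (h * (lam * d) ^ 2) then Ph τ A d b1 b2 h else 0) =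
      if lam * d ∣ h then (if IsCube (h * (lam * d) ^ 2) then Ph τ A d b1 b2 h else 0) else 0 := by
    intro h
    by_cases hc : IsCube (h * (lam * d) ^ 2)
    · obtain ⟨c, hc', -⟩ := (cube_iff hd).1 hc
      rw [if_pos (show lam * d ∣ h from ⟨c, hc'⟩)]
    · simp [hc]
  rw [tsum_congr e, pp_tsum_dvd h0]
  refine tsum_congr fun c => ?_
  have e1 : IsCube (lam * d * c * (lam * d) ^ 2) ↔ IsCube c := by
    rw [cube_iff hd]
    exact ⟨fun ⟨c', h, hc⟩ => mul_left_cancel₀ h0 h ▸ hc, fun h => ⟨c, rfl, h⟩⟩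
  have e2 : ∀ b, IsCoprime (lam * d) b → X (lam * d * c * (lam * d) ^ 2) b = X c b := by
    intro b hb
    rw [X, X, show lam * d * c * (lam * d) ^ 2 = c * (lam * d) ^ 3 by ring, sym3_mul_left,
      sym3_pow_left, sym3_cube hb, mul_one]
  have d0 : ((N d : ℝ) : ℂ) ≠ 0 := ofReal_ne_zero.2 (N_pos hd.ne_zero).ne'
  simp only [e1, Ph, e2 b1 h1, e2 b2 h2]
  congr 2
  rw [Ed, Ed, N_mul, N_mul, N_lam]
  congr 3
  push_cast
  field_simp

lemma cube_sum : ∃ C : ℝ, 0 < C ∧ ∀ T : ℝ, 0 < T →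
    ∑' c : O, (if IsCube c ∧ c ≠ 0 then Real.exp (-(N c / T ^ 3)) else 0) ≤ C * T := by
  obtain ⟨C, hC, H⟩ := sum_exp_le one_pos
  refine ⟨3 * C, by positivity, fun T hT => ?_⟩
  obtain ⟨h1, h2⟩ := H T hT
  have h3 : Summable fun h : O => if h ≠ 0 then Real.exp (-(1 * N h / T)) else 0 :=
    Summable.of_nonneg_of_le (fun h => by positivity) (fun h => by split_ifs <;> [rfl; positivity]) h1
  have h4 := (H (T ^ 3) (by positivity)).1
  rw [show (fun c : O => if IsCube c ∧ c ≠ 0 then Real.exp (-(N c / T ^ 3)) else 0) =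
    Set.indicator {c | IsCube c ∧ c ≠ 0} (fun c => Real.exp (-(N c / T ^ 3))) from by
      ext c; simp [Set.indicator_apply], ← tsum_subtype]
  refine le_trans (Summable.tsum_le_tsum_of_inj
    (g := fun h : O => 3 * if h ≠ 0 then Real.exp (-(1 * N h / T)) else 0)
    (fun c : {c | IsCube c ∧ c ≠ 0} => c.2.1.choose) (fun c c' h => Subtype.ext ?_)
    (fun _ _ => by positivity) (fun c => ?_) ?_ (h3.mul_left _)) ?_
  · rw [c.2.1.choose_spec, c'.2.1.choose_spec]; exact congrArg (· ^ 3) h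
  · have hc := c.2.1.choose_spec
    set j := c.2.1.choose
    have hj : j ≠ 0 := fun h => c.2.2 (by rw [hc, h]; ring)
    rw [if_pos hj, hc, N_pow, ← div_pow, one_mul]
    have hx : 0 ≤ N j / T := div_nonneg (N_nonneg _) hT.le
    calc _ ≤ Real.exp (1 + -(N j / T)) := Real.exp_le_exp.2 (by
            nlinarith [mul_nonneg hx (sq_nonneg (N j / T - 1)), sq_nonneg (N j / T - 1 / 2)])
      _ ≤ _ := by rw [Real.exp_add]; gcongr; exact Real.exp_one_lt_three.le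
  · simp only [one_mul] at h4; exact h4.subtype _
  · rw [tsum_mul_left, mul_assoc]; gcongr

lemma Cb_le : ∃ C : ℝ, 0 < C ∧ ∀ (τ A : ℝ) (b1 b2 : O), 0 < A → Prime b1 → b2 ≠ 0 →
    A / √(1 + τ ^ 2) * ‖Cb τ A b1 b2‖ ≤
      C * A ^ (2 / 3 : ℝ) * (N b1 ^ (-(1 / 6) : ℝ) * N b2 ^ (-(1 / 6) : ℝ)) := by
  obtain ⟨C, hC, H⟩ := cube_sum
  obtain ⟨C', -, H'⟩ := sum_exp_le one_pos
  refine ⟨C, hC, fun τ A b1 b2 hA h1 h2 => ?_⟩
  have n1 := N_pos h1.ne_zero
  have n2 := N_pos h2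
  have hW : 1 ≤ 1 + τ ^ 2 := le_add_of_nonneg_right (sq_nonneg τ)
  set T := (N b1 * N b2 * (1 + τ ^ 2) / A) ^ (1 / 3 : ℝ) with hT
  have T0 : 0 < T := by positivity
  have T3 : T ^ 3 = N b1 * N b2 * (1 + τ ^ 2) / A := by
    rw [hT, ← Real.rpow_natCast, ← Real.rpow_mul (by positivity)]; norm_num
  have h3 : Summable fun c : O => if IsCube c ∧ c ≠ 0 then Real.exp (-(N c / T ^ 3)) else 0 :=
    Summable.of_nonneg_of_le (fun h => by positivity)
      (fun h => by rw [one_mul]; split_ifs <;> [rfl; positivity]) (H' (T ^ 3) (by positivity)).1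
  have h4 : ‖Cb τ A b1 b2‖ ≤ (√(N b1))⁻¹ * (√(N b2))⁻¹ * (C * T) := by
    refine (tsum_of_norm_bounded (h3.hasSum.mul_left ((√(N b1))⁻¹ * (√(N b2))⁻¹)) fun c => ?_).trans
      (by gcongr; exact H T T0)
    by_cases hc : IsCube c
    · by_cases h0 : c = 0
      · have : sym3 0 b1 = 0 := (sym3_eq_zero_iff h1.ne_zero).2 fun h =>
          h1.not_isUnit (isCoprime_zero_left.1 h)
        simp [h0, X, this]
      · rw [if_pos hc, if_pos ⟨hc, h0⟩, norm_mul, norm_mul, Complex.norm_conj, norm_Ed]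
        refine mul_le_mul (mul_le_mul (nX _ _) (nX _ _) (norm_nonneg _) (by positivity))
          (Real.exp_le_exp.2 (neg_le_neg ?_)) (Real.exp_pos _).le (by positivity)
        · rw [T3]
          have : N c / (N b1 * N b2 * (1 + τ ^ 2) / A) =
              1 * N c * (1 * A / (N b1 * N b2)) / (1 + τ ^ 2) := by field_simp
          rw [this]
          have := N_nonneg c
          have := kap_pos
          gcongr
          · exact one_le_kap
          · norm_num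
    · simp [hc]
  refine (mul_le_mul_of_nonneg_left h4 (by positivity)).trans ?_
  have hl := Real.log_nonneg hW
  have e : ∀ x : ℝ, 0 < x → √x = Real.exp (Real.log x * (1 / 2)) := fun x hx => by
    rw [Real.sqrt_eq_rpow, Real.rpow_def_of_pos hx]
  rw [hT, e _ n1, e _ n2, e _ (by positivity : 0 < 1 + τ ^ 2), Real.rpow_def_of_pos n1,
    Real.rpow_def_of_pos n2, Real.rpow_def_of_pos hA, Real.rpow_def_of_pos (by positivity),
    Real.log_div (by positivity) hA.ne', Real.log_mul (by positivity) (by positivity),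
    Real.log_mul n1.ne' n2.ne']
  nth_rewrite 1 [← Real.exp_log hA]
  rw [← Real.exp_neg, ← Real.exp_neg, ← Real.exp_sub, mul_left_comm _ C, mul_left_comm _ C,
    mul_assoc C]
  simp only [← Real.exp_add]
  exact mul_le_mul_of_nonneg_left (Real.exp_le_exp.2 (by linarith)) hC.le

lemma n1 {Y U B x δ0 δ1 : ℝ} (hU : 1 ≤ U) (hY : 1 ≤ Y) (hB : 1 ≤ B) (hB' : B ≤ Y * U)
    (hx : Y / U ≤ x) (h0 : 0 ≤ δ1) (h1 : δ1 ≤ δ0) (h2 : δ1 ≤ 1 / 2) :
    (√x)⁻¹ * B ^ (1 / 2 - δ0) ≤ U * Y ^ (-δ1) := by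
  have hx0 : 0 < x := lt_of_lt_of_le (by positivity) hx
  have a1 := Real.log_le_log (by positivity) hx
  have a2 := Real.log_le_log (by positivity) hB'
  rw [Real.log_div (by positivity) (by positivity)] at a1
  rw [Real.log_mul (by positivity) (by positivity)] at a2
  have a3 := Real.log_nonneg hU
  have a4 := Real.log_nonneg hB
  rw [Real.sqrt_eq_rpow, Real.rpow_def_of_pos hx0, Real.rpow_def_of_pos (by positivity),
    Real.rpow_def_of_pos (by positivity), ← Real.exp_neg, ← Real.exp_log (by positivity : 0 < U),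
    ← Real.exp_add, ← Real.exp_add, Real.exp_le_exp]
  nlinarith [mul_nonneg a4 (sub_nonneg.2 h1), mul_nonneg (sub_nonneg.2 a2) (sub_nonneg.2 h2),
    mul_nonneg a3 h0]

lemma n2 {Y U n ε : ℝ} (h0 : 0 < ε) (h1 : ε ≤ 1 / 2) (hY : 1 ≤ Y) (hU : 1 ≤ U) (hn : 1 ≤ n) :
    Real.log (9 * (Y * U * n) + 2) ^ 2 ≤ 11 * (U * n) * Y ^ (2 * ε) / ε ^ 2 := by
  have a0 : 1 ≤ U * n := one_le_mul_of_one_le_of_one_le hU hn
  have a1 : 1 ≤ Y * (U * n) := one_le_mul_of_one_le_of_one_le hY a0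
  rw [mul_assoc Y]
  calc _ ≤ ((9 * (Y * (U * n)) + 2) ^ ε / ε) ^ 2 := by
        gcongr
        · exact Real.log_nonneg (by linarith)
        · exact Real.log_le_rpow_div (by positivity) h0
    _ = (9 * (Y * (U * n)) + 2) ^ (2 * ε) / ε ^ 2 := by
        rw [div_pow, mul_comm 2 ε, Real.rpow_mul (by positivity), Real.rpow_two]
    _ ≤ (11 * (U * n) * Y) ^ (2 * ε) / ε ^ 2 := by gcongr; nlinarith
    _ ≤ _ := by
        rw [Real.mul_rpow (by positivity) (by positivity)]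
        gcongr
        exact Real.rpow_le_self_of_one_le (by linarith) (by linarith)

lemma n3 {n T : ℝ} (hn : 0 < n) (hT : 0 < T) :
    n ^ 2 * Real.exp (-(kap * n / T)) ≤ 8 * T ^ 2 * Real.exp (-(kap / 2 * n / T)) := by
  have hk := one_le_kap
  have h := lat_exp_le (x := kap / 2 * n / T) (by positivity) 2
  rw [show -(kap * n / T) = -(kap / 2 * n / T) + -(kap / 2 * n / T) by ring, Real.exp_add,
    ← mul_assoc]
  refine mul_le_mul_of_nonneg_right ?_ (Real.exp_pos _).le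
  calc _ ≤ n ^ 2 * (((2 : ℕ).factorial : ℝ) / (1 / 2 * n / T) ^ 2) := by
        refine mul_le_mul_of_nonneg_left (h.trans ?_) (by positivity)
        gcongr
    _ = _ := by simp only [Nat.factorial]; field_simp; norm_num

lemma ncsum : ∃ δ : ℝ, 0 < δ ∧ ∃ C : ℝ, 0 < C ∧ ∀ (Y U K A B y1 y2 τ : ℝ) (d b2 : O),
    1 ≤ U → U ^ 4 ≤ Y → 1 ≤ K → Y / U ≤ y1 → y2 ≤ Y * U → Y / U ≤ B → B ≤ Y * U →
    Y ^ 2 / U ≤ A → A ≤ Y ^ 2 * U → d ≠ 0 → N d ≤ U ^ 2 → b2 ∈ PI y1 y2 →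
    ‖∑ b1 ∈ (PI y1 y2).erase b2, (gw K B b1 : ℂ) *
      ∑' h, (if ¬ IsCube (h * (lam * d) ^ 2) then Ph τ A d b1 b2 h else 0)‖ ≤
      C * U ^ 20 * Y ^ (-δ) * (1 + τ ^ 2) ^ 3 := by
  obtain ⟨δ0, hδ0, C0, hC0, H⟩ := s2_nc
  obtain ⟨C1, hC1, H1⟩ := sum_exp_le (half_pos kap_pos)
  have hk := kap_pos
  set ε := min δ0 (1 / 2) / 4 with hε
  have ε0 : 0 < ε := by positivity
  have ε1 : 4 * ε ≤ δ0 := by linarith [min_le_left δ0 (1 / 2)]
  have ε2 : 4 * ε ≤ 1 / 2 := by linarith [min_le_right δ0 (1 / 2)]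
  refine ⟨2 * ε, by positivity, C0 * (11 / ε ^ 2) * (1 + kap) * 8 * C1, by positivity, ?_⟩
  intro Y U K A B y1 y2 τ d b2 hU hY hK hy1 hy2 hB hB' hA hA' hd hdU hb2
  have hUY : U ≤ Y := (le_self_pow₀ hU (by norm_num)).trans hY
  have hY1 : 1 ≤ Y := hU.trans hUY
  have hq : 1 ≤ Y / U := (one_le_div (by positivity)).2 hUY
  have hA0 : 0 < A := lt_of_lt_of_le (by positivity) hA
  obtain ⟨g1, -, g3, g4⟩ := Nc.mem_PI.1 hb2
  have n2' := N_pos g1.ne_zero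
  have nd := one_le_N hd
  set W := 1 + τ ^ 2 with hW
  have hW0 : 0 < W := by positivity
  set T := W * U ^ 5 with hT
  have T0 : 0 < T := by positivity
  obtain ⟨h1, h2⟩ := H1 T T0
  have h3 := Summable.of_nonneg_of_le (g := fun h : O => if h ≠ 0 then
    Real.exp (-(kap / 2 * N h / T)) else 0) (fun h => by positivity)
    (fun h => by split_ifs <;> [rfl; positivity]) h1
  simp_rw [← tsum_mul_left]
  rw [← Summable.tsum_finsetSum fun b hb => (sumPh τ hA0 hd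
    (Nc.mem_PI.1 (Finset.mem_of_mem_erase hb)).1.ne_zero g1.ne_zero
    fun h => ¬ IsCube (h * (lam * d) ^ 2)).mul_left _]
  set M := C0 * (11 / ε ^ 2) * (1 + kap) * 8 * (U ^ 5 * Y ^ (-(2 * ε)) * T ^ 2) with hM
  refine (tsum_of_norm_bounded (h3.hasSum.mul_left M) fun h => ?_).trans ?_
  swap
  · calc _ ≤ M * (C1 * T) := by gcongr
      _ = _ := by rw [hM, hT]; ring
  by_cases hc : IsCube (h * (lam * d) ^ 2)
  · simp only [hc, not_true, if_false, mul_zero, Finset.sum_const_zero, norm_zero]; positivity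
  have h0 : h ≠ 0 := by rintro rfl; exact hc ⟨0, by ring⟩
  have nh := one_le_N h0
  set c := kap * N h * (A / (N d * N b2)) with hc'
  have c0 : 0 ≤ c := by positivity
  have e : ∀ b1 ∈ (PI y1 y2).erase b2, (gw K B b1 : ℂ) *
      (if ¬ IsCube (h * (lam * d) ^ 2) then Ph τ A d b1 b2 h else 0) =
      conj (X (h * (lam * d) ^ 2) b2) * ((gw K B b1 : ℂ) * (sym3 (h * (lam * d) ^ 2) b1 /
        (‖toC b1‖ : ℂ)) * Complex.exp (-(c / ((1 + τ * I) * N b1)))) := by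
    intro b1 _
    have : Ed (1 + τ * I) (A / (N d * N b1 * N b2)) h =
        Complex.exp (-(c / ((1 + τ * I) * N b1))) := by
      rw [Ed, hc']; congr 2; push_cast; simp only [div_eq_mul_inv, mul_inv]; ring
    rw [if_pos hc, Ph, this, X]; ring
  have hYU : Y * U ≤ 9 * (Y * U * N h) := by
    have : Y * U ≤ Y * U * N h := le_mul_of_one_le_right (by positivity) nh
    have : 0 ≤ Y * U := by positivity
    linarith
  have hkZ : N (h * (lam * d) ^ 2) ≤ 9 * (Y * U * N h) := by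
    rw [N_mul, N_pow, N_mul, N_lam]
    calc _ ≤ N h * (3 * U ^ 2) ^ 2 := by gcongr
      _ = 9 * (U ^ 4 * 1 * N h) := by ring
      _ ≤ _ := by gcongr
  have h4 := H (9 * (Y * U * N h)) B K y1 y2 c τ (h * (lam * d) ^ 2) b2 (hq.trans hB)
    (hB'.trans hYU) hK (hq.trans hy1) (hy2.trans hYU) c0
    (mul_ne_zero h0 (pow_ne_zero _ (mul_ne_zero prime_lam.ne_zero hd))) hkZ hc
  have b1 := n1 hU hY1 (hq.trans hB) hB' (hy1.trans g3) (by positivity) ε1 ε2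
  have b2' := n2 ε0 (by linarith) hY1 hU nh
  have b3 : 1 + c / y1 ≤ (1 + kap) * (U ^ 3 * N h) := by
    have : 1 ≤ U ^ 3 * N h := one_le_mul_of_one_le_of_one_le (one_le_pow₀ hU) nh
    have : c / y1 ≤ kap * (U ^ 3 * N h) := by
      calc _ ≤ kap * N h * (Y ^ 2 * U / (1 * (Y / U))) / (Y / U) := by
            rw [hc']; gcongr; exact hy1.trans g3
        _ = _ := by field_simp
    linarith
  have b4 : Real.exp (-(c / (W * y2))) ≤ Real.exp (-(kap * N h / T)) := by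
    have : 0 < y2 := n2'.trans_le g4
    rw [Real.exp_le_exp, neg_le_neg_iff]
    calc _ = kap * N h * (Y ^ 2 / U / (U ^ 2 * (Y * U))) / (W * (Y * U)) := by
            rw [hT]; field_simp
        _ ≤ _ := by rw [hc']; gcongr; exact g4.trans hy2
  have b5 := n3 (N_pos h0) T0
  have b6 : Y ^ (-(4 * ε)) * Y ^ (2 * ε) = Y ^ (-(2 * ε)) := by
    rw [← Real.rpow_add (by positivity)]; congr 1; ring
  have : 0 < B := by linarith
  have : 0 < y1 := by linarith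
  rw [Finset.sum_congr rfl e, ← Finset.mul_sum, norm_mul, Complex.norm_conj, if_pos h0]
  calc _ ≤ (√(N b2))⁻¹ * (C0 * B ^ (1 / 2 - δ0) * Real.log (9 * (Y * U * N h) + 2) ^ 2 *
        (1 + c / y1) * Real.exp (-(c / (W * y2)))) := by gcongr; exact nX _ _
    _ = C0 * ((√(N b2))⁻¹ * B ^ (1 / 2 - δ0)) * Real.log (9 * (Y * U * N h) + 2) ^ 2 *
        (1 + c / y1) * Real.exp (-(c / (W * y2))) := by ring
    _ ≤ C0 * (U * Y ^ (-(4 * ε))) * (11 * (U * N h) * Y ^ (2 * ε) / ε ^ 2) *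
        ((1 + kap) * (U ^ 3 * N h)) * Real.exp (-(kap * N h / T)) := by gcongr
    _ = C0 * (11 / ε ^ 2) * (1 + kap) * U ^ 5 * (Y ^ (-(4 * ε)) * Y ^ (2 * ε)) *
        (N h ^ 2 * Real.exp (-(kap * N h / T))) := by ring
    _ ≤ C0 * (11 / ε ^ 2) * (1 + kap) * U ^ 5 * (Y ^ (-(4 * ε)) * Y ^ (2 * ε)) *
        (8 * T ^ 2 * Real.exp (-(kap / 2 * N h / T))) := by gcongr
    _ = _ := by rw [b6, hM]; ring

lemma pair {D U A τ : ℝ} (ρ : O → ℝ) (hD : 2 ≤ D) (hDU : D ≤ U) (hA : 0 < A) {b1 b2 : O}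
    (h1 : NN b1) (h2 : NN b2) (p1 : Prime b1) (p2 : Prime b2) (h12 : b1 ≠ b2)
    (n1 : U ^ 3 ≤ N b1) (n2 : U ^ 3 ≤ N b2) :
    ∑' a : O, (nu D ρ a : ℂ) * (G b1 * conj (G b2) * (conj (sym3 a b1) * sym3 a b2) *
      Ez (1 + τ * I) A a) = (∑ d ∈ ballN (D ^ 2), (ρ d : ℂ) / N d) *
        ((A : ℂ) / (1 + τ * I) * Cb τ A b1 b2) + ∑ d ∈ ballN (D ^ 2), (ρ d : ℂ) *
        ((A : ℂ) / ((1 + τ * I) * N d)) *
        ∑' h, (if ¬ IsCube (h * (lam * d) ^ 2) then Ph τ A d b1 b2 h else 0) := by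
  rw [swap D τ ρ hA (M := 1) (F := fun a => G b1 * conj (G b2) * (conj (sym3 a b1) * sym3 a b2))
    fun a => by
      simp only [norm_mul, Complex.norm_conj, norm_G h1, norm_G h2, one_mul]
      exact mul_le_one₀ (norm_sym3_le _ _) (norm_nonneg _) (norm_sym3_le _ _),
    Finset.sum_mul, ← Finset.sum_add_distrib]
  refine Finset.sum_congr rfl fun d hd => ?_
  obtain ⟨d1, d2⟩ := mem_ballN.1 hd
  have hU : 2 ≤ U := hD.trans hDU
  have hc : ∀ b, Prime b → U ^ 3 ≤ N b → IsCoprime (lam * d) b := fun b pb nb => by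
    refine (pb.coprime_iff_not_dvd.2 fun h => ?_).symm
    have a1 : D ^ 2 ≤ U ^ 2 := by gcongr
    have a2 : 2 ^ 2 ≤ U ^ 2 := by gcongr
    rcases pb.dvd_or_dvd h with h | h
    · have := N_le_of_dvd h prime_lam.ne_zero
      rw [N_lam] at this; nlinarith
    · have := N_le_of_dvd h d1.ne_zero
      nlinarith
  rw [pair_pois h1 h2 (p1.coprime_iff_not_dvd.2 fun h =>
      h12 (h1.1.eq_of_associated h2.1 (p1.associated_of_dvd p2 h))) d1.ne_zero hA (zre τ),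
    ← cube_eq τ A d1 (hc b1 p1 n1) (hc b2 p2 n2)]
  have := (sumPh τ hA d1.ne_zero h1.ne_zero h2.ne_zero
    fun h => IsCube (h * (lam * d) ^ 2)).tsum_add (sumPh τ hA d1.ne_zero h1.ne_zero h2.ne_zero
    fun h => ¬ IsCube (h * (lam * d) ^ 2))
  rw [tsum_congr (g := fun h => Ph τ A d b1 b2 h) fun h => by split_ifs <;> simp] at this
  change _ * (_ * ∑' h, Ph τ A d b1 b2 h) = _
  rw [this]
  simp only [div_eq_mul_inv, mul_inv]
  ring

end Off

theorem s2_diag (C0 : ℝ) : ∃ C : ℝ, 0 < C ∧ ∀ (D A τ : ℝ) (ρ : O → ℝ), Sieve D C0 ρ → 2 ≤ D →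
    1 ≤ A → ‖∑' a : O, (nu D ρ a : ℂ) * Ez (1 + τ * I) A a‖ ≤
      C * (A / √(1 + τ ^ 2) + D ^ 8 * (1 + τ ^ 2) ^ 4) := by
  obtain ⟨C, hC, H⟩ := sum_exp_le kap_pos
  refine ⟨(|C0| + 1) * (C + 2), by positivity, fun D A τ ρ hs hD hA => ?_⟩
  have hA0 : 0 < A := by linarith
  have hW : 1 ≤ 1 + τ ^ 2 := le_add_of_nonneg_right (sq_nonneg τ)
  have hz : 1 ≤ √(1 + τ ^ 2) := Real.one_le_sqrt.2 hW
  have e0 := Off.swap D τ ρ hA0 (F := fun _ => 1) (M := 1) (fun _ => norm_one.le)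
  simp only [one_mul] at e0
  set R : O → ℂ := fun d => ∑' h : O, if h = 0 then 0 else Ed (1 + τ * I) (A / N d) h with hR
  have e1 : ∀ d ∈ ballN (D ^ 2), (ρ d : ℂ) * ∑' a : O, (if d ∣ a then Ez (1 + τ * I) A a else 0) =
      (A : ℂ) / (1 + τ * I) * ((ρ d : ℂ) / N d) + ρ d * ((A : ℂ) / ((1 + τ * I) * N d) * R d) := by
    intro d hd
    have d0 := (mem_ballN.1 hd).1.ne_zero
    rw [div_pois d0 hA0 (Off.zre τ),
      (Off.sumEd τ (div_pos hA0 (N_pos d0))).of_norm.tsum_eq_add_tsum_ite 0]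
    have : Ed (1 + τ * I) (A / N d) 0 = 1 := by simp [Ed, N_zero]
    rw [this]
    simp only [hR, div_eq_mul_inv, mul_inv]
    ring
  have e2 : ∀ d ∈ ballN (D ^ 2), ‖(ρ d : ℂ) * ((A : ℂ) / ((1 + τ * I) * N d) * R d)‖ ≤
      |ρ d| * (C * (1 + τ ^ 2)) := by
    intro d hd
    have d0 := N_pos (mem_ballN.1 hd).1.ne_zero
    obtain ⟨h1, h2⟩ := H ((1 + τ ^ 2) / (A / N d)) (by positivity)
    have h3 : ‖R d‖ ≤ C * ((1 + τ ^ 2) / (A / N d)) := by
      refine (tsum_of_norm_bounded (Summable.of_nonneg_of_le (fun h => by positivity)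
        (fun h => by split_ifs <;> [rfl; positivity]) h1).hasSum fun h => ?_).trans h2
      by_cases h0 : h = 0
      · simp [h0]
      · rw [if_neg h0, if_pos h0, Off.nEd τ (by positivity)]
    rw [norm_mul, norm_mul, norm_div, norm_mul, Off.znorm, Complex.norm_real, Complex.norm_real,
      Complex.norm_real, Real.norm_eq_abs, Real.norm_of_nonneg hA0.le, Real.norm_of_nonneg d0.le]
    refine mul_le_mul_of_nonneg_left ?_ (abs_nonneg _)
    calc _ ≤ A / (1 * N d) * (C * ((1 + τ ^ 2) / (A / N d))) := by gcongr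
      _ = _ := by field_simp
  rw [e0, Finset.sum_congr rfl e1, Finset.sum_add_distrib, ← Finset.mul_sum]
  refine (norm_add_le _ _).trans ?_
  have h1 : ‖∑ d ∈ ballN (D ^ 2), (ρ d : ℂ) / N d‖ ≤ (|C0| + 1) * (C + 2) := by
    refine (Off.norm_rho hs).trans ?_
    have hl : 1 / 2 ≤ Real.log D := by
      linarith [Real.log_two_gt_d9, Real.log_le_log two_pos hD]
    rw [div_le_iff₀ (by linarith)]
    have := le_abs_self C0
    calc C0 ≤ (|C0| + 1) * 2 * (1 / 2) := by linarith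
      _ ≤ _ := by gcongr; linarith
  have h2 : ‖∑ d ∈ ballN (D ^ 2), (ρ d : ℂ) * ((A : ℂ) / ((1 + τ * I) * N d) * R d)‖ ≤
      (|C0| + 1) * (C + 2) * (D ^ 8 * (1 + τ ^ 2) ^ 4) := by
    refine (norm_sum_le _ _).trans ((Finset.sum_le_sum e2).trans ?_)
    rw [← Finset.sum_mul]
    have a1 : D ^ 4 ≤ D ^ 8 := pow_le_pow_right₀ (by linarith) (by norm_num)
    have a2 : 1 + τ ^ 2 ≤ (1 + τ ^ 2) ^ 4 := le_self_pow₀ hW (by norm_num)
    have a3 := le_abs_self C0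
    calc _ ≤ (C0 * D ^ 4) * (C * (1 + τ ^ 2)) := by gcongr; exact hs.2.2.2
      _ ≤ ((|C0| + 1) * D ^ 8) * ((C + 2) * (1 + τ ^ 2) ^ 4) := by gcongr <;> linarith
      _ = _ := by ring
  rw [norm_mul, norm_div, Off.znorm, Complex.norm_real, Real.norm_of_nonneg hA0.le, mul_add,
    mul_comm _ (A / _)]
  gcongr

theorem s2_off : ∃ δ : ℝ, 0 < δ ∧ ∀ C0 : ℝ, ∃ C : ℝ, 0 < C ∧
    ∀ (Y U D K A B y1 y2 τ : ℝ) (ρ : O → ℝ), Sieve D C0 ρ → 2 ≤ D → D ≤ U → U ^ 4 ≤ Y → 1 ≤ K →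
    Y / U ≤ y1 → y2 ≤ Y * U → Y / U ≤ B → B ≤ Y * U → Y ^ 2 / U ≤ A → A ≤ Y ^ 2 * U →
    ‖∑' a : O, (nu D ρ a : ℂ) * Of K B y1 y2 a * Ez (1 + τ * I) A a‖ ≤
      C * (A ^ (2 / 3 : ℝ) / Real.log D * bb3 K B y1 y2 ^ 2 +
        U ^ 40 * Y ^ (2 - δ) * bb1 K B y1 y2 * (1 + τ ^ 2) ^ 4) := by
  obtain ⟨δ, hδ, C3, hC3, H3⟩ := Off.ncsum
  obtain ⟨C2, hC2, H2⟩ := Off.Cb_le
  refine ⟨δ, hδ, fun C0 => ⟨(|C0| + 1) * (C2 + C3), by positivity, ?_⟩⟩
  intro Y U D K A B y1 y2 τ ρ hs hD hDU hY hK hy1 hy2 hB hB' hA hA'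
  have hU : 1 ≤ U := by linarith
  have hY1 : 1 ≤ Y := (one_le_pow₀ hU).trans hY
  have hA0 : 0 < A := lt_of_lt_of_le (by positivity) hA
  have hU3 : U ^ 3 ≤ y1 := le_trans (by rw [le_div_iff₀ (by positivity)]; linarith [pow_succ U 3]) hy1
  have hW : 1 ≤ 1 + τ ^ 2 := le_add_of_nonneg_right (sq_nonneg τ)
  have hz : 1 ≤ √(1 + τ ^ 2) := Real.one_le_sqrt.2 hW
  have hl : 0 < Real.log D := Real.log_pos (by linarith)
  have hC0 := le_abs_self C0
  have gp : ∀ b, 0 ≤ gw K B b := fun b => (Real.exp_pos _).le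
  set F : O → O → O → ℂ := fun b1 b2 a => G b1 * conj (G b2) * (conj (sym3 a b1) * sym3 a b2)
    with hF
  have hF1 : ∀ b1 b2 a, ‖F b1 b2 a‖ ≤ 1 := fun b1 b2 a => by
    simp only [hF, norm_mul, Complex.norm_conj]
    exact mul_le_one₀ (mul_le_one₀ (norm_G_le _) (norm_nonneg _) (norm_G_le _)) (by positivity)
      (mul_le_one₀ (norm_sym3_le _ _) (norm_nonneg _) (norm_sym3_le _ _))
  have e1 : ∀ a, (nu D ρ a : ℂ) * Of K B y1 y2 a * Ez (1 + τ * I) A a =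
      ∑ b2 ∈ PI y1 y2, ∑ b1 ∈ (PI y1 y2).erase b2, (gw K B b1 : ℂ) * (gw K B b2 : ℂ) *
        ((nu D ρ a : ℂ) * (F b1 b2 a * Ez (1 + τ * I) A a)) := fun a => by
    simp only [Of, hF, Finset.mul_sum, Finset.sum_mul]
    exact Finset.sum_congr rfl fun _ _ => Finset.sum_congr rfl fun _ _ => by ring
  have hsum := fun b1 b2 => (Off.sumN D τ ρ hA0 (hF1 b1 b2)).mul_left
    ((gw K B b1 : ℂ) * (gw K B b2 : ℂ))
  rw [tsum_congr e1, Summable.tsum_finsetSum fun b2 _ => summable_sum fun b1 _ => hsum b1 b2]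
  set M1 := (|C0| + 1) * (C2 + C3) * (A ^ (2 / 3 : ℝ) / Real.log D * bb3 K B y1 y2) with hM1
  set M2 := (|C0| + 1) * (C2 + C3) * (U ^ 40 * Y ^ (2 - δ) * (1 + τ ^ 2) ^ 4) with hM2
  refine (norm_sum_le _ _).trans ((Finset.sum_le_sum (g := fun b2 =>
    M1 * (gw K B b2 * N b2 ^ (-(1 / 6) : ℝ)) + M2 * gw K B b2) fun b2 hb2 => ?_).trans (le_of_eq ?_))
  swap
  · rw [Finset.sum_add_distrib, ← Finset.mul_sum, ← Finset.mul_sum, hM1, hM2]
    simp only [bb1, bb3]; ring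
  obtain ⟨g1, g2, g3, g4⟩ := Nc.mem_PI.1 hb2
  have n2 := N_pos g1.ne_zero
  have g0 := gp b2
  rw [Summable.tsum_finsetSum fun b1 _ => hsum b1 b2]
  have e2 : ∀ b1 ∈ (PI y1 y2).erase b2, ∑' a : O, (gw K B b1 : ℂ) * (gw K B b2 : ℂ) *
      ((nu D ρ a : ℂ) * (F b1 b2 a * Ez (1 + τ * I) A a)) =
      (∑ d ∈ ballN (D ^ 2), (ρ d : ℂ) / N d) * ((gw K B b1 : ℂ) * (gw K B b2 : ℂ) *
        ((A : ℂ) / (1 + τ * I) * Off.Cb τ A b1 b2)) + ∑ d ∈ ballN (D ^ 2), (gw K B b2 : ℂ) *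
        ((ρ d : ℂ) * ((A : ℂ) / ((1 + τ * I) * N d))) * ((gw K B b1 : ℂ) *
        ∑' h, (if ¬ IsCube (h * (lam * d) ^ 2) then Off.Ph τ A d b1 b2 h else 0)) := by
    intro b1 hb1
    obtain ⟨k0, k⟩ := Finset.mem_erase.1 hb1
    obtain ⟨k1, k2, k3, -⟩ := Nc.mem_PI.1 k
    rw [tsum_mul_left, hF, Off.pair ρ hD hDU hA0 k1 g1 k2 g2 k0 (hU3.trans k3) (hU3.trans g3),
      mul_add, Finset.mul_sum]
    congr 1
    · ring
    · exact Finset.sum_congr rfl fun _ _ => by ring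
  rw [Finset.sum_congr rfl e2, Finset.sum_add_distrib, Finset.sum_comm, ← Finset.mul_sum]
  refine (norm_add_le _ _).trans (add_le_add ?_ ?_)
  · have a1 : ‖∑ b1 ∈ (PI y1 y2).erase b2, (gw K B b1 : ℂ) * (gw K B b2 : ℂ) *
        ((A : ℂ) / (1 + τ * I) * Off.Cb τ A b1 b2)‖ ≤ C2 * A ^ (2 / 3 : ℝ) *
        (gw K B b2 * N b2 ^ (-(1 / 6) : ℝ)) * bb3 K B y1 y2 := by
      rw [bb3, Finset.mul_sum]
      refine (norm_sum_le _ _).trans ((Finset.sum_le_sum fun b1 hb1 => ?_).trans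
        (Finset.sum_le_sum_of_subset_of_nonneg (Finset.erase_subset b2 _) fun b _ _ => ?_))
      · have := gp b1
        rw [norm_mul, norm_mul, norm_mul, norm_div, Off.znorm, Complex.norm_real, Complex.norm_real,
          Complex.norm_real, Real.norm_of_nonneg this, Real.norm_of_nonneg g0,
          Real.norm_of_nonneg hA0.le]
        refine (mul_le_mul_of_nonneg_left (H2 τ A b1 b2 hA0
          (Nc.mem_PI.1 (Finset.mem_of_mem_erase hb1)).2.1 g1.ne_zero) (by positivity)).trans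
          (le_of_eq (by ring))
      · have := gp b; have := N_nonneg b; positivity
    have a2 : 0 ≤ bb3 K B y1 y2 := Finset.sum_nonneg fun b _ => by
      have := gp b; have := N_nonneg b; positivity
    rw [norm_mul]
    calc _ ≤ (|C0| + 1) / Real.log D * ((C2 + C3) * A ^ (2 / 3 : ℝ) *
          (gw K B b2 * N b2 ^ (-(1 / 6) : ℝ)) * bb3 K B y1 y2) := by
          gcongr
          · exact (Off.norm_rho hs).trans (by gcongr; linarith)
          · exact a1.trans (by gcongr; linarith)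
      _ = _ := by rw [hM1]; ring
  · set Q := C3 * U ^ 20 * Y ^ (-δ) * (1 + τ ^ 2) ^ 3 with hQ
    have a1 : ∀ d ∈ ballN (D ^ 2), ‖∑ b1 ∈ (PI y1 y2).erase b2, (gw K B b2 : ℂ) *
        ((ρ d : ℂ) * ((A : ℂ) / ((1 + τ * I) * N d))) * ((gw K B b1 : ℂ) *
        ∑' h, (if ¬ IsCube (h * (lam * d) ^ 2) then Off.Ph τ A d b1 b2 h else 0))‖ ≤
        |ρ d| * (gw K B b2 * (Y ^ 2 * U) * Q) := by
      intro d hd
      obtain ⟨d1, d2⟩ := mem_ballN.1 hd
      have d0 := one_le_N d1.ne_zero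
      rw [← Finset.mul_sum, norm_mul, norm_mul, norm_mul, norm_div, norm_mul, Off.znorm,
        Complex.norm_real, Complex.norm_real, Complex.norm_real, Complex.norm_real,
        Real.norm_of_nonneg g0, Real.norm_eq_abs, Real.norm_of_nonneg hA0.le,
        Real.norm_of_nonneg (N_nonneg d)]
      calc _ ≤ gw K B b2 * (|ρ d| * (Y ^ 2 * U / (1 * 1))) * Q := by
            gcongr
            exact H3 Y U K A B y1 y2 τ d b2 hU hY hK hy1 hy2 hB hB' hA hA' d1.ne_zero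
              (d2.trans (by gcongr)) hb2
        _ = _ := by ring
    refine (norm_sum_le _ _).trans ((Finset.sum_le_sum a1).trans ?_)
    rw [← Finset.sum_mul]
    have a2 : Y ^ (2 - δ) = Y ^ 2 * Y ^ (-δ) := by
      rw [sub_eq_add_neg, Real.rpow_add (by positivity), Real.rpow_two]
    have a3 : U ^ 4 * U * U ^ 20 ≤ U ^ 40 := by
      rw [← pow_succ, ← pow_add]; exact pow_le_pow_right₀ hU (by norm_num)
    have a4 : (1 + τ ^ 2) ^ 3 ≤ (1 + τ ^ 2) ^ 4 := pow_le_pow_right₀ hW (by norm_num)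
    have a5 : ∑ d ∈ ballN (D ^ 2), |ρ d| ≤ (|C0| + 1) * U ^ 4 :=
      hs.2.2.2.trans (by gcongr; linarith)
    rw [hM2, a2]
    generalize U ^ 40 = V at a3
    calc _ ≤ (|C0| + 1) * U ^ 4 * (gw K B b2 * (Y ^ 2 * U) * Q) := by gcongr
      _ = (|C0| + 1) * C3 * (U ^ 4 * U * U ^ 20 * (Y ^ 2 * Y ^ (-δ)) * (1 + τ ^ 2) ^ 3) *
          gw K B b2 := by rw [hQ]; ring
      _ ≤ _ := by
          have : 0 ≤ V := le_trans (by positivity) a3
          gcongr; linarith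

end

end Vale.Agent.P006
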