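import Vale.Agent.P006.Bas
import Vale.Agent.P026.Pois

namespace Vale.Agent.P006

open Vale.Agent.P026 Complex MeasureTheory Filter Topology
open scoped Classical ComplexConjugate Real MatrixGroups

noncomputable section

theorem norm_cexp_N (s : ℂ) (m : O) :
    ‖Complex.exp (-(kap * s * (N m : ℝ)))‖ = Real.exp (-(kap * N m / s.re⁻¹)) := by
  rw [norm_exp, neg_re, re_mul_ofReal, re_ofReal_mul, div_inv_eq_mul]
  congr 2
  ring

theorem pois_summ_c {f : O → ℂ} {B : ℝ} (hf : ∀ m, ‖f m‖ ≤ B) {s : ℂ} (hs : 0 < s.re) :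
    Summable (fun m : O => f m * Complex.exp (-(kap * s * (N m : ℝ)))) := by
  obtain ⟨C, -, h⟩ := sum_exp_le kap_pos
  refine Summable.of_norm_bounded ((h s.re⁻¹ (inv_pos.2 hs)).1.mul_left B) fun m => ?_
  rw [norm_mul, norm_cexp_N]
  exact mul_le_mul_of_nonneg_right (hf m) (Real.exp_pos _).le

theorem re_inv_pos {s : ℂ} (hs : 0 < s.re) : 0 < s⁻¹.re := by
  rw [inv_re]
  exact div_pos hs (normSq_pos.2 fun h => by simp [h] at hs)

/-- Poisson summation with a complex Gaussian -/
theorem poisson_char_c {q : O} (hq : q ≠ 0) {f : O → ℂ} (hf : Per q f) {s : ℂ} (hs : 0 < s.re) :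
    ∑' m : O, f m * Complex.exp (-(kap * s * (N m : ℝ))) =
      (s * (N q : ℝ))⁻¹ * ∑' h : O, (∑ x ∈ rs q, f x * psi (toC h * toC x / toC q)) *
        Complex.exp (-(kap * (N h : ℝ) / (s * (N q : ℝ)))) := by
  have q0 := N_pos hq
  have q1 := toC_ne_zero hq
  have hs' : 0 < (s * (N q : ℝ)).re := by rw [re_mul_ofReal]; positivity
  rw [tsum_rs hq (pois_summ_c (pois_bdd hq hf) hs)]
  simp_rw [Finset.sum_mul]
  rw [Summable.tsum_finsetSum, Finset.mul_sum]
  · refine Finset.sum_congr rfl fun x _ => ?_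
    have h := poisson hs' (toC x / toC q)
    have e : ∀ k : O, f (x + q * k) * Complex.exp (-(kap * s * (N (x + q * k) : ℝ))) =
        f x * Complex.exp (-(kap * (s * (N q : ℝ)) * (normSq (toC k + toC x / toC q) : ℝ))) :=
      fun k => by
        rw [hf (x + q * k) x ⟨k, by ring⟩]
        congr 1
        have : N (x + q * k) = N q * normSq (toC k + toC x / toC q) := by
          rw [← normSq_toC, ← normSq_toC, ← map_mul]
          congr 1
          rw [map_add, map_mul]
          field_simp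
          ring
        rw [this]
        push_cast
        congr 1
        ring
    rw [tsum_congr e, tsum_mul_left, h, ← mul_assoc, mul_comm (f x), mul_assoc, ← tsum_mul_left]
    congr 1
    refine tsum_congr fun k => ?_
    rw [mul_assoc, mul_div_assoc (toC k)]
  · intro x _
    refine (pois_summ_c (B := ‖f x‖) (f := fun h => f x * psi (toC h * toC x / toC q))
      (fun m => by rw [norm_mul, norm_psi, mul_one]) (re_inv_pos hs')).congr fun h => ?_
    congr 2
    ring

theorem dual_bound : ∃ C : ℝ, 0 < C ∧ ∀ (u : ℂ) (c : O → ℂ) (B : ℝ), 0 < u.re → (∀ h, ‖c h‖ ≤ B) →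
    c 0 = 0 → ‖u⁻¹ * ∑' h : O, c h * Complex.exp (-(kap * (N h : ℝ) / u))‖ ≤
      C * B * (‖u‖ / u.re) := by
  obtain ⟨C, hC0, hC⟩ := sum_exp_le kap_pos
  refine ⟨C, hC0, fun u c B hu hc h0 => ?_⟩
  have B0 : 0 ≤ B := (norm_nonneg _).trans (hc 0)
  have u0 : 0 < ‖u‖ := norm_pos_iff.2 fun h => by simp [h] at hu
  obtain ⟨s1, s2⟩ := hC u⁻¹.re⁻¹ (inv_pos.2 (re_inv_pos hu))
  have s3 : Summable fun h : O => if h ≠ 0 then Real.exp (-(kap * N h / u⁻¹.re⁻¹)) else 0 :=
    Summable.of_nonneg_of_le (fun h => by positivity) (fun h => by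
      split_ifs
      · exact le_rfl
      · positivity) s1
  have b2 := tsum_of_norm_bounded (f := fun h : O => c h * Complex.exp (-(kap * (N h : ℝ) / u)))
    (s3.mul_left B).hasSum fun h => by
      split_ifs with hh
      · rw [norm_mul, ← norm_cexp_N, div_eq_mul_inv, mul_right_comm]
        exact mul_le_mul_of_nonneg_right (hc h) (norm_nonneg _)
      · rw [not_not.1 hh, h0]
        simp
  rw [tsum_mul_left] at b2
  rw [norm_mul, norm_inv]
  calc _ ≤ ‖u‖⁻¹ * (B * (C * u⁻¹.re⁻¹)) := by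
        gcongr
        exact b2.trans (by gcongr)
    _ = _ := by
        rw [inv_re, Complex.normSq_eq_norm_sq]
        field_simp

theorem norm_g3_one {n : O} (hn : Prim n) (hs : Squarefree n) : ‖g3 1 n‖ = √(N n) := by
  have := norm_gt3' hn hs
  rw [gt3, norm_div, Complex.norm_real, norm_norm,
    div_eq_one_iff_eq (norm_ne_zero_iff.2 (toC_ne_zero hn.ne_zero))] at this
  rw [this, norm_toC]

end

end Vale.Agent.P006
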