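import Vale.Agent.P006.S2D
import Vale.Agent.P006.Bas
import Vale.Agent.P006.TPv1
import Vale.Agent.P026.PP

namespace Vale.Agent.P006

open Vale.Agent.P026 Complex MeasureTheory Filter Topology
open scoped Classical ComplexConjugate Real MatrixGroups

noncomputable section

theorem norm_Ez (τ A : ℝ) (a : O) : ‖Ez (1 + τ * I) A a‖ = Real.exp (-(kap * N a / A)) := by
  rw [Ez, norm_exp, neg_re, div_ofReal_re, re_mul_ofReal, re_ofReal_mul]
  simp

theorem norm_Ed (τ t : ℝ) (h : O) :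
    ‖Ed (1 + τ * I) t h‖ = Real.exp (-(kap * N h * t / (1 + τ ^ 2))) := by
  rw [Ed, norm_exp, neg_re, ← ofReal_mul, ← ofReal_mul, div_eq_mul_inv, re_ofReal_mul, inv_re,
    normSq_apply]
  simp [sq, div_eq_mul_inv]

theorem poisson_c {q : O} (hq : q ≠ 0) {f : O → ℂ} (hf : Per q f) {Y : ℝ} (hY : 0 < Y) {ζ : ℂ}
    (hζ : 0 < ζ.re) : ∑' m : O, f m * Ez ζ Y m = (Y : ℂ) / (ζ * N q) *
      ∑' h : O, (∑ x ∈ rs q, f x * psi (toC h * toC x / toC q)) * Ed ζ (Y / N q) h := by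
  have h := poisson_char_c hq hf (s := ζ / Y) (by rw [div_ofReal_re]; positivity)
  have Y0 : (Y : ℂ) ≠ 0 := ofReal_ne_zero.2 hY.ne'
  have q0 : ((N q : ℝ) : ℂ) ≠ 0 := ofReal_ne_zero.2 (N_pos hq).ne'
  have z0 : ζ ≠ 0 := fun h => by simp [h] at hζ
  refine (tsum_congr fun m => ?_).trans (h.trans ?_)
  · rw [Ez]
    congr 2
    ring
  · congr 1
    · field_simp
    · refine tsum_congr fun m => ?_
      rw [Ed]
      congr 2
      push_cast
      field_simp

theorem div_pois {d : O} (hd : d ≠ 0) {A : ℝ} (hA : 0 < A) {ζ : ℂ} (hζ : 0 < ζ.re) :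
    ∑' a : O, (if d ∣ a then Ez ζ A a else 0) =
      (A : ℂ) / (ζ * N d) * ∑' h : O, Ed ζ (A / N d) h := by
  have h := poisson_c hd (wt_class d 0).1 hA hζ
  refine (tsum_congr fun m => ?_).trans (h.trans ?_)
  · rw [sub_zero]
    split_ifs <;> simp
  · congr 1
    refine tsum_congr fun k => ?_
    rw [Finset.sum_congr rfl (g := fun x => if d ∣ 0 - x then 1 else 0), sum_class hd, one_mul]
    intro x _
    rw [sub_zero, zero_sub, dvd_neg]
    split_ifs with hx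
    · rw [one_mul, mul_comm (toC k), (psi_div_eq_one_iff hd x).2 hx k]
    · rw [zero_mul]

theorem pair_hat {b1 b2 : O} (h1 : NN b1) (h2 : NN b2) (h12 : IsCoprime b1 b2) (h : O) :
    ∑ x ∈ rs (b1 * b2), conj (sym3 x b1) * sym3 x b2 * psi (toC h * toC x / toC (b1 * b2)) =
      sym3 h b1 * conj (g3 1 b1) * (conj (sym3 h b2) * g3 1 b2) := by
  have a := gau_crt (χ₁ := fun x => conj (sym3 x b1)) (χ₂ := fun x => sym3 x b2) h1.ne_zero
    h2.ne_zero h12 (fun _ _ h => by simp only [sym3_congr h]) (fun _ _ h => sym3_congr h)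
    (fun x y => by rw [sym3_mul_left, map_mul]) (fun x y => sym3_mul_left x y b2) h
  have b := gau_conj (fun x => sym3 x b1) (-h) b1
  rw [neg_neg] at b
  have c : gauG (fun x => sym3 x b1) (-h) b1 = conj (sym3 h b1) * g3 1 b1 := by
    have := g3_twist' h1.1 h1.2.1 (-h)
    rw [neg_eq_neg_one_mul, sym3_mul_left, sym3_neg_one, one_mul, ← neg_eq_neg_one_mul] at this
    exact this
  have d : gauG (fun x => sym3 x b2) h b2 = conj (sym3 h b2) * g3 1 b2 := g3_twist' h2.1 h2.2.1 h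
  have e := Complex.conj_mul' (sym3 b1 b2)
  rw [norm_sym3 h12] at e
  rw [← b, c, d, cubic_recip h2.1 h1.1, e, map_mul, conj_conj] at a
  refine a.trans ?_
  simp

theorem G_conj_g3 {b : O} (hb : NN b) :
    G b * conj (g3 1 b) = conj (sym3 lam b) * ((N b : ℝ) : ℂ) / (‖toC b‖ : ℂ) := by
  have e := Complex.mul_conj' (g3 1 b)
  rw [norm_g3_one hb.1 hb.2.1, ← ofReal_pow, Real.sq_sqrt (N_nonneg b)] at e
  rw [G, if_pos hb, G0_eq hb.1 hb.2.1, gt3, ← e]
  ring

theorem pair_pois {b1 b2 d : O} (h1 : NN b1) (h2 : NN b2) (h12 : IsCoprime b1 b2) (hd : d ≠ 0)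
    {A : ℝ} (hA : 0 < A) {ζ : ℂ} (hζ : 0 < ζ.re) :
    ∑' a : O, (if d ∣ a then G b1 * conj (G b2) * (conj (sym3 a b1) * sym3 a b2) * Ez ζ A a
      else 0) = (A : ℂ) / (ζ * N d) * ∑' h : O,
        sym3 (h * (lam * d) ^ 2) b1 / (‖toC b1‖ : ℂ) *
          conj (sym3 (h * (lam * d) ^ 2) b2 / (‖toC b2‖ : ℂ)) *
          Ed ζ (A / (N d * N b1 * N b2)) h := by
  have d0 := N_pos hd
  have p1 := N_pos h1.ne_zero
  have p2 := N_pos h2.ne_zero
  have hp : Per (b1 * b2) fun x => conj (sym3 x b1) * sym3 x b2 := fun x y hxy => by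
    simp only [sym3_congr ((dvd_mul_right b1 b2).trans hxy),
      sym3_congr ((dvd_mul_left b2 b1).trans hxy)]
  have h := poisson_c (mul_ne_zero h1.ne_zero h2.ne_zero) hp (div_pos hA d0) hζ
  have e : ∀ m : O, G b1 * conj (G b2) * (conj (sym3 (d * m) b1) * sym3 (d * m) b2) *
      Ez ζ A (d * m) = G b1 * conj (G b2) * (conj (sym3 d b1) * sym3 d b2) *
        (conj (sym3 m b1) * sym3 m b2 * Ez ζ (A / N d) m) := fun m => by
    have : Ez ζ A (d * m) = Ez ζ (A / N d) m := by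
      rw [Ez, Ez, N_mul]
      congr 1
      push_cast
      rw [div_div_eq_mul_div]
      ring
    rw [this, sym3_mul_left, sym3_mul_left, map_mul]
    ring
  rw [pp_tsum_dvd hd, tsum_congr e, tsum_mul_left, h, ← mul_assoc, ← tsum_mul_left,
    ← tsum_mul_left]
  refine tsum_congr fun k => ?_
  have g1 := G_conj_g3 h1
  have g2 := congrArg conj (G_conj_g3 h2)
  rw [map_mul, conj_conj, map_div₀, map_mul, conj_conj, conj_ofReal, conj_ofReal] at g2
  have a1 : ∀ b, sym3 (k * (lam * d) ^ 2) b = sym3 k b * (conj (sym3 lam b) * conj (sym3 d b)) :=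
    fun b => by rw [sym3_mul_left, sym3_pow_left, ← conj_sym3, sym3_mul_left, map_mul]
  have a2 : A / N d / N (b1 * b2) = A / (N d * N b1 * N b2) := by
    rw [N_mul, div_div, mul_assoc]
  have c1 : ((N b1 : ℝ) : ℂ) ≠ 0 := ofReal_ne_zero.2 p1.ne'
  have c2 : ((N b2 : ℝ) : ℂ) ≠ 0 := ofReal_ne_zero.2 p2.ne'
  rw [pair_hat h1 h2 h12, a1, a1, a2, N_mul]
  simp only [map_div₀, map_mul, conj_conj, conj_ofReal]
  push_cast
  have g3' : G b1 * conj (g3 1 b1) / ((N b1 : ℝ) : ℂ) = conj (sym3 lam b1) / (‖toC b1‖ : ℂ) := by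
    rw [g1]
    field_simp
  have g4 : conj (G b2) * g3 1 b2 / ((N b2 : ℝ) : ℂ) = sym3 lam b2 / (‖toC b2‖ : ℂ) := by
    rw [g2]
    field_simp
  calc _ = (A : ℂ) / (ζ * N d) * (sym3 k b1 * conj (sym3 d b1) *
        (G b1 * conj (g3 1 b1) / ((N b1 : ℝ) : ℂ)) * (conj (sym3 k b2) * sym3 d b2 *
        (conj (G b2) * g3 1 b2 / ((N b2 : ℝ) : ℂ))) * Ed ζ (A / (N d * N b1 * N b2)) k) := by
        ring
    _ = _ := by
        rw [g3', g4]
        ring

end

end Vale.Agent.P006
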