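import Mathlib

namespace Vale.Agent.P006

open Finset

theorem sv_alt {ι : Type*} [DecidableEq ι] {I : Finset (Finset ι)} (hI : ∀ s ∈ I, ∀ t ⊆ s, t ∈ I) {l : Finset ι}
    (hl : l ∈ I) (m : Finset ι) :
    ∑ s ∈ I, (if m ⊆ s ∧ s ⊆ l then (-1 : ℝ) ^ #s else 0) = if l = m then (-1) ^ #m else 0 := by
  rw [← Finset.sum_filter]
  by_cases h : m ⊆ l
  · have e : I.filter (fun s => m ⊆ s ∧ s ⊆ l) = (l \ m).powerset.image (m ∪ ·) := by
      rw [← Finset.Icc_eq_image_powerset h]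
      ext s
      rw [Finset.mem_filter, Finset.mem_Icc]
      exact ⟨fun h => h.2, fun h => ⟨hI l hl s h.2, h⟩⟩
    have dj : ∀ a ∈ (l \ m).powerset, Disjoint m a := fun a ha =>
      Finset.disjoint_of_subset_right (Finset.mem_powerset.1 ha) Finset.disjoint_sdiff
    rw [e, Finset.sum_image fun a ha b hb hab => by
      rw [← Finset.union_sdiff_cancel_left (dj a ha), ← Finset.union_sdiff_cancel_left (dj b hb)]
      exact congrArg (· \ m) hab]
    rw [Finset.sum_congr rfl fun a ha => by rw [Finset.card_union_of_disjoint (dj a ha), pow_add],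
      ← Finset.mul_sum]
    have := congrArg (Int.cast : ℤ → ℝ) (Finset.sum_powerset_neg_one_pow_card (x := l \ m))
    push_cast at this
    rw [this]
    by_cases hlm : l = m
    · simp [hlm]
    · rw [if_neg hlm, if_neg, mul_zero]
      exact fun h0 => hlm (Finset.Subset.antisymm (Finset.sdiff_eq_empty_iff_subset.1 h0) h)
  · rw [if_neg fun e => h (by rw [e]), Finset.filter_eq_empty_iff.2 fun s _ hs => h (hs.1.trans hs.2),
      Finset.sum_empty]

/-- Selberg's diagonalisation for a family of finite sets closed under subsets -/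
theorem sv_abs {ι : Type*} [DecidableEq ι] {I : Finset (Finset ι)} (hI : ∀ s ∈ I, ∀ t ⊆ s, t ∈ I) (h0 : ∅ ∈ I)
    (n : ι → ℝ) (hn : ∀ s ∈ I, ∀ p ∈ s, 1 < n p) :
    ∃ lam : Finset ι → ℝ, lam ∅ = 1 ∧ (∀ s ∈ I, |lam s| ≤ ∏ p ∈ s, n p) ∧
      ∑ s ∈ I, ∑ t ∈ I, lam s * lam t / ∏ p ∈ s ∪ t, n p = (∑ l ∈ I, (∏ p ∈ l, (n p - 1))⁻¹)⁻¹ := by
  obtain ⟨φ, hφ⟩ : ∃ φ : Finset ι → ℝ, φ = fun l => ∏ p ∈ l, (n p - 1) := ⟨_, rfl⟩
  have φ0 : ∀ l ∈ I, 0 < φ l := fun l hl => by
    rw [hφ]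
    exact Finset.prod_pos fun p hp => sub_pos.2 (hn l hl p hp)
  have n0 : ∀ l ∈ I, 0 < ∏ p ∈ l, n p := fun l hl =>
    Finset.prod_pos fun p hp => one_pos.trans (hn l hl p hp)
  have e0 : ∑ l ∈ I, (∏ p ∈ l, (n p - 1))⁻¹ = ∑ l ∈ I, (φ l)⁻¹ := by rw [hφ]
  rw [e0]
  obtain ⟨g, hg⟩ : ∃ g, g = ∑ l ∈ I, (φ l)⁻¹ := ⟨_, rfl⟩
  have g0 : 0 < g := by
    rw [hg]
    exact Finset.sum_pos (fun l hl => inv_pos.2 (φ0 l hl)) ⟨_, h0⟩
  rw [← hg]
  obtain ⟨x, hx⟩ : ∃ x : Finset ι → ℝ,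
    x = fun s => ∑ l ∈ I, if s ⊆ l then (-1) ^ #s * ((φ l)⁻¹ / g) else 0 := ⟨_, rfl⟩
  have one : ∑ l ∈ I, (φ l)⁻¹ / g = 1 := by rw [← Finset.sum_div, ← hg, div_self g0.ne']
  have key : ∀ m ∈ I, ∑ s ∈ I, (if m ⊆ s then x s else 0) = (-1) ^ #m * ((φ m)⁻¹ / g) := by
    intro m hm
    calc _ = ∑ s ∈ I, ∑ l ∈ I, (if m ⊆ s ∧ s ⊆ l then (-1 : ℝ) ^ #s else 0) * ((φ l)⁻¹ / g) := by
          refine Finset.sum_congr rfl fun s _ => ?_
          rw [hx]
          by_cases h : m ⊆ s <;> simp [h]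
      _ = ∑ l ∈ I, (if l = m then (-1 : ℝ) ^ #m else 0) * ((φ l)⁻¹ / g) := by
          rw [Finset.sum_comm]
          exact Finset.sum_congr rfl fun l hl => by rw [← Finset.sum_mul, sv_alt hI hl]
      _ = _ := by simp [hm]
  refine ⟨fun s => (∏ p ∈ s, n p) * x s, ?_, fun s hs => ?_, ?_⟩
  · simp only [hx, Finset.prod_empty, Finset.empty_subset, if_true, Finset.card_empty, pow_zero,
      one_mul, one]
  · rw [abs_mul, abs_of_pos (n0 s hs)]
    refine mul_le_of_le_one_right (n0 s hs).le ?_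
    rw [hx]
    refine (Finset.abs_sum_le_sum_abs _ _).trans ((Finset.sum_le_sum fun l hl => ?_).trans one.le)
    have := φ0 l hl
    split_ifs
    · rw [abs_mul, abs_pow, abs_neg, abs_one, one_pow, one_mul, abs_of_pos (by positivity)]
    · rw [abs_zero]
      positivity
  · calc _ = ∑ s ∈ I, ∑ t ∈ I, ∑ m ∈ I,
          φ m * ((if m ⊆ s then x s else 0) * (if m ⊆ t then x t else 0)) := by
          refine Finset.sum_congr rfl fun s hs => Finset.sum_congr rfl fun t ht => ?_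
          have u0 : 0 < ∏ p ∈ s ∪ t, n p := Finset.prod_pos fun p hp => one_pos.trans
            ((Finset.mem_union.1 hp).elim (hn s hs p) (hn t ht p))
          have a1 : ∏ p ∈ s ∩ t, n p = ∑ m ∈ I, if m ⊆ s ∧ m ⊆ t then φ m else 0 := by
            rw [← Finset.sum_filter, hφ]
            have : I.filter (fun m => m ⊆ s ∧ m ⊆ t) = (s ∩ t).powerset := by
              ext m
              rw [Finset.mem_filter, Finset.mem_powerset, Finset.subset_inter_iff]
              exact ⟨fun h => h.2, fun h => ⟨hI s hs m h.1, h⟩⟩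
            rw [this, ← Finset.prod_add_one]
            simp
          have a2 : (∏ p ∈ s, n p) * x s * ((∏ p ∈ t, n p) * x t) / ∏ p ∈ s ∪ t, n p =
              (∏ p ∈ s ∩ t, n p) * (x s * x t) := by
            rw [mul_mul_mul_comm, ← Finset.prod_union_inter]
            field_simp
          rw [a2, a1, Finset.sum_mul]
          refine Finset.sum_congr rfl fun m _ => ?_
          by_cases h1 : m ⊆ s <;> by_cases h2 : m ⊆ t <;> simp [h1, h2]
      _ = ∑ m ∈ I, φ m * ((∑ s ∈ I, if m ⊆ s then x s else 0) *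
          ∑ t ∈ I, if m ⊆ t then x t else 0) := by
          rw [Finset.sum_congr rfl fun s _ => Finset.sum_comm, Finset.sum_comm]
          refine Finset.sum_congr rfl fun m _ => ?_
          rw [Finset.sum_mul_sum, Finset.mul_sum]
          exact Finset.sum_congr rfl fun s _ => by rw [Finset.mul_sum]
      _ = ∑ m ∈ I, (φ m)⁻¹ / g * g⁻¹ := by
          refine Finset.sum_congr rfl fun m hm => ?_
          have := (φ0 m hm).ne'
          rw [key m hm, mul_mul_mul_comm, ← mul_pow]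
          field_simp
          simp
      _ = _ := by rw [← Finset.sum_mul, one, one_mul]

end Vale.Agent.P006
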