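import Vale.Agent.P006.S2D
import Vale.Agent.P006.Bas
import Vale.Agent.P006.S2Sv1

namespace Vale.Agent.P006

open Vale.Agent.P026 Complex MeasureTheory Filter Topology
open scoped Classical ComplexConjugate Real MatrixGroups

noncomputable section

theorem sv_harm (K : ℕ) :
    (Real.log (K + 2) - 1) / 4 ≤ ∑ m ∈ ballO K, ((N m)⁻¹ - ((K : ℝ) + 1)⁻¹) := by
  induction K with
  | zero =>
    rw [ballO_eq_empty (by norm_num), Finset.sum_empty]
    have := Real.log_two_lt_d9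
    norm_num
    linarith
  | succ K ih =>
    have K0 : (0 : ℝ) ≤ K := Nat.cast_nonneg K
    have a1 : ∑ m ∈ ballO K, ((N m)⁻¹ - ((K : ℝ) + 1)⁻¹) ≤
        ∑ m ∈ ballO ((K + 1 : ℕ) : ℝ), ((N m)⁻¹ - ((K : ℝ) + 1)⁻¹) := by
      refine Finset.sum_le_sum_of_subset_of_nonneg (ballO_mono (by push_cast; linarith))
        fun m hm _ => ?_
      obtain ⟨h0, h1⟩ := mem_ballO.1 hm
      push_cast at h1
      exact sub_nonneg.2 (inv_anti₀ (N_pos h0) h1)
    have a2 := card_ballO_ge (R := ((K + 1 : ℕ) : ℝ)) (by push_cast; linarith)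
    have a3 : Real.log (K + 1 + 2) ≤ Real.log (K + 2) + (K + 2 : ℝ)⁻¹ := by
      have := Real.log_le_sub_one_of_pos (x := (K + 1 + 2) / (K + 2)) (by positivity)
      rw [Real.log_div (by positivity) (by positivity)] at this
      have e : (K + 1 + 2 : ℝ) / (K + 2) - 1 = (K + 2 : ℝ)⁻¹ := by
        field_simp
        ring
      linarith
    have a4 : ∀ m : O, (N m)⁻¹ - (((K + 1 : ℕ) : ℝ) + 1)⁻¹ =
        ((N m)⁻¹ - ((K : ℝ) + 1)⁻¹) + ((K + 1 : ℝ) * (K + 2))⁻¹ := fun m => by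
      push_cast
      have : ((K : ℝ) + 1)⁻¹ - ((K : ℝ) + 1 + 1)⁻¹ = ((K + 1 : ℝ) * (K + 2))⁻¹ := by
        field_simp
        ring
      linarith
    simp only [a4]
    rw [Finset.sum_add_distrib, Finset.sum_const, nsmul_eq_mul]
    have a5 : (K + 2 : ℝ)⁻¹ / 4 = ((K + 1 : ℕ) : ℝ) / 4 * ((K + 1 : ℝ) * (K + 2))⁻¹ := by
      push_cast
      field_simp
    have a6 := mul_le_mul_of_nonneg_right a2 (by positivity : 0 ≤ ((K + 1 : ℝ) * (K + 2))⁻¹)
    push_cast at *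
    linarith

theorem sv_log {D : ℝ} (hD : 1 ≤ D) : (Real.log D - 1) / 4 ≤ ∑ m ∈ ballO D, (N m)⁻¹ := by
  have h1 : Real.log D ≤ Real.log (⌊D⌋₊ + 2) :=
    Real.log_le_log (by linarith) (by linarith [Nat.lt_floor_add_one D])
  refine le_trans (by linarith) ((sv_harm ⌊D⌋₊).trans (le_trans (Finset.sum_le_sum fun m _ => ?_)
    (Finset.sum_le_sum_of_subset_of_nonneg (ballO_mono (Nat.floor_le (by linarith)))
      fun m _ _ => inv_nonneg.2 (N_nonneg m))))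
  exact sub_le_self _ (by positivity)

theorem sv_low : ∃ C : ℝ, 0 < C ∧ ∀ D : ℝ, 1 ≤ D → Real.log D ≤ C * ∑ m ∈ ballN D, (N m)⁻¹ := by
  obtain ⟨Z, hZ⟩ : ∃ Z, Z = ∑' n : O, N n ^ (-2 : ℝ) := ⟨_, rfl⟩
  have Z0 : 0 ≤ Z := hZ ▸ tsum_nonneg fun n => Real.rpow_nonneg (N_nonneg n) _
  refine ⟨4 * ((ballO 12).card * Z) + 1, by positivity, fun D hD => ?_⟩
  have S1 : 1 ≤ ∑ m ∈ ballN D, (N m)⁻¹ := by
    have := Finset.single_le_sum (f := fun m => (N m)⁻¹) (s := ballN D)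
      (fun m _ => inv_nonneg.2 (N_nonneg m)) (mem_ballN.2 ⟨nn_one, by rwa [N_one]⟩)
    simpa [N_one] using this
  have h1 : ∑ m ∈ ballO D, (N m)⁻¹ ≤ ∑ t ∈ ballO 12 ×ˢ ballN D ×ˢ ballO D,
      (N (t.1 * t.2.1 * t.2.2 ^ 2))⁻¹ := by
    refine sum_le_of_cover (ballO D) (ballO 12 ×ˢ ballN D ×ˢ ballO D)
      (fun t : O × O × O => t.1 * t.2.1 * t.2.2 ^ 2) (f := fun m => (N m)⁻¹)
      (fun m => inv_nonneg.2 (N_nonneg m)) fun m hm => ?_
    obtain ⟨m0, mD⟩ := mem_ballO.1 hm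
    obtain ⟨b, a, hb, ha, e1⟩ := exists_sqfree_mul_sq m0
    obtain ⟨u, i, j, b0, hu, hi, hj, hb0, e2⟩ := sqfree_decomp hb
    have e : m = u * (-2) ^ i * lam ^ j * b0 * a ^ 2 := by rw [e1, e2]
    refine ⟨(u * (-2) ^ i * lam ^ j, b0, a), ?_, e.symm⟩
    simp only [Finset.mem_product, mem_ballO, mem_ballN]
    refine ⟨⟨mul_ne_zero (mul_ne_zero hu.ne_zero (prim_neg_two.pow i).ne_zero)
      (pow_ne_zero _ prime_lam.ne_zero), ?_⟩, ⟨hb0, (N_le_of_dvd ?_ m0).trans mD⟩, ha,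
      (N_le_of_dvd ?_ m0).trans mD⟩
    · rw [N_mul, N_mul, N_unit hu, N_pow, N_pow, N_neg, N_two, N_lam]
      interval_cases i <;> interval_cases j <;> norm_num
    · exact ⟨u * (-2) ^ i * lam ^ j * a ^ 2, by rw [e]; ring⟩
    · exact ⟨u * (-2) ^ i * lam ^ j * b0 * a, by rw [e]; ring⟩
  have h2 : ∑ a ∈ ballO D, (N a ^ 2)⁻¹ ≤ Z := by
    rw [hZ]
    refine le_trans (le_of_eq (Finset.sum_congr rfl fun a _ => ?_))
      ((summable_N_rpow one_lt_two).sum_le_tsum _ fun n _ => Real.rpow_nonneg (N_nonneg n) _)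
    rw [Real.rpow_neg (N_nonneg a), Real.rpow_two]
  have h3 : ∑ t ∈ ballO 12 ×ˢ ballN D ×ˢ ballO D, (N (t.1 * t.2.1 * t.2.2 ^ 2))⁻¹ ≤
      (ballO 12).card * Z * ∑ m ∈ ballN D, (N m)⁻¹ := by
    rw [Finset.sum_product, mul_assoc, ← nsmul_eq_mul]
    refine Finset.sum_le_card_nsmul _ _ _ fun c hc => ?_
    rw [Finset.sum_product, Finset.mul_sum]
    refine Finset.sum_le_sum fun b _ => ?_
    refine le_trans ?_ (mul_le_mul_of_nonneg_right h2 (inv_nonneg.2 (N_nonneg b)))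
    rw [Finset.sum_mul]
    refine Finset.sum_le_sum fun a _ => ?_
    have := N_nonneg a
    have := N_nonneg b
    simp only [N_mul, N_pow, mul_inv]
    rw [mul_assoc, mul_comm (N b)⁻¹]
    exact mul_le_of_le_one_left (by positivity) (inv_le_one_of_one_le₀ (one_le_N (mem_ballO.1 hc).1))
  have h4 := sv_log hD
  nlinarith

theorem sv_cop {p q : O} (hp : Prime p) (hP : Prim p) (hq : Prime q) (hQ : Prim q) (h : p ≠ q) :
    IsCoprime p q :=
  (hp.irreducible.coprime_iff_not_dvd).2 fun hd =>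
    h (hP.eq_of_associated hQ (hp.irreducible.associated_of_dvd hq.irreducible hd))

theorem sv_nn (s : Finset O) (hs : ∀ p ∈ s, NN p ∧ Prime p) : NN (∏ p ∈ s, p) := by
  induction s using Finset.induction_on with
  | empty => simpa using nn_one
  | insert a s ha ih =>
    have h1 := ih fun p hp => hs p (Finset.mem_insert_of_mem hp)
    have h2 := hs a (Finset.mem_insert_self a s)
    rw [Finset.prod_insert ha]
    refine (nn_mul_iff h2.1.1 h1.1).2 ⟨h2.1, h1, IsCoprime.prod_right fun p hp => ?_⟩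
    have h3 := hs p (Finset.mem_insert_of_mem hp)
    exact sv_cop h2.2 h2.1.1 h3.2 h3.1.1 fun e => ha (e ▸ hp)

theorem sv_dvd (s : Finset O) (hs : ∀ p ∈ s, NN p ∧ Prime p) (a : O) :
    (∏ p ∈ s, p) ∣ a ↔ ∀ p ∈ s, p ∣ a :=
  ⟨fun h _ hp => (Finset.dvd_prod_of_mem (fun p => p) hp).trans h, fun h =>
    Finset.prod_dvd_of_coprime (fun p hp q hq hpq =>
      sv_cop (hs p hp).2 (hs p hp).1.1 (hs q hq).2 (hs q hq).1.1 hpq) h⟩

theorem sv_sub {s t : Finset O} (hs : ∀ p ∈ s, NN p ∧ Prime p) (ht : ∀ p ∈ t, NN p ∧ Prime p)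
    (h : ∏ p ∈ s, p = ∏ p ∈ t, p) : s ⊆ t := fun p hp => by
  have := Finset.dvd_prod_of_mem (fun p => p) hp
  rw [h, (hs p hp).2.dvd_finsetProd_iff] at this
  obtain ⟨q, hq, hd⟩ := this
  rwa [(hs p hp).1.1.eq_of_associated (ht q hq).1.1
    ((hs p hp).2.irreducible.associated_of_dvd (ht q hq).2.irreducible hd)]

theorem sv_rep {n : O} (hn : NN n) : ∃ s : Finset O, (∀ p ∈ s, NN p ∧ Prime p) ∧ ∏ p ∈ s, p = n := by
  refine NN.induction (P := fun n => ∃ s : Finset O, (∀ p ∈ s, NN p ∧ Prime p) ∧ ∏ p ∈ s, p = n)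
    ⟨∅, by simp, by simp⟩ ?_ n hn
  rintro p n hp hP - hpn ⟨s, hs, rfl⟩
  refine ⟨insert p s, fun q hq => ?_,
    Finset.prod_insert fun h => hpn (Finset.dvd_prod_of_mem (fun p => p) h)⟩
  rcases Finset.mem_insert.1 hq with rfl | hq
  · exact ⟨hP, hp⟩
  · exact hs q hq

/-- Selberg's sieve weights -/
theorem s2_sieve : ∃ C : ℝ, 0 < C ∧ ∀ D : ℝ, 2 ≤ D → ∃ ρ : O → ℝ, Sieve D C ρ := by
  obtain ⟨C1, hC1, h1⟩ := sv_low
  obtain ⟨C2, hC2, h2⟩ := card_ballO_le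
  refine ⟨C1 + C2 ^ 2, by positivity, fun D hD => ?_⟩
  obtain ⟨I, hI⟩ : ∃ I, I = (PP D).powerset.filter fun s => ∏ p ∈ s, N p ≤ D := ⟨_, rfl⟩
  have mI : ∀ s, s ∈ I ↔ (∀ p ∈ s, NN p ∧ Prime p) ∧ ∏ p ∈ s, N p ≤ D := by
    intro s
    rw [hI, Finset.mem_filter, Finset.mem_powerset]
    refine ⟨fun h => ⟨fun p hp => ?_, h.2⟩, fun h => ⟨fun p hp => ?_, h.2⟩⟩
    · have := Finset.mem_filter.1 (h.1 hp)
      exact ⟨(mem_ballN.1 this.1).1, this.2⟩
    · refine Finset.mem_filter.2 ⟨mem_ballN.2 ⟨(h.1 p hp).1, le_trans ?_ h.2⟩, (h.1 p hp).2⟩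
      rw [← div_N_prod]
      exact N_le_of_dvd (Finset.dvd_prod_of_mem (fun p => p) hp) (sv_nn s h.1).ne_zero
  have dI : ∀ s ∈ I, ∀ t ⊆ s, t ∈ I := by
    intro s hs t ht
    rw [mI] at hs ⊢
    refine ⟨fun p hp => hs.1 p (ht hp), le_trans ?_ hs.2⟩
    rw [← div_N_prod, ← div_N_prod]
    exact N_le_of_dvd (Finset.prod_dvd_prod_of_subset _ _ _ ht) (sv_nn s hs.1).ne_zero
  have I0 : ∅ ∈ I := (mI _).2 ⟨by simp, by simp; linarith⟩
  have n1 : ∀ s ∈ I, ∀ p ∈ s, 1 < N p := fun s hs p hp =>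
    one_lt_two.trans_le (div_two_le_N (((mI s).1 hs).1 p hp).2)
  obtain ⟨lam, l0, l1, l2⟩ := sv_abs dI I0 N n1
  have uI : ∀ x ∈ I ×ˢ I, ∀ p ∈ x.1 ∪ x.2, NN p ∧ Prime p := fun x hx p hp =>
    (Finset.mem_union.1 hp).elim (((mI _).1 (Finset.mem_product.1 hx).1).1 p)
      (((mI _).1 (Finset.mem_product.1 hx).2).1 p)
  have mp : ∀ x ∈ I ×ˢ I, ∏ p ∈ x.1 ∪ x.2, p ∈ ballN (D ^ 2) := by
    intro x hx
    obtain ⟨a1, a2⟩ := (mI _).1 (Finset.mem_product.1 hx).1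
    obtain ⟨b1, b2⟩ := (mI _).1 (Finset.mem_product.1 hx).2
    refine mem_ballN.2 ⟨sv_nn _ (uI x hx), ?_⟩
    rw [← div_N_prod] at a2 b2
    refine (N_le_of_dvd ⟨_, Finset.prod_union_inter.symm⟩
      (mul_ne_zero (sv_nn _ a1).ne_zero (sv_nn _ b1).ne_zero)).trans ?_
    rw [N_mul, sq]
    exact mul_le_mul a2 b2 (N_nonneg _) (by linarith)
  have fib : ∀ (f : O → ℝ) (w : Finset O × Finset O → ℝ), ∑ d ∈ ballN (D ^ 2),
      (∑ x ∈ (I ×ˢ I).filter (fun x => ∏ p ∈ x.1 ∪ x.2, p = d), w x) * f d =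
        ∑ x ∈ I ×ˢ I, w x * f (∏ p ∈ x.1 ∪ x.2, p) := by
    intro f w
    rw [← Finset.sum_fiberwise_of_maps_to mp]
    refine Finset.sum_congr rfl fun d _ => ?_
    rw [Finset.sum_mul]
    exact Finset.sum_congr rfl fun x hx => by rw [(Finset.mem_filter.1 hx).2]
  refine ⟨fun d => ∑ x ∈ (I ×ˢ I).filter (fun x => ∏ p ∈ x.1 ∪ x.2, p = d), lam x.1 * lam x.2, ?_⟩
  have hnu : ∀ a, nu D (fun d => ∑ x ∈ (I ×ˢ I).filter (fun x => ∏ p ∈ x.1 ∪ x.2, p = d),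
      lam x.1 * lam x.2) a = (∑ s ∈ I, if ∀ p ∈ s, p ∣ a then lam s else 0) ^ 2 := by
    intro a
    have := fib (fun d => if d ∣ a then 1 else 0) fun x => lam x.1 * lam x.2
    simp only [mul_ite, mul_one, mul_zero] at this
    rw [nu, Finset.sum_filter, this, sq, Finset.sum_mul_sum, Finset.sum_product]
    refine Finset.sum_congr rfl fun s hs => Finset.sum_congr rfl fun t ht => ?_
    simp only [sv_dvd _ (uI (s, t) (Finset.mem_product.2 ⟨hs, ht⟩)), Finset.forall_mem_union]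
    by_cases a1 : ∀ p ∈ s, p ∣ a <;> by_cases a2 : ∀ p ∈ t, p ∣ a
    · rw [if_pos ⟨a1, a2⟩, if_pos a1, if_pos a2]
    · rw [if_neg fun h => a2 h.2, if_neg a2, mul_zero]
    · rw [if_neg fun h => a1 h.1, if_neg a1, zero_mul]
    · rw [if_neg fun h => a1 h.1, if_neg a1, zero_mul]
  refine ⟨fun a => by rw [hnu]; positivity, fun a ha => ?_, ?_, ?_⟩
  · rw [hnu, Finset.sum_eq_single_of_mem ∅ I0, if_pos (by simp), l0, one_pow]
    intro s hs hne
    rw [if_neg]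
    intro h
    obtain ⟨p, hp⟩ := Finset.nonempty_iff_ne_empty.2 hne
    have b1 := (mI _).1 (dI s hs {p} (Finset.singleton_subset_iff.2 hp))
    rw [Finset.prod_singleton] at b1
    have b2 := b1.1 p (Finset.mem_singleton_self p)
    exact absurd (ha p b2.1 b2.2 (h p hp)) (not_lt.2 b1.2)
  · have := fib (fun d => (N d)⁻¹) fun x => lam x.1 * lam x.2
    simp only [← div_eq_mul_inv, div_N_prod] at this
    rw [this, Finset.sum_product]
    dsimp only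
    rw [l2]
    have a1 : ∑ m ∈ ballN D, (N m)⁻¹ ≤ ∑ l ∈ I, (∏ p ∈ l, (N p - 1))⁻¹ := by
      refine (sum_le_of_cover (ballN D) I (fun l => ∏ p ∈ l, p) (f := fun m => (N m)⁻¹)
        (fun m => inv_nonneg.2 (N_nonneg m)) fun m hm => ?_).trans
        (Finset.sum_le_sum fun l hl => ?_)
      · obtain ⟨s, hs, rfl⟩ := sv_rep (mem_ballN.1 hm).1
        exact ⟨s, (mI s).2 ⟨hs, div_N_prod s ▸ (mem_ballN.1 hm).2⟩, rfl⟩
      · rw [div_N_prod]
        exact inv_anti₀ (Finset.prod_pos fun p hp => sub_pos.2 (n1 l hl p hp))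
          (Finset.prod_le_prod (fun p hp => (sub_pos.2 (n1 l hl p hp)).le) fun p _ => by linarith)
    have a2 := h1 D (by linarith)
    have a3 : 0 < Real.log D := Real.log_pos (by linarith)
    have a4 : 0 < ∑ l ∈ I, (∏ p ∈ l, (N p - 1))⁻¹ := Finset.sum_pos (fun l hl =>
      inv_pos.2 (Finset.prod_pos fun p hp => sub_pos.2 (n1 l hl p hp))) ⟨_, I0⟩
    rw [abs_of_pos (inv_pos.2 a4), le_div_iff₀ a3, inv_mul_le_iff₀ a4]
    nlinarith [mul_le_mul_of_nonneg_left a1 hC1.le, mul_pos a4 (pow_pos hC2 2)]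
  · have a1 := fib (fun _ => 1) fun x => |lam x.1 * lam x.2|
    simp only [mul_one] at a1
    have a2 : (I.card : ℝ) ≤ C2 * D := by
      refine le_trans ?_ (h2 D (by linarith))
      refine Nat.cast_le.2 (Finset.card_le_card_of_injOn (fun l => ∏ p ∈ l, p) (fun l hl => ?_)
        fun s hs t ht h => ?_)
      · obtain ⟨b1, b2⟩ := (mI l).1 hl
        exact mem_ballO.2 ⟨(sv_nn l b1).ne_zero, (div_N_prod l).symm ▸ b2⟩
      · exact Finset.Subset.antisymm (sv_sub ((mI s).1 hs).1 ((mI t).1 ht).1 h)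
          (sv_sub ((mI t).1 ht).1 ((mI s).1 hs).1 h.symm)
    have a3 : ∀ s ∈ I, |lam s| ≤ D := fun s hs => (l1 s hs).trans ((mI s).1 hs).2
    calc _ ≤ ∑ x ∈ I ×ˢ I, |lam x.1 * lam x.2| := by
          rw [← a1]
          exact Finset.sum_le_sum fun d _ => Finset.abs_sum_le_sum_abs _ _
      _ ≤ (I ×ˢ I).card • (D * D) := Finset.sum_le_card_nsmul _ _ _ fun x hx => by
          rw [abs_mul]
          exact mul_le_mul (a3 _ (Finset.mem_product.1 hx).1) (a3 _ (Finset.mem_product.1 hx).2)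
            (abs_nonneg _) (by linarith)
      _ ≤ (C2 * D) * (C2 * D) * (D * D) := by
          rw [nsmul_eq_mul, Finset.card_product, Nat.cast_mul]
          gcongr
      _ ≤ _ := by nlinarith [pow_pos (by linarith : 0 < D) 4]

end

end Vale.Agent.P006
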