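import Vale.Agent.P006.S2D
import Vale.Agent.P006.S2Po
import Vale.Agent.P026.Lat

namespace Vale.Agent.P006

open Vale.Agent.P026 Complex MeasureTheory Filter Topology
open scoped Classical ComplexConjugate Real MatrixGroups

noncomputable section

theorem Vt_pos (T x : ℝ) : 0 < Vt T x := Real.exp_pos _

theorem Vt_ge : ∃ c : ℝ, 0 < c ∧ ∀ T x : ℝ, 1 ≤ T → 0 < x → |Real.log x| ≤ 1 / (2 * T) →
    c ≤ Vt T x := by
  refine ⟨Real.exp (-kap - kap ^ 2), Real.exp_pos _, fun T x hT hx h => ?_⟩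
  have T0 : 0 < T := by linarith
  have h0 : 1 / (2 * T) ≤ 1 := by
    rw [div_le_one (by positivity)]
    linarith
  have h1 := Real.abs_exp_sub_one_le (h.trans h0)
  rw [Real.exp_log hx] at h1
  have h2 : |x - 1| * T ≤ 1 := by
    have : |x - 1| ≤ 1 / T := h1.trans (by
      have : 1 / T = 2 * (1 / (2 * T)) := by field_simp
      linarith)
    rwa [le_div_iff₀ T0] at this
  have h3 : |x - 1| ≤ 1 := by nlinarith [abs_nonneg (x - 1)]
  have h4 : T ^ 2 * (1 - x) ^ 2 ≤ 1 := by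
    have := pow_le_one₀ (n := 2) (by positivity) h2
    rw [mul_pow, sq_abs] at this
    nlinarith
  have k0 := kap_pos
  rw [Vt, Real.exp_le_exp]
  have h5 := mul_le_mul_of_nonneg_left h4 (sq_nonneg kap)
  nlinarith [abs_le.1 h3]

theorem Vt_le (T x : ℝ) : Vt T x ≤ Real.exp kap * Real.exp (-(kap * x)) := by
  rw [Vt, ← Real.exp_add, Real.exp_le_exp]
  have : 0 ≤ kap ^ 2 * T ^ 2 * (1 - x) ^ 2 := by positivity
  linarith

theorem summable_VtC {F : O → ℂ} {M : ℝ} (hF : ∀ a, ‖F a‖ ≤ M) (T : ℝ) {A : ℝ} (hA : 0 < A) :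
    Summable fun a => F a * (Vt T (N a / A) : ℂ) := by
  obtain ⟨C, -, h⟩ := sum_exp_le kap_pos
  refine Summable.of_norm_bounded ((h A hA).1.mul_left (M * Real.exp kap)) fun m => ?_
  rw [norm_mul, norm_real, Real.norm_of_nonneg (Vt_pos _ _).le, mul_assoc, mul_div_assoc]
  exact mul_le_mul (hF m) (Vt_le _ _) (Vt_pos _ _).le ((norm_nonneg _).trans (hF m))

theorem summable_Vt {F : O → ℝ} {M : ℝ} (hF : ∀ a, |F a| ≤ M) (T : ℝ) {A : ℝ} (hA : 0 < A) :
    Summable fun a => F a * Vt T (N a / A) := by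
  have := summable_VtC (F := fun a => (F a : ℂ)) (M := M) (fun a => by simpa using hF a) T hA
  exact_mod_cast this

theorem Vt_int {T : ℝ} (hT : 0 < T) (x : ℝ) : (Vt T x : ℂ) = ∫ τ : ℝ,
    ((Real.exp (-(1 / (4 * T ^ 2)) * τ ^ 2) / (2 * T * √π) : ℝ) : ℂ) *
      Complex.exp (kap * (1 + τ * I) * (1 - x)) := by
  have hp := Real.pi_pos
  have T0 : (T : ℂ) ≠ 0 := ofReal_ne_zero.2 hT.ne'
  have e : ∀ τ : ℝ, ((Real.exp (-(1 / (4 * T ^ 2)) * τ ^ 2) / (2 * T * √π) : ℝ) : ℂ) *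
      Complex.exp (kap * (1 + τ * I) * (1 - x)) = (((2 * T * √π)⁻¹ : ℝ) : ℂ) *
        Complex.exp (((-(1 / (4 * T ^ 2)) : ℝ) : ℂ) * τ ^ 2 + (kap * I * (1 - x)) * τ +
          kap * (1 - x)) := fun τ => by
    rw [div_eq_inv_mul, ofReal_mul, ofReal_exp, mul_assoc, ← Complex.exp_add]
    congr 2
    push_cast
    ring
  simp only [e]
  rw [integral_const_mul, integral_cexp_quadratic (by
    rw [ofReal_re]
    exact neg_neg_of_pos (by positivity)), ← mul_assoc, Vt, ofReal_exp]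
  have a : ((π : ℂ) / -((-(1 / (4 * T ^ 2)) : ℝ) : ℂ)) ^ (1 / 2 : ℂ) = ((2 * T * √π : ℝ) : ℂ) := by
    have b : ((π : ℂ) / -((-(1 / (4 * T ^ 2)) : ℝ) : ℂ)) = (((2 * T * √π) ^ 2 : ℝ) : ℂ) := by
      rw [mul_pow, Real.sq_sqrt hp.le]
      push_cast
      field_simp
      norm_num
    rw [b, show (1 / 2 : ℂ) = ((1 / 2 : ℝ) : ℂ) by push_cast; rfl, ← ofReal_cpow (by positivity),
      ← Real.sqrt_eq_rpow, Real.sqrt_sq (by positivity)]
  rw [a, ← ofReal_mul, inv_mul_cancel₀ (by positivity), ofReal_one, one_mul]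
  congr 1
  push_cast
  field_simp
  linear_combination (-(kap : ℂ) ^ 2 * T ^ 2 * (1 - x) ^ 2) * I_sq

theorem thin_wt {T P Q R : ℝ} (hT : 1 ≤ T) (hP : 0 ≤ P) (hQ : 0 ≤ Q) (hR : 0 ≤ R) (τ : ℝ) :
    Real.exp (-(1 / (4 * T ^ 2)) * τ ^ 2) * (P / √(1 + τ ^ 2) + Q + R * (1 + τ ^ 2) ^ 4) ≤
      (P / √T + Q + R * (32 * T ^ 2) ^ 4) * Real.exp (-(1 / (8 * T ^ 2)) * τ ^ 2) +
        P * Real.exp 1 * Real.exp (-(1 / T) * τ ^ 2) := by
  have T0 : 0 < T := by linarith
  have T2 := one_le_pow₀ (n := 2) hT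
  have t0 := sq_nonneg τ
  have e1 : Real.exp (-(1 / (4 * T ^ 2)) * τ ^ 2) = Real.exp (-(1 / (8 * T ^ 2)) * τ ^ 2) *
      Real.exp (-(1 / (8 * T ^ 2)) * τ ^ 2) := by
    rw [← Real.exp_add]
    congr 1
    field_simp
    ring
  have e2 : Real.exp (-(1 / (8 * T ^ 2)) * τ ^ 2) ≤ 1 :=
    Real.exp_le_one_iff.2 (mul_nonpos_of_nonpos_of_nonneg (neg_nonpos.2 (by positivity)) t0)
  have e0 := Real.exp_pos (-(1 / (8 * T ^ 2)) * τ ^ 2)
  have a1 : P / √(1 + τ ^ 2) ≤ P / √T + P * Real.exp 1 * Real.exp (-(1 / T) * τ ^ 2) := by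
    rcases le_total T (τ ^ 2) with h | h
    · refine le_trans ?_ (le_add_of_nonneg_right (by positivity))
      gcongr
      linarith
    · refine le_trans ?_ (le_add_of_nonneg_left (by positivity))
      rw [mul_assoc, ← Real.exp_add]
      refine (div_le_self hP (Real.one_le_sqrt.2 (by linarith))).trans
        (le_mul_of_one_le_right hP (Real.one_le_exp ?_))
      have : τ ^ 2 / T ≤ 1 := (div_le_one T0).2 h
      have e : -(1 / T) * τ ^ 2 = -(τ ^ 2 / T) := by ring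
      linarith
  have a2 : Real.exp (-(1 / (8 * T ^ 2)) * τ ^ 2) * (1 + τ ^ 2) ^ 4 ≤ (32 * T ^ 2) ^ 4 := by
    have b1 : 1 + τ ^ 2 ≤ 32 * T ^ 2 * Real.exp (τ ^ 2 / (32 * T ^ 2)) := by
      have := mul_le_mul_of_nonneg_left (Real.add_one_le_exp (τ ^ 2 / (32 * T ^ 2)))
        (by positivity : 0 ≤ 32 * T ^ 2)
      rw [mul_add, mul_div_cancel₀ _ (by positivity)] at this
      linarith
    have b2 := pow_le_pow_left₀ (by positivity) b1 4
    rw [mul_pow, ← Real.exp_nat_mul] at b2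
    refine (mul_le_mul_of_nonneg_left b2 e0.le).trans_eq ?_
    rw [mul_left_comm, ← Real.exp_add]
    have : -(1 / (8 * T ^ 2)) * τ ^ 2 + ((4 : ℕ) : ℝ) * (τ ^ 2 / (32 * T ^ 2)) = 0 := by
      push_cast
      field_simp
      ring
    rw [this, Real.exp_zero, mul_one]
  rw [e1]
  generalize Real.exp (-(1 / (8 * T ^ 2)) * τ ^ 2) = E at *
  have p1 : 0 ≤ P / √T := by positivity
  have p2 : 0 ≤ P * Real.exp 1 * Real.exp (-(1 / T) * τ ^ 2) := by positivity
  have E2 : E * E ≤ E := mul_le_of_le_one_left e0.le e2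
  calc E * E * (P / √(1 + τ ^ 2) + Q + R * (1 + τ ^ 2) ^ 4)
      ≤ E * E * (P / √T + P * Real.exp 1 * Real.exp (-(1 / T) * τ ^ 2) + Q +
        R * (1 + τ ^ 2) ^ 4) := by gcongr
    _ = E * E * (P / √T + Q) + E * E * (P * Real.exp 1 * Real.exp (-(1 / T) * τ ^ 2)) +
        R * E * (E * (1 + τ ^ 2) ^ 4) := by ring
    _ ≤ E * (P / √T + Q) + 1 * (P * Real.exp 1 * Real.exp (-(1 / T) * τ ^ 2)) +
        R * E * (32 * T ^ 2) ^ 4 := by
        gcongr
        exact E2.trans e2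
    _ = _ := by ring

/-- the thin weight is a superposition of complex Gaussians -/
theorem thin : ∃ C : ℝ, 0 < C ∧ ∀ (F : O → ℂ) (A T M P Q R : ℝ), 0 < A → 1 ≤ T →
    (∀ a, ‖F a‖ ≤ M) → 0 ≤ P → 0 ≤ Q → 0 ≤ R →
    (∀ τ : ℝ, ‖∑' a, F a * Ez (1 + τ * I) A a‖ ≤ P / √(1 + τ ^ 2) + Q + R * (1 + τ ^ 2) ^ 4) →
    ‖∑' a, F a * (Vt T (N a / A) : ℂ)‖ ≤ C * (P / √T + Q + R * T ^ 8) := by
  refine ⟨Real.exp kap * (2 * 32 ^ 4 + Real.exp 1), by positivity,
    fun F A T M P Q R hA hT hF hP hQ hR h => ?_⟩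
  have T0 : 0 < T := by linarith
  have hp := Real.pi_pos
  obtain ⟨γ, hγ⟩ : ∃ γ : ℝ → ℝ, γ = fun τ => Real.exp (-(1 / (4 * T ^ 2)) * τ ^ 2) / (2 * T * √π) :=
    ⟨_, rfl⟩
  have γ0 : ∀ τ, 0 ≤ γ τ := fun τ => by rw [hγ]; positivity
  have γi : Integrable γ := by
    rw [hγ]
    exact (integrable_exp_neg_mul_sq (by positivity)).div_const _
  have γc : Continuous γ := by rw [hγ]; fun_prop
  have ne : ∀ τ : ℝ, ‖Complex.exp (kap * (1 + τ * I))‖ = Real.exp kap := fun τ => by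
    rw [norm_exp, re_ofReal_mul]
    simp
  let Φ : O → ℝ → ℂ := fun a τ =>
    (γ τ : ℂ) * Complex.exp (kap * (1 + τ * I)) * (F a * Ez (1 + τ * I) A a)
  have nΦ : ∀ a τ, ‖Φ a τ‖ = γ τ * (Real.exp kap * (‖F a‖ * Real.exp (-(kap * N a / A)))) :=
    fun a τ => by
      simp only [Φ]
      rw [norm_mul, norm_mul, norm_mul, ne, norm_Ez, norm_real, Real.norm_of_nonneg (γ0 τ),
        mul_assoc]
  have iΦ : ∀ a, Integrable (Φ a) := fun a => by
    refine (γi.mul_const _).mono' (Continuous.aestronglyMeasurable ?_)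
      (Eventually.of_forall fun τ => (nΦ a τ).le)
    simp only [Φ, Ez]
    fun_prop
  have eΦ : ∀ a, F a * (Vt T (N a / A) : ℂ) = ∫ τ, Φ a τ := fun a => by
    rw [Vt_int T0, ← integral_const_mul]
    congr 1
    ext τ
    simp only [Φ, Ez, hγ]
    have : Complex.exp (kap * (1 + τ * I) * (1 - ((N a / A : ℝ) : ℂ))) =
        Complex.exp (kap * (1 + τ * I)) * Complex.exp (-(kap * (1 + τ * I) * N a / A)) := by
      rw [← Complex.exp_add]
      congr 1
      push_cast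
      ring
    rw [this]
    ring
  have sΦ : Summable fun a => ∫ τ, ‖Φ a τ‖ := by
    simp only [nΦ, integral_mul_const]
    obtain ⟨C, -, h⟩ := sum_exp_le kap_pos
    refine Summable.mul_left _ (Summable.mul_left _ ?_)
    exact ((h A hA).1.mul_left M).of_nonneg_of_le (fun a => by positivity) fun a =>
      mul_le_mul_of_nonneg_right (hF a) (Real.exp_pos _).le
  have i1 := integrable_exp_neg_mul_sq (b := 1 / (8 * T ^ 2)) (by positivity)
  have i2 := integrable_exp_neg_mul_sq (b := 1 / T) (by positivity)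
  rw [tsum_congr eΦ, (hasSum_integral_of_summable_integral_norm iΦ sΦ).tsum_eq]
  refine (norm_integral_le_of_norm_le (((i1.const_mul (P / √T + Q + R * (32 * T ^ 2) ^ 4)).add
    (i2.const_mul (P * Real.exp 1))).const_mul (Real.exp kap / (2 * T * √π)))
    (Eventually.of_forall fun τ => ?_)).trans ?_
  · simp only [Φ]
    rw [tsum_mul_left, norm_mul, norm_mul, ne, norm_real, Real.norm_of_nonneg (γ0 τ), hγ]
    calc _ ≤ Real.exp (-(1 / (4 * T ^ 2)) * τ ^ 2) / (2 * T * √π) * Real.exp kap *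
          (P / √(1 + τ ^ 2) + Q + R * (1 + τ ^ 2) ^ 4) := by
          gcongr
          exact h τ
      _ = Real.exp kap / (2 * T * √π) * (Real.exp (-(1 / (4 * T ^ 2)) * τ ^ 2) *
          (P / √(1 + τ ^ 2) + Q + R * (1 + τ ^ 2) ^ 4)) := by ring
      _ ≤ _ := mul_le_mul_of_nonneg_left (thin_wt hT hP hQ hR τ) (by positivity)
  · simp only [Pi.add_apply]
    rw [integral_const_mul, integral_add (i1.const_mul _) (i2.const_mul _), integral_const_mul,
      integral_const_mul, integral_gaussian, integral_gaussian]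
    have s1 : √(π / (1 / (8 * T ^ 2))) ≤ 2 * (2 * T * √π) := by
      rw [Real.sqrt_le_left (by positivity), mul_pow, mul_pow, Real.sq_sqrt hp.le,
        div_div_eq_mul_div, div_one]
      nlinarith [mul_pos hp (pow_pos T0 2)]
    have s2 : √(π / (1 / T)) ≤ (2 * T * √π) / √T := by
      rw [Real.sqrt_le_left (by positivity), div_pow, mul_pow, Real.sq_sqrt hp.le,
        Real.sq_sqrt T0.le, div_div_eq_mul_div, div_one, le_div_iff₀ T0]
      nlinarith [mul_pos hp (pow_pos T0 2)]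
    have p1 : 0 ≤ P / √T := by positivity
    have p2 : 0 ≤ R * T ^ 8 := by positivity
    have p3 := Real.exp_pos 1
    calc _ ≤ Real.exp kap / (2 * T * √π) * ((P / √T + Q + R * (32 * T ^ 2) ^ 4) *
          (2 * (2 * T * √π)) + P * Real.exp 1 * ((2 * T * √π) / √T)) := by gcongr
      _ = Real.exp kap * (2 * (P / √T + Q + 32 ^ 4 * (R * T ^ 8)) + Real.exp 1 * (P / √T)) := by
          field_simp
      _ ≤ _ := by
          rw [mul_assoc]
          refine mul_le_mul_of_nonneg_left ?_ (Real.exp_pos _).le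
          nlinarith [mul_nonneg p3.le hQ, mul_nonneg p3.le p2]

end

end Vale.Agent.P006
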