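import Vale.Agent.P006.S2Off
import Vale.Agent.P006.S2Tp
import Vale.Agent.P006.S2Sv

namespace Vale.Agent.P006

open Vale.Agent.P026 Complex MeasureTheory Filter Topology
open scoped Classical ComplexConjugate Real MatrixGroups

noncomputable section

namespace Qb

lemma gw0 (K B : ℝ) (b : O) : 0 ≤ gw K B b := (Real.exp_pos _).le

lemma gw1 (K B : ℝ) (b : O) : gw K B b ≤ 1 :=
  Real.exp_le_one_iff.2 (neg_nonpos.2 (by positivity))

lemma RR_le (K B y1 y2 : ℝ) (a : O) :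
    ‖RR K B y1 y2 a‖ ^ 2 ≤ bb1 K B y1 y2 + (Of K B y1 y2 a).re := by
  set x : O → ℂ := fun b => G b * (gw K B b : ℂ) * conj (sym3 a b) with hx
  have e : ((‖RR K B y1 y2 a‖ ^ 2 : ℝ) : ℂ) =
      ((∑ b ∈ PI y1 y2, ‖x b‖ ^ 2 : ℝ) : ℂ) + Of K B y1 y2 a := by
    push_cast
    rw [← Complex.mul_conj', RR, Of, map_sum, Finset.mul_sum, ← Finset.sum_add_distrib]
    refine Finset.sum_congr rfl fun b hb => ?_
    rw [Finset.sum_mul, ← Finset.add_sum_erase _ _ hb, ← Complex.mul_conj']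
    congr 1
    refine Finset.sum_congr rfl fun _ _ => ?_
    simp only [map_mul, Complex.conj_ofReal, Complex.conj_conj]
    ring
  have := congrArg Complex.re e
  rw [add_re, ofReal_re, ofReal_re] at this
  rw [this, bb1]
  gcongr with b
  have h1 : ‖x b‖ ≤ gw K B b := by
    rw [hx]
    simp only [norm_mul, Complex.norm_conj, Complex.norm_real, Real.norm_of_nonneg (gw0 K B b)]
    have := gw0 K B b
    calc _ ≤ 1 * gw K B b * 1 := by gcongr; exacts [norm_G_le _, norm_sym3_le _ _]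
      _ = _ := by ring
  nlinarith [gw1 K B b, norm_nonneg (x b)]

lemma Of_bd (K B y1 y2 : ℝ) : ∃ M, ∀ a, ‖Of K B y1 y2 a‖ ≤ M := by
  refine ⟨∑ b2 ∈ PI y1 y2, ∑ b1 ∈ (PI y1 y2).erase b2, ‖(gw K B b1 : ℂ) * (gw K B b2 : ℂ) *
    (G b1 * conj (G b2))‖, fun a => (norm_sum_le _ _).trans (Finset.sum_le_sum fun _ _ =>
      (norm_sum_le _ _).trans (Finset.sum_le_sum fun _ _ => ?_))⟩
  rw [norm_mul]
  refine mul_le_of_le_one_right (norm_nonneg _) ?_
  rw [norm_mul, Complex.norm_conj]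
  exact mul_le_one₀ (norm_sym3_le _ _) (norm_nonneg _) (norm_sym3_le _ _)

lemma win : ∃ δ : ℝ, 0 < δ ∧ ∀ C0 : ℝ, ∃ C : ℝ, 0 < C ∧
    ∀ (Y U D T K A B y1 y2 : ℝ) (ρ : O → ℝ) (S : Finset O), Sieve D C0 ρ → 2 ≤ D → D ≤ U →
    U ^ 4 ≤ Y → 1 ≤ T → 1 ≤ K → Y / U ≤ y1 → y2 ≤ Y * U → Y / U ≤ B → B ≤ Y * U → Y ^ 2 / U ≤ A →
    A ≤ Y ^ 2 * U → (∀ a ∈ S, nu D ρ a = 1) →
    ∑ a ∈ S, ‖RR K B y1 y2 a‖ ^ 2 * Vt T (N a / A) ≤
      C * (A / √T * bb1 K B y1 y2 + A ^ (2 / 3 : ℝ) / Real.log D * bb3 K B y1 y2 ^ 2 +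
        U ^ 40 * T ^ 8 * Y ^ (2 - δ) * bb1 K B y1 y2) := by
  obtain ⟨δ, hδ, H⟩ := s2_off
  obtain ⟨C3, hC3, H3⟩ := thin
  refine ⟨min δ 1, by positivity, fun C0 => ?_⟩
  obtain ⟨C1, hC1, H1⟩ := H C0
  obtain ⟨C2, hC2, H2⟩ := s2_diag C0
  refine ⟨C3 * (C1 + C2), by positivity, ?_⟩
  intro Y U D T K A B y1 y2 ρ S hs hD hDU hY hT hK hy1 hy2 hB hB' hA hA' hS
  have hU : 1 ≤ U := by linarith
  have hY1 : 1 ≤ Y := (one_le_pow₀ hU).trans hY
  have hUY : U ≤ Y ^ 2 := ((le_self_pow₀ hU (by norm_num)).trans hY).trans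
    (le_self_pow₀ hY1 (by norm_num))
  have hA1 : 1 ≤ A := ((one_le_div (by positivity)).2 hUY).trans hA
  have hA0 : 0 < A := by linarith
  have hl : 0 < Real.log D := Real.log_pos (by linarith)
  have b0 : 0 ≤ bb1 K B y1 y2 := Finset.sum_nonneg fun _ _ => gw0 _ _ _
  obtain ⟨M, hM⟩ := Of_bd K B y1 y2
  set b1 := bb1 K B y1 y2
  set V := U ^ 40 * Y ^ (2 - min δ 1) with hV
  have v1 : U ^ 40 * Y ^ (2 - δ) ≤ V := mul_le_mul_of_nonneg_left
    (Real.rpow_le_rpow_of_exponent_le hY1 (by linarith [min_le_left δ 1])) (by positivity)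
  have v2 : D ^ 8 ≤ V :=
    ((pow_le_pow_left₀ (by linarith) hDU 8).trans (pow_le_pow_right₀ hU (by norm_num))).trans
      (le_mul_of_one_le_right (by positivity) (Real.one_le_rpow hY1 (by linarith [min_le_right δ 1])))
  have v0 : 0 ≤ V := by positivity
  set F : O → ℂ := fun a => (nu D ρ a : ℂ) * (b1 + Of K B y1 y2 a) with hF
  have hFM : ∀ a, ‖F a‖ ≤ (∑ d ∈ ballN (D ^ 2), |ρ d|) * (b1 + M) := fun a => by
    rw [hF, norm_mul, Complex.norm_real, Real.norm_eq_abs]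
    gcongr
    · exact (Finset.abs_sum_le_sum_abs _ _).trans (Finset.sum_le_sum_of_subset_of_nonneg
        (Finset.filter_subset _ _) fun _ _ _ => abs_nonneg _)
    · refine (norm_add_le _ _).trans (add_le_add ?_ (hM a))
      rw [Complex.norm_real, Real.norm_of_nonneg b0]
  have h4 := H3 F A T _ ((C1 + C2) * (A * b1))
    ((C1 + C2) * (A ^ (2 / 3 : ℝ) / Real.log D * bb3 K B y1 y2 ^ 2)) ((C1 + C2) * (V * b1)) hA0 hT
    hFM (by positivity) (by positivity) (by positivity) fun τ => by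
      have a1 := H1 Y U D K A B y1 y2 τ ρ hs hD hDU hY hK hy1 hy2 hB hB' hA hA'
      have a2 := H2 D A τ ρ hs hD hA1
      have s1 := Off.sumN D τ ρ hA0 hM
      have s2 := (Off.sumN D τ ρ hA0 (F := fun _ => 1) (M := 1) fun _ => norm_one.le).mul_left
        (b1 : ℂ)
      simp only [one_mul, ← mul_assoc _ (Of K B y1 y2 _)] at s1 s2
      rw [tsum_congr (g := fun a => b1 * ((nu D ρ a : ℂ) * Ez (1 + τ * I) A a) +
        (nu D ρ a : ℂ) * Of K B y1 y2 a * Ez (1 + τ * I) A a) fun a => by simp only [hF]; ring,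
        s2.tsum_add s1, tsum_mul_left]
      refine (norm_add_le _ _).trans ?_
      rw [norm_mul, Complex.norm_real, Real.norm_of_nonneg b0]
      set W := (1 + τ ^ 2) ^ 4
      set Q := A ^ (2 / 3 : ℝ) / Real.log D * bb3 K B y1 y2 ^ 2
      have : 0 ≤ W := by positivity
      have : 0 ≤ Q := by positivity
      calc _ ≤ b1 * (C2 * (A / √(1 + τ ^ 2) + V * W)) + C1 * (Q + V * b1 * W) := by
            refine add_le_add (mul_le_mul_of_nonneg_left (a2.trans ?_) b0) (a1.trans ?_) <;> gcongr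
        _ ≤ _ + (C1 * (A * b1 / √(1 + τ ^ 2)) + C2 * Q) := le_add_of_nonneg_right (by positivity)
        _ = _ := by ring
  have h5 := summable_VtC hFM T hA0
  have h6 : ∀ a, nu D ρ a * (‖RR K B y1 y2 a‖ ^ 2 * Vt T (N a / A)) ≤
      (F a * (Vt T (N a / A) : ℂ)).re := fun a => by
    rw [hF, re_mul_ofReal, re_ofReal_mul, add_re, ofReal_re, mul_assoc]
    have := hs.1 a
    have := Vt_pos T (N a / A)
    gcongr
    exact RR_le _ _ _ _ _
  calc _ ≤ ∑ a ∈ S, (F a * (Vt T (N a / A) : ℂ)).re := Finset.sum_le_sum fun a ha => by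
        have := h6 a; rwa [hS a ha, one_mul] at this
    _ ≤ ∑' a, (F a * (Vt T (N a / A) : ℂ)).re := (Complex.reCLM.summable h5).sum_le_tsum _
        fun a _ => le_trans (mul_nonneg (hs.1 a) (mul_nonneg (sq_nonneg _) (Vt_pos _ _).le)) (h6 a)
    _ ≤ _ := by
        rw [← Complex.re_tsum h5]
        refine (Complex.re_le_norm _).trans (h4.trans (le_of_eq ?_))
        rw [hV]; generalize U ^ 40 = u; ring

lemma fib (W1 W2 : Finset O) (h : ∀ p ∈ W1 ∪ W2, NN p ∧ Prime p) {g : O → ℝ} (hg : ∀ a, 0 ≤ g a) :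
    ∑ p1 ∈ W1, ∑ p2 ∈ W2, g (p1 * p2) ≤
      2 * ∑ a ∈ (W1 ×ˢ W2).image (fun q => q.1 * q.2), g a := by
  rw [← Finset.sum_product' (f := fun p1 p2 => g (p1 * p2)),
    Finset.sum_comp g (fun q : O × O => q.1 * q.2), Finset.mul_sum]
  refine Finset.sum_le_sum fun a ha => ?_
  obtain ⟨⟨p1, p2⟩, hp, rfl⟩ := Finset.mem_image.1 ha
  rw [nsmul_eq_mul]
  refine mul_le_mul_of_nonneg_right ?_ (hg _)
  have : ((W1 ×ˢ W2).filter fun q : O × O => q.1 * q.2 = p1 * p2) ⊆ {(p1, p2), (p2, p1)} := by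
    rintro ⟨q1, q2⟩ hq
    obtain ⟨h1, h2⟩ := Finset.mem_filter.1 hq
    rw [Finset.mem_product] at hp h1
    obtain ⟨a1, a2⟩ := h p1 (Finset.mem_union_left _ hp.1)
    obtain ⟨a3, a4⟩ := h p2 (Finset.mem_union_right _ hp.2)
    obtain ⟨a5, a6⟩ := h q1 (Finset.mem_union_left _ h1.1)
    simp only at h2
    rw [Finset.mem_insert, Finset.mem_singleton, Prod.mk.injEq, Prod.mk.injEq]
    rcases a6.dvd_or_dvd (show q1 ∣ p1 * p2 from ⟨q2, h2.symm⟩) with h3 | h3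
    · obtain rfl := a5.1.eq_of_associated a1.1 (a6.associated_of_dvd a2 h3)
      exact Or.inl ⟨rfl, mul_left_cancel₀ a6.ne_zero h2⟩
    · obtain rfl := a5.1.eq_of_associated a3.1 (a6.associated_of_dvd a4 h3)
      exact Or.inr ⟨rfl, mul_left_cancel₀ a6.ne_zero (h2.trans (mul_comm _ _))⟩
  exact_mod_cast (Finset.card_le_card this).trans Finset.card_le_two

lemma zsum : Summable fun j : ℤ => Real.exp (-|(j : ℝ)|) :=
  Summable.of_nat_of_neg (by simpa using Real.summable_exp_neg_nat)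
    (by simpa using Real.summable_exp_neg_nat)

end Qb

/-- mean square over products of two primes in a thin window -/
theorem s2_qb : ∃ δ : ℝ, 0 < δ ∧ ∃ C : ℝ, 0 < C ∧
    ∀ (Y U D T K A B y1 y2 : ℝ) (W1 W2 : Finset O), 2 ≤ D → D ≤ U → U ^ 12 ≤ Y → 1 ≤ T → T ≤ K →
    (∀ p ∈ W1 ∪ W2, NN p ∧ Prime p ∧ Y / U ≤ N p ∧ N p ≤ Y * U) →
    Y / U ≤ y1 → y2 ≤ Y * U → Y / U ≤ B → B ≤ Y * U → 0 < A →
    ∑ p1 ∈ W1, ∑ p2 ∈ W2, gw K A (p1 * p2) * ‖RR K B y1 y2 (p1 * p2)‖ ^ 2 ≤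
      C * (A / √T * bb1 K B y1 y2 + A ^ (2 / 3 : ℝ) / Real.log D * bb3 K B y1 y2 ^ 2 +
        U ^ 120 * T ^ 8 * Y ^ (2 - δ) * bb1 K B y1 y2) := by
  obtain ⟨δ, hδ, H⟩ := Qb.win
  obtain ⟨C0, -, H0⟩ := s2_sieve
  obtain ⟨C1, hC1, H1⟩ := H C0
  obtain ⟨c, hc, Hc⟩ := Vt_ge
  set S0 := ∑' j : ℤ, Real.exp (-|(j : ℝ)|)
  have hS0 : 0 ≤ S0 := tsum_nonneg fun _ => (Real.exp_pos _).le
  refine ⟨δ, hδ, 2 * ((S0 + 1) * (Real.exp 3 / c * C1)), by positivity, ?_⟩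
  intro Y U D T K A B y1 y2 W1 W2 hD hDU hY hT hTK hW hy1 hy2 hB hB' hA
  obtain ⟨ρ, hs⟩ := H0 D hD
  have hU : 1 ≤ U := by linarith
  have hY1 : 1 ≤ Y := (one_le_pow₀ hU).trans hY
  have hU3 : U ≤ U ^ 3 := le_self_pow₀ hU (by norm_num)
  have hl : 0 < Real.log D := Real.log_pos (by linarith)
  have b0 : 0 ≤ bb1 K B y1 y2 := Finset.sum_nonneg fun _ _ => Qb.gw0 _ _ _
  have q1 : Y / U ^ 3 ≤ Y / U := by gcongr
  have q2 : Y * U ≤ Y * U ^ 3 := by gcongr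
  have q3 : D < Y / U := by
    rw [lt_div_iff₀ (by positivity)]
    calc D * U < U * U * U := by nlinarith
      _ = U ^ 3 := by ring
      _ ≤ _ := (pow_le_pow_right₀ hU (by norm_num)).trans hY
  refine (Qb.fib W1 W2 (fun p hp => ⟨(hW p hp).1, (hW p hp).2.1⟩)
    (g := fun a => gw K A a * ‖RR K B y1 y2 a‖ ^ 2)
    fun a => mul_nonneg (Qb.gw0 _ _ _) (sq_nonneg _)).trans ?_
  set S := (W1 ×ˢ W2).image (fun q => q.1 * q.2)
  have hS : ∀ a ∈ S, nu D ρ a = 1 ∧ Y ^ 2 / U ^ 2 ≤ N a ∧ N a ≤ Y ^ 2 * U ^ 2 := fun a ha => by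
    obtain ⟨⟨p1, p2⟩, hp, rfl⟩ := Finset.mem_image.1 ha
    rw [Finset.mem_product] at hp
    obtain ⟨a1, a2, a3, a4⟩ := hW p1 (Finset.mem_union_left _ hp.1)
    obtain ⟨a5, a6, a7, a8⟩ := hW p2 (Finset.mem_union_right _ hp.2)
    refine ⟨hs.2.1 _ fun p h1 h2 h3 => ?_, ?_, ?_⟩
    · rcases h2.dvd_or_dvd h3 with h | h
      · rw [h1.1.eq_of_associated a1.1 (h2.associated_of_dvd a2 h)]; linarith
      · rw [h1.1.eq_of_associated a5.1 (h2.associated_of_dvd a6 h)]; linarith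
    · rw [N_mul, ← div_pow, sq]; exact mul_le_mul a3 a7 (by positivity) (N_nonneg _)
    · rw [N_mul, ← mul_pow, sq]; exact mul_le_mul a4 a8 (N_nonneg _) (by positivity)
  set jj : O → ℤ := fun a => round (T * Real.log (N a / A)) with hjj
  set E := A / √T * bb1 K B y1 y2 + A ^ (2 / 3 : ℝ) / Real.log D * bb3 K B y1 y2 ^ 2 +
    U ^ 120 * T ^ 8 * Y ^ (2 - δ) * bb1 K B y1 y2 with hE
  have E0 : 0 ≤ E := by positivity
  rw [← Finset.sum_fiberwise_of_maps_to (g := jj) (t := S.image jj)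
    (fun a ha => Finset.mem_image_of_mem _ ha), mul_assoc 2, mul_assoc]
  refine mul_le_mul_of_nonneg_left ((Finset.sum_le_sum (g := fun j : ℤ => Real.exp (-|(j : ℝ)|) *
    (Real.exp 3 / c * C1 * E)) fun j hj => ?_).trans ?_) zero_le_two
  swap
  · rw [← Finset.sum_mul]
    gcongr
    linarith [Qb.zsum.sum_le_tsum (S.image jj) fun _ _ => (Real.exp_pos _).le]
  set A' := A * Real.exp (j / T) with hA'
  have A0 : 0 < A' := by positivity
  have key : ∀ a ∈ S.filter (fun a => jj a = j), |Real.log (N a / A')| ≤ 1 / (2 * T) ∧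
      gw K A a ≤ Real.exp (3 - 2 * |(j : ℝ)|) ∧ 0 < N a := fun a ha => by
    obtain ⟨h1, h2⟩ := Finset.mem_filter.1 ha
    have n0 : 0 < N a := lt_of_lt_of_le (by positivity) (hS a h1).2.1
    have h3 := abs_sub_round (T * Real.log (N a / A))
    rw [show round (T * Real.log (N a / A)) = j from h2] at h3
    set L := Real.log (N a / A) with hL
    refine ⟨?_, Real.exp_le_exp.2 ?_, n0⟩
    · rw [hA', ← div_div, Real.log_div (by positivity) (by positivity), Real.log_exp, ← hL,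
        show L - j / T = (T * L - j) / T by field_simp, abs_div, abs_of_pos (by positivity : 0 < T),
        ← div_div]
      gcongr
    · rw [← hL]
      have h4 : (T * L) ^ 2 ≤ K ^ 2 * L ^ 2 := by rw [mul_pow]; gcongr
      have h5 : |(j : ℝ)| ≤ |T * L| + 1 / 2 := by
        have := abs_sub_abs_le_abs_sub (j : ℝ) (T * L)
        rw [abs_sub_comm] at this; linarith
      nlinarith [sq_abs (T * L), sq_nonneg (|T * L| - 1)]
  obtain ⟨a0, ha0, rfl⟩ := Finset.mem_image.1 hj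
  obtain ⟨k1, -, k2⟩ := key a0 (Finset.mem_filter.2 ⟨ha0, rfl⟩)
  have k3 : 1 / (2 * T) ≤ Real.log U := by
    have : 1 / (2 * T) ≤ 1 / (2 * 1) := by gcongr
    linarith [Real.log_two_gt_d9, Real.log_le_log two_pos (hD.trans hDU)]
  obtain ⟨k4, k5⟩ := abs_le.1 (k1.trans k3)
  rw [Real.log_le_log_iff (by positivity) (by positivity), div_le_iff₀ A0] at k5
  rw [← Real.log_inv, Real.log_le_log_iff (by positivity) (by positivity), le_div_iff₀ A0,
    inv_mul_le_iff₀ (by positivity)] at k4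
  have h7 := H1 Y (U ^ 3) D T K A' B y1 y2 ρ (S.filter (fun a => jj a = jj a0)) hs hD
    (hDU.trans hU3) (by rw [← pow_mul]; exact hY) hT (hT.trans hTK) (q1.trans hy1) (hy2.trans q2)
    (q1.trans hB) (hB'.trans q2)
    (by have := (hS a0 ha0).2.1.trans k5
        rw [div_le_iff₀ (by positivity)] at this ⊢; linarith [pow_succ U 2, mul_assoc A' (U ^ 2) U])
    (k4.trans ((mul_le_mul_of_nonneg_left (hS a0 ha0).2.2 (by positivity)).trans_eq (by ring)))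
    fun a ha => (hS a (Finset.mem_filter.1 ha).1).1
  rw [← pow_mul] at h7
  set j := jj a0
  set e := Real.exp |(j : ℝ)| with he
  have e1 : 1 ≤ e := Real.one_le_exp (abs_nonneg _)
  have e2 : A' ≤ A * e := by
    rw [hA', he]; gcongr
    calc _ ≤ |(j : ℝ)| / T := by gcongr; exact le_abs_self _
      _ ≤ _ := div_le_self (abs_nonneg _) hT
  have e3 : A' ^ (2 / 3 : ℝ) ≤ A ^ (2 / 3 : ℝ) * e := by
    refine (Real.rpow_le_rpow A0.le e2 (by norm_num)).trans ?_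
    rw [Real.mul_rpow hA.le (by positivity)]
    gcongr
    exact Real.rpow_le_self_of_one_le e1 (by norm_num)
  have h8 : C1 * (A' / √T * bb1 K B y1 y2 + A' ^ (2 / 3 : ℝ) / Real.log D * bb3 K B y1 y2 ^ 2 +
      U ^ (3 * 40) * T ^ 8 * Y ^ (2 - δ) * bb1 K B y1 y2) ≤ C1 * (e * E) := by
    have u0 : 0 ≤ U ^ 120 * T ^ 8 * Y ^ (2 - δ) * bb1 K B y1 y2 := by positivity
    rw [hE]
    change C1 * (_ + _ + U ^ 120 * T ^ 8 * Y ^ (2 - δ) * bb1 K B y1 y2) ≤ _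
    generalize U ^ 120 * T ^ 8 * Y ^ (2 - δ) * bb1 K B y1 y2 = u at u0
    calc _ ≤ C1 * (A * e / √T * bb1 K B y1 y2 +
        A ^ (2 / 3 : ℝ) * e / Real.log D * bb3 K B y1 y2 ^ 2 + e * u) := by
          gcongr; exact le_mul_of_one_le_left u0 e1
      _ = _ := by ring
  calc _ ≤ ∑ a ∈ S.filter (fun a => jj a = j), Real.exp (3 - 2 * |(j : ℝ)|) / c *
        (‖RR K B y1 y2 a‖ ^ 2 * Vt T (N a / A')) := Finset.sum_le_sum fun a ha => by
        obtain ⟨m1, m2, m3⟩ := key a ha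
        have := Hc T _ hT (by positivity) m1
        calc _ ≤ Real.exp (3 - 2 * |(j : ℝ)|) / c * (‖RR K B y1 y2 a‖ ^ 2 * c) := by
              rw [mul_comm _ c, ← mul_assoc, div_mul_cancel₀ _ hc.ne']; gcongr
          _ ≤ _ := by gcongr
    _ ≤ Real.exp (3 - 2 * |(j : ℝ)|) / c * (C1 * (e * E)) := by
        rw [← Finset.mul_sum]; gcongr; exact h7.trans h8
    _ = Real.exp (3 - 2 * |(j : ℝ)|) * e * (1 / c * C1 * E) := by ring
    _ = _ := by
        rw [he, ← Real.exp_add, show 3 - 2 * |(j : ℝ)| + |(j : ℝ)| = -|(j : ℝ)| + 3 by ring,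
          Real.exp_add]; ring

end

end Vale.Agent.P006
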