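import Vale.Agent.P006.LC
import Vale.Agent.P006.Sep

namespace Vale.Agent.P006

open Vale.Agent.P026 Complex MeasureTheory Filter Topology
open scoped Classical ComplexConjugate Real MatrixGroups

noncomputable section

def sqV (K a t : ℝ) : ℝ := Real.exp (a * t - K ^ 2 * t ^ 2)
def sqG (K t : ℝ) : ℝ := (1 + 2 * K ^ 2 * |t|) * Real.exp (-(K ^ 2 / 2) * t ^ 2)

theorem sq_WK (K a x : ℝ) : WK K a x = (sqV K a (Real.log x) : ℂ) := by
  unfold WK sqV; push_cast; rfl

theorem sq_deriv (K a t : ℝ) : HasDerivAt (sqV K a) (-((2 * K ^ 2 * t - a) * sqV K a t)) t := by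
  have h := (((hasDerivAt_id t).const_mul a).sub
    (((hasDerivAt_id t).pow 2).const_mul (K ^ 2))).exp
  refine HasDerivAt.congr_deriv (f := sqV K a) h ?_
  simp only [sqV, id, Pi.pow_apply, Pi.sub_apply]
  push_cast
  ring

theorem sqG_int {K : ℝ} (hK : 1 ≤ K) : Integrable (sqG K) := by
  have hb : 0 < K ^ 2 / 2 := by positivity
  have h1 := integrable_exp_neg_mul_sq hb
  have h2 := ((integrable_mul_exp_neg_mul_sq hb).abs).const_mul (2 * K ^ 2)
  refine (h1.add h2).congr (.of_forall fun t => ?_)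
  simp only [sqG, Pi.add_apply, abs_mul, Real.abs_exp]
  ring

theorem sqG_le : ∃ C : ℝ, 0 < C ∧ ∀ K : ℝ, 1 ≤ K → ∫ t, sqG K t ≤ C := by
  have hb : (0 : ℝ) < 1 / 2 := by norm_num
  refine ⟨(∫ t : ℝ, Real.exp (-(1 / 2) * t ^ 2)) +
    2 * (∫ t : ℝ, |t| * Real.exp (-(1 / 2) * t ^ 2)) + 1, by positivity, fun K hK => ?_⟩
  have K0 : 0 < K := by linarith
  have hb' : 0 < K ^ 2 / 2 := by positivity
  have h1 := integrable_exp_neg_mul_sq hb'
  have h2 := ((integrable_mul_exp_neg_mul_sq hb').abs).const_mul (2 * K ^ 2)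
  have e1 : ∫ t, sqG K t = (∫ t : ℝ, Real.exp (-(K ^ 2 / 2) * t ^ 2)) +
      ∫ t : ℝ, 2 * K ^ 2 * |t * Real.exp (-(K ^ 2 / 2) * t ^ 2)| := by
    rw [← integral_add h1 h2]
    refine integral_congr_ae (.of_forall fun t => ?_)
    simp only [sqG, abs_mul, Real.abs_exp]
    ring
  have e2 := Measure.integral_comp_mul_left (fun t : ℝ => |t| * Real.exp (-(1 / 2) * t ^ 2)) K
  have e3 : ∫ t : ℝ, 2 * K ^ 2 * |t * Real.exp (-(K ^ 2 / 2) * t ^ 2)| =
      2 * K * ∫ t : ℝ, |K * t| * Real.exp (-(1 / 2) * (K * t) ^ 2) := by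
    rw [← integral_const_mul]
    refine integral_congr_ae (.of_forall fun t => ?_)
    simp only [abs_mul, Real.abs_exp, abs_of_pos K0]
    rw [show -(1 / 2) * (K * t) ^ 2 = -(K ^ 2 / 2) * t ^ 2 by ring]
    ring
  have e4 : ∫ t : ℝ, Real.exp (-(K ^ 2 / 2) * t ^ 2) ≤ ∫ t : ℝ, Real.exp (-(1 / 2) * t ^ 2) := by
    refine integral_mono h1 (integrable_exp_neg_mul_sq hb) fun t => Real.exp_le_exp.2 ?_
    have := one_le_pow₀ (n := 2) hK
    nlinarith [sq_nonneg t]
  rw [e1, e3, e2, abs_of_pos (inv_pos.2 K0), smul_eq_mul, mul_assoc 2 K, ← mul_assoc K,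
    mul_inv_cancel₀ K0.ne', one_mul]
  linarith

theorem sq_pt {K a b t : ℝ} (hK : 1 ≤ K) (ha : |a| ≤ 1) (hb : 0 ≤ b) :
    (1 + 2 * K ^ 2 * |t|) * sqV K a t * Real.exp (b * |t|) ≤
      Real.exp ((1 + b) ^ 2 / 2) * sqG K t := by
  unfold sqV sqG
  rw [mul_assoc, ← Real.exp_add, mul_left_comm, ← Real.exp_add]
  refine mul_le_mul_of_nonneg_left (Real.exp_le_exp.2 ?_) (by positivity)
  have h1 : a * t ≤ |t| := (le_abs_self _).trans (by
    rw [abs_mul]; exact mul_le_of_le_one_left (abs_nonneg _) ha)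
  have h2 := one_le_pow₀ (n := 2) hK
  have h3 := sq_abs t
  nlinarith [sq_nonneg (1 + b - |t|), sq_nonneg t]

theorem sq_abs_le {K a t : ℝ} (ha : |a| ≤ 1) : |2 * K ^ 2 * t - a| ≤ 1 + 2 * K ^ 2 * |t| := by
  refine (abs_sub _ _).trans ?_
  rw [abs_mul, abs_of_nonneg (by positivity : 0 ≤ 2 * K ^ 2)]
  linarith

theorem sq_dv {K a b t : ℝ} (hK : 1 ≤ K) (ha : |a| ≤ 1) (hb : 0 ≤ b) :
    |(2 * K ^ 2 * t - a) * sqV K a t| * Real.exp (b * |t|) ≤
      Real.exp ((1 + b) ^ 2 / 2) * sqG K t := by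
  refine le_trans ?_ (sq_pt hK ha hb)
  rw [abs_mul, abs_of_pos (a := sqV K a t) (Real.exp_pos _)]
  have : 0 ≤ sqV K a t := (Real.exp_pos _).le
  gcongr
  exact sq_abs_le ha

theorem sq_cont (K a : ℝ) : Continuous (sqV K a) := by unfold sqV; fun_prop

theorem sq_int {K a : ℝ} (hK : 1 ≤ K) (ha : |a| ≤ 1) {φ : ℝ → ℝ} (hφ : Continuous φ) {b : ℝ}
    (hb : 0 ≤ b) (h : ∀ t, |φ t| ≤ (1 + 2 * K ^ 2 * |t|) * Real.exp (b * |t|)) :
    Integrable fun t => φ t * sqV K a t := by
  refine ((sqG_int hK).const_mul (Real.exp ((1 + b) ^ 2 / 2))).mono'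
    (hφ.mul (sq_cont K a)).aestronglyMeasurable (.of_forall fun t => ?_)
  refine le_trans ?_ (sq_pt hK ha hb)
  have : 0 ≤ sqV K a t := (Real.exp_pos _).le
  rw [Real.norm_eq_abs, abs_mul, abs_of_nonneg this, mul_right_comm]
  gcongr
  exact h t

theorem sq_int1 {K a : ℝ} (hK : 1 ≤ K) (ha : |a| ≤ 1) :
    Integrable fun t => (2 * K ^ 2 * t - a) * sqV K a t :=
  sq_int hK ha (by fun_prop) le_rfl fun t => by simpa using sq_abs_le ha

theorem sq_tail {K a : ℝ} (hK : 1 ≤ K) (ha : |a| ≤ 1) (s : ℝ) :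
    ∫ t in Set.Ioi s, (2 * K ^ 2 * t - a) * sqV K a t = sqV K a s := by
  have hV : Integrable (sqV K a) := by
    have := sq_int hK ha (φ := fun _ => 1) continuous_const le_rfl fun t => by
      simp only [abs_one, zero_mul, Real.exp_zero, mul_one]
      exact le_add_of_nonneg_right (by positivity)
    simpa using this
  have h1 := integral_Ioi_of_hasDerivAt_of_tendsto' (f := sqV K a) (a := s) (m := 0)
    (fun t _ => sq_deriv K a t) (sq_int1 hK ha).neg.integrableOn
    (tendsto_zero_of_hasDerivAt_of_integrableOn_Ioi (a := s) (fun t _ => sq_deriv K a t)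
      (sq_int1 hK ha).neg.integrableOn hV.integrableOn)
  rw [integral_neg] at h1
  linarith

theorem sq_main {K a : ℝ} (hK : 1 ≤ K) (ha : |a| ≤ 1) :
    Integrable (fun t => (2 * K ^ 2 * t - a) * sqV K a t * Real.exp t) ∧
    ∫ t, (2 * K ^ 2 * t - a) * sqV K a t * Real.exp t = Fh K (1 + a) := by
  have K0 : 0 < K := by linarith
  have ex : ∀ t, Real.exp t ≤ Real.exp (1 * |t|) := fun t => by
    rw [one_mul]; exact Real.exp_le_exp.2 (le_abs_self t)
  have i1 : Integrable (fun t => (2 * K ^ 2 * t - a) * sqV K a t * Real.exp t) := by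
    have := sq_int hK ha (φ := fun t => (2 * K ^ 2 * t - a) * Real.exp t) (by fun_prop) zero_le_one
      fun t => by
        rw [abs_mul, Real.abs_exp]
        exact mul_le_mul (sq_abs_le ha) (ex t) (by positivity) (by positivity)
    exact this.congr (.of_forall fun t => by ring)
  have i2 : Integrable (fun t => sqV K a t * Real.exp t) := by
    have := sq_int hK ha (φ := fun t => Real.exp t) (by fun_prop) zero_le_one fun t => by
      rw [Real.abs_exp]
      exact (ex t).trans (le_mul_of_one_le_left (by positivity)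
        (le_add_of_nonneg_right (by positivity)))
    exact this.congr (.of_forall fun t => by ring)
  refine ⟨i1, ?_⟩
  have h0 := integral_eq_zero_of_hasDerivAt_of_integrable
    (f := fun t => sqV K a t * Real.exp t)
    (f' := fun t => sqV K a t * Real.exp t - (2 * K ^ 2 * t - a) * sqV K a t * Real.exp t)
    (fun t => ((sq_deriv K a t).mul (Real.hasDerivAt_exp t)).congr_deriv (by ring))
    (i2.sub i1) i2
  rw [integral_sub i2 i1, sub_eq_zero] at h0
  rw [← h0]
  have e : ∀ t, sqV K a t * Real.exp t = Real.exp ((1 + a) ^ 2 / (4 * K ^ 2)) *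
      Real.exp (-K ^ 2 * (t - (1 + a) / (2 * K ^ 2)) ^ 2) := fun t => by
    rw [sqV, ← Real.exp_add, ← Real.exp_add]
    congr 1
    field_simp
    ring
  simp only [e]
  rw [integral_const_mul, integral_sub_right_eq_self (fun t => Real.exp (-K ^ 2 * t ^ 2)),
    integral_gaussian, Fh, Real.sqrt_div Real.pi_pos.le, Real.sqrt_sq K0.le, mul_comm]

theorem sq_gen {ε : ℝ} (hε : 0 < ε) : ∃ C : ℝ, 0 < C ∧ ∀ (c : O → ℂ) (D : ℂ) (E K a y : ℝ),
    (∀ n, ‖c n‖ ≤ 1) → c 0 = 0 → 0 ≤ E →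
    (∀ u : ℝ, 0 ≤ u → ‖∑ m ∈ ballO u, c m - D * u‖ ≤ E * (1 + u) ^ ε * √u) →
    1 ≤ K → |a| ≤ 1 → 0 < y →
    ‖∑' m : O, c m * WK K a (N m / y) - D * ((Fh K (1 + a) * y : ℝ) : ℂ)‖ ≤
      C * E * (1 + y) ^ ε * √y := by
  obtain ⟨C, hC, hG⟩ := sqG_le
  refine ⟨2 ^ ε * Real.exp ((1 + (ε + 1 / 2)) ^ 2 / 2) * C, by positivity,
    fun c D E K a y c1 c0 hE h hK ha hy => ?_⟩
  set dv : ℝ → ℝ := fun t => (2 * K ^ 2 * t - a) * sqV K a t with hdv
  set F : O → ℝ → ℂ := fun m t => (Set.Ici (Real.log (N m / y))).indicator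
    (fun t => c m * (dv t : ℂ)) t with hF
  have i1 : Integrable dv := sq_int1 hK ha
  have iF : ∀ m, Integrable (F m) := fun m =>
    (i1.ofReal.const_mul (c m)).indicator measurableSet_Ici
  have eF : ∀ m, ∫ t, F m t = c m * WK K a (N m / y) := fun m => by
    simp only [hF]
    rw [integral_indicator measurableSet_Ici, integral_Ici_eq_integral_Ioi, integral_const_mul,
      integral_complex_ofReal, sq_tail hK ha, sq_WK]
  have hs := hasSum_integral_of_summable_integral_norm iF (by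
    refine ((summable_N_rpow (s := 2) (by norm_num)).mul_left
      (y ^ 2 * ∫ t, Real.exp ((1 + 2) ^ 2 / 2) * sqG K t)).of_nonneg_of_le
      (fun n => integral_nonneg fun _ => norm_nonneg _) fun n => ?_
    rw [mul_right_comm, ← integral_const_mul]
    refine integral_mono_of_nonneg (.of_forall fun _ => norm_nonneg _)
      (((sqG_int hK).const_mul _).const_mul _) (.of_forall fun t => ?_)
    have g0 : 0 ≤ sqG K t := by unfold sqG; positivity
    have n0 := N_nonneg n
    by_cases hn : n = 0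
    · simp only [hF, hn, c0, zero_mul, Set.indicator_zero, norm_zero]
      rw [← hn]; positivity
    by_cases ht : t ∈ Set.Ici (Real.log (N n / y))
    · have n1 := N_pos hn
      simp only [hF, Set.indicator_of_mem ht, norm_mul, Complex.norm_real, Real.norm_eq_abs]
      have a1 : N n / y ≤ Real.exp |t| := by
        rw [← Real.exp_log (div_pos n1 hy)]
        exact Real.exp_le_exp.2 ((Set.mem_Ici.1 ht).trans (le_abs_self t))
      have a2 : 1 ≤ y ^ 2 * N n ^ (-2 : ℝ) * Real.exp (2 * |t|) := by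
        rw [Real.rpow_neg n0, Real.rpow_two, two_mul, Real.exp_add]
        have a3 := mul_le_mul a1 a1 (by positivity) (by positivity)
        calc (1 : ℝ) = y ^ 2 * (N n ^ 2)⁻¹ * (N n / y * (N n / y)) := by field_simp
          _ ≤ _ := by gcongr
      have a3 := sq_dv (t := t) hK ha (b := 2) (by norm_num)
      calc ‖c n‖ * |dv t| ≤ 1 * |dv t| := by gcongr; exact c1 n
        _ ≤ y ^ 2 * N n ^ (-2 : ℝ) * Real.exp (2 * |t|) * |dv t| := by gcongr
        _ = y ^ 2 * N n ^ (-2 : ℝ) * (|dv t| * Real.exp (2 * |t|)) := by ring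
        _ ≤ _ := by gcongr
    · simp only [hF, Set.indicator_of_notMem ht, norm_zero]
      positivity)
  have e1 : ∀ t, ∑' m, F m t = (dv t : ℂ) * ∑ m ∈ ballO (y * Real.exp t), c m := fun t => by
    have key : ∀ m : O, m ≠ 0 → (t ∈ Set.Ici (Real.log (N m / y)) ↔ N m ≤ y * Real.exp t) :=
      fun m hm => by
        rw [Set.mem_Ici, Real.log_le_iff_le_exp (div_pos (N_pos hm) hy), div_le_iff₀ hy, mul_comm]
    rw [tsum_eq_sum (s := ballO (y * Real.exp t)), Finset.mul_sum]
    · refine Finset.sum_congr rfl fun m hm => ?_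
      rw [mem_ballO] at hm
      simp only [hF]
      rw [Set.indicator_of_mem ((key m hm.1).2 hm.2), mul_comm]
    · intro m hm
      by_cases h0 : m = 0
      · simp [hF, h0, c0]
      · simp only [hF]
        exact Set.indicator_of_notMem (fun h' => hm (mem_ballO.2 ⟨h0, (key m h0).1 h'⟩)) _
  simp only [eF, e1] at hs
  obtain ⟨i2, e2⟩ := sq_main hK ha
  have i3 : Integrable fun t => D * y * ((dv t * Real.exp t : ℝ) : ℂ) := i2.ofReal.const_mul _
  have e3 : D * ((Fh K (1 + a) * y : ℝ) : ℂ) = ∫ t, D * y * ((dv t * Real.exp t : ℝ) : ℂ) := by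
    rw [integral_const_mul, integral_complex_ofReal, e2]
    push_cast; ring
  have bd : ∀ t, ‖(dv t : ℂ) * ∑ m ∈ ballO (y * Real.exp t), c m -
      D * y * ((dv t * Real.exp t : ℝ) : ℂ)‖ ≤ E * (1 + y) ^ ε * √y * 2 ^ ε *
        (Real.exp ((1 + (ε + 1 / 2)) ^ 2 / 2) * sqG K t) := fun t => by
    have a1 := h (y * Real.exp t) (by positivity)
    have a2 : (dv t : ℂ) * ∑ m ∈ ballO (y * Real.exp t), c m -
        D * y * ((dv t * Real.exp t : ℝ) : ℂ) = (dv t : ℂ) *
          (∑ m ∈ ballO (y * Real.exp t), c m - D * ((y * Real.exp t : ℝ) : ℂ)) := by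
      push_cast; ring
    have a3 := sq_dv (t := t) hK ha (b := ε + 1 / 2) (by positivity)
    have a4 : Real.exp t ≤ Real.exp |t| := Real.exp_le_exp.2 (le_abs_self t)
    have a5 : 1 ≤ Real.exp |t| := Real.one_le_exp (abs_nonneg t)
    have a6 : (1 + y * Real.exp t) ^ ε ≤ (1 + y) ^ ε * Real.exp (ε * |t|) := by
      rw [mul_comm ε, Real.exp_mul, ← Real.mul_rpow (by positivity) (by positivity)]
      gcongr
      nlinarith
    have a7 : √(y * Real.exp t) ≤ √y * Real.exp (1 / 2 * |t|) := by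
      rw [mul_comm (1 / 2 : ℝ), Real.exp_mul, ← Real.sqrt_eq_rpow, ← Real.sqrt_mul hy.le]
      gcongr
    have a8 : (1 : ℝ) ≤ 2 ^ ε := Real.one_le_rpow (by norm_num) hε.le
    rw [a2, norm_mul, Complex.norm_real, Real.norm_eq_abs]
    calc _ ≤ |dv t| * (E * ((1 + y) ^ ε * Real.exp (ε * |t|)) *
          (√y * Real.exp (1 / 2 * |t|))) := by
          gcongr
          exact a1.trans (by gcongr)
      _ = E * (1 + y) ^ ε * √y * 1 * (|dv t| * Real.exp ((ε + 1 / 2) * |t|)) := by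
          rw [add_mul, Real.exp_add]; ring
      _ ≤ _ := by gcongr
  have i4 := ((sqG_int hK).const_mul (Real.exp ((1 + (ε + 1 / 2)) ^ 2 / 2))).const_mul
    (E * (1 + y) ^ ε * √y * 2 ^ ε)
  have i5 : Integrable fun t => (dv t : ℂ) * ∑ m ∈ ballO (y * Real.exp t), c m := by
    have m1 : AEStronglyMeasurable (fun t => (dv t : ℂ) * ∑ m ∈ ballO (y * Real.exp t), c m)
        volume := by
      simp only [← e1]
      exact AEStronglyMeasurable.tsum fun m => (iF m).aestronglyMeasurable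
    have := (i4.mono' (m1.sub i3.aestronglyMeasurable) (.of_forall bd)).add i3
    exact this.congr (.of_forall fun t => by simp)
  rw [hs.tsum_eq, e3, ← integral_sub i5 i3]
  refine (norm_integral_le_of_norm_le i4 (.of_forall bd)).trans ?_
  rw [integral_const_mul, integral_const_mul]
  calc _ ≤ E * (1 + y) ^ ε * √y * 2 ^ ε * (Real.exp ((1 + (ε + 1 / 2)) ^ 2 / 2) * C) := by
        gcongr
        exact hG K hK
    _ = _ := by ring

theorem sq_smooth {ε : ℝ} (hε : 0 < ε) : ∃ C : ℝ, 0 < C ∧ ∀ (k M : O) (K a y : ℝ), k ≠ 0 → M ≠ 0 →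
    1 ≤ K → |a| ≤ 1 → 0 < y →
    ‖∑' m : O, (if NN m ∧ IsCoprime m M then sym3 k m * WK K a (N m / y) else 0) -
        (if IsCube k then ((dens (2 * k * M) * Fh K (1 + a) * y : ℝ) : ℂ) else 0)‖ ≤
      C * N k * N M ^ ε * (1 + y) ^ ε * √y := by
  obtain ⟨C1, hC1, h1⟩ := sq_gen hε
  obtain ⟨C2, hC2, h2⟩ := sq_sharp hε
  refine ⟨C1 * C2, by positivity, fun k M K a y hk hM hK ha hy => ?_⟩
  have n1 := N_pos hk
  have n2 := N_pos hM
  have := h1 (fun m => if NN m ∧ IsCoprime m M then sym3 k m else 0)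
    (if IsCube k then (dens (2 * k * M) : ℂ) else 0) (C2 * N k * N M ^ ε) K a y
    (fun n => by split_ifs; exacts [norm_sym3_le _ _, by simp])
    (if_neg fun h => h.1.ne_zero rfl) (by positivity) (fun u hu => by
      have := h2 k M u hk hM hu
      rw [ballN, Finset.filter_filter, Finset.sum_filter] at this
      convert this using 3
      split_ifs <;> simp) hK ha hy
  simp only [ite_mul, zero_mul] at this
  convert this using 3
  · split_ifs
    · push_cast; ring
    · rfl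
  · ring

end

end Vale.Agent.P006
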