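import Vale.Agent.P006.TS

namespace Vale.Agent.P006

open Vale.Agent.P026 Complex MeasureTheory Filter Topology
open scoped Classical ComplexConjugate Real MatrixGroups

noncomputable section


theorem t1b_int {K : ℝ} (hK : 0 < K) (s : ℝ) :
    Integrable (fun v : ℝ => Real.exp (-K ^ 2 * (v - s) ^ 2)) ∧
      ∫ v : ℝ, Real.exp (-K ^ 2 * (v - s) ^ 2) = √π / K := by
  refine ⟨(integrable_exp_neg_mul_sq (pow_pos hK 2)).comp_sub_right s, ?_⟩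
  rw [integral_sub_right_eq_self (fun v : ℝ => Real.exp (-K ^ 2 * v ^ 2)) s, integral_gaussian,
    Real.sqrt_div Real.pi_pos.le, Real.sqrt_sq hK.le]

theorem t1b_erf0 {K s : ℝ} (hK : 0 < K) {T : Set ℝ} (hT : MeasurableSet T)
    (h : ∀ v ∈ T, s * v ≤ 0) :
    ∫ v in T, Real.exp (-K ^ 2 * (v - s) ^ 2) ≤ Real.exp (-K ^ 2 * s ^ 2) * (√π / K) := by
  obtain ⟨i0, e0⟩ := t1b_int hK 0
  calc _ ≤ ∫ v in T, Real.exp (-K ^ 2 * s ^ 2) * Real.exp (-K ^ 2 * (v - 0) ^ 2) := by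
        refine setIntegral_mono_on (t1b_int hK s).1.integrableOn (i0.const_mul _).integrableOn hT
          fun v hv => ?_
        rw [← Real.exp_add]
        refine Real.exp_le_exp.2 ?_
        nlinarith [mul_nonneg (sq_nonneg K) (neg_nonneg.2 (h v hv))]
    _ ≤ ∫ v, Real.exp (-K ^ 2 * s ^ 2) * Real.exp (-K ^ 2 * (v - 0) ^ 2) :=
        setIntegral_le_integral (i0.const_mul _) (Eventually.of_forall fun _ => by positivity)
    _ = _ := by rw [integral_const_mul, e0]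

/-- the smoothed cutoff without its normalising factor -/
def t1bF (K s : ℝ) : ℝ := ∫ v in Set.Iic (0 : ℝ), Real.exp (-K ^ 2 * (v - s) ^ 2)

theorem t1b_erf {K : ℝ} (hK : 0 < K) (s : ℝ) :
    |(if s ≤ 0 then 1 else 0) - K / √π * t1bF K s| ≤ Real.exp (-K ^ 2 * s ^ 2) := by
  have hp : 0 < √π := Real.sqrt_pos.2 Real.pi_pos
  have hc : 0 < K / √π := by positivity
  have e1 : K / √π * (√π / K) = 1 := by field_simp
  have key : ∀ T : Set ℝ, MeasurableSet T → (∀ v ∈ T, s * v ≤ 0) →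
      |K / √π * ∫ v in T, Real.exp (-K ^ 2 * (v - s) ^ 2)| ≤ Real.exp (-K ^ 2 * s ^ 2) := by
    intro T hT h
    rw [abs_of_nonneg (mul_nonneg hc.le (integral_nonneg fun _ => by positivity))]
    refine (mul_le_mul_of_nonneg_left (t1b_erf0 hK hT h) hc.le).trans_eq ?_
    rw [mul_left_comm, e1, mul_one]
  split_ifs with hs
  · obtain ⟨i0, e0⟩ := t1b_int hK s
    have := intervalIntegral.integral_Iic_add_Ioi (b := 0) i0.integrableOn i0.integrableOn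
    rw [e0] at this
    rw [← e1, ← this, t1bF, mul_add, add_sub_cancel_left]
    exact key _ measurableSet_Ioi fun v hv => mul_nonpos_of_nonpos_of_nonneg hs (le_of_lt hv)
  · rw [zero_sub, abs_neg]
    exact key _ measurableSet_Iic fun v hv => mul_nonpos_of_nonneg_of_nonpos (not_le.1 hs).le hv

theorem t1b_dual (S : Finset O) (u : O → O → ℂ) (W : O → ℝ → ℂ) (μ : Measure ℝ) {g : ℝ → ℝ}
    (hg : Integrable g μ) (hg0 : ∀ v, 0 ≤ g v) (hW : ∀ m, Integrable (W m) μ)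
    (hs : ∀ a ∈ S, Summable fun m => ‖u a m‖ * ∫ v, ‖W m v‖ ∂μ)
    (hs' : ∀ a ∈ S, ∀ v, Summable fun m => u a m * W m v)
    (hb : ∀ᵐ v ∂μ, ∑ a ∈ S, ‖∑' m, u a m * W m v‖ ^ 2 ≤ g v ^ 2) :
    ∑ a ∈ S, ‖∑' m, u a m * ∫ v, W m v ∂μ‖ ^ 2 ≤ (∫ v, g v ∂μ) ^ 2 := by
  set s : O → ℂ := fun a => ∑' m, u a m * ∫ v, W m v ∂μ with hsd
  set L : ℝ := ∑ a ∈ S, ‖s a‖ ^ 2 with hL
  have L0 : 0 ≤ L := Finset.sum_nonneg fun _ _ => by positivity
  have s1 : ∀ a ∈ S, Summable fun m => u a m * ∫ v, W m v ∂μ := fun a ha =>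
    Summable.of_norm_bounded (hs a ha) fun m => by
      rw [norm_mul]
      exact mul_le_mul_of_nonneg_left (norm_integral_le_integral_norm _) (norm_nonneg _)
  have e : (L : ℂ) = ∫ v, ∑ a ∈ S, conj (s a) * ∑' m, u a m * W m v ∂μ := by
    have e1 : ∀ v, ∑ a ∈ S, conj (s a) * ∑' m, u a m * W m v =
        ∑' m, (∑ a ∈ S, conj (s a) * u a m) * W m v := fun v => by
      simp_rw [Finset.sum_mul, mul_assoc, ← tsum_mul_left]
      exact (Summable.tsum_finsetSum fun a ha => (hs' a ha v).mul_left _).symm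
    simp_rw [e1]
    rw [← integral_tsum_of_summable_integral_norm (fun m => (hW m).const_mul _)]
    · simp_rw [integral_const_mul, Finset.sum_mul, mul_assoc]
      rw [Summable.tsum_finsetSum fun a ha => (s1 a ha).mul_left _, hL]
      push_cast
      exact Finset.sum_congr rfl fun a _ => by rw [tsum_mul_left, Complex.conj_mul']
    · refine Summable.of_nonneg_of_le (fun m => integral_nonneg fun _ => norm_nonneg _)
        (fun m => ?_) (summable_sum fun a ha => (hs a ha).mul_left ‖s a‖)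
      simp_rw [norm_mul]
      rw [integral_const_mul]
      simp_rw [← mul_assoc]
      rw [← Finset.sum_mul]
      refine mul_le_mul_of_nonneg_right ((norm_sum_le _ _).trans (le_of_eq ?_))
        (integral_nonneg fun _ => norm_nonneg _)
      simp
  have h1 : L ≤ √L * ∫ v, g v ∂μ := by
    have : L = ‖(L : ℂ)‖ := by rw [Complex.norm_real, Real.norm_of_nonneg L0]
    refine this.le.trans ?_
    rw [e, ← integral_const_mul]
    refine norm_integral_le_of_norm_le (hg.const_mul _) (hb.mono fun v hv => ?_)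
    refine (norm_sum_le _ _).trans ((pow_le_pow_iff_left₀
      (Finset.sum_nonneg fun _ _ => norm_nonneg _) (mul_nonneg (Real.sqrt_nonneg _) (hg0 v))
      two_ne_zero).1 ?_)
    simp_rw [norm_mul, Complex.norm_conj]
    refine (Finset.sum_mul_sq_le_sq_mul_sq _ _ _).trans ?_
    rw [mul_pow, Real.sq_sqrt L0]
    exact mul_le_mul_of_nonneg_left hv L0
  have g0 : 0 ≤ ∫ v, g v ∂μ := integral_nonneg hg0
  have q := Real.sq_sqrt L0
  rcases (Real.sqrt_nonneg L).eq_or_lt with h0 | h0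
  · rw [← q, ← h0]; simpa using sq_nonneg _
  · rw [← q]
    refine pow_le_pow_left₀ h0.le (le_of_mul_le_mul_left ?_ h0) 2
    rwa [← sq, q]

theorem t1b_sum {u e : O → ℂ} {B K y : ℝ} (hu : ∀ n, ‖u n‖ ≤ B) (h0 : u 0 = 0) (hK : 1 ≤ K)
    (hy : 0 < y) (he : ∀ n, ‖e n‖ ≤ ‖WK K 0 (N n / y)‖) : Summable fun n => u n * e n :=
  Summable.of_norm_bounded (ms_summ hu h0 hK 0 hy).norm fun n => by
    rw [norm_mul, norm_mul]; exact mul_le_mul_of_nonneg_left (he n) (norm_nonneg _)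

theorem t1b_tail {u e : O → ℂ} {B K y T : ℝ} (hu : ∀ n, ‖u n‖ ≤ B) (hT : 0 ≤ T)
    (h0 : ∀ n, N n ≤ T → u n = 0) (hK : 1 ≤ K) (hy : 0 < y)
    (he : ∀ n, ‖e n‖ ≤ ‖WK K 0 (N n / y)‖) :
    ‖∑' n, u n * e n‖ ≤ B * ∑' n : O, (if T < N n then ‖WK K 0 (N n / y)‖ else 0) := by
  have hB : 0 ≤ B := (norm_nonneg _).trans (hu 0)
  have s : Summable fun n : O => if T < N n then ‖WK K 0 (N n / y)‖ else 0 :=
    (ms_summ (u := fun n => if T < N n then 1 else 0) (B := 1)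
      (fun n => by split_ifs <;> simp) (if_neg (by rw [N_zero]; linarith)) hK 0 hy).norm.congr
      fun n => by split_ifs <;> simp
  refine tsum_of_norm_bounded (s.hasSum.mul_left B) fun n => ?_
  split_ifs with hn
  · rw [norm_mul]; exact mul_le_mul (hu n) (he n) (norm_nonneg _) hB
  · rw [h0 n (not_lt.1 hn)]; simp

theorem t1b_W (K : ℝ) {Y : ℝ} (hY : 0 < Y) {m : O} (hm : m ≠ 0) (v : ℝ) :
    WK K 0 (N m / (Y * Real.exp v)) =
      ((Real.exp (-K ^ 2 * (v - Real.log (N m / Y)) ^ 2) : ℝ) : ℂ) := by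
  have := N_pos hm
  rw [WK, ← div_div, Real.log_div (by positivity) (by positivity), Real.log_exp]
  push_cast
  congr 1; ring

theorem t1b_nW (K x : ℝ) : ‖WK K 0 x‖ = Real.exp (-K ^ 2 * Real.log x ^ 2) := by
  rw [norm_WK]; simp

theorem t1b_mono {A Y Y' K D : ℝ} (hA : 0 ≤ A) (hY : 0 ≤ Y) (h : Y ≤ Y') (hK : 0 ≤ K)
    (hD : 0 ≤ D) : PhiI A Y K D ≤ PhiI A Y' K D := by
  unfold PhiI; gcongr

theorem t1b_card : ∃ C : ℝ, 0 < C ∧ ∀ A : ℝ, 0 ≤ A → ((ballN A).card : ℝ) ≤ C * A := by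
  obtain ⟨C, hC, h⟩ := card_ballO_le
  exact ⟨C, hC, fun A hA => le_trans
    (by exact_mod_cast Finset.card_le_card (Finset.filter_subset _ _)) (h A hA)⟩

theorem t1b_u : ∃ C : ℝ, 0 < C ∧ ∀ (R : ℝ) (a h : O), 1 ≤ R →
    (∀ m, ‖del R (a * m) * conj (sym3 h m)‖ ≤ C * R ^ 3) ∧
      del R (a * 0) * conj (sym3 h 0) = 0 := by
  obtain ⟨C, hC, h⟩ := norm_del_le
  refine ⟨C, hC, fun R a k hR => ⟨fun m => ?_, ?_⟩⟩
  · rw [norm_mul, Complex.norm_conj]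
    exact (mul_le_of_le_one_right (norm_nonneg _) (norm_sym3_le _ _)).trans (h R _ hR)
  · rw [del_eq_zero R (fun h => h.1.ne_zero (mul_zero a)), zero_mul]

/-- Gaussian weight at every scale below `Y` -/
theorem t1b_scale : ∃ c0 : ℝ, 0 < c0 ∧ ∀ ε > (0 : ℝ), ∃ C : ℝ, 0 < C ∧
    ∀ (Z A Y R K D η y : ℝ) (h : O),
    1 ≤ A → A ≤ Z → 1 ≤ Y → Y ≤ Z → 1 ≤ R → R ≤ Z → 1 ≤ K → K ≤ Z → 1 ≤ D → h ≠ 0 → N h ≤ R →
    0 < η → η ≤ 1 → 0 < y → y ≤ Y →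
    ∑ b ∈ ballN A, ‖∑' m : O, del R (b * m) * conj (sym3 h m) * WK K 0 (N m / y)‖ ^ 2 ≤
      C * Z ^ ε * R ^ c0 * PhiI A Y K D * ((2 * y) ^ η) ^ 2 := by
  obtain ⟨c0, hc0, h1⟩ := ts
  obtain ⟨Cb, hCb, hb⟩ := t1b_card
  obtain ⟨Cd, hCd, hd⟩ := t1b_u
  obtain ⟨Ct, hCt, ht⟩ := tail_WK_le (a := 2) le_rfl 0
  refine ⟨c0 + 6, by positivity, fun ε hε => ?_⟩
  obtain ⟨C1, hC1, h1⟩ := h1 ε hε
  refine ⟨C1 + Cb * (Cd * Ct) ^ 2, by positivity,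
    fun Z A Y R K D η y h hA hAZ hY hYZ hR hRZ hK hKZ hD hh hhR hη hη1 hy hyY => ?_⟩
  have P1 := ts_Phi (A := A) (Y := Y) (K := K) (D := D) (by linarith) (by linarith) (by linarith)
    (by linarith)
  have P0 : A ≤ PhiI A Y K D := (le_mul_of_one_le_right (by linarith) hY).trans P1
  have R0 : 0 < R := by linarith
  have Z1 : 1 ≤ Z ^ ε := Real.one_le_rpow (by linarith) hε.le
  rcases le_or_gt (1 / 2) y with h2 | h2
  · have a1 := h1 Z A (max 1 y) R K D h (fun _ => y) hA hAZ (le_max_left _ _)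
      (max_le (by linarith) (by linarith)) hR hRZ hK hKZ hD hh hhR
      (fun _ => ⟨by rcases le_total 1 y with h | h <;> simp [h] <;> linarith, le_max_right _ _⟩)
    have a2 : PhiI A (max 1 y) K D ≤ PhiI A Y K D := t1b_mono (by linarith) (by positivity)
      (max_le hY hyY) (by linarith) (by linarith)
    have a3 : 1 ≤ ((2 * y) ^ η) ^ 2 := one_le_pow₀ (Real.one_le_rpow (by linarith) hη.le)
    have a4 : R ^ c0 ≤ R ^ (c0 + 6) := Real.rpow_le_rpow_of_exponent_le hR (by linarith)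
    refine a1.trans (le_trans ?_ (le_mul_of_one_le_right (by
      have := hA.trans P0; positivity) a3))
    have := (ts_Phi (A := A) (Y := max 1 y) (K := K) (D := D) (by linarith) (by positivity)
      (by linarith) (by linarith))
    have : 0 ≤ PhiI A (max 1 y) K D := le_trans (by positivity) this
    gcongr
    exact le_add_of_nonneg_right (by positivity)
  · have a1 : ∀ b ∈ ballN A, ‖∑' m : O, del R (b * m) * conj (sym3 h m) * WK K 0 (N m / y)‖ ^ 2 ≤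
        (Cd * R ^ 3 * (Ct * (2 * y) ^ η)) ^ 2 := fun b _ => by
      refine pow_le_pow_left₀ (norm_nonneg _) ((t1b_tail (T := 1 / 2) (hd R b h hR).1 (by norm_num)
        (fun n hn => ?_) hK hy fun _ => le_rfl).trans ?_) 2
      · have : n = 0 := by
          by_contra h0
          linarith [one_le_N h0]
        rw [this]; exact (hd R b h hR).2
      · refine mul_le_mul_of_nonneg_left ((ht K y (1 / 2) 0 hK (by simp) hy (by norm_num)).trans ?_)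
          (by positivity)
        have : (y / (1 / 2)) ^ (2 : ℝ) ≤ (2 * y) ^ η := by
          rw [show y / (1 / 2) = 2 * y by ring]
          exact Real.rpow_le_rpow_of_exponent_ge (by linarith) (by linarith) (by linarith)
        have b : 0 ≤ (2 * y) ^ η := by positivity
        nlinarith [mul_le_mul_of_nonneg_left this hCt.le, mul_nonneg hCt.le b]
    refine (Finset.sum_le_card_nsmul _ _ _ a1).trans ?_
    rw [nsmul_eq_mul]
    have a4 : R ^ 6 ≤ R ^ (c0 + 6) := by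
      rw [← Real.rpow_natCast]
      exact Real.rpow_le_rpow_of_exponent_le hR (by push_cast; linarith)
    calc _ ≤ Cb * A * (Cd * R ^ 3 * (Ct * (2 * y) ^ η)) ^ 2 := by
          gcongr; exact hb A (by linarith)
      _ = Cb * (Cd * Ct) ^ 2 * 1 * R ^ 6 * A * ((2 * y) ^ η) ^ 2 := by ring
      _ ≤ _ := by
          gcongr
          exact le_add_of_nonneg_left hC1.le

theorem t1b_E {K Y : ℝ} (hK : 0 < K) (hY : 0 < Y) (m : O) :
    ‖(((if N m ≤ Y then 1 else 0) - K / √π * t1bF K (Real.log (N m / Y)) : ℝ) : ℂ)‖ ≤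
      ‖WK K 0 (N m / Y)‖ := by
  rw [Complex.norm_real, Real.norm_eq_abs, t1b_nW]
  convert t1b_erf hK (Real.log (N m / Y)) using 4
  rw [Real.log_nonpos_iff (div_nonneg (N_nonneg m) hY.le), div_le_one hY]

theorem t1b_fin {u : O → ℂ} (Y : ℝ) (h0 : u 0 = 0) :
    HasSum (fun m => u m * (((if N m ≤ Y then 1 else 0) : ℝ) : ℂ)) (∑ m ∈ ballO Y, u m) := by
  rw [show ∑ m ∈ ballO Y, u m = ∑ m ∈ ballO Y, u m * (((if N m ≤ Y then 1 else 0) : ℝ) : ℂ) from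
    Finset.sum_congr rfl fun m hm => by simp [(mem_ballO.1 hm).2]]
  refine hasSum_sum_of_ne_finset_zero fun m hm => ?_
  by_cases h : m = 0
  · rw [h, h0, zero_mul]
  · rw [if_neg fun h' => hm (mem_ballO.2 ⟨h, h'⟩)]; simp

theorem t1b_sF {u : O → ℂ} {B K Y : ℝ} (hu : ∀ n, ‖u n‖ ≤ B) (h0 : u 0 = 0) (hK : 1 ≤ K)
    (hY : 0 < Y) : Summable fun m => u m * ((t1bF K (Real.log (N m / Y)) : ℝ) : ℂ) := by
  have hp : 0 < √π := Real.sqrt_pos.2 Real.pi_pos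
  have K0 : 0 < K := by linarith
  refine (((t1b_fin Y h0).summable.sub (t1b_sum hu h0 hK hY (t1b_E K0 hY))).mul_left
    ((√π / K : ℝ) : ℂ)).congr fun m => ?_
  rw [← mul_sub, ← Complex.ofReal_sub, sub_sub_cancel, mul_left_comm, ← Complex.ofReal_mul]
  congr 2
  field_simp

/-- the smooth part -/
theorem t1b_smooth : ∃ c0 : ℝ, 0 < c0 ∧ ∀ ε > (0 : ℝ), ∃ C : ℝ, 0 < C ∧
    ∀ (Z A Y R K D : ℝ) (h : O),
    1 ≤ A → A ≤ Z → 1 ≤ Y → Y ≤ Z → 1 ≤ R → R ≤ Z → 1 ≤ K → K ≤ Z → 1 ≤ D → h ≠ 0 → N h ≤ R →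
    ∑ b ∈ ballN A, ‖∑' m : O, del R (b * m) * conj (sym3 h m) *
        ((t1bF K (Real.log (N m / Y)) : ℝ) : ℂ)‖ ^ 2 ≤
      C * Z ^ ε * R ^ c0 * PhiI A Y K D := by
  obtain ⟨c0, hc0, h1⟩ := t1b_scale
  obtain ⟨Cd, hCd, hd⟩ := t1b_u
  refine ⟨c0, hc0, fun ε hε => ?_⟩
  obtain ⟨C, hC, h1⟩ := h1 (ε / 2) (by positivity)
  set η := min (ε / 4) 1 with hη
  have η0 : 0 < η := lt_min (by positivity) one_pos
  refine ⟨C * 4 / η ^ 2, by positivity,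
    fun Z A Y R K D h hA hAZ hY hYZ hR hRZ hK hKZ hD hh hhR => ?_⟩
  have Y0 : 0 < Y := by linarith
  have K0 : 0 < K := by linarith
  have Z0 : 0 < Z := by linarith
  set P := C * Z ^ (ε / 2) * R ^ c0 * PhiI A Y K D with hP
  have P1 : 0 ≤ PhiI A Y K D := le_trans (by positivity) (ts_Phi (A := A) (Y := Y) (K := K)
    (D := D) (by linarith) (by linarith) (by linarith) (by linarith))
  have P0 : 0 ≤ P := by positivity
  have eW : ∀ a v m, del R (a * m) * conj (sym3 h m) *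
      ((Real.exp (-K ^ 2 * (v - Real.log (N m / Y)) ^ 2) : ℝ) : ℂ) =
      del R (a * m) * conj (sym3 h m) * WK K 0 (N m / (Y * Real.exp v)) := fun a v m => by
    by_cases hm : m = 0
    · rw [hm, (hd R a h hR).2, zero_mul, zero_mul]
    · rw [t1b_W K Y0 hm]
  have k := t1b_dual (ballN A) (fun a m => del R (a * m) * conj (sym3 h m))
    (fun m v => ((Real.exp (-K ^ 2 * (v - Real.log (N m / Y)) ^ 2) : ℝ) : ℂ))
    (volume.restrict (Set.Iic 0)) (g := fun v => √P * (2 * Y) ^ η * Real.exp (η * v))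
    ((integrableOn_exp_mul_Iic η0 0).const_mul _) (fun _ => by positivity)
    (fun m => (t1b_int K0 _).1.integrableOn.ofReal) (fun a _ => ?_) (fun a _ v => ?_) ?_
  · simp_rw [integral_complex_ofReal] at k
    refine k.trans ?_
    rw [integral_const_mul, integral_exp_mul_Iic η0, mul_zero, Real.exp_zero, mul_pow, mul_pow,
      Real.sq_sqrt P0, Real.mul_rpow (by norm_num) Y0.le]
    have a1 : (2 : ℝ) ^ η ≤ 2 := (Real.rpow_le_rpow_of_exponent_le (by norm_num)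
      (min_le_right _ _)).trans_eq (Real.rpow_one 2)
    have a2 : Y ^ η ≤ Z ^ (ε / 4) := (Real.rpow_le_rpow Y0.le hYZ η0.le).trans
      (Real.rpow_le_rpow_of_exponent_le (by linarith) (min_le_left _ _))
    have a3 : Z ^ ε = Z ^ (ε / 2) * (Z ^ (ε / 4)) ^ 2 := by
      rw [← Real.rpow_natCast, ← Real.rpow_mul Z0.le, ← Real.rpow_add Z0]
      congr 1; push_cast; ring
    calc _ ≤ P * (2 * Z ^ (ε / 4)) ^ 2 * (1 / η) ^ 2 := by gcongr
      _ = _ := by rw [a3, hP]; field_simp; ring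
  · refine (t1b_sF (hd R a h hR).1 (hd R a h hR).2 hK Y0).norm.congr fun m => ?_
    rw [norm_mul, Complex.norm_real, t1bF, Real.norm_of_nonneg
      (integral_nonneg fun _ => by positivity)]
    simp_rw [Complex.norm_real, Real.norm_eq_abs, Real.abs_exp]
  · simp_rw [eW]
    exact ms_summ (hd R a h hR).1 (hd R a h hR).2 hK 0 (by positivity)
  · refine (ae_restrict_iff' measurableSet_Iic).2 (Eventually.of_forall fun v hv => ?_)
    simp_rw [eW]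
    refine (h1 Z A Y R K D η (Y * Real.exp v) h hA hAZ hY hYZ hR hRZ hK hKZ hD hh hhR η0
      (min_le_right _ _) (by positivity)
      (mul_le_of_le_one_right Y0.le (Real.exp_le_one_iff.2 hv))).trans_eq ?_
    rw [mul_assoc √P, mul_pow √P, Real.sq_sqrt P0, ← mul_assoc 2 Y,
      Real.mul_rpow (by positivity) (by positivity), ← Real.exp_mul, mul_comm v]

/-- the boundary contribution of the model -/
theorem t1b_mdl {ε : ℝ} (hε : 0 < ε) : ∃ C : ℝ, 0 < C ∧ ∀ (A Y R K : ℝ) (h : O) (e : O → ℂ),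
    1 ≤ A → 1 ≤ Y → 1 ≤ R → 1 ≤ K → (∀ n, ‖e n‖ ≤ ‖WK K 0 (N n / Y)‖) →
    ∑ a ∈ ballN A, ‖∑' m : O, mdl R (a * m) * conj (sym3 h m) * e m‖ ^ 2 ≤
      C * Y ^ ε * R ^ 6 * (A * Y + A ^ (2 / 3 : ℝ) * Y ^ (5 / 3 : ℝ) / K) := by
  obtain ⟨Cm, hCm, hm⟩ := norm_mdl_le
  obtain ⟨Ct, hCt, ht⟩ := sum_WK_thin (ε := ε / 2) (by positivity) 1
  obtain ⟨Cs, hCs, hs⟩ := sum_N_rpow_le (a := -(1 / 3)) (by norm_num)
  refine ⟨(Cm * Ct) ^ 2 * Cs * 2, by positivity, fun A Y R K h e hA hY hR hK he => ?_⟩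
  have Y0 : 0 < Y := by linarith
  obtain ⟨t1, t2⟩ := ht K Y ((-(1 / 6) : ℝ) : ℂ) hK hY
    (by rw [Complex.ofReal_re, abs_neg, abs_of_pos] <;> norm_num)
  have a1 : ∀ a ∈ ballN A, ‖∑' m : O, mdl R (a * m) * conj (sym3 h m) * e m‖ ^ 2 ≤
      (Cm * R ^ 3 * Y ^ (-(1 / 6) : ℝ) * (Ct * Y ^ (ε / 2) * (Y / K + 1))) ^ 2 *
        N a ^ (-(1 / 3) : ℝ) := fun a ha => by
    have a0 := N_pos (mem_ballN.1 ha).1.1.ne_zero
    have e1 : N a ^ (-(1 / 3) : ℝ) = (N a ^ (-(1 / 6) : ℝ)) ^ 2 := by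
      rw [← Real.rpow_natCast, ← Real.rpow_mul a0.le]; norm_num
    rw [e1, ← mul_pow]
    refine pow_le_pow_left₀ (norm_nonneg _) ((tsum_of_norm_bounded (t1.hasSum.mul_left
      (Cm * R ^ 3 * N a ^ (-(1 / 6) : ℝ) * Y ^ (-(1 / 6) : ℝ))) fun m => ?_).trans ?_) 2
    · by_cases h0 : m = 0
      · rw [h0, mdl, if_neg (fun h => h.1.ne_zero (mul_zero a))]; simp
      · have m0 := N_pos h0
        have e2 := congrArg norm (ms_W K Y0 m0)
        rw [norm_mul, norm_mul, Complex.norm_real, Complex.norm_real,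
          Real.norm_of_nonneg (by positivity), Real.norm_of_nonneg (by positivity)] at e2
        rw [if_pos h0, mul_assoc _ (Y ^ _), ← e2, norm_mul, norm_mul, Complex.norm_conj]
        have b1 := hm R (a * m) hR
        rw [N_mul, Real.mul_rpow a0.le m0.le] at b1
        calc _ ≤ Cm * R ^ 3 * (N a ^ (-(1 / 6) : ℝ) * N m ^ (-(1 / 6) : ℝ)) * 1 *
              ‖WK K 0 (N m / Y)‖ := by
              gcongr
              · exact norm_sym3_le _ _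
              · exact he m
          _ = _ := by ring
    · exact (mul_le_mul_of_nonneg_left t2 (by positivity)).trans_eq (by ring)
  refine (Finset.sum_le_sum a1).trans ?_
  rw [← Finset.mul_sum]
  have a2 : ∑ a ∈ ballN A, N a ^ (-(1 / 3) : ℝ) ≤ Cs * A ^ (2 / 3 : ℝ) := by
    refine (Finset.sum_le_sum_of_subset_of_nonneg (Finset.filter_subset _ _)
      fun a _ _ => Real.rpow_nonneg (N_nonneg a) _).trans ((hs A (by linarith)).trans_eq ?_)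
    norm_num
  have a3 : (Y ^ (ε / 2)) ^ 2 = Y ^ ε := by
    rw [← Real.rpow_natCast, ← Real.rpow_mul Y0.le]; congr 1; push_cast; ring
  have a4 : (Y ^ (-(1 / 6) : ℝ)) ^ 2 * Y ^ 2 = Y ^ (5 / 3 : ℝ) := by
    rw [← Real.rpow_natCast, ← Real.rpow_mul Y0.le, ← Real.rpow_natCast, ← Real.rpow_add Y0]
    norm_num
  have a5 : (Y ^ (-(1 / 6) : ℝ)) ^ 2 ≤ Y := (pow_le_one₀ (by positivity)
    (Real.rpow_le_one_of_one_le_of_nonpos hY (by norm_num))).trans hY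
  have a6 : A ^ (2 / 3 : ℝ) ≤ A :=
    (Real.rpow_le_rpow_of_exponent_le hA (by norm_num)).trans_eq (Real.rpow_one A)
  have a7 : (Y / K + 1) ^ 2 ≤ 2 * (Y ^ 2 / K + 1) := by
    have : (Y / K) ^ 2 ≤ Y ^ 2 / K := by
      rw [div_pow]; exact div_le_div_of_nonneg_left (by positivity) (by linarith) (by nlinarith)
    nlinarith [sq_nonneg (Y / K - 1)]
  have a8 : (Y ^ (-(1 / 6) : ℝ)) ^ 2 * (Y / K + 1) ^ 2 * A ^ (2 / 3 : ℝ) ≤
      2 * (A * Y + A ^ (2 / 3 : ℝ) * Y ^ (5 / 3 : ℝ) / K) := by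
    calc _ ≤ (Y ^ (-(1 / 6) : ℝ)) ^ 2 * (2 * (Y ^ 2 / K + 1)) * A ^ (2 / 3 : ℝ) := by gcongr
      _ = 2 * (A ^ (2 / 3 : ℝ) * (Y ^ (-(1 / 6) : ℝ)) ^ 2 +
          A ^ (2 / 3 : ℝ) * Y ^ (5 / 3 : ℝ) / K) := by rw [← a4]; ring
      _ ≤ _ := by gcongr
  calc _ ≤ (Cm * R ^ 3 * Y ^ (-(1 / 6) : ℝ) * (Ct * Y ^ (ε / 2) * (Y / K + 1))) ^ 2 *
        (Cs * A ^ (2 / 3 : ℝ)) := by gcongr
    _ = (Cm * Ct) ^ 2 * Cs * Y ^ ε * R ^ 6 *
        ((Y ^ (-(1 / 6) : ℝ)) ^ 2 * (Y / K + 1) ^ 2 * A ^ (2 / 3 : ℝ)) := by rw [← a3]; ring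
    _ ≤ (Cm * Ct) ^ 2 * Cs * Y ^ ε * R ^ 6 *
        (2 * (A * Y + A ^ (2 / 3 : ℝ) * Y ^ (5 / 3 : ℝ) / K)) := by gcongr
    _ = _ := by ring

theorem t1b_split {a : O} (ha : NN a) (h : O) {e : O → ℂ} {K Y B : ℝ} (hK : 1 ≤ K) (hY : 0 < Y)
    (hB : 0 ≤ B) (he : ∀ n, ‖e n‖ ≤ ‖WK K 0 (N n / Y)‖) :
    ‖∑' m : O, G (a * m) * conj (sym3 h m) * e m‖ ≤
      ‖∑ m ∈ ballN B, conj (G m) * sym3 h m * conj (e m) * sym3 a m‖ +
        ∑' n : O, (if B < N n then ‖WK K 0 (N n / Y)‖ else 0) := by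
  set u : O → ℂ := fun m => G (a * m) * conj (sym3 h m) with hu
  have u1 : ∀ m, ‖u m‖ ≤ 1 := fun m => by
    rw [hu, norm_mul, Complex.norm_conj]
    exact mul_le_one₀ (norm_G_le _) (norm_nonneg _) (norm_sym3_le _ _)
  have u0 : ∀ m, ¬ NN m → u m = 0 := fun m hm => by
    simp only [hu]; rw [ts_G ha, G.eq_1 m, if_neg hm]; simp
  have z0 : ¬ NN 0 := fun h => h.1.ne_zero rfl
  have b1 : ∀ m, ‖if N m ≤ B then u m else 0‖ ≤ 1 := fun m => by split_ifs <;> simp [u1]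
  have b2 : ∀ m, ‖if N m ≤ B then 0 else u m‖ ≤ 1 := fun m => by split_ifs <;> simp [u1]
  have s1 := t1b_sum b1 (by simp [u0 0 z0]) hK hY he
  have s2 := t1b_sum b2 (by simp [u0 0 z0]) hK hY he
  have e1 : ∑' m : O, u m * e m = ∑' m, (if N m ≤ B then u m else 0) * e m +
      ∑' m, (if N m ≤ B then 0 else u m) * e m := by
    rw [← s1.tsum_add s2]
    exact tsum_congr fun m => by split_ifs <;> simp
  have e2 : ∑' m, (if N m ≤ B then u m else 0) * e m =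
      G a * conj (∑ m ∈ ballN B, conj (G m) * sym3 h m * conj (e m) * sym3 a m) := by
    rw [tsum_eq_sum (s := ballN B) fun m hm => ?_, map_sum, Finset.mul_sum]
    · refine Finset.sum_congr rfl fun m hm => ?_
      simp only [hu, if_pos (mem_ballN.1 hm).2, ts_G ha, map_mul, Complex.conj_conj]; ring
    · split_ifs with h1
      · rw [u0 m fun h2 => hm (mem_ballN.2 ⟨h2, h1⟩), zero_mul]
      · rw [zero_mul]
  rw [e1]
  refine (norm_add_le _ _).trans (add_le_add (le_of_eq ?_) ?_)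
  · rw [e2, norm_mul, norm_G ha, one_mul, Complex.norm_conj]
  · exact (t1b_tail b2 hB (fun n hn => if_pos hn) hK hY he).trans_eq (one_mul _)

theorem t1b_n1 {A Y K t : ℝ} (hA : 1 ≤ A) (hY : 1 ≤ Y) (hK : 1 ≤ K) (ht : 1 ≤ t) :
    (A + Y * t + (A * (Y * t)) ^ (2 / 3 : ℝ)) * (Y / K + 1) ≤
      4 * t * (A * Y + (Y ^ 2 + A ^ (2 / 3 : ℝ) * Y ^ (5 / 3 : ℝ)) / K) := by
  have Y0 : 0 < Y := by linarith
  have hp : ∀ x : ℝ, 1 ≤ x → x ^ (2 / 3 : ℝ) ≤ x := fun x hx =>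
    (Real.rpow_le_rpow_of_exponent_le hx (by norm_num)).trans_eq (Real.rpow_one x)
  have a1 : A + Y * t + (A * (Y * t)) ^ (2 / 3 : ℝ) ≤
      t * (A + Y + A ^ (2 / 3 : ℝ) * Y ^ (2 / 3 : ℝ)) := by
    rw [Real.mul_rpow (by linarith) (by positivity), Real.mul_rpow Y0.le (by linarith)]
    have : A ^ (2 / 3 : ℝ) * (Y ^ (2 / 3 : ℝ) * t ^ (2 / 3 : ℝ)) ≤
        A ^ (2 / 3 : ℝ) * (Y ^ (2 / 3 : ℝ) * t) := by gcongr; exact hp t ht
    nlinarith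
  have a2 : Y ^ (5 / 3 : ℝ) = Y ^ (2 / 3 : ℝ) * Y := by
    rw [← Real.rpow_add_one Y0.ne']; norm_num
  have a3 : A ^ (2 / 3 : ℝ) * Y ^ (2 / 3 : ℝ) ≤ A * Y := by
    gcongr
    · exact hp A hA
    · exact hp Y hY
  have a4 : A * Y / K ≤ A * Y := div_le_self (by positivity) hK
  have a5 : 0 ≤ (Y ^ 2 + A ^ (2 / 3 : ℝ) * Y ^ (5 / 3 : ℝ)) / K := by positivity
  have a6 : (A + Y + A ^ (2 / 3 : ℝ) * Y ^ (2 / 3 : ℝ)) * (Y / K + 1) ≤
      4 * (A * Y + (Y ^ 2 + A ^ (2 / 3 : ℝ) * Y ^ (5 / 3 : ℝ)) / K) := by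
    have : (A + Y + A ^ (2 / 3 : ℝ) * Y ^ (2 / 3 : ℝ)) * (Y / K + 1) =
        A * Y / K + (Y ^ 2 + A ^ (2 / 3 : ℝ) * Y ^ (5 / 3 : ℝ)) / K + A + Y +
          A ^ (2 / 3 : ℝ) * Y ^ (2 / 3 : ℝ) := by rw [a2]; ring
    rw [this]
    nlinarith
  calc _ ≤ t * (A + Y + A ^ (2 / 3 : ℝ) * Y ^ (2 / 3 : ℝ)) * (Y / K + 1) := by gcongr
    _ ≤ t * (4 * (A * Y + (Y ^ 2 + A ^ (2 / 3 : ℝ) * Y ^ (5 / 3 : ℝ)) / K)) := by
      rw [mul_assoc]; gcongr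
    _ = _ := by ring

/-- the boundary contribution of the Gauss sums -/
theorem t1b_G {ε : ℝ} (hε : 0 < ε) : ∃ C : ℝ, 0 < C ∧ ∀ (Z A Y K : ℝ) (h : O) (e : O → ℂ),
    1 ≤ A → A ≤ Z → 1 ≤ Y → Y ≤ Z → 1 ≤ K → (∀ n, ‖e n‖ ≤ ‖WK K 0 (N n / Y)‖) →
    ∑ a ∈ ballN A, ‖∑' m : O, G (a * m) * conj (sym3 h m) * e m‖ ^ 2 ≤
      C * Z ^ ε * (A * Y + (Y ^ 2 + A ^ (2 / 3 : ℝ) * Y ^ (5 / 3 : ℝ)) / K) := by
  set η := min (ε / 4) 1 with hη
  have η0 : 0 < η := lt_min (by positivity) one_pos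
  obtain ⟨Cl, hCl, hl⟩ := ls1 η0
  obtain ⟨Cw, hCw, hw⟩ := sum_WK_thin η0 0
  obtain ⟨Ct, hCt, ht⟩ := tail_WK_le (a := 2 + 1 / η) (le_add_of_nonneg_right (by positivity)) 0
  obtain ⟨Cb, hCb, hb⟩ := t1b_card
  refine ⟨2 * (Cl * Cw * 4) + 2 * (Cb * Ct ^ 2), by positivity,
    fun Z A Y K h e hA hAZ hY hYZ hK he => ?_⟩
  have Y0 : 0 < Y := by linarith
  have Z1 : 1 ≤ Z := by linarith
  have Z0 : 0 < Z := by linarith
  set t := Z ^ η with htd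
  have t1 : 1 ≤ t := Real.one_le_rpow Z1 η0.le
  have t2 : t ≤ Z := (Real.rpow_le_rpow_of_exponent_le Z1 (min_le_right _ _)).trans_eq
    (Real.rpow_one Z)
  have t4 : t ^ 4 ≤ Z ^ ε := by
    rw [htd, ← Real.rpow_natCast, ← Real.rpow_mul Z0.le]
    refine Real.rpow_le_rpow_of_exponent_le Z1 ?_
    have := min_le_left (ε / 4) 1
    push_cast; linarith
  set β : O → ℂ := fun m => conj (G m) * sym3 h m * conj (e m) with hβ
  have a1 := ht K Y (Y * t) 0 hK (by simp) Y0 (by positivity)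
  have a2 : Ct * (Y * t) * (Y / (Y * t)) ^ (2 + 1 / η) ≤ Ct := by
    rw [div_mul_cancel_left₀ Y0.ne', Real.inv_rpow (by positivity), Real.rpow_add (by positivity),
      htd, ← Real.rpow_mul Z0.le η (1 / η), mul_one_div_cancel η0.ne', Real.rpow_one,
      Real.rpow_two, mul_assoc, ← div_eq_mul_inv]
    refine mul_le_of_le_one_right hCt.le ((div_le_one (by positivity)).2 ?_)
    rw [← htd]
    nlinarith [mul_le_mul hYZ (le_self_pow₀ t1 two_ne_zero) (by linarith) Z0.le]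
  have a3 : ∀ a ∈ ballN A, ‖∑' m : O, G (a * m) * conj (sym3 h m) * e m‖ ^ 2 ≤
      2 * ‖∑ m ∈ ballN (Y * t), β m * sym3 a m‖ ^ 2 + 2 * Ct ^ 2 := fun a ha => by
    have := pow_le_pow_left₀ (norm_nonneg _) ((t1b_split (mem_ballN.1 ha).1 h hK Y0
      (B := Y * t) (by positivity) he).trans (add_le_add le_rfl (a1.trans a2))) 2
    nlinarith [sq_nonneg (‖∑ m ∈ ballN (Y * t), β m * sym3 a m‖ - Ct)]
  have a4 := hl (Z * Z) A (Y * t) β hA (by nlinarith) (by nlinarith)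
    (mul_le_mul hYZ t2 (by linarith) Z0.le)
  obtain ⟨w1, w2⟩ := hw K Y 0 hK hY (by simp)
  have a5 : ∑ m ∈ ballN (Y * t), ‖β m‖ ^ 2 ≤ Cw * t * (Y / K + 1) := by
    refine (Finset.sum_le_sum fun m hm => ?_).trans ((w1.sum_le_tsum _ fun m _ => by
      split_ifs <;> simp).trans (w2.trans ?_))
    · rw [if_pos (mem_ballN.1 hm).1.1.ne_zero]
      have c1 : ‖β m‖ ≤ ‖WK K 0 (N m / Y)‖ := by
        simp only [hβ, norm_mul, Complex.norm_conj]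
        exact (mul_le_of_le_one_left (norm_nonneg _)
          (mul_le_one₀ (norm_G_le _) (norm_nonneg _) (norm_sym3_le _ _))).trans (he m)
      have c2 : ‖WK K 0 (N m / Y)‖ ≤ 1 := by
        rw [t1b_nW, Real.exp_le_one_iff, neg_mul, neg_nonpos]; positivity
      nlinarith [norm_nonneg (β m)]
    · gcongr
      exact Real.rpow_le_rpow Y0.le hYZ η0.le
  have a6 := t1b_n1 hA hY hK t1
  set M := A * Y + (Y ^ 2 + A ^ (2 / 3 : ℝ) * Y ^ (5 / 3 : ℝ)) / K with hM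
  have M1 : A ≤ M := (le_mul_of_one_le_right (by linarith) hY).trans
    (le_add_of_nonneg_right (by positivity))
  have M0 : 0 ≤ M := by linarith
  have a7 : ∑ a ∈ ballN A, ‖∑ m ∈ ballN (Y * t), β m * sym3 a m‖ ^ 2 ≤ Cl * Cw * 4 * Z ^ ε * M := by
    refine a4.trans ?_
    rw [Real.mul_rpow Z0.le Z0.le, ← htd]
    calc _ ≤ Cl * (t * t) * (A + Y * t + (A * (Y * t)) ^ (2 / 3 : ℝ)) *
          (Cw * t * (Y / K + 1)) := by gcongr
      _ = Cl * Cw * t ^ 3 * ((A + Y * t + (A * (Y * t)) ^ (2 / 3 : ℝ)) * (Y / K + 1)) := by ring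
      _ ≤ Cl * Cw * t ^ 3 * (4 * t * M) := by gcongr
      _ = Cl * Cw * 4 * t ^ 4 * M := by ring
      _ ≤ _ := by gcongr
  have a8 : ((ballN A).card : ℝ) * (2 * Ct ^ 2) ≤ 2 * (Cb * Ct ^ 2) * Z ^ ε * M := by
    calc _ ≤ Cb * A * (2 * Ct ^ 2) := by gcongr; exact hb A (by linarith)
      _ = 2 * (Cb * Ct ^ 2) * 1 * A := by ring
      _ ≤ _ := by gcongr; exact Real.one_le_rpow Z1 hε.le
  refine (Finset.sum_le_sum a3).trans ?_
  rw [Finset.sum_add_distrib, ← Finset.mul_sum, Finset.sum_const, nsmul_eq_mul]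
  linarith

theorem t1b_n2 {A Y Q : ℝ} (hA : 1 ≤ A) (hY : 1 ≤ Y) (hQ : 1 ≤ Q) :
    Q ^ 2 * PhiI A Y Q (Q ^ 2) ≤ 2 * (Q ^ 10 * (A * Y + A ^ (4 / 3 : ℝ) * Y ^ (1 / 3 : ℝ)) +
      (Y ^ 2 + A ^ (2 / 3 : ℝ) * Y ^ (5 / 3 : ℝ)) / Q) := by
  have Q0 : 0 < Q := by linarith
  have hp : ∀ x s : ℝ, 1 ≤ x → s ≤ 1 → x ^ s ≤ x := fun x s hx hs =>
    (Real.rpow_le_rpow_of_exponent_le hx hs).trans_eq (Real.rpow_one x)
  have k1 : Q ^ (16 / 5 : ℝ) ≤ Q ^ 4 := by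
    rw [← Real.rpow_natCast]; exact Real.rpow_le_rpow_of_exponent_le hQ (by norm_num)
  have k2 : (Q ^ 2) ^ (2 / 5 : ℝ) ≤ Q ^ 2 := hp _ _ (one_le_pow₀ hQ) (by norm_num)
  have t1 : Q ^ 2 * (A * Y) ≤ Q ^ 10 * (A * Y) := by gcongr; norm_num
  have t2 : Q ^ 2 * (Q ^ (16 / 5 : ℝ) * ((Q ^ 2) ^ 2 * A ^ (4 / 3 : ℝ) * Y ^ (1 / 3 : ℝ))) ≤
      Q ^ 10 * (A ^ (4 / 3 : ℝ) * Y ^ (1 / 3 : ℝ)) := by
    calc _ ≤ Q ^ 2 * (Q ^ 4 * ((Q ^ 2) ^ 2 * A ^ (4 / 3 : ℝ) * Y ^ (1 / 3 : ℝ))) := by gcongr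
      _ = _ := by ring
  have t3 : Q ^ 2 * (Q ^ (16 / 5 : ℝ) * ((Q ^ 2) ^ (2 / 5 : ℝ) * A ^ (4 / 15 : ℝ) *
      Y ^ (13 / 15 : ℝ))) ≤ Q ^ 10 * (A * Y) := by
    calc _ ≤ Q ^ 2 * (Q ^ 4 * (Q ^ 2 * A * Y)) := by
          gcongr
          · exact hp _ _ hA (by norm_num)
          · exact hp _ _ hY (by norm_num)
      _ = Q ^ 8 * (A * Y) := by ring
      _ ≤ _ := by gcongr; norm_num
  have t4 : Q ^ 2 * (Y ^ 2 / (Q ^ 2) ^ 3) ≤ Y ^ 2 / Q := by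
    rw [show Q ^ 2 * (Y ^ 2 / (Q ^ 2) ^ 3) = Y ^ 2 / Q ^ 4 by field_simp]
    exact div_le_div_of_nonneg_left (by positivity) Q0 (le_self_pow₀ hQ (by norm_num))
  have t5 : Q ^ 2 * (A ^ (2 / 3 : ℝ) * Y ^ (5 / 3 : ℝ) / (Q ^ 2) ^ 2) ≤
      A ^ (2 / 3 : ℝ) * Y ^ (5 / 3 : ℝ) / Q := by
    rw [show Q ^ 2 * (A ^ (2 / 3 : ℝ) * Y ^ (5 / 3 : ℝ) / (Q ^ 2) ^ 2) =
      A ^ (2 / 3 : ℝ) * Y ^ (5 / 3 : ℝ) / Q ^ 2 by field_simp]
    exact div_le_div_of_nonneg_left (by positivity) Q0 (le_self_pow₀ hQ (by norm_num))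
  have p1 : 0 ≤ Q ^ 10 * (A ^ (4 / 3 : ℝ) * Y ^ (1 / 3 : ℝ)) := by positivity
  have p2 : 0 ≤ Y ^ 2 / Q := by positivity
  have p3 : 0 ≤ A ^ (2 / 3 : ℝ) * Y ^ (5 / 3 : ℝ) / Q := by positivity
  rw [PhiI, add_div]
  simp only [mul_add]
  linarith

theorem t1b_dec {a : O} (ha : NN a) (h : O) {R K Y : ℝ} (hR : 1 ≤ R) (hK : 1 ≤ K) (hY : 0 < Y)
    (e : O → ℂ) (he : e = fun m =>
      (((if N m ≤ Y then 1 else 0) - K / √π * t1bF K (Real.log (N m / Y)) : ℝ) : ℂ)) :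
    ‖∑ m ∈ ballN Y, del R (a * m) * conj (sym3 h m)‖ ^ 2 ≤
      3 * (K ^ 2 * ‖∑' m : O, del R (a * m) * conj (sym3 h m) *
        ((t1bF K (Real.log (N m / Y)) : ℝ) : ℂ)‖ ^ 2 +
        ‖∑' m : O, G (a * m) * conj (sym3 h m) * e m‖ ^ 2 +
        ‖∑' m : O, mdl R (a * m) * conj (sym3 h m) * e m‖ ^ 2) := by
  obtain ⟨Cd, hCd, hd⟩ := t1b_u
  obtain ⟨d1, d2⟩ := hd R a h hR
  have K0 : 0 < K := by linarith
  have b : ∀ n, ‖e n‖ ≤ ‖WK K 0 (N n / Y)‖ := fun n => by rw [he]; exact t1b_E K0 hY n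
  have s1 := (t1b_sF d1 d2 hK hY).mul_left ((K / √π : ℝ) : ℂ)
  have s2 := t1b_sum d1 d2 hK hY b
  have s3 : Summable fun m => G (a * m) * conj (sym3 h m) * e m := t1b_sum (B := 1) (fun m => by
      rw [norm_mul, Complex.norm_conj]
      exact mul_le_one₀ (norm_G_le _) (norm_nonneg _) (norm_sym3_le _ _))
    (by rw [G, if_neg (fun h => h.1.ne_zero (mul_zero a)), zero_mul]) hK hY b
  have s4 : Summable fun m => mdl R (a * m) * conj (sym3 h m) * e m :=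
    (s3.sub s2).congr fun m => by rw [del]; ring
  have e1 : ∑ m ∈ ballN Y, del R (a * m) * conj (sym3 h m) =
      ((K / √π : ℝ) : ℂ) * ∑' m : O, del R (a * m) * conj (sym3 h m) *
        ((t1bF K (Real.log (N m / Y)) : ℝ) : ℂ) +
        (∑' m : O, G (a * m) * conj (sym3 h m) * e m -
          ∑' m : O, mdl R (a * m) * conj (sym3 h m) * e m) := by
    rw [← s3.tsum_sub s4, ← tsum_mul_left, ← s1.tsum_add (s3.sub s4), ballN,
      Finset.sum_filter_of_ne fun m _ hm => ?_, ← (t1b_fin Y d2).tsum_eq]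
    · refine tsum_congr fun m => ?_
      rw [he, del]; push_cast; ring
    · by_contra hn
      refine hm ?_
      rw [del_eq_zero R fun h1 => hn ⟨h1.1.of_mul ha.1, h1.2.1.of_mul_right, ?_⟩, zero_mul]
      exact oddO_iff_coprime.2 (oddO_iff_coprime.1 h1.2.2).of_mul_left_right
  rw [e1]
  set x := ∑' m : O, del R (a * m) * conj (sym3 h m) * ((t1bF K (Real.log (N m / Y)) : ℝ) : ℂ)
  set y := ∑' m : O, G (a * m) * conj (sym3 h m) * e m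
  set z := ∑' m : O, mdl R (a * m) * conj (sym3 h m) * e m
  have a1 : ‖((K / √π : ℝ) : ℂ) * x + (y - z)‖ ≤ K * ‖x‖ + (‖y‖ + ‖z‖) := by
    refine (norm_add_le _ _).trans (add_le_add ?_ (norm_sub_le _ _))
    rw [norm_mul, Complex.norm_real, Real.norm_of_nonneg (by positivity)]
    refine mul_le_mul_of_nonneg_right (div_le_self K0.le (Real.one_le_sqrt.2 ?_)) (norm_nonneg _)
    linarith [Real.pi_gt_three]
  have a2 := pow_le_pow_left₀ (norm_nonneg _) a1 2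
  nlinarith [sq_nonneg (K * ‖x‖ - ‖y‖), sq_nonneg (K * ‖x‖ - ‖z‖), sq_nonneg (‖y‖ - ‖z‖)]

theorem ti2' : ∃ c0 : ℝ, 0 < c0 ∧ ∀ ε > (0 : ℝ), ∃ C : ℝ, 0 < C ∧ ∀ (Z A Y R Q : ℝ) (h : O),
    1 ≤ A → A ≤ Z → 1 ≤ Y → Y ≤ Z → 1 ≤ R → R ≤ Z → 1 ≤ Q → Q ≤ Z → h ≠ 0 → N h ≤ R →
    ∑ a ∈ ballN A, ‖∑ m ∈ ballN Y, del R (a * m) * conj (sym3 h m)‖ ^ 2 ≤
      C * Z ^ ε * R ^ c0 * (Q ^ 10 * (A * Y + A ^ (4 / 3 : ℝ) * Y ^ (1 / 3 : ℝ)) +
        (Y ^ 2 + A ^ (2 / 3 : ℝ) * Y ^ (5 / 3 : ℝ)) / Q) := by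

  obtain ⟨c0, hc0, h1⟩ := t1b_smooth
  refine ⟨c0 + 6, by positivity, fun ε hε => ?_⟩
  obtain ⟨C1, hC1, h1⟩ := h1 ε hε
  obtain ⟨C2, hC2, h2⟩ := t1b_G hε
  obtain ⟨C3, hC3, h3⟩ := t1b_mdl hε
  refine ⟨3 * (C1 * 2 + C2 + C3), by positivity,
    fun Z A Y R Q h hA hAZ hY hYZ hR hRZ hQ hQZ hh hhR => ?_⟩
  have Y0 : 0 < Y := by linarith
  have Q0 : 0 < Q := by linarith
  have Z0 : 0 < Z := by linarith
  have b := t1b_E Q0 Y0
  refine (Finset.sum_le_sum fun a ha => t1b_dec (mem_ballN.1 ha).1 h hR hQ Y0 _ rfl).trans ?_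
  rw [← Finset.mul_sum, Finset.sum_add_distrib, Finset.sum_add_distrib, ← Finset.mul_sum]
  have a1 := mul_le_mul_of_nonneg_left (h1 Z A Y R Q (Q ^ 2) h hA hAZ hY hYZ hR hRZ hQ hQZ
    (one_le_pow₀ hQ) hh hhR) (sq_nonneg Q)
  have a2 := h2 Z A Y Q h _ hA hAZ hY hYZ hQ b
  have a3 := h3 A Y R Q h _ hA hY hR hQ b
  have a4 := t1b_n2 hA hY hQ
  have M1 : A * Y + (Y ^ 2 + A ^ (2 / 3 : ℝ) * Y ^ (5 / 3 : ℝ)) / Q ≤
      Q ^ 10 * (A * Y + A ^ (4 / 3 : ℝ) * Y ^ (1 / 3 : ℝ)) +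
      (Y ^ 2 + A ^ (2 / 3 : ℝ) * Y ^ (5 / 3 : ℝ)) / Q :=
    add_le_add (le_trans (le_add_of_nonneg_right (by positivity))
      (le_mul_of_one_le_left (by positivity) (one_le_pow₀ hQ))) le_rfl
  have M2 : A * Y + A ^ (2 / 3 : ℝ) * Y ^ (5 / 3 : ℝ) / Q ≤
      A * Y + (Y ^ 2 + A ^ (2 / 3 : ℝ) * Y ^ (5 / 3 : ℝ)) / Q := by
    gcongr; exact le_add_of_nonneg_left (by positivity)
  set M := Q ^ 10 * (A * Y + A ^ (4 / 3 : ℝ) * Y ^ (1 / 3 : ℝ)) +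
      (Y ^ 2 + A ^ (2 / 3 : ℝ) * Y ^ (5 / 3 : ℝ)) / Q with hM
  have M0 : 0 ≤ M := by positivity
  have r1 : R ^ c0 ≤ R ^ (c0 + 6) := Real.rpow_le_rpow_of_exponent_le hR (by linarith)
  have r2 : 1 ≤ R ^ (c0 + 6) := Real.one_le_rpow hR (by linarith)
  have r3 : R ^ 6 ≤ R ^ (c0 + 6) := by
    rw [← Real.rpow_natCast]
    exact Real.rpow_le_rpow_of_exponent_le hR (by push_cast; linarith)
  have c1 : Q ^ 2 * (C1 * Z ^ ε * R ^ c0 * PhiI A Y Q (Q ^ 2)) ≤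
      C1 * 2 * Z ^ ε * R ^ (c0 + 6) * M := by
    calc _ = C1 * Z ^ ε * R ^ c0 * (Q ^ 2 * PhiI A Y Q (Q ^ 2)) := by ring
      _ ≤ C1 * Z ^ ε * R ^ c0 * (2 * M) := by gcongr
      _ ≤ C1 * Z ^ ε * R ^ (c0 + 6) * (2 * M) := by gcongr
      _ = _ := by ring
  have c2 : C2 * Z ^ ε * (A * Y + (Y ^ 2 + A ^ (2 / 3 : ℝ) * Y ^ (5 / 3 : ℝ)) / Q) ≤
      C2 * Z ^ ε * R ^ (c0 + 6) * M := by
    calc _ ≤ C2 * Z ^ ε * 1 * M := by rw [mul_one]; gcongr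
      _ ≤ _ := by gcongr
  have c3 : C3 * Y ^ ε * R ^ 6 * (A * Y + A ^ (2 / 3 : ℝ) * Y ^ (5 / 3 : ℝ) / Q) ≤
      C3 * Z ^ ε * R ^ (c0 + 6) * M := by
    have := M2.trans M1
    gcongr
  linarith

end

end Vale.Agent.P006
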