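import Vale.Agent.P006.T1a
import Vale.Agent.P006.T1b

namespace Vale.Agent.P006

open Vale.Agent.P026 Complex MeasureTheory Filter Topology
open scoped Classical ComplexConjugate Real MatrixGroups

noncomputable section

/-- type I, `L¹`, thin Gaussian weight -/
theorem ti1 : ∃ ρ0 : ℝ, 0 < ρ0 ∧ ∃ κ : ℝ, 0 < κ ∧ ∃ C : ℝ, ∀ (X R S : ℝ) (c : O → ℂ),
    1 ≤ X → 1 ≤ R → R ≤ X ^ ρ0 → 1 ≤ S → S ≤ X ^ (1 / 6 + 1 / 1000 : ℝ) → (∀ d, ‖c d‖ ≤ 1) →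
    ‖∑ d ∈ ballN (X ^ (1 / 3 + 1 / 100 : ℝ)),
        c d * ∑' m : O, del R (d * m) * WK S 0 (N (d * m) / X)‖ ≤ C * X ^ (5 / 6 - κ) := ti1'

/-- type I, `L²`, sharp cutoff, twisted by a character of conductor at most `R` -/
theorem ti2 : ∃ c0 : ℝ, 0 < c0 ∧ ∀ ε > (0 : ℝ), ∃ C : ℝ, 0 < C ∧ ∀ (Z A Y R Q : ℝ) (h : O),
    1 ≤ A → A ≤ Z → 1 ≤ Y → Y ≤ Z → 1 ≤ R → R ≤ Z → 1 ≤ Q → Q ≤ Z → h ≠ 0 → N h ≤ R →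
    ∑ a ∈ ballN A, ‖∑ m ∈ ballN Y, del R (a * m) * conj (sym3 h m)‖ ^ 2 ≤
      C * Z ^ ε * R ^ c0 * (Q ^ 10 * (A * Y + A ^ (4 / 3 : ℝ) * Y ^ (1 / 3 : ℝ)) +
        (Y ^ 2 + A ^ (2 / 3 : ℝ) * Y ^ (5 / 3 : ℝ)) / Q) := ti2'

end

end Vale.Agent.P006
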