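import Vale.Agent.P006.TS

namespace Vale.Agent.P006

open Vale.Agent.P026 Complex MeasureTheory Filter Topology
open scoped Classical ComplexConjugate Real MatrixGroups

noncomputable section


theorem t1a_pw {X u a s : ℝ} (hX : 1 ≤ X) (hu0 : 0 ≤ u) (hu : u ≤ 2 * X ^ a) (hs : 0 ≤ s)
    (hs2 : s ≤ 2) : u ^ s ≤ 4 * X ^ (a * s) := by
  have X0 : 0 < X := by linarith
  refine (Real.rpow_le_rpow hu0 hu hs).trans ?_
  rw [Real.mul_rpow (by norm_num) (by positivity), ← Real.rpow_mul X0.le]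
  refine mul_le_mul_of_nonneg_right ?_ (by positivity)
  calc (2 : ℝ) ^ s ≤ 2 ^ (2 : ℝ) := Real.rpow_le_rpow_of_exponent_le (by norm_num) hs2
    _ = 4 := by norm_num

theorem t1a_m3 {X p q r e : ℝ} (hX : 1 ≤ X) (h : p + q + r ≤ e) :
    X ^ p * X ^ q * X ^ r ≤ X ^ e := by
  have X0 : 0 < X := by linarith
  rw [← Real.rpow_add X0, ← Real.rpow_add X0]
  exact Real.rpow_le_rpow_of_exponent_le hX h

theorem t1a_num {X A Y K D : ℝ} (hX : 1 ≤ X) (hA : 0 < A) (hY : 0 < Y) (hAY : A * Y = 2 * X)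
    (hK0 : 0 ≤ K) (hK : K ≤ X ^ (1 / 6 + 1 / 1000 : ℝ)) (hD1 : X ^ (1 / 100 : ℝ) ≤ D)
    (hD2 : A * D ≤ 2 * X ^ (53 / 150 : ℝ)) (hD3 : X ^ (56 / 150 : ℝ) ≤ A * D ^ 3) :
    A * PhiI A Y K D ≤ 200 * X ^ (5 / 3 - 1 / 50 : ℝ) := by
  have X0 : 0 < X := by linarith
  have D1 : 1 ≤ D := (Real.one_le_rpow hX (by norm_num)).trans hD1
  have D0 : 0 < D := by linarith
  set E := X ^ (5 / 3 - 1 / 50 : ℝ) with hE
  have hAY' : A * Y ≤ 2 * X ^ (1 : ℝ) := by rw [Real.rpow_one, hAY]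
  have k0 : K ^ (16 / 5 : ℝ) ≤ X ^ ((1 / 6 + 1 / 1000) * (16 / 5) : ℝ) := by
    rw [Real.rpow_mul X0.le]; exact Real.rpow_le_rpow hK0 hK (by norm_num)
  have t1 : A * (A * Y) ≤ 4 * E := by
    have a1 : A ≤ 2 * X ^ (53 / 150 : ℝ) := le_trans (le_mul_of_one_le_right hA.le D1) hD2
    calc A * (A * Y) ≤ 2 * X ^ (53 / 150 : ℝ) * (2 * X ^ (1 : ℝ)) := by gcongr
      _ = 4 * (X ^ (53 / 150 : ℝ) * X ^ (1 : ℝ) * X ^ (0 : ℝ)) := by rw [Real.rpow_zero]; ring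
      _ ≤ 4 * E := by gcongr; exact t1a_m3 hX (by norm_num)
  have t2 : A * (K ^ (16 / 5 : ℝ) * (D ^ 2 * A ^ (4 / 3 : ℝ) * Y ^ (1 / 3 : ℝ))) ≤ 16 * E := by
    have e : A * (K ^ (16 / 5 : ℝ) * (D ^ 2 * A ^ (4 / 3 : ℝ) * Y ^ (1 / 3 : ℝ))) =
        K ^ (16 / 5 : ℝ) * (A * D) ^ (2 : ℝ) * (A * Y) ^ (1 / 3 : ℝ) := by
      rw [Real.mul_rpow hA.le hY.le, show (4 / 3 : ℝ) = 1 + 1 / 3 by norm_num,
        Real.rpow_add hA, Real.rpow_one, Real.rpow_two]; ring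
    have a1 := t1a_pw hX (by positivity) hD2 (s := 2) (by norm_num) le_rfl
    have a2 := t1a_pw hX (by positivity) hAY' (s := 1 / 3) (by norm_num) (by norm_num)
    rw [e]
    calc _ ≤ X ^ ((1 / 6 + 1 / 1000) * (16 / 5) : ℝ) * (4 * X ^ (53 / 150 * 2 : ℝ)) *
          (4 * X ^ (1 * (1 / 3) : ℝ)) := by gcongr
      _ = 16 * (X ^ ((1 / 6 + 1 / 1000) * (16 / 5) : ℝ) * X ^ (53 / 150 * 2 : ℝ) *
          X ^ (1 * (1 / 3) : ℝ)) := by ring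
      _ ≤ 16 * E := by gcongr; exact t1a_m3 hX (by norm_num)
  have t3 : A * (K ^ (16 / 5 : ℝ) * (D ^ (2 / 5 : ℝ) * A ^ (4 / 15 : ℝ) * Y ^ (13 / 15 : ℝ))) ≤
      16 * E := by
    have e0 : A * A ^ (4 / 15 : ℝ) = A ^ (2 / 5 : ℝ) * A ^ (13 / 15 : ℝ) := by
      rw [← Real.rpow_add hA, ← Real.rpow_one_add' hA.le (by norm_num)]; norm_num
    have e : A * (K ^ (16 / 5 : ℝ) * (D ^ (2 / 5 : ℝ) * A ^ (4 / 15 : ℝ) * Y ^ (13 / 15 : ℝ))) =
        K ^ (16 / 5 : ℝ) * (A * D) ^ (2 / 5 : ℝ) * (A * Y) ^ (13 / 15 : ℝ) := by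
      rw [Real.mul_rpow hA.le hY.le, Real.mul_rpow hA.le D0.le]
      linear_combination (K ^ (16 / 5 : ℝ) * D ^ (2 / 5 : ℝ) * Y ^ (13 / 15 : ℝ)) * e0
    have a1 := t1a_pw hX (by positivity) hD2 (s := 2 / 5) (by norm_num) (by norm_num)
    have a2 := t1a_pw hX (by positivity) hAY' (s := 13 / 15) (by norm_num) (by norm_num)
    rw [e]
    calc _ ≤ X ^ ((1 / 6 + 1 / 1000) * (16 / 5) : ℝ) * (4 * X ^ (53 / 150 * (2 / 5) : ℝ)) *
          (4 * X ^ (1 * (13 / 15) : ℝ)) := by gcongr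
      _ = 16 * (X ^ ((1 / 6 + 1 / 1000) * (16 / 5) : ℝ) * X ^ (53 / 150 * (2 / 5) : ℝ) *
          X ^ (1 * (13 / 15) : ℝ)) := by ring
      _ ≤ 16 * E := by gcongr; exact t1a_m3 hX (by norm_num)
  have t4 : A * (Y ^ 2 / D ^ 3) ≤ 4 * E := by
    have e : A * (Y ^ 2 / D ^ 3) = (A * Y) ^ (2 : ℝ) / (A * D ^ 3) := by
      rw [Real.rpow_two]; field_simp
    have a2 := t1a_pw hX (by positivity) hAY' (s := 2) (by norm_num) le_rfl
    rw [e]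
    calc _ ≤ 4 * X ^ (1 * 2 : ℝ) / X ^ (56 / 150 : ℝ) := by gcongr
      _ = 4 * X ^ (1 * 2 - 56 / 150 : ℝ) := by rw [Real.rpow_sub X0]; ring
      _ ≤ 4 * E := by gcongr; exact Real.rpow_le_rpow_of_exponent_le hX (by norm_num)
  have t5 : A * (A ^ (2 / 3 : ℝ) * Y ^ (5 / 3 : ℝ) / D ^ 2) ≤ 4 * E := by
    have e : A * (A ^ (2 / 3 : ℝ) * Y ^ (5 / 3 : ℝ) / D ^ 2) = (A * Y) ^ (5 / 3 : ℝ) / D ^ 2 := by
      rw [Real.mul_rpow hA.le hY.le, show (5 / 3 : ℝ) = 1 + 2 / 3 by norm_num,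
        Real.rpow_add hA, Real.rpow_one]; ring
    have a2 := t1a_pw hX (by positivity) hAY' (s := 5 / 3) (by norm_num) (by norm_num)
    rw [e]
    calc _ ≤ 4 * X ^ (1 * (5 / 3) : ℝ) / (X ^ (1 / 100 : ℝ)) ^ 2 := by gcongr
      _ = 4 * E := by
        rw [← Real.rpow_natCast, ← Real.rpow_mul X0.le, mul_div_assoc, ← Real.rpow_sub X0, hE]
        norm_num
  have E0 : 0 ≤ E := by positivity
  unfold PhiI
  nlinarith

/-- the choice of the parameter `D` -/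
theorem t1a_D {X A : ℝ} (hX : 1 ≤ X) (hA : 0 < A) (hA2 : A ≤ 2 * X ^ (1 / 3 + 1 / 100 : ℝ)) :
    ∃ D : ℝ, X ^ (1 / 100 : ℝ) ≤ D ∧ A * D ≤ 2 * X ^ (53 / 150 : ℝ) ∧
      X ^ (56 / 150 : ℝ) ≤ A * D ^ 3 := by
  have X0 : 0 < X := by linarith
  set B := 2 * X ^ (1 / 3 + 1 / 100 : ℝ) with hB
  have h1 : 1 ≤ B / A := (one_le_div hA).2 hA2
  set t := (B / A) ^ (1 / 3 : ℝ) with ht
  have t1 : 1 ≤ t := Real.one_le_rpow h1 (by norm_num)
  have t3 : t ^ 3 = B / A := by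
    rw [ht, ← Real.rpow_natCast, ← Real.rpow_mul (by linarith)]; norm_num
  have t4 : t ≤ B / A := by rw [← t3]; exact le_self_pow₀ t1 (by norm_num)
  have u0 : 0 < X ^ (1 / 100 : ℝ) := by positivity
  refine ⟨X ^ (1 / 100 : ℝ) * t, le_mul_of_one_le_right u0.le t1, ?_, ?_⟩
  · calc A * (X ^ (1 / 100 : ℝ) * t) ≤ A * (X ^ (1 / 100 : ℝ) * (B / A)) := by gcongr
      _ = 2 * (X ^ (1 / 100 : ℝ) * X ^ (1 / 3 + 1 / 100 : ℝ)) := by rw [hB]; field_simp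
      _ = _ := by rw [← Real.rpow_add X0]; norm_num
  · have e : A * (X ^ (1 / 100 : ℝ) * t) ^ 3 =
        2 * ((X ^ (1 / 100 : ℝ)) ^ 3 * X ^ (1 / 3 + 1 / 100 : ℝ)) := by
      rw [mul_pow, t3, hB]; field_simp
    rw [e, ← Real.rpow_natCast, ← Real.rpow_mul X0.le, ← Real.rpow_add X0]
    have : X ^ (1 / 100 * ((3 : ℕ) : ℝ) + (1 / 3 + 1 / 100) : ℝ) = X ^ (56 / 150 : ℝ) := by
      norm_num
    rw [this]
    have : 0 ≤ X ^ (56 / 150 : ℝ) := by positivity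
    linarith

/-- one dyadic block -/
theorem t1a_blk : ∃ ρ0 : ℝ, 0 < ρ0 ∧ ∃ C : ℝ, 0 < C ∧ ∀ (X R S : ℝ) (j : ℕ),
    1 ≤ X → 1 ≤ R → R ≤ X ^ ρ0 → 1 ≤ S → S ≤ X ^ (1 / 6 + 1 / 1000 : ℝ) →
    (2 : ℝ) ^ j ≤ X ^ (1 / 3 + 1 / 100 : ℝ) → ∀ T : Finset O,
    (∀ d ∈ T, NN d ∧ Nat.log 2 (Nm d) = j) →
    ∑ d ∈ T, ‖∑' m : O, del R (d * m) * WK S 0 (N (d * m) / X)‖ ≤ C * X ^ (5 / 6 - 1 / 200 : ℝ) := by
  obtain ⟨c0, hc0, h⟩ := ts
  obtain ⟨C, hC, h⟩ := h (1 / 200) (by norm_num)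
  obtain ⟨Cb, hCb, hb⟩ := card_ballO_le
  refine ⟨1 / (200 * c0 + 1), by positivity, √(Cb * C * 800), by positivity,
    fun X R S j hX hR hRX hS hSX hj T hT => ?_⟩
  have X0 : 0 < X := by linarith
  have hle : ∀ a : ℝ, a ≤ 1 → X ^ a ≤ X := fun a ha => by
    simpa using Real.rpow_le_rpow_of_exponent_le hX ha
  have p1 : (1 : ℝ) ≤ 2 ^ j := one_le_pow₀ (by norm_num)
  have p2 : (2 : ℝ) ^ j ≤ X := hj.trans (hle _ (by norm_num))
  set A : ℝ := 2 * 2 ^ j with hA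
  set Y : ℝ := X / 2 ^ j with hY
  have Y1 : 1 ≤ Y := (one_le_div (by positivity)).2 p2
  have Y2 : Y ≤ X := div_le_self X0.le p1
  have hAY : A * Y = 2 * X := by rw [hA, hY]; field_simp
  obtain ⟨D, d1, d2, d3⟩ := t1a_D hX (A := A) (by positivity) (by rw [hA]; linarith)
  have hd : ∀ d ∈ T, 2 ^ j ≤ N d ∧ N d ≤ A := fun d hd => by
    obtain ⟨n, e⟩ := hT d hd
    have n0 : Nm d ≠ 0 := by
      have := one_le_N n.1.ne_zero
      unfold N at this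
      intro h0; rw [h0] at this; norm_num at this
    have a1 := Nat.pow_log_le_self 2 n0
    have a2 := Nat.lt_pow_succ_log_self (b := 2) (by norm_num) (Nm d)
    rw [e] at a1 a2
    unfold N
    refine ⟨by exact_mod_cast a1, ?_⟩
    rw [hA, ← pow_succ']; exact_mod_cast a2.le
  set y : O → ℝ := fun d => if d ∈ T then X / N d else Y with hy
  have hyb : ∀ b, Y / 2 ≤ y b ∧ y b ≤ Y := fun b => by
    simp only [hy]
    split_ifs with hb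
    · obtain ⟨a1, a2⟩ := hd b hb
      refine ⟨?_, div_le_div_of_nonneg_left X0.le (by positivity) a1⟩
      rw [show Y / 2 = X / A by rw [hY, hA]; field_simp]
      exact div_le_div_of_nonneg_left X0.le (by linarith) a2
    · constructor <;> linarith
  have hρ : 1 / (200 * c0 + 1) ≤ 1 := by rw [div_le_one (by positivity)]; linarith
  have k := h (2 * X) A Y R S D 1 y (by linarith) (by linarith) Y1 (by linarith) hR
    (by linarith [hle _ hρ]) hS (by linarith [hle (1 / 6 + 1 / 1000) (by norm_num)])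
    ((Real.one_le_rpow hX (by norm_num)).trans d1) one_ne_zero (by rwa [N_one]) hyb
  have hsub : T ⊆ ballN A := fun d hd' => mem_ballN.2 ⟨(hT d hd').1, (hd d hd').2⟩
  set F : O → ℝ := fun b =>
    ‖∑' m : O, del R (b * m) * conj (sym3 1 m) * WK S 0 (N m / y b)‖ with hF
  have e : ∑ d ∈ T, ‖∑' m : O, del R (d * m) * WK S 0 (N (d * m) / X)‖ = ∑ d ∈ T, F d := by
    refine Finset.sum_congr rfl fun d hd' => ?_
    simp only [hF, hy, if_pos hd', sym3_one_left, map_one, mul_one, N_mul]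
    have : 0 < N d := by linarith [(hd d hd').1]
    congr 2; funext m; congr 2; field_simp
  have c1 : ∑ d ∈ T, F d ≤ ∑ d ∈ ballN A, F d :=
    Finset.sum_le_sum_of_subset_of_nonneg hsub fun _ _ _ => norm_nonneg _
  have c2 := sq_sum_le_card_mul_sum_sq (s := ballN A) (f := F)
  have b2 : ((ballN A).card : ℝ) ≤ Cb * A :=
    le_trans (by exact_mod_cast Finset.card_le_card (Finset.filter_subset _ _))
      (hb A (by positivity))
  have n1 := t1a_num hX (by positivity) (by linarith) hAY (by linarith) hSX d1 d2 d3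
  have n2 : (2 * X) ^ (1 / 200 : ℝ) ≤ 4 * X ^ (1 * (1 / 200) : ℝ) :=
    t1a_pw hX (by positivity) (by rw [Real.rpow_one]) (by norm_num) (by norm_num)
  have n3 : R ^ c0 ≤ X ^ (1 / 200 : ℝ) := by
    refine (Real.rpow_le_rpow (by linarith) hRX hc0.le).trans ?_
    rw [← Real.rpow_mul X0.le]
    refine Real.rpow_le_rpow_of_exponent_le hX ?_
    rw [one_div, inv_mul_eq_div, div_le_div_iff₀ (by positivity) (by norm_num)]; linarith
  have P0 : 0 ≤ PhiI A Y S D := le_trans (by positivity)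
    (ts_Phi (by positivity) (by positivity) (by linarith)
      (le_trans (by positivity) d1))
  rw [e]
  refine c1.trans ((pow_le_pow_iff_left₀ (Finset.sum_nonneg fun _ _ => norm_nonneg _) (by positivity)
    two_ne_zero).1 ?_)
  rw [mul_pow, Real.sq_sqrt (by positivity), ← Real.rpow_natCast (X ^ _), ← Real.rpow_mul X0.le]
  calc _ ≤ _ := c2
    _ ≤ Cb * A * (C * (2 * X) ^ (1 / 200 : ℝ) * R ^ c0 * PhiI A Y S D) := by gcongr
    _ = Cb * C * ((2 * X) ^ (1 / 200 : ℝ) * R ^ c0 * (A * PhiI A Y S D)) := by ring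
    _ ≤ Cb * C * (4 * X ^ (1 * (1 / 200) : ℝ) * X ^ (1 / 200 : ℝ) *
        (200 * X ^ (5 / 3 - 1 / 50 : ℝ))) := by gcongr
    _ = Cb * C * 800 * (X ^ (1 * (1 / 200) : ℝ) * X ^ (1 / 200 : ℝ) *
        X ^ (5 / 3 - 1 / 50 : ℝ)) := by ring
    _ ≤ _ := by gcongr; exact t1a_m3 hX (by norm_num)

theorem ti1' : ∃ ρ0 : ℝ, 0 < ρ0 ∧ ∃ κ : ℝ, 0 < κ ∧ ∃ C : ℝ, ∀ (X R S : ℝ) (c : O → ℂ),
    1 ≤ X → 1 ≤ R → R ≤ X ^ ρ0 → 1 ≤ S → S ≤ X ^ (1 / 6 + 1 / 1000 : ℝ) → (∀ d, ‖c d‖ ≤ 1) →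
    ‖∑ d ∈ ballN (X ^ (1 / 3 + 1 / 100 : ℝ)),
        c d * ∑' m : O, del R (d * m) * WK S 0 (N (d * m) / X)‖ ≤ C * X ^ (5 / 6 - κ) := by

  obtain ⟨ρ0, hρ, C, hC, h⟩ := t1a_blk
  refine ⟨ρ0, hρ, 1 / 400, by norm_num, 801 * C, fun X R S c hX hR hRX hS hSX hc => ?_⟩
  have X0 : 0 < X := by linarith
  set B := X ^ (1 / 3 + 1 / 100 : ℝ) with hB
  have B1 : 1 ≤ B := Real.one_le_rpow hX (by norm_num)
  have B2 : B ≤ X := (Real.rpow_le_rpow_of_exponent_le hX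
    (by norm_num : (1 / 3 + 1 / 100 : ℝ) ≤ 1)).trans_eq (Real.rpow_one X)
  set J := Nat.log 2 ⌊B⌋₊ with hJ
  have J1 : (2 : ℝ) ^ J ≤ B := by
    have := Nat.pow_log_le_self 2 (Nat.floor_pos.2 B1).ne'
    exact le_trans (by exact_mod_cast this) (Nat.floor_le (by linarith))
  have hmap : ∀ d ∈ ballN B, Nat.log 2 (Nm d) ∈ Finset.range (J + 1) := fun d hd =>
    Finset.mem_range.2 (Nat.lt_succ_of_le (Nat.log_mono_right
      (Nat.le_floor (mem_ballN.1 hd).2)))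
  have J2 : ((J + 1 : ℕ) : ℝ) ≤ 801 * X ^ (1 / 400 : ℝ) := by
    have a1 := Real.log_le_log (by positivity) (J1.trans B2)
    rw [Real.log_pow] at a1
    have a2 := Real.log_le_rpow_div X0.le (ε := 1 / 400) (by norm_num)
    have a3 := Real.log_two_gt_d9
    have a4 : 1 ≤ X ^ (1 / 400 : ℝ) := Real.one_le_rpow hX (by norm_num)
    have a5 : (0 : ℝ) ≤ J := Nat.cast_nonneg _
    push_cast
    nlinarith
  refine (norm_sum_le _ _).trans ?_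
  rw [← Finset.sum_fiberwise_of_maps_to hmap]
  refine (Finset.sum_le_card_nsmul _ _ (C * X ^ (5 / 6 - 1 / 200 : ℝ)) fun j hj => ?_).trans ?_
  · refine le_trans (Finset.sum_le_sum fun d _ => ?_) (h X R S j hX hR hRX hS hSX
      ((pow_le_pow_right₀ (by norm_num) (Nat.le_of_lt_succ (Finset.mem_range.1 hj))).trans J1) _
      fun d hd => ⟨(mem_ballN.1 (Finset.mem_filter.1 hd).1).1, (Finset.mem_filter.1 hd).2⟩)
    rw [norm_mul]
    exact mul_le_of_le_one_left (norm_nonneg _) (hc d)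
  · rw [Finset.card_range, nsmul_eq_mul]
    calc _ ≤ 801 * X ^ (1 / 400 : ℝ) * (C * X ^ (5 / 6 - 1 / 200 : ℝ)) := by gcongr
      _ = 801 * C * (X ^ (1 / 400 : ℝ) * X ^ (5 / 6 - 1 / 200 : ℝ)) := by ring
      _ = _ := by rw [← Real.rpow_add X0]; norm_num

end

end Vale.Agent.P006
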