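import Vale.Agent.P006.TNum

namespace Vale.Agent.P006

open Vale.Agent.P026 Complex MeasureTheory Filter Topology
open scoped Classical ComplexConjugate Real MatrixGroups

noncomputable section

theorem t2_ring_sub (a b : ℝ) : ringN a b ⊆ ballN b := Finset.filter_subset _ _

theorem t2_shell {η : ℝ} (hη : 0 < η) (hη' : η ≤ 1 / 100) : ∃ ρ0 : ℝ, 0 < ρ0 ∧
    ∀ ρ : ℝ, 0 < ρ → ρ ≤ ρ0 → ∃ C : ℝ, 0 < C ∧ ∀ X A R : ℝ,
      1 ≤ X → 1 ≤ R → R ≤ A → A ≤ X ^ (2 / 3 - η) → A * R ≤ X ^ (1 + ρ / 1000) →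
      OpB (Kd (X ^ ρ)) (ballN A) (ringN (R / 2) R) (C * X ^ (2 / 3 - 4 * (ρ / 1000))) := by
  obtain ⟨θ1, p1, q1, h1⟩ := round1 hη
  obtain ⟨θ3, p3, q3, h3⟩ := round3
  refine ⟨min (min θ1 θ3) (η / 20), by positivity, fun ρ hρ hρ0 => ?_⟩
  have r1 : ρ ≤ θ1 := hρ0.trans ((min_le_left _ _).trans (min_le_left _ _))
  have r3 : ρ ≤ θ3 := hρ0.trans ((min_le_left _ _).trans (min_le_right _ _))
  have r2 : ρ ≤ η / 20 := hρ0.trans (min_le_right _ _)
  have hε : 0 < ρ / 3000 := by positivity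
  obtain ⟨C1, hC1, h1⟩ := h1 (ρ / 3000) hε (by linarith)
  obtain ⟨C3, hC3, h3⟩ := h3 (ρ / 3000) hε (by linarith)
  obtain ⟨C0, hC0, h0⟩ := opN_crude hε (ls1' hε)
  refine ⟨3 * C0 + 3 * C1 + C3, by positivity, fun X A R a1 a2 a3 a4 a5 => ?_⟩
  have hQ : 1 ≤ X ^ ρ := Real.one_le_rpow a1 hρ.le
  obtain ⟨x, rfl⟩ := tnum_exp (show 0 < X by linarith)
  obtain ⟨a, rfl⟩ := tnum_exp (show 0 < A by linarith)
  obtain ⟨r, rfl⟩ := tnum_exp (show 0 < R by linarith)
  have c0 : 0 ≤ x := by simpa using a1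
  have c1 : 0 ≤ r := by simpa using a2
  simp only [← Real.exp_mul, ← Real.exp_add, Real.exp_le_exp] at a3 a4 a5
  have d1 : 0 ≤ x * ρ := by positivity
  have d2 : x * ρ ≤ x * η / 20 := by nlinarith
  have d3 : x * η ≤ x / 100 := by nlinarith
  have d4 : x * ρ ≤ x * θ1 := by gcongr
  have d5 : x * ρ ≤ x * θ3 := by gcongr
  set T := Real.exp x ^ (2 / 3 - 4 * (ρ / 1000)) with hT
  have hT' : T = Real.exp (x * (2 / 3) - 4 * (x * ρ) / 1000) := by
    rw [hT, ← Real.exp_mul]; congr 1; ring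
  have hT0 : 0 < T := by rw [hT']; positivity
  rcases le_or_gt (a + r) (x - 10 * (x * ρ)) with k1 | k1
  · have := h0 (Real.exp x) (Real.exp x ^ ρ) (Real.exp a) (Real.exp r) a1 hQ (by positivity)
      (by rw [Real.exp_le_exp]; linarith) (by positivity) (by rw [Real.exp_le_exp]; linarith)
    refine this.mono subset_rfl (t2_ring_sub _ _) ?_
    simp only [← Real.exp_mul, ← Real.exp_add, ← Real.exp_nat_mul]
    have e1 : Real.exp (x * (ρ / 3000)) * Real.exp a ≤ T := by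
      rw [hT', ← Real.exp_add, Real.exp_le_exp]; linarith
    have e2 : Real.exp (x * (ρ / 3000)) * Real.exp r ≤ T := by
      rw [hT', ← Real.exp_add, Real.exp_le_exp]; linarith
    have e3 : Real.exp (x * (ρ / 3000)) *
        Real.exp (((6 : ℕ) : ℝ) * (x * ρ) + (a + r) * (2 / 3)) ≤ T := by
      rw [hT', ← Real.exp_add, Real.exp_le_exp]; push_cast; linarith
    calc _ = C0 * (Real.exp (x * (ρ / 3000)) * Real.exp a + Real.exp (x * (ρ / 3000)) * Real.exp r +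
        Real.exp (x * (ρ / 3000)) * Real.exp (((6 : ℕ) : ℝ) * (x * ρ) + (a + r) * (2 / 3))) := by
          ring
      _ ≤ C0 * (3 * T) := by gcongr; linarith
      _ ≤ _ := by nlinarith [mul_pos hC1 hT0, mul_pos hC3 hT0]
  rcases le_or_gt (r + x * ρ / 30) a with k2 | k2
  · have := h1 (Real.exp x) (Real.exp x ^ ρ) (Real.exp a) (Real.exp r) hQ
      (by simp only [← Real.exp_mul, Real.exp_le_exp]; linarith)
      (by simp only [← Real.exp_mul, Real.exp_le_exp]; linarith)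
      (by rw [Real.exp_le_exp]; linarith) (by rw [Real.exp_le_exp]; linarith)
      (by simp only [← Real.exp_mul, ← Real.exp_add, ← Real.exp_nat_mul, Real.exp_le_exp]
          push_cast; linarith)
    refine this.mono subset_rfl subset_rfl ?_
    simp only [← Real.exp_mul, ← Real.exp_add]
    have e1 : Real.exp (x * (4 * (ρ / 3000))) * Real.exp a ≤ T := by
      rw [hT', ← Real.exp_add, Real.exp_le_exp]; linarith
    have e2 : Real.exp (x * (4 * (ρ / 3000))) * Real.exp (a * (1 / 3) + r) ≤ T := by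
      rw [hT', ← Real.exp_add, Real.exp_le_exp]; linarith
    have e3 : Real.exp (x * (4 * (ρ / 3000))) *
        Real.exp (x * ρ * (-(1 / 6)) + (a + r) * (2 / 3)) ≤ T := by
      rw [hT', ← Real.exp_add, Real.exp_le_exp]; linarith
    calc _ = C1 * (Real.exp (x * (4 * (ρ / 3000))) * Real.exp a +
        Real.exp (x * (4 * (ρ / 3000))) * Real.exp (a * (1 / 3) + r) +
        Real.exp (x * (4 * (ρ / 3000))) *
          Real.exp (x * ρ * (-(1 / 6)) + (a + r) * (2 / 3))) := by ring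
      _ ≤ C1 * (3 * T) := by gcongr; linarith
      _ ≤ _ := by nlinarith [mul_pos hC0 hT0, mul_pos hC3 hT0]
  · have := h3 (Real.exp x) (Real.exp x ^ ρ) (Real.exp r) hQ
      (by simp only [← Real.exp_mul, Real.exp_le_exp]; linarith)
      (by simp only [← Real.exp_mul, Real.exp_le_exp]; linarith)
      (by simp only [← Real.exp_mul, Real.exp_le_exp]; linarith)
      (by simp only [← Real.exp_mul, ← Real.exp_add, Real.exp_le_exp]; linarith)
    refine this.mono (ballN_mono ?_) subset_rfl ?_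
    · simp only [← Real.exp_mul, ← Real.exp_add, Real.exp_le_exp]; linarith
    simp only [← Real.exp_mul]
    have e1 : Real.exp (x * (15 * (ρ / 3000))) * Real.exp (r * (4 / 3)) *
        Real.exp (x * ρ * (-(1 / 90))) ≤ T := by
      rw [hT', ← Real.exp_add, ← Real.exp_add, Real.exp_le_exp]; linarith
    calc _ = C3 * (Real.exp (x * (15 * (ρ / 3000))) * Real.exp (r * (4 / 3)) *
        Real.exp (x * ρ * (-(1 / 90)))) := by ring
      _ ≤ C3 * T := by gcongr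
      _ ≤ _ := by nlinarith [mul_pos hC0 hT0, mul_pos hC1 hT0]

/-- corrected cubic large sieve: type II for arbitrary coefficients -/
theorem t2 {η : ℝ} (hη : 0 < η) (hη' : η ≤ 1 / 100) : ∃ ρ0 : ℝ, 0 < ρ0 ∧
    ∀ ρ : ℝ, 0 < ρ → ρ ≤ ρ0 → ∃ κ : ℝ, 0 < κ ∧ ∃ C : ℝ, 0 ≤ C ∧ ∀ X A B : ℝ,
      1 ≤ X → 1 ≤ A → A ≤ X ^ (2 / 3 - η) → 1 ≤ B → B ≤ X ^ (2 / 3 - η) → A * B ≤ X ^ (1 + κ) →
      OpN (del (X ^ ρ)) A B (C * X ^ (2 / 3 - 3 * κ)) := by
  obtain ⟨ρ0, p0, h⟩ := t2_shell hη hη'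
  refine ⟨ρ0, p0, fun ρ hρ hρ0 => ⟨ρ / 1000, by positivity, ?_⟩⟩
  obtain ⟨C, hC, h⟩ := h ρ hρ hρ0
  obtain ⟨C', hC', h'⟩ := opB_of_shells (show 0 < ρ / 1000 by positivity)
  have key : ∀ X A B : ℝ, 1 ≤ X → 1 ≤ B → B ≤ A → A ≤ X ^ (2 / 3 - η) →
      A * B ≤ X ^ (1 + ρ / 1000) →
      OpB (Kd (X ^ ρ)) (ballN A) (ballN B) (C' * C * X ^ (2 / 3 - 3 * (ρ / 1000))) := by
    intro X A B a1 a2 a3 a4 a5
    have hX : 0 < X := by linarith
    have := h' (Kd (X ^ ρ)) (ballN A) B _ a2 (by positivity) fun R' b1 b2 =>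
      h X A R' a1 b1 (b2.trans a3) a4 (le_trans (by gcongr; linarith) a5)
    refine this.mono subset_rfl subset_rfl ?_
    have hB : B ≤ X := by
      refine a3.trans (a4.trans ?_)
      simpa using Real.rpow_le_rpow_of_exponent_le a1 (show 2 / 3 - η ≤ 1 by linarith)
    have e : X ^ (2 / 3 - 3 * (ρ / 1000)) = X ^ (ρ / 1000) * X ^ (2 / 3 - 4 * (ρ / 1000)) := by
      rw [← Real.rpow_add hX]; congr 1; ring
    rw [e]
    calc _ = C' * C * (B ^ (ρ / 1000) * X ^ (2 / 3 - 4 * (ρ / 1000))) := by ring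
      _ ≤ _ := by gcongr
  refine ⟨C' * C, by positivity, fun X A B a1 a2 a3 a4 a5 a6 => ?_⟩
  have hX : 0 < X := by linarith
  rcases le_total B A with k | k
  · exact key X A B a1 a4 k a3 a6
  · exact opB_Kd_symm (by positivity) (key X B A a1 a2 k a5 (by rwa [mul_comm]))

end

end Vale.Agent.P006
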