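import Vale.Agent.P006.TApx1

namespace Vale.Agent.P006

open Vale.Agent.P026 Complex MeasureTheory Filter Topology
open scoped Classical ComplexConjugate Real MatrixGroups

noncomputable section

theorem apx_pt {L y v E : ℝ} {n : O} (hn : Prim n ∧ OddO n) (hE : E ≤ 2)
    (hv : |v - (if N n ≤ y then 1 else 0)| ≤ E) :
    ‖(if n ∈ ballN y then (1 : ℂ) else 0) - apxNu L n * v‖ ^ 2 ≤
      dv n ^ 2 * (8 * (if ∃ l : O, L < N l ∧ l ^ 2 ∣ n then (1 : ℝ) else 0) + 4 * E) := by
  have n0 := hn.1.ne_zero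
  have d1 := one_le_dv n0
  have d2 := apx_nu_le L n0
  have E0 := (abs_nonneg _).trans hv
  set c : ℝ := if N n ≤ y then 1 else 0 with hc
  have e : (if n ∈ ballN y then (1 : ℂ) else 0) - apxNu L n * v =
      ((if NN n then 1 else 0) - apxNu L n) * c - apxNu L n * ((v - c : ℝ) : ℂ) := by
    simp only [mem_ballN, hc]
    by_cases k1 : NN n <;> by_cases k2 : N n ≤ y <;> simp [k1, k2] <;> ring
  have b2 : ‖apxNu L n * ((v - c : ℝ) : ℂ)‖ ≤ dv n * E := by
    rw [norm_mul, norm_real, Real.norm_eq_abs]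
    gcongr
  rw [e]
  split_ifs with k1 k2 k2
  rotate_left
  · rw [apx_nu_eq hn.1 hn.2 k2, if_pos k1] at b2 ⊢
    rw [sub_self, zero_mul, zero_sub, norm_neg]
    refine (pow_le_pow_left₀ (norm_nonneg _) b2 2).trans ?_
    rw [mul_pow]
    exact mul_le_mul_of_nonneg_left (by nlinarith) (by positivity)
  rotate_left
  · rw [apx_nu_eq hn.1 hn.2 k2, if_neg k1] at b2 ⊢
    simp only [sub_self, zero_mul, norm_zero, zero_pow two_ne_zero]
    positivity
  all_goals
    have c1 : ‖(c : ℂ)‖ ≤ 1 := by rw [hc]; split_ifs <;> simp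
    refine (pow_le_pow_left₀ (norm_nonneg _) ((norm_sub_le _ _).trans (add_le_add
      (show _ ≤ 2 * dv n from ?_) b2)) 2).trans ?_
    · rw [norm_mul]
      refine (mul_le_of_le_one_right (norm_nonneg _) c1).trans ((norm_sub_le _ _).trans ?_)
      simp only [norm_one, norm_zero]
      linarith
    · rw [show 2 * dv n + dv n * E = dv n * (2 + E) by ring, mul_pow]
      exact mul_le_mul_of_nonneg_left (by nlinarith) (by positivity)

/-- approximation of the indicator of `ballN y` by smooth sums -/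
theorem apx {ε : ℝ} (hε : 0 < ε) : ∃ C : ℝ, 0 < C ∧ ∀ Z X y L : ℝ, 1 ≤ L → L ≤ X → X ≤ Z → y ≤ X →
    ∃ d : O → ℂ, (∀ n, d n ≠ 0 → Prim n ∧ OddO n) ∧
      ∑ n ∈ ballO (2 * X), ‖d n‖ ^ 2 ≤ C * Z ^ ε * X / L ∧
      ∀ (f : O → ℂ) (B0 : ℝ), (∀ n, ‖f n‖ ≤ 1) → 0 ≤ B0 →
        (∀ l ∈ ballN L, ∀ τ : ℝ, ‖∑' n : O, (if Prim n ∧ OddO n then f (l ^ 2 * n) else 0) *
          Complex.exp (-(kap * (1 + τ * Complex.I) * ((N n / (X / N l ^ 2) : ℝ) : ℂ)))‖ ≤
            (1 + |τ|) * B0) →
        ‖∑ n ∈ ballN y, f n - ∑ n ∈ ballO (2 * X), d n * f n‖ ≤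
          C * Z ^ ε * (L ^ 3 * B0 + X * Real.exp (-L)) := by
  obtain ⟨C0, hC0, h0⟩ := smooth_cut
  obtain ⟨C1, hC1, h1⟩ := apx_one
  obtain ⟨C2, hC2, h2⟩ := apx_bad
  obtain ⟨C3, hC3, h3⟩ := apx_thin (ε := ε / 2) (by positivity)
  obtain ⟨C4, hC4, h4⟩ := dv_le (ε := ε / 4) (by positivity)
  obtain ⟨C5, hC5, h5⟩ := card_ballO_le
  refine ⟨C4 ^ 2 * 2 ^ ε * (16 * C2 + 8 * C3) + C5 * (C0 + C1), by positivity,
    fun Z X y L hL hX hZ hy => ?_⟩
  have L0 : 0 < L := by linarith
  have X0 : 0 < X := by linarith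
  have Z1 : 1 ≤ Z ^ ε := Real.one_le_rpow (by linarith) hε.le
  have y1 : max y 0 / X ≤ 1 := (div_le_one X0).2 (max_le hy X0.le)
  obtain ⟨m, V, hm, hm2, hM, hV, hA⟩ := h0 (1 / L) (max y 0 / X) (by positivity)
    ((div_le_one L0).2 hL) (by positivity) y1
  refine ⟨fun n => (if n ∈ ballN y then 1 else 0) -
    (if Prim n ∧ OddO n then apxNu L n * V (N n / X) else 0), fun n hn => ?_, ?_,
    fun f B0 hf hB0 hB => ?_⟩
  · by_contra k
    refine hn ?_
    simp only [if_neg k, if_neg fun c : n ∈ ballN y => k ⟨(mem_ballN.1 c).1.1, (mem_ballN.1 c).1.2.2⟩,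
      sub_zero]
  · have T1 : 1 ≤ X / L := (one_le_div L0).2 hX
    have r1 : 1 ≤ (2 * X) ^ (ε / 2) := Real.one_le_rpow (by linarith) (by positivity)
    calc _ ≤ ∑ n ∈ ballO (2 * X), C4 ^ 2 * (2 * X) ^ (ε / 2) *
          (8 * (if ∃ l : O, L < N l ∧ l ^ 2 ∣ n then (1 : ℝ) else 0) +
            4 * (Real.exp (-((N n - max y 0) / (X / L)) ^ 2) +
              Real.exp (-((N n - -X) / (X / L)) ^ 2))) := by
          refine Finset.sum_le_sum fun n hn => ?_
          obtain ⟨n0, n1⟩ := mem_ballO.1 hn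
          by_cases k : Prim n ∧ OddO n
          · have a := hA (N n / X) (div_nonneg (N_nonneg n) X0.le)
            have e1 : (N n / X - max y 0 / X) / (1 / L) = (N n - max y 0) / (X / L) := by field_simp
            have e2 : (N n / X + 1) / (1 / L) = (N n - -X) / (X / L) := by field_simp; ring
            have e3 : N n / X ≤ max y 0 / X ↔ N n ≤ y := by
              rw [div_le_div_iff_of_pos_right X0, le_max_iff, or_iff_left (not_le.2 (N_pos n0))]
            simp only [e1, e2, e3] at a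
            have u : ∀ t : ℝ, Real.exp (-t ^ 2) ≤ 1 := fun t =>
              Real.exp_le_one_iff.2 (neg_nonpos.2 (sq_nonneg t))
            simp only [if_pos k]
            refine (apx_pt k (by linarith [u ((N n - max y 0) / (X / L)), u ((N n - -X) / (X / L))])
              a).trans (mul_le_mul_of_nonneg_right ?_ (by positivity))
            have d0 : 0 ≤ dv n := zero_le_one.trans (one_le_dv n0)
            have := N_nonneg n
            calc _ ≤ (C4 * (2 * X) ^ (ε / 4)) ^ 2 := by
                  gcongr; exact (h4 n n0).trans (by gcongr)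
              _ = _ := by
                  rw [mul_pow, ← Real.rpow_natCast (_ ^ _), ← Real.rpow_mul (by positivity)]
                  congr 2; push_cast; ring
          · simp only [if_neg k, if_neg fun c : n ∈ ballN y =>
              k ⟨(mem_ballN.1 c).1.1, (mem_ballN.1 c).1.2.2⟩, sub_zero, norm_zero,
              zero_pow two_ne_zero]
            positivity
      _ ≤ C4 ^ 2 * (2 * X) ^ (ε / 2) * (8 * (C2 * (2 * X) / L * (2 * X) ^ (ε / 2)) +
            4 * (C3 * (2 * X) ^ (ε / 2) * (X / L) + C3 * (2 * X) ^ (ε / 2) * (X / L))) := by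
          rw [← Finset.mul_sum, Finset.sum_add_distrib, ← Finset.mul_sum, ← Finset.mul_sum,
            Finset.sum_add_distrib]
          gcongr
          · exact (h2 _ _ (by positivity) L0).trans (le_mul_of_one_le_right (by positivity) r1)
          · exact h3 _ _ _ (by positivity) T1
          · exact h3 _ _ _ (by positivity) T1
      _ = C4 ^ 2 * (16 * C2 + 8 * C3) * ((2 * X) ^ (ε / 2) * (2 * X) ^ (ε / 2)) * X / L := by ring
      _ ≤ C4 ^ 2 * (16 * C2 + 8 * C3) * (2 ^ ε * Z ^ ε) * X / L := by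
          rw [← Real.rpow_add (by positivity), add_halves, Real.mul_rpow two_pos.le X0.le]
          gcongr
      _ = C4 ^ 2 * 2 ^ ε * (16 * C2 + 8 * C3) * Z ^ ε * X / L := by ring
      _ ≤ _ := by gcongr; exact le_add_of_nonneg_right (by positivity)
  · have sub : ballN y ⊆ ballO (2 * X) :=
      (Finset.filter_subset _ _).trans (ballO_mono (by linarith))
    have e : ∑ n ∈ ballN y, f n - ∑ n ∈ ballO (2 * X), ((if n ∈ ballN y then 1 else 0) -
        (if Prim n ∧ OddO n then apxNu L n * V (N n / X) else 0)) * f n =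
        ∑ l ∈ ballN L, mu l * ∑ n ∈ ballO (2 * X),
          (if (Prim n ∧ OddO n) ∧ l ^ 2 ∣ n then f n * V (N n / X) else 0) := by
      simp only [sub_mul, Finset.sum_sub_distrib, ite_mul, one_mul, zero_mul, Finset.mul_sum]
      rw [← Finset.sum_filter (s := ballO (2 * X)) (p := (· ∈ ballN y)), Finset.filter_mem_eq_inter,
        Finset.inter_eq_right.2 sub, sub_sub_cancel, Finset.sum_comm]
      refine Finset.sum_congr rfl fun n _ => ?_
      by_cases k : Prim n ∧ OddO n
      · simp only [k, true_and, if_true, apxNu, Finset.sum_mul]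
        exact Finset.sum_congr rfl fun l _ => by split_ifs <;> ring
      · simp [k]
    rw [e]
    have cL : ((ballN L).card : ℝ) ≤ C5 * L :=
      (Nat.cast_le.2 (Finset.card_filter_le _ _)).trans (h5 L L0.le)
    have eL : L * Real.exp (-(2 * L)) ≤ Real.exp (-L) := by
      rw [show -L = L + -(2 * L) by ring, Real.exp_add]
      gcongr; linarith [Real.add_one_le_exp L]
    calc _ ≤ ∑ l ∈ ballN L, (C0 * L ^ 2 * B0 + C1 * X * Real.exp (-(2 * L))) := by
          refine norm_sum_le_of_le _ fun l hl => ?_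
          rw [norm_mul]
          refine (mul_le_of_le_one_left (norm_nonneg _) (norm_mu_le l)).trans ((h1 m V X L _ B0 f l
            hL X0 y1 (mem_ballN.1 hl).1 hm hm2 hV hA hf (hB l hl)).trans ?_)
          gcongr
          exact hM.trans (le_of_eq (by field_simp))
      _ ≤ C5 * L * (C0 * L ^ 2 * B0 + C1 * X * Real.exp (-(2 * L))) := by
          rw [Finset.sum_const, nsmul_eq_mul]; gcongr
      _ = C5 * (C0 * (L ^ 3 * B0) + C1 * (X * (L * Real.exp (-(2 * L))))) := by ring
      _ ≤ C5 * ((C0 + C1) * (L ^ 3 * B0) + (C0 + C1) * (X * Real.exp (-L))) := by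
          gcongr <;> linarith
      _ = C5 * (C0 + C1) * 1 * (L ^ 3 * B0 + X * Real.exp (-L)) := by ring
      _ ≤ _ := by gcongr; exact le_add_of_nonneg_left (by positivity)

end

end Vale.Agent.P006
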