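import Vale.Agent.P006.TSm
import Vale.Agent.P006.LBas

namespace Vale.Agent.P006

open Vale.Agent.P026 Complex MeasureTheory Filter Topology
open scoped Classical ComplexConjugate Real MatrixGroups

noncomputable section

/-- truncated Moebius sum over square divisors -/
def apxNu (L : ℝ) (n : O) : ℂ := ∑ l ∈ ballN L, if l ^ 2 ∣ n then mu l else 0

theorem apx_nu_le (L : ℝ) {n : O} (hn : n ≠ 0) : ‖apxNu L n‖ ≤ dv n := by
  rw [apxNu, ← Finset.sum_filter]
  refine (norm_sum_le _ _).trans ((Finset.sum_le_card_nsmul _ _ 1 fun l _ => norm_mu_le l).trans ?_)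
  rw [nsmul_eq_mul, mul_one]
  exact card_le_dv hn _ fun d hd => (dvd_pow_self d two_ne_zero).trans (Finset.mem_filter.1 hd).2

theorem apx_nu_eq {L : ℝ} {n : O} (hn : Prim n) (ho : OddO n)
    (h : ¬ ∃ l : O, L < N l ∧ l ^ 2 ∣ n) : apxNu L n = if NN n then 1 else 0 := by
  obtain ⟨b, a, hb, ha, e⟩ := exists_sqfree_mul_sq hn.ne_zero
  have k : ∀ l : O, Squarefree l → (l ^ 2 ∣ n ↔ l ∣ a) := fun l hl =>
    ⟨fun h => (hl.dvd_pow_iff_dvd two_ne_zero).1
      (hb.dvd_of_squarefree_of_mul_dvd_mul_right (by rwa [← e, ← sq])),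
      fun h => e ▸ (pow_dvd_pow_of_dvd h 2).mul_left b⟩
  have an : a ∣ n := ⟨b * a, by rw [e]; ring⟩
  have k2 : IsCoprime a n ↔ NN n :=
    ⟨fun h => ⟨hn, by
      rw [e]
      exact (squarefree_mul_iff.2 ⟨((h.isUnit_of_dvd' dvd_rfl an).pow 2).isRelPrime_right,
        hb, ((h.isUnit_of_dvd' dvd_rfl an).pow 2).squarefree⟩), ho⟩,
      fun h => by
        obtain ⟨u, rfl⟩ := h.2.1 a ⟨b, by rw [e]; ring⟩
        exact ⟨↑u⁻¹, 0, by simp⟩⟩
  rw [← if_congr k2 rfl rfl, ← sum_mu_divs hn ho a, apxNu, ← Finset.sum_filter, ← Finset.sum_filter]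
  refine Finset.sum_congr ?_ fun _ _ => rfl
  ext l
  simp only [Finset.mem_filter, mem_ballN, mem_divs hn.ne_zero]
  exact ⟨fun g => ⟨⟨g.1.1, (dvd_pow_self l two_ne_zero).trans g.2⟩, (k l g.1.1.2.1).1 g.2⟩,
    fun g => ⟨⟨g.1.1, not_lt.1 fun c => h ⟨l, c, (k l g.1.1.2.1).2 g.2⟩⟩, (k l g.1.1.2.1).2 g.2⟩⟩

theorem apx_bad : ∃ C : ℝ, 0 < C ∧ ∀ R L : ℝ, 0 ≤ R → 0 < L →
    ∑ n ∈ ballO R, (if ∃ l : O, L < N l ∧ l ^ 2 ∣ n then (1 : ℝ) else 0) ≤ C * R / L := by
  obtain ⟨C, hC, h⟩ := card_ballO_le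
  obtain ⟨C1, hC1, h1⟩ := lat_tail_one (s := 2) (by norm_num)
  refine ⟨C * C1, by positivity, fun R L hR hL => ?_⟩
  calc _ ≤ ∑ n ∈ ballO R, ∑ l ∈ ballO R, (if L < N l ∧ l ^ 2 ∣ n then (1 : ℝ) else 0) := by
        refine Finset.sum_le_sum fun n hn => ?_
        split_ifs with k
        · obtain ⟨l, k1, k2⟩ := k
          have n0 := mem_ballO.1 hn
          have k3 := (dvd_pow_self l two_ne_zero).trans k2
          refine le_trans (le_of_eq (if_pos ⟨k1, k2⟩).symm) (Finset.single_le_sum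
            (f := fun l => if L < N l ∧ l ^ 2 ∣ n then (1 : ℝ) else 0) (fun _ _ => by positivity)
            (mem_ballO.2 ⟨ne_zero_of_dvd_ne_zero n0.1 k3, (N_le_of_dvd k3 n0.1).trans n0.2⟩))
        · positivity
    _ ≤ ∑ l ∈ ballO R, C * R * (if L < N l then N l ^ (-2 : ℝ) else 0) := by
        rw [Finset.sum_comm]
        refine Finset.sum_le_sum fun l hl => ?_
        have l0 := N_pos (mem_ballO.1 hl).1
        by_cases k : L < N l
        · simp only [k, true_and, if_true]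
          rw [← Finset.sum_filter]
          refine (sum_le_of_cover _ (ballO (R / N l ^ 2)) (fun m => l ^ 2 * m) (f := fun _ => (1 : ℝ))
            (fun _ => zero_le_one) fun n hn => ?_).trans ?_
          · obtain ⟨k1, m, rfl⟩ := Finset.mem_filter.1 hn
            obtain ⟨k2, k3⟩ := mem_ballO.1 k1
            refine ⟨m, mem_ballO.2 ⟨right_ne_zero_of_mul k2, ?_⟩, rfl⟩
            rw [N_mul, N_pow] at k3
            rw [le_div_iff₀ (by positivity)]; linarith
          · rw [Finset.sum_const, nsmul_eq_mul, mul_one]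
            refine (h _ (by positivity)).trans (le_of_eq ?_)
            rw [Real.rpow_neg l0.le, Real.rpow_two]
            ring
        · simp [k]
    _ ≤ C * R * (C1 * L ^ (1 - 2 : ℝ)) := by
        rw [← Finset.mul_sum]
        exact mul_le_mul_of_nonneg_left (((h1 L hL).1.sum_le_tsum _ fun n _ => by
          have := N_nonneg n; positivity).trans (h1 L hL).2) (by positivity)
    _ = _ := by
        rw [show (1 - 2 : ℝ) = -1 by norm_num, Real.rpow_neg_one]; ring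

theorem apx_thin {ε : ℝ} (hε : 0 < ε) : ∃ C : ℝ, 0 < C ∧ ∀ R T Y : ℝ, 0 ≤ R → 1 ≤ T →
    ∑ n ∈ ballO R, Real.exp (-((N n - Y) / T) ^ 2) ≤ C * R ^ ε * T := by
  obtain ⟨C, hC, hc⟩ := card_norm_le hε
  refine ⟨C * 8, by positivity, fun R T Y hR hT => ?_⟩
  have T0 : 0 < T := by linarith
  calc _ = ∑ k ∈ Finset.range (⌊R⌋₊ + 1), ∑ n ∈ (ballO R).filter (fun n => Nm n = k),
          Real.exp (-((N n - Y) / T) ^ 2) := by
        refine (Finset.sum_fiberwise_of_maps_to (fun n hn => ?_) _).symm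
        exact Finset.mem_range.2 (Nat.lt_succ_of_le (Nat.le_floor (mem_ballO.1 hn).2))
    _ ≤ ∑ k ∈ Finset.range (⌊R⌋₊ + 1), C * R ^ ε * (2 * T) * (T / (T + |(k : ℝ) - Y|) ^ 2) := by
        refine Finset.sum_le_sum fun k hk => ?_
        have k1 : (k : ℝ) ≤ R :=
          (Nat.cast_le.2 (Nat.le_of_lt_succ (Finset.mem_range.1 hk))).trans (Nat.floor_le hR)
        rw [Finset.sum_congr rfl fun n hn => by rw [N, (Finset.mem_filter.1 hn).2],
          Finset.sum_const, nsmul_eq_mul, mul_assoc _ (2 * T)]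
        refine mul_le_mul ((hc k R).trans (by gcongr)) ?_ (Real.exp_pos _).le (by positivity)
        have a1 := Real.add_one_le_exp ((((k : ℝ) - Y) / T) ^ 2)
        rw [Real.exp_neg, ← mul_div_assoc, inv_eq_one_div, div_le_div_iff₀ (Real.exp_pos _)
          (by positivity)]
        refine le_trans ?_ (mul_le_mul_of_nonneg_left a1 (by positivity))
        have a2 : 2 * T * T * ((((k : ℝ) - Y) / T) ^ 2 + 1) = 2 * (|(k : ℝ) - Y| ^ 2 + T ^ 2) := by
          rw [sq_abs]; field_simp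
        rw [a2]
        nlinarith [sq_nonneg (T - |(k : ℝ) - Y|)]
    _ ≤ C * R ^ ε * (2 * T) * 4 := by
        rw [← Finset.mul_sum]
        exact mul_le_mul_of_nonneg_left (thin_sum hT Y _) (by positivity)
    _ = _ := by ring

/-- the smooth sum as an integral -/
theorem apx_full {m : ℝ → ℂ} {V : ℝ → ℝ} {T B0 : ℝ} {g : O → ℂ} (hT : 0 < T) (hm : Integrable m)
    (hm2 : Integrable (fun τ => ‖m τ‖ * (1 + |τ|)))
    (hV : ∀ x : ℝ, ((V x : ℝ) : ℂ) =
      ∫ τ : ℝ, m τ * Complex.exp (-(kap * (1 + τ * Complex.I) * (x : ℂ))))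
    (hg : ∀ n, ‖g n‖ ≤ 1)
    (hB : ∀ τ : ℝ, ‖∑' n : O, g n *
      Complex.exp (-(kap * (1 + τ * Complex.I) * ((N n / T : ℝ) : ℂ)))‖ ≤ (1 + |τ|) * B0) :
    ∃ S : ℂ, HasSum (fun n => g n * V (N n / T)) S ∧ ‖S‖ ≤ (∫ τ, ‖m τ‖ * (1 + |τ|)) * B0 := by
  obtain ⟨C, -, h⟩ := sum_exp_le kap_pos
  have nb : ∀ (n : O) (τ : ℝ), ‖g n * Complex.exp (-(kap * (1 + τ * Complex.I) *
      ((N n / T : ℝ) : ℂ)))‖ ≤ Real.exp (-(kap * N n / T)) := fun n τ => by
    rw [norm_mul, norm_exp]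
    refine (mul_le_of_le_one_left (Real.exp_pos _).le (hg n)).trans (le_of_eq ?_)
    congr 1
    simp only [neg_re, mul_re, ofReal_re, ofReal_im, add_re, one_re, I_re, I_im, mul_im, add_im]
    ring
  have iF : ∀ n : O, Integrable fun τ : ℝ => m τ * (g n * Complex.exp (-(kap * (1 + τ * Complex.I) *
      ((N n / T : ℝ) : ℂ)))) := fun n =>
    hm.mul_bdd (Continuous.aestronglyMeasurable (by fun_prop)) (.of_forall (nb n))
  have hs := hasSum_integral_of_summable_integral_norm iF (by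
    refine ((h T hT).1.mul_left (∫ τ, ‖m τ‖)).of_nonneg_of_le
      (fun n => integral_nonneg fun _ => norm_nonneg _) fun n => ?_
    rw [← integral_mul_const]
    refine integral_mono (iF n).norm (hm.norm.mul_const _) fun τ => ?_
    simp only [norm_mul (m τ)]
    exact mul_le_mul_of_nonneg_left (nb n τ) (norm_nonneg _))
  simp only [mul_left_comm (m _) (g _), integral_const_mul, ← hV] at hs
  refine ⟨_, hs, ?_⟩
  rw [← integral_mul_const]
  refine norm_integral_le_of_norm_le (hm2.mul_const _) (.of_forall fun τ => ?_)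
  simp only [mul_left_comm (g _) (m _)]
  rw [tsum_mul_left, norm_mul, mul_assoc]
  exact mul_le_mul_of_nonneg_left (hB τ) (norm_nonneg _)

theorem apx_exp {L x y0 : ℝ} (hL : 1 ≤ L) (hx : 2 ≤ x) (h : y0 ≤ 1) :
    Real.exp (-((x - y0) / (1 / L)) ^ 2) ≤
      Real.exp (4 - 2 * L) * Real.exp (-(1 * x)) := by
  rw [← Real.exp_add, Real.exp_le_exp, one_div, div_inv_eq_mul]
  have t1 : 1 ≤ x - y0 := by linarith
  nlinarith [sq_nonneg ((x - y0) * L - 3 / 2), mul_le_mul_of_nonneg_left hL (zero_le_one.trans t1),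
    mul_le_mul_of_nonneg_right t1 (zero_le_one.trans hL)]

/-- the contribution of one square divisor -/
theorem apx_one : ∃ C : ℝ, 0 < C ∧ ∀ (m : ℝ → ℂ) (V : ℝ → ℝ) (X L y0 B0 : ℝ) (f : O → ℂ) (l : O),
    1 ≤ L → 0 < X → y0 ≤ 1 → NN l → Integrable m → Integrable (fun τ => ‖m τ‖ * (1 + |τ|)) →
    (∀ x : ℝ, ((V x : ℝ) : ℂ) =
      ∫ τ : ℝ, m τ * Complex.exp (-(kap * (1 + τ * Complex.I) * (x : ℂ)))) →
    (∀ x : ℝ, 0 ≤ x → |V x - (if x ≤ y0 then 1 else 0)| ≤
      Real.exp (-((x - y0) / (1 / L)) ^ 2) + Real.exp (-((x + 1) / (1 / L)) ^ 2)) →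
    (∀ n, ‖f n‖ ≤ 1) →
    (∀ τ : ℝ, ‖∑' n : O, (if Prim n ∧ OddO n then f (l ^ 2 * n) else 0) *
      Complex.exp (-(kap * (1 + τ * Complex.I) * ((N n / (X / N l ^ 2) : ℝ) : ℂ)))‖ ≤
        (1 + |τ|) * B0) →
    ‖∑ n ∈ ballO (2 * X), (if (Prim n ∧ OddO n) ∧ l ^ 2 ∣ n then f n * V (N n / X) else 0)‖ ≤
      (∫ τ, ‖m τ‖ * (1 + |τ|)) * B0 + C * X * Real.exp (-(2 * L)) := by
  obtain ⟨C, hC, h⟩ := sum_exp_le one_pos
  refine ⟨2 * Real.exp 4 * C, by positivity,
    fun m V X L y0 B0 f l hL hX hy hl hm hm2 hV hA hf hB => ?_⟩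
  have l0 := N_pos hl.ne_zero
  obtain ⟨S, hS, hb⟩ := apx_full (div_pos hX (pow_pos l0 2)) hm hm2 hV (fun n => by
    split_ifs
    · exact hf _
    · simp) hB
  set g : O → ℂ := fun n => if (Prim n ∧ OddO n) ∧ l ^ 2 ∣ n then f n * V (N n / X) else 0 with hg
  have hS' : HasSum g S := by
    refine ((mul_right_injective₀ (pow_ne_zero 2 hl.ne_zero)).hasSum_iff fun n hn => ?_).1 ?_
    · exact if_neg fun k => hn (let ⟨c, hc⟩ := k.2; ⟨c, hc.symm⟩)
    · convert hS using 1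
      funext n
      have k : (Prim (l ^ 2 * n) ∧ OddO (l ^ 2 * n)) ∧ l ^ 2 ∣ l ^ 2 * n ↔ Prim n ∧ OddO n :=
        ⟨fun k => ⟨k.1.1.of_mul (hl.1.pow 2), (oddO_mul.1 k.1.2).2⟩,
          fun k => ⟨⟨(hl.1.pow 2).mul k.1, oddO_mul.2 ⟨hl.2.2.pow 2, k.2⟩⟩, dvd_mul_right _ _⟩⟩
      have e : N (l ^ 2 * n) / X = N n / (X / N l ^ 2) := by rw [N_mul, N_pow]; field_simp
      simp only [Function.comp, hg, k, e, ite_mul, zero_mul]
  have h1 := hasSum_sum_of_ne_finset_zero (f := fun n => if n ∈ ballO (2 * X) then g n else 0)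
    (s := ballO (2 * X)) (L := SummationFilter.unconditional O) fun n hn => if_neg hn
  rw [Finset.sum_congr rfl fun n hn => if_pos hn] at h1
  have s1 : Summable fun n : O => if n ≠ 0 then Real.exp (-(1 * N n / X)) else 0 :=
    (h X hX).1.of_nonneg_of_le (fun _ => by positivity) fun n => by
      split_ifs
      · rfl
      · positivity
  have h2 := (hS'.sub h1).norm_le_of_bounded (s1.hasSum.mul_left (2 * Real.exp (4 - 2 * L)))
    fun n => by
      by_cases k : n ∈ ballO (2 * X)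
      · rw [if_pos k, sub_self, norm_zero]; positivity
      rw [if_neg k, sub_zero]
      simp only [hg]
      by_cases k1 : (Prim n ∧ OddO n) ∧ l ^ 2 ∣ n
      · have n0 := k1.1.1.ne_zero
        have k2 : 2 ≤ N n / X := by
          rw [le_div_iff₀ hX]
          exact le_of_lt (not_le.1 fun c => k (mem_ballO.2 ⟨n0, c⟩))
        have a1 := hA (N n / X) (by linarith)
        rw [if_neg (by linarith), sub_zero] at a1
        have a2 := apx_exp hL k2 hy
        have a3 := apx_exp (y0 := -1) hL k2 (by norm_num)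
        rw [sub_neg_eq_add] at a3
        rw [if_pos k1, if_pos n0, norm_mul, norm_real, Real.norm_eq_abs, mul_div_assoc]
        refine (mul_le_of_le_one_left (abs_nonneg _) (hf n)).trans ?_
        linarith
      · rw [if_neg k1, norm_zero]; positivity
  have h3 := mul_le_mul_of_nonneg_left (h X hX).2 (show 0 ≤ 2 * Real.exp (4 - 2 * L) by positivity)
  have h4 : 2 * Real.exp (4 - 2 * L) * (C * X) = 2 * Real.exp 4 * C * X * Real.exp (-(2 * L)) := by
    rw [sub_eq_add_neg, Real.exp_add]; ring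
  have h5 := norm_sub_le S (S - ∑ n ∈ ballO (2 * X), g n)
  rw [sub_sub_cancel] at h5
  linarith

end

end Vale.Agent.P006
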