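import Vale.Agent.P006.LBas
import Vale.Agent.P006.T1

namespace Vale.Agent.P006

open Vale.Agent.P026 Complex MeasureTheory Filter Topology
open scoped Classical ComplexConjugate Real MatrixGroups

noncomputable section

theorem tgs_empty {y : ℝ} (h : y < 1) : ballN y = ∅ := by
  rw [ballN, ballO_eq_empty h, Finset.filter_empty]

theorem tgs_row : ∃ c : ℝ, 0 < c ∧ ∃ C : ℝ, 0 < C ∧ ∀ (Z X y R : ℝ) (k j : O),
    1 ≤ Z → Z ^ (1 / 4 : ℝ) ≤ X → X ≤ Z → y ≤ X → 1 ≤ R → R ≤ Z → k ≠ 0 → N k ≤ R → NN j →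
    ‖∑ m ∈ ballN (y / N j), G (j * m) * conj (sym3 k m)‖ ≤
      C * R ^ c * Z ^ (-(1 / 200) : ℝ) * X := by
  obtain ⟨c0, hc0, h⟩ := ti2
  obtain ⟨C1, c1, h1⟩ := h (1 / 1000) (by norm_num)
  obtain ⟨C2, c2, h2⟩ := norm_mdl_le
  obtain ⟨C3, c3, h3⟩ := sum_N_rpow_le (a := -(1 / 6)) (by norm_num)
  refine ⟨c0 + 3, by positivity, 2 * √C1 + C2 * C3, by positivity,
    fun Z X y R k j hZ hX hXZ hy hR hRZ hk hkR hj => ?_⟩
  have Z0 : 0 < Z := by linarith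
  have R0 : 0 < R := by linarith
  have X1 : 1 ≤ X := (Real.one_le_rpow hZ (by norm_num)).trans hX
  have X0 : 0 < X := by linarith
  have j1 := one_le_N hj.ne_zero
  have j0 : 0 < N j := by linarith
  rcases lt_or_ge (y / N j) 1 with hY | hY
  · rw [tgs_empty hY, Finset.sum_empty, norm_zero]
    positivity
  obtain ⟨Y, hYe⟩ : ∃ Y, Y = y / N j := ⟨_, rfl⟩
  rw [← hYe] at hY ⊢
  have Y0 : 0 < Y := by linarith
  have jY : N j * Y ≤ X := by rw [hYe, mul_div_cancel₀ _ j0.ne']; exact hy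
  have jX : N j ≤ X := (le_mul_of_one_le_right j0.le hY).trans jY
  have YX : Y ≤ X := (le_mul_of_one_le_left Y0.le j1).trans jY
  have e : ∑ m ∈ ballN Y, G (j * m) * conj (sym3 k m) =
      ∑ m ∈ ballN Y, del R (j * m) * conj (sym3 k m) +
        ∑ m ∈ ballN Y, mdl R (j * m) * conj (sym3 k m) := by
    rw [← Finset.sum_add_distrib]
    exact Finset.sum_congr rfl fun m _ => by rw [del]; ring
  have Rc : ∀ a, a ≤ c0 + 3 → R ^ a ≤ R ^ (c0 + 3) := fun a ha =>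
    Real.rpow_le_rpow_of_exponent_le hR ha
  have Xp : ∀ a : ℝ, 0 ≤ a → X ^ (-a) ≤ Z ^ (-(a / 4)) := fun a ha => by
    refine (Real.rpow_le_rpow_of_nonpos (by positivity) hX (by linarith)).trans_eq ?_
    rw [← Real.rpow_mul Z0.le]
    congr 1
    ring
  have b1 : ‖∑ m ∈ ballN Y, del R (j * m) * conj (sym3 k m)‖ ≤
      2 * √C1 * R ^ (c0 + 3) * Z ^ (-(1 / 200) : ℝ) * X := by
    have W1 : 1 ≤ Z ^ (1 / 66 : ℝ) := Real.one_le_rpow hZ (by norm_num)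
    have WZ : Z ^ (1 / 66 : ℝ) ≤ Z := by
      simpa using Real.rpow_le_rpow_of_exponent_le hZ (by norm_num : (1 / 66 : ℝ) ≤ 1)
    have a0 := (Finset.single_le_sum
      (f := fun a => ‖∑ m ∈ ballN Y, del R (a * m) * conj (sym3 k m)‖ ^ 2)
      (fun _ _ => by positivity) (mem_ballN.2 ⟨hj, le_rfl⟩)).trans
      (h1 Z (N j) Y R _ k j1 (jX.trans hXZ) hY (YX.trans hXZ) hR hRZ W1 WZ hk hkR)
    have x43 : X ^ (4 / 3 : ℝ) ≤ X ^ 2 * Z ^ (-(1 / 6) : ℝ) := by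
      have := Xp (2 / 3) (by norm_num)
      rw [show (4 / 3 : ℝ) = 2 + -(2 / 3) by norm_num, Real.rpow_add X0, Real.rpow_two]
      refine mul_le_mul_of_nonneg_left (this.trans_eq ?_) (by positivity)
      norm_num
    have a1 : N j * Y ≤ X ^ (4 / 3 : ℝ) := jY.trans (by
      simpa using Real.rpow_le_rpow_of_exponent_le X1 (by norm_num : (1 : ℝ) ≤ 4 / 3))
    have a2 : N j ^ (4 / 3 : ℝ) * Y ^ (1 / 3 : ℝ) ≤ X ^ (4 / 3 : ℝ) := by
      rw [show (4 / 3 : ℝ) = 1 + 1 / 3 by norm_num, Real.rpow_add j0, Real.rpow_add X0, mul_assoc,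
        ← Real.mul_rpow j0.le Y0.le, Real.rpow_one, Real.rpow_one]
      gcongr
    have a3 : N j ^ (2 / 3 : ℝ) * Y ^ (5 / 3 : ℝ) ≤ X ^ 2 := by
      rw [show (5 / 3 : ℝ) = 2 / 3 + 1 by norm_num, Real.rpow_add Y0, ← mul_assoc,
        ← Real.mul_rpow j0.le Y0.le, Real.rpow_one, sq]
      refine mul_le_mul ((Real.rpow_le_rpow (by positivity) jY (by norm_num)).trans ?_) YX Y0.le
        X0.le
      simpa using Real.rpow_le_rpow_of_exponent_le X1 (by norm_num : (2 / 3 : ℝ) ≤ 1)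
    have a4 : (Z ^ (1 / 66 : ℝ)) ^ 10 * Z ^ (-(1 / 6) : ℝ) = (Z ^ (1 / 66 : ℝ))⁻¹ := by
      rw [← Real.rpow_natCast, ← Real.rpow_mul Z0.le, ← Real.rpow_add Z0, ← Real.rpow_neg Z0.le]
      norm_num
    have a5 : Z ^ (1 / 1000 : ℝ) * (Z ^ (1 / 66 : ℝ))⁻¹ ≤ (Z ^ (-(1 / 200) : ℝ)) ^ 2 := by
      rw [← Real.rpow_neg Z0.le, ← Real.rpow_add Z0, sq, ← Real.rpow_add Z0]
      exact Real.rpow_le_rpow_of_exponent_le hZ (by norm_num)
    have a6 : R ^ c0 ≤ (R ^ (c0 + 3)) ^ 2 := (Rc c0 (by linarith)).trans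
      (le_self_pow₀ (Real.one_le_rpow hR (by positivity)) two_ne_zero)
    refine (pow_le_pow_iff_left₀ (norm_nonneg _) (by positivity) two_ne_zero).1 (a0.trans ?_)
    calc _ ≤ C1 * Z ^ (1 / 1000 : ℝ) * R ^ c0 * ((Z ^ (1 / 66 : ℝ)) ^ 10 *
          (X ^ 2 * Z ^ (-(1 / 6) : ℝ) + X ^ 2 * Z ^ (-(1 / 6) : ℝ)) +
          (X ^ 2 + X ^ 2) / Z ^ (1 / 66 : ℝ)) := by
          have a7 := add_le_add (a1.trans x43) (a2.trans x43)
          gcongr
      _ = 2 * C1 * Z ^ (1 / 1000 : ℝ) * R ^ c0 * X ^ 2 *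
          ((Z ^ (1 / 66 : ℝ)) ^ 10 * Z ^ (-(1 / 6) : ℝ) + (Z ^ (1 / 66 : ℝ))⁻¹) := by ring
      _ = 4 * C1 * R ^ c0 * (Z ^ (1 / 1000 : ℝ) * (Z ^ (1 / 66 : ℝ))⁻¹) * X ^ 2 := by
          rw [a4]
          ring
      _ ≤ 4 * C1 * (R ^ (c0 + 3)) ^ 2 * (Z ^ (-(1 / 200) : ℝ)) ^ 2 * X ^ 2 := by gcongr
      _ = _ := by
          rw [mul_pow, mul_pow, mul_pow, mul_pow, Real.sq_sqrt c1.le]
          norm_num
  have b2 : ‖∑ m ∈ ballN Y, mdl R (j * m) * conj (sym3 k m)‖ ≤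
      C2 * C3 * R ^ (c0 + 3) * Z ^ (-(1 / 200) : ℝ) * X := by
    calc _ ≤ ∑ m ∈ ballN Y, C2 * R ^ 3 * N m ^ (-(1 / 6) : ℝ) := by
          refine norm_sum_le_of_le _ fun m hm => ?_
          have m0 := N_pos (mem_ballN.1 hm).1.ne_zero
          rw [norm_mul, norm_conj]
          refine (mul_le_of_le_one_right (norm_nonneg _) (norm_sym3_le _ _)).trans
            ((h2 R _ hR).trans (mul_le_mul_of_nonneg_left ?_ (by positivity)))
          rw [N_mul]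
          exact Real.rpow_le_rpow_of_nonpos m0 (le_mul_of_one_le_left m0.le j1) (by norm_num)
      _ ≤ C2 * R ^ 3 * (C3 * X ^ (1 + -(1 / 6) : ℝ)) := by
          rw [← Finset.mul_sum]
          refine mul_le_mul_of_nonneg_left (le_trans (Finset.sum_le_sum_of_subset_of_nonneg
            ((dual_sub Y).trans (ballO_mono YX)) fun m _ _ =>
              Real.rpow_nonneg (N_nonneg m) _) (h3 X X0.le)) (by positivity)
      _ = C2 * C3 * R ^ 3 * X ^ (-(1 / 6) : ℝ) * X := by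
          rw [Real.rpow_add X0, Real.rpow_one]
          ring
      _ ≤ _ := by
          gcongr
          · rw [← Real.rpow_natCast]
            exact Rc _ (by push_cast; linarith)
          · exact (Xp _ (by norm_num)).trans (Real.rpow_le_rpow_of_exponent_le hZ (by norm_num))
  rw [e]
  refine (norm_add_le_of_le b1 b2).trans_eq ?_
  ring

/-- cancellation in twisted sums of Gauss sums -/
theorem gs1 : ∃ η : ℝ, 0 < η ∧ ∃ C : ℝ, 0 < C ∧ ∀ (Z X y : ℝ) (k r : O),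
    1 ≤ Z → Z ^ (1 / 4 : ℝ) ≤ X → X ≤ Z → y ≤ X → k ≠ 0 → N k ≤ Z ^ η → r ≠ 0 → N r ≤ Z ^ 2 →
    ‖∑ n ∈ ballN y, (if IsCoprime r n then G n * conj (sym3 k n) else 0)‖ ≤
      C * Z ^ (-η) * X := by
  obtain ⟨c, hc, C1, c1, h1⟩ := tgs_row
  obtain ⟨C2, c2, h2⟩ := dv_le (ε := 1 / 1000) (by norm_num)
  obtain ⟨η, hη⟩ : ∃ η : ℝ, η = 1 / (1000 * (c + 1)) := ⟨_, rfl⟩
  have η0 : 0 < η := by rw [hη]; positivity
  have η1 : η * (c + 1) = 1 / 1000 := by rw [hη]; field_simp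
  refine ⟨η, η0, C2 * C1, by positivity, fun Z X y k r hZ hX hXZ hy hk hkZ hr hrZ => ?_⟩
  have Z0 : 0 < Z := by linarith
  have X0 : 0 < X := (Real.rpow_pos_of_pos Z0 _).trans_le hX
  have e : ∑ n ∈ ballN y, (if IsCoprime r n then G n * conj (sym3 k n) else 0) =
      ∑ j ∈ divs r, mu j * conj (sym3 k j) *
        ∑ m ∈ ballN (y / N j), G (j * m) * conj (sym3 k m) := by
    calc _ = ∑ n ∈ ballN y, ∑ j ∈ divs r,
          (if j ∣ n then mu j * (G n * conj (sym3 k n)) else 0) := by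
          refine Finset.sum_congr rfl fun n hn => ?_
          have := sum_mu_divs' hr (gm_prim hn) (dual_odd n hn)
          rw [← boole_mul, ← this, Finset.sum_mul]
          simp only [ite_mul, zero_mul]
      _ = _ := by
          rw [Finset.sum_comm]
          refine Finset.sum_congr rfl fun j hj => ?_
          have nj := ((mem_divs hr).1 hj).1
          rw [sum_ballN_dvd y nj, Finset.mul_sum]
          refine Finset.sum_congr rfl fun m hm => ?_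
          split_ifs with h
          · rw [sym3_mul_right _ nj.ne_zero (gm_prim hm).ne_zero, map_mul]
            ring
          · rw [G, if_neg h]
            simp
  rw [e]
  refine (norm_sum_le_of_le (n := fun _ => C1 * (Z ^ η) ^ c * Z ^ (-(1 / 200) : ℝ) * X) _
    fun j hj => ?_).trans ?_
  · rw [norm_mul, norm_mul, norm_conj]
    refine (mul_le_of_le_one_left (norm_nonneg _) (mul_le_one₀ (norm_mu_le _) (norm_nonneg _)
      (norm_sym3_le _ _))).trans (h1 Z X y _ k j hZ hX hXZ hy (Real.one_le_rpow hZ η0.le) ?_ hk hkZ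
      ((mem_divs hr).1 hj).1)
    simpa using Real.rpow_le_rpow_of_exponent_le hZ (by nlinarith : η ≤ 1)
  · rw [Finset.sum_const, nsmul_eq_mul]
    have a1 : ((divs r).card : ℝ) ≤ C2 * (Z ^ 2) ^ (1 / 1000 : ℝ) :=
      (card_divs_le r).trans ((h2 r hr).trans (by have := N_nonneg r; gcongr))
    have a2 : (Z ^ 2) ^ (1 / 1000 : ℝ) * (Z ^ η) ^ c * Z ^ (-(1 / 200) : ℝ) ≤ Z ^ (-η) := by
      rw [← Real.rpow_natCast, ← Real.rpow_mul Z0.le, ← Real.rpow_mul Z0.le, ← Real.rpow_add Z0,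
        ← Real.rpow_add Z0]
      refine Real.rpow_le_rpow_of_exponent_le hZ ?_
      push_cast
      linarith
    calc _ ≤ C2 * (Z ^ 2) ^ (1 / 1000 : ℝ) * (C1 * (Z ^ η) ^ c * Z ^ (-(1 / 200) : ℝ) * X) := by
          gcongr
      _ = C2 * C1 * ((Z ^ 2) ^ (1 / 1000 : ℝ) * (Z ^ η) ^ c * Z ^ (-(1 / 200) : ℝ)) * X := by ring
      _ ≤ _ := by gcongr

theorem tgs_cut {e : ℝ} (he : 0 < e) : ∃ θ : ℝ, 0 < θ ∧ ∃ C : ℝ, 0 < C ∧
    ∀ (Z Q Y R y : ℝ) (l h : O), 1 ≤ Q → Q ≤ Z ^ θ → 1 ≤ R → R ≤ Y → Y ≤ Z →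
    Y ≤ R ^ 2 * Z ^ (-e) → NN l → N l ≤ Q ^ 4 → h ≠ 0 → N h ≤ Q → y ≤ R →
    ∑ m ∈ ballN Y, ‖∑ n ∈ ballN (y / N l), del Q (m * l * n) * conj (sym3 h n)‖ ^ 2 ≤
      C * Y ^ (2 / 3 : ℝ) * R ^ (5 / 3 : ℝ) / Q ^ 11 := by
  obtain ⟨c0, hc0, h⟩ := ti2
  obtain ⟨C1, c1, h1⟩ := h (e / 240) (by positivity)
  refine ⟨min (1 / 4) (e / (120 * (c0 + 15))), by positivity, 4 * C1, by positivity,
    fun Z Q Y R y l h hQ hQZ hR hRY hYZ hYR hl hlQ hh hhQ hy => ?_⟩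
  have Y1 := hR.trans hRY
  have hZ := Y1.trans hYZ
  have Z0 : 0 < Z := by linarith
  have R0 : 0 < R := by linarith
  have Y0 : 0 < Y := by linarith
  have Q0 : 0 < Q := by linarith
  have l1 := one_le_N hl.ne_zero
  have l0 : 0 < N l := by linarith
  rcases lt_or_ge (y / N l) 1 with hU | hU
  · simp only [tgs_empty hU, Finset.sum_empty, norm_zero]
    rw [Finset.sum_eq_zero fun _ _ => by norm_num]
    positivity
  obtain ⟨U, hUe⟩ : ∃ U, U = y / N l := ⟨_, rfl⟩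
  rw [← hUe] at hU ⊢
  have U0 : 0 < U := by linarith
  have lU : N l * U ≤ R := by rw [hUe, mul_div_cancel₀ _ l0.ne']; exact hy
  have UR : U ≤ R := (le_mul_of_one_le_left U0.le l1).trans lU
  have ZZ : Z ≤ Z ^ 2 := le_self_pow₀ hZ two_ne_zero
  have Q4 : Q ^ 4 ≤ Z := by
    refine (pow_le_pow_left₀ Q0.le
      (hQZ.trans (Real.rpow_le_rpow_of_exponent_le hZ (min_le_left _ _))) 4).trans_eq ?_
    rw [← Real.rpow_natCast, ← Real.rpow_mul Z0.le]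
    norm_num
  obtain ⟨W, hW⟩ : ∃ W, W = Z ^ (e / 60) := ⟨_, rfl⟩
  have W1 : 1 ≤ W := hW ▸ Real.one_le_rpow hZ (by positivity)
  have W0 : 0 < W := by linarith
  have W60 : W ^ 60 * Y ≤ R ^ 2 := by
    have : W ^ 60 = Z ^ e := by
      rw [hW, ← Real.rpow_natCast, ← Real.rpow_mul Z0.le]
      congr 1
      push_cast
      ring
    rw [Real.rpow_neg Z0.le, ← div_eq_mul_inv, le_div_iff₀ (by positivity)] at hYR
    rw [this, mul_comm]
    exact hYR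
  have WZ : W ≤ Z ^ 2 := by
    refine (le_self_pow₀ W1 (by norm_num : 60 ≠ 0)).trans
      ((le_mul_of_one_le_right (by positivity) Y1).trans (W60.trans ?_))
    exact pow_le_pow_left₀ R0.le (hRY.trans hYZ) 2
  have a0 : ∑ m ∈ ballN Y, ‖∑ n ∈ ballN U, del Q (m * l * n) * conj (sym3 h n)‖ ^ 2 ≤
      ∑ a ∈ ballN (Y * N l), ‖∑ n ∈ ballN U, del Q (a * n) * conj (sym3 h n)‖ ^ 2 := by
    rw [← Finset.sum_image (g := fun m => m * l)
      (f := fun a => ‖∑ n ∈ ballN U, del Q (a * n) * conj (sym3 h n)‖ ^ 2)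
      fun x _ y _ e => mul_right_cancel₀ hl.ne_zero e]
    rw [← Finset.sum_filter_ne_zero]
    refine Finset.sum_le_sum_of_subset_of_nonneg (fun a ha => ?_) fun _ _ _ => by positivity
    obtain ⟨ha, h0⟩ := Finset.mem_filter.1 ha
    obtain ⟨m, hm, rfl⟩ := Finset.mem_image.1 ha
    refine mem_ballN.2 ⟨?_, by rw [N_mul]; exact mul_le_mul_of_nonneg_right (mem_ballN.1 hm).2 l0.le⟩
    by_contra hn
    refine h0 ?_
    rw [Finset.sum_eq_zero fun n hn' => by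
      rw [del_eq_zero Q fun k => hn (k.of_dvd ((gm_prim hm).mul hl.1) (dvd_mul_right _ _)),
        zero_mul]]
    simp
  have a1 := a0.trans (h1 (Z ^ 2) (Y * N l) U Q W h (one_le_mul_of_one_le_of_one_le Y1 l1)
    (by rw [sq]; exact mul_le_mul hYZ (hlQ.trans Q4) l0.le Z0.le) hU (UR.trans (hRY.trans
      (hYZ.trans ZZ))) hQ ((le_self_pow₀ hQ (by norm_num)).trans (Q4.trans ZZ)) W1 WZ hh hhQ)
  obtain ⟨y3, hy3⟩ : ∃ y3, y3 = Y ^ (1 / 3 : ℝ) := ⟨_, rfl⟩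
  obtain ⟨r3, hr3⟩ : ∃ r3, r3 = R ^ (1 / 3 : ℝ) := ⟨_, rfl⟩
  have pw : ∀ {x : ℝ}, 0 ≤ x → ∀ n : ℕ, x ^ ((n : ℝ) / 3) = (x ^ (1 / 3 : ℝ)) ^ n := fun hx n => by
    rw [← Real.rpow_natCast, ← Real.rpow_mul hx]
    congr 1
    ring
  have y31 : 1 ≤ y3 := hy3 ▸ Real.one_le_rpow Y1 (by norm_num)
  have r31 : 1 ≤ r3 := hr3 ▸ Real.one_le_rpow hR (by norm_num)
  have ry : r3 ≤ y3 := by rw [hy3, hr3]; gcongr
  have eY : Y = y3 ^ 3 := by rw [hy3, ← pw Y0.le]; norm_num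
  have eR : R = r3 ^ 3 := by rw [hr3, ← pw R0.le]; norm_num
  have e2 : Y ^ (2 / 3 : ℝ) = y3 ^ 2 := by rw [hy3, ← pw Y0.le]; norm_num
  have e4 : Y ^ (4 / 3 : ℝ) = y3 ^ 4 := by rw [hy3, ← pw Y0.le]; norm_num
  have e5 : R ^ (5 / 3 : ℝ) = r3 ^ 5 := by rw [hr3, ← pw R0.le]; norm_num
  have W20 : W ^ 20 * y3 ≤ r3 ^ 2 := by
    refine (pow_le_pow_iff_left₀ (by positivity) (by positivity) three_ne_zero).1 ?_
    rw [mul_pow, ← eY, ← pow_mul, ← pow_mul, mul_comm 2 3, pow_mul r3, ← eR]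
    exact W60
  have W11 : W ^ 11 * y3 ≤ r3 ^ 2 := le_trans (by gcongr; norm_num) W20
  have b1 : W ^ 10 * (Y * N l * U) ≤ Q ^ 4 * (y3 ^ 2 * r3 ^ 5) / W := by
    rw [le_div_iff₀ W0]
    calc _ = W ^ 11 * Y * (N l * U) := by ring
      _ ≤ W ^ 11 * Y * R := by gcongr
      _ = W ^ 11 * y3 * (y3 ^ 2 * r3 ^ 3) := by rw [eY, eR]; ring
      _ ≤ r3 ^ 2 * (y3 ^ 2 * r3 ^ 3) := by gcongr
      _ = 1 * (y3 ^ 2 * r3 ^ 5) := by ring
      _ ≤ _ := by gcongr; exact one_le_pow₀ hQ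
  have b2 : W ^ 10 * ((Y * N l) ^ (4 / 3 : ℝ) * U ^ (1 / 3 : ℝ)) ≤ Q ^ 4 * (y3 ^ 2 * r3 ^ 5) / W := by
    rw [le_div_iff₀ W0, Real.mul_rpow Y0.le l0.le, e4, show (4 / 3 : ℝ) = 1 + 1 / 3 by norm_num,
      Real.rpow_add l0, Real.rpow_one]
    calc _ = N l * (N l ^ (1 / 3 : ℝ) * U ^ (1 / 3 : ℝ)) * (W ^ 11 * y3) * (1 * y3) * y3 ^ 2 := by
          ring
      _ ≤ Q ^ 4 * r3 * r3 ^ 2 * r3 ^ 2 * y3 ^ 2 := by
          gcongr
          · rw [← Real.mul_rpow l0.le U0.le, hr3]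
            gcongr
          · exact le_trans (by gcongr; exact one_le_pow₀ W1) W11
      _ = _ := by ring
  have b3 : U ^ 2 ≤ Q ^ 4 * (y3 ^ 2 * r3 ^ 5) := by
    calc U ^ 2 ≤ R ^ 2 := by gcongr
      _ = 1 * ((1 * r3) * r3 ^ 5) := by rw [eR]; ring
      _ ≤ Q ^ 4 * ((y3 * y3) * r3 ^ 5) := by
          gcongr
          exact one_le_pow₀ hQ
      _ = _ := by ring
  have b4 : (Y * N l) ^ (2 / 3 : ℝ) * U ^ (5 / 3 : ℝ) ≤ Q ^ 4 * (y3 ^ 2 * r3 ^ 5) := by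
    rw [Real.mul_rpow Y0.le l0.le, e2, ← e5]
    have : N l ^ (2 / 3 : ℝ) * U ^ (5 / 3 : ℝ) ≤ R ^ (5 / 3 : ℝ) := by
      refine le_trans ?_ (Real.rpow_le_rpow (by positivity) lU (by norm_num))
      rw [Real.mul_rpow l0.le U0.le]
      exact mul_le_mul_of_nonneg_right (Real.rpow_le_rpow_of_exponent_le l1 (by norm_num))
        (by positivity)
    rw [mul_assoc]
    exact (mul_le_mul_of_nonneg_left this (by positivity)).trans
      (le_mul_of_one_le_left (by positivity) (one_le_pow₀ hQ))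
  have b5 : (Z ^ 2) ^ (e / 240) * Q ^ c0 * Q ^ 15 ≤ W := by
    have q1 : Q ≤ Z ^ (e / (120 * (c0 + 15))) :=
      hQZ.trans (Real.rpow_le_rpow_of_exponent_le hZ (min_le_right _ _))
    have q2 := Real.rpow_le_rpow Q0.le q1 (by positivity : 0 ≤ c0 + 15)
    rw [← Real.rpow_mul Z0.le] at q2
    rw [mul_assoc, ← Real.rpow_natCast Q, ← Real.rpow_add Q0, ← Real.rpow_natCast,
      ← Real.rpow_mul Z0.le]
    refine (mul_le_mul_of_nonneg_left q2 (by positivity)).trans_eq ?_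
    rw [← Real.rpow_add Z0, hW]
    congr 1
    push_cast
    field_simp
    ring
  refine a1.trans ?_
  rw [e2, e5, mul_add (W ^ 10), add_div]
  calc _ ≤ C1 * (Z ^ 2) ^ (e / 240) * Q ^ c0 * (Q ^ 4 * (y3 ^ 2 * r3 ^ 5) / W +
        Q ^ 4 * (y3 ^ 2 * r3 ^ 5) / W +
        (Q ^ 4 * (y3 ^ 2 * r3 ^ 5) / W + Q ^ 4 * (y3 ^ 2 * r3 ^ 5) / W)) := by gcongr
    _ = 4 * C1 * y3 ^ 2 * r3 ^ 5 / Q ^ 11 * ((Z ^ 2) ^ (e / 240) * Q ^ c0 * Q ^ 15 / W) := by
        field_simp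
        ring
    _ ≤ _ := mul_le_of_le_one_right (by positivity) ((div_le_one W0).2 b5)

/-- character directions -/
theorem ftrue {e : ℝ} (he : 0 < e) : ∃ θ : ℝ, 0 < θ ∧ ∃ C : ℝ, 0 < C ∧
    ∀ (Z Q Y R y : ℝ) (l h : O), 1 ≤ Q → Q ≤ Z ^ θ → 1 ≤ R → R ≤ Y → Y ≤ Z →
    Y ≤ R ^ 2 * Z ^ (-e) → NN l → N l ≤ Q ^ 4 → h ≠ 0 → N h ≤ Q →
    ∑ m ∈ ballN Y, ‖∑ n ∈ ballN (y / N l),
        (if l * n ∈ ringN (R / 2) R then conj (sym3 h n) * del Q (m * (l * n)) else 0)‖ ^ 2 ≤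
      C * Y ^ (2 / 3 : ℝ) * R ^ (5 / 3 : ℝ) / Q ^ 11 := by
  obtain ⟨θ, hθ, C, hC, H⟩ := tgs_cut he
  refine ⟨θ, hθ, 4 * C, by positivity,
    fun Z Q Y R y l h hQ hQZ hR hRY hYZ hYR hl hlQ hh hhQ => ?_⟩
  have l0 := N_pos hl.ne_zero
  have a1 := H Z Q Y R (min y R) l h hQ hQZ hR hRY hYZ hYR hl hlQ hh hhQ (min_le_right _ _)
  have a2 := H Z Q Y R (min y (R / 2)) l h hQ hQZ hR hRY hYZ hYR hl hlQ hh hhQ
    ((min_le_right _ _).trans (by linarith))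
  have cut : ∀ (u : ℝ) (f : O → ℂ), ∑ n ∈ ballN (min y u / N l), f n =
      ∑ n ∈ ballN (y / N l), if N (l * n) ≤ u then f n else 0 := fun u f => by
    rw [← Finset.sum_filter]
    refine Finset.sum_congr ?_ fun _ _ => rfl
    ext n
    simp only [Finset.mem_filter, mem_ballN, le_div_iff₀ l0, le_min_iff, N_mul, mul_comm (N l),
      and_assoc]
  calc _ ≤ ∑ m ∈ ballN Y,
        (2 * ‖∑ n ∈ ballN (min y R / N l), del Q (m * l * n) * conj (sym3 h n)‖ ^ 2 +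
        2 * ‖∑ n ∈ ballN (min y (R / 2) / N l), del Q (m * l * n) * conj (sym3 h n)‖ ^ 2) := by
        refine Finset.sum_le_sum fun m hm => ?_
        have : ∑ n ∈ ballN (y / N l),
            (if l * n ∈ ringN (R / 2) R then conj (sym3 h n) * del Q (m * (l * n)) else 0) =
            ∑ n ∈ ballN (min y R / N l), del Q (m * l * n) * conj (sym3 h n) -
            ∑ n ∈ ballN (min y (R / 2) / N l), del Q (m * l * n) * conj (sym3 h n) := by
          rw [cut, cut, ← Finset.sum_sub_distrib]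
          refine Finset.sum_congr rfl fun n hn => ?_
          simp only [mul_assoc, mem_ringN]
          by_cases k : NN (l * n)
          · by_cases k1 : N (l * n) ≤ R / 2
            · rw [if_pos k1, if_pos (by linarith : N (l * n) ≤ R), sub_self,
                if_neg fun x => absurd x.2.1 (not_lt.2 k1)]
            · rw [if_neg k1, sub_zero]
              simp only [k, not_le.1 k1, true_and, mul_comm]
          · rw [del_eq_zero Q fun x => k (x.of_dvd (hl.1.mul (gm_prim hn)) (dvd_mul_left _ _))]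
            simp
        rw [this]
        refine (pow_le_pow_left₀ (norm_nonneg _) (norm_sub_le _ _) 2).trans ?_
        nlinarith [sq_nonneg (‖∑ n ∈ ballN (min y R / N l), del Q (m * l * n) * conj (sym3 h n)‖ -
          ‖∑ n ∈ ballN (min y (R / 2) / N l), del Q (m * l * n) * conj (sym3 h n)‖)]
    _ ≤ 2 * (C * Y ^ (2 / 3 : ℝ) * R ^ (5 / 3 : ℝ) / Q ^ 11) +
        2 * (C * Y ^ (2 / 3 : ℝ) * R ^ (5 / 3 : ℝ) / Q ^ 11) := by
        rw [Finset.sum_add_distrib, ← Finset.mul_sum, ← Finset.mul_sum]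
        gcongr
    _ = _ := by ring

end

end Vale.Agent.P006
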