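import Vale.Agent.P006.TMod1

namespace Vale.Agent.P006

open Vale.Agent.P026 Complex MeasureTheory Filter Topology
open scoped Classical ComplexConjugate Real MatrixGroups

noncomputable section

theorem tmod_gcd {m h2 : O} (hm : NN m) (h : NN h2) :
    ∃ g t m' : O, NN t ∧ Prim m' ∧ h2 = g * t ∧ m = g * m' ∧ IsCoprime t m := by
  obtain ⟨g, hg, ⟨t, ht⟩, ⟨m', hm'⟩, hmax⟩ := exists_prim_gcd h.1 m
  have tP : Prim t := (ht ▸ h.1).of_mul hg
  have mP : Prim m' := (hm' ▸ hm.1).of_mul hg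
  have hgt := (nn_mul_iff hg tP).1 (ht ▸ h)
  refine ⟨g, t, m', hgt.2.1, mP, ht, hm', ?_⟩
  rw [isCoprime_iff_no_prime (Or.inl tP.ne_zero)]
  intro p hp hpt hpm
  exact hp.not_isUnit (hgt.2.2.isUnit_of_dvd' (hmax p (ht ▸ hpt.mul_left g) hpm) hpt)

theorem tmod_sq {x : ℝ} (hx : 0 ≤ x) : (x ^ (-(1 / 6) : ℝ)) ^ 2 = x ^ (-(1 / 3) : ℝ) := by
  rw [← Real.rpow_natCast, ← Real.rpow_mul hx]; norm_num

theorem tmod_row : ∃ C : ℝ, 0 < C ∧ ∀ (Q R J P : ℝ) (a : O → ℂ) (k h2 m : O), 0 < R → 0 ≤ P →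
    Sh a R → NN h2 → k ≠ 0 → N k ≤ Q → PT a (N h2 * J) Q P → NN m →
    ‖∑ n ∈ ballN R, a n * (if NN (m * n) ∧ h2 ∣ m * n then
        sym3 k (m * n / h2) * ((N (m * n / h2) ^ (-(1 / 6) : ℝ) : ℝ) : ℂ) else 0)‖ ^ 2 ≤
      dv m * ((N m * R / N h2) ^ (-(1 / 3) : ℝ) * (C * ∑ j ∈ divs m,
        (P + if J < N j then R / N j * tmA a R j else 0))) := by
  obtain ⟨C0, hC0, h0⟩ := card_ballO_le
  obtain ⟨C1, hC1, h1⟩ := tm_abel
  refine ⟨C1 + 2 * C0, by positivity, fun Q R J P a k h2 m hR hP ha hh hk hkQ hPT hm => ?_⟩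
  obtain ⟨g, t, m', ht, hm', e1, e2, hc⟩ := tmod_gcd hm hh
  have g0 : g ≠ 0 := by rintro rfl; exact hh.ne_zero (by rw [e1, zero_mul])
  have nh := N_pos hh.ne_zero
  have nm := N_pos hm.ne_zero
  set φ : O → ℂ := fun n =>
    sym3 k (m * n / h2) * ((N (m * n / h2) ^ (-(1 / 6) : ℝ) : ℝ) : ℂ) with hφ
  have hdiv : ∀ n', m * (t * n') / h2 = m' * n' := fun n' => by
    have : m * (t * n') = h2 * (m' * n') := by rw [e1, e2]; ring
    rw [this, mul_div_cancel_left₀ _ hh.ne_zero]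
  have hN : ∀ n', N (m' * n') = N m * R / N h2 * (N (t * n') / R) := fun n' => by
    have := N_pos g0
    have := N_pos ht.ne_zero
    rw [e1, e2]; simp only [N_mul]; field_simp
  have e : ∑ n ∈ ballN R, a n * (if NN (m * n) ∧ h2 ∣ m * n then φ n else 0) =
      ∑ n ∈ ballN R, if IsCoprime m n then (if t ∣ n then a n * φ n else 0) else 0 := by
    refine Finset.sum_congr rfl fun n hn => ?_
    have hn' := (mem_ballN.1 hn).1
    have : (NN (m * n) ∧ h2 ∣ m * n) ↔ (IsCoprime m n ∧ t ∣ n) := by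
      rw [nn_mul_iff hm.1 hn'.1]
      constructor
      · rintro ⟨⟨-, -, c1⟩, c2⟩
        exact ⟨c1, hc.dvd_of_dvd_mul_left ((Dvd.intro_left g e1.symm).trans c2)⟩
      · rintro ⟨c1, n', rfl⟩
        exact ⟨⟨hm, hn', c1⟩, ⟨m' * n', by rw [e1, e2]; ring⟩⟩
    by_cases c1 : IsCoprime m n <;> by_cases c2 : t ∣ n <;> simp [this, c1, c2]
  rw [e, tm_moeb hm.ne_zero]
  refine (tm_moeb_sq _).trans (mul_le_mul_of_nonneg_left ?_ (div_dv_nonneg m))
  set W := (N m * R / N h2) ^ (-(1 / 3) : ℝ) with hW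
  have hW0 : 0 ≤ W := by positivity
  rw [Finset.mul_sum, Finset.mul_sum]
  refine Finset.sum_le_sum fun j hj => ?_
  obtain ⟨j1, j2⟩ := (mem_divs hm.ne_zero).1 hj
  have htj : IsCoprime t j := hc.of_isCoprime_of_dvd_right j2
  have ntj : NN (t * j) := (nn_mul_iff ht.1 j1.1).2 ⟨ht, j1, htj⟩
  have e3 : (∑ n ∈ ballN R, if j ∣ n then (if t ∣ n then a n * φ n else 0) else 0) =
      ∑ n ∈ ballN R, if t * j ∣ n then a n * φ n else 0 := by
    refine Finset.sum_congr rfl fun n _ => ?_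
    by_cases c : t * j ∣ n
    · rw [if_pos c, if_pos (dvd_of_mul_left_dvd c), if_pos (dvd_of_mul_right_dvd c)]
    · rw [if_neg c]
      split_ifs with c1 c2
      · exact absurd (htj.mul_dvd c2 c1) c
      · rfl
      · rfl
  rw [e3]
  have hA := tmA_nonneg a R j
  have jp := N_pos j1.ne_zero
  by_cases c : J < N j
  · rw [if_pos c]
    have := tm_cs h0 j1.ne_zero (dvd_mul_left j t) hR.le a φ (K := 2 * W) (fun n _ hd hne => by
      obtain ⟨n', rfl⟩ := dvd_of_mul_right_dvd hd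
      obtain ⟨k1, k2, -⟩ := ha _ hne
      have x1 : 1 / 2 ≤ N (t * n') / R := by rw [le_div_iff₀ hR]; linarith
      simp only [hφ, hdiv]
      rw [norm_mul, mul_pow, Complex.norm_real,
        Real.norm_of_nonneg (Real.rpow_nonneg (N_nonneg _) _), tmod_sq (N_nonneg _), hN,
        Real.mul_rpow (by positivity) (by linarith), ← hW]
      have y1 : (N (t * n') / R) ^ (-(1 / 3) : ℝ) ≤ 2 := by
        calc (N (t * n') / R) ^ (-(1 / 3) : ℝ) ≤ (1 / 2 : ℝ) ^ (-(1 / 3) : ℝ) :=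
              Real.rpow_le_rpow_of_nonpos (by norm_num) x1 (by norm_num)
          _ ≤ (1 / 2 : ℝ) ^ (-1 : ℝ) :=
              Real.rpow_le_rpow_of_exponent_ge (by norm_num) (by norm_num) (by norm_num)
          _ = 2 := by rw [Real.rpow_neg_one]; norm_num
      have y2 : ‖sym3 k (m' * n')‖ ^ 2 ≤ 1 := pow_le_one₀ (norm_nonneg _) (norm_sym3_le _ _)
      have y3 : 0 ≤ (N (t * n') / R) ^ (-(1 / 3) : ℝ) := Real.rpow_nonneg (by linarith) _
      calc _ ≤ 1 * (W * 2) := by gcongr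
        _ = _ := by ring) (by positivity)
    refine this.trans ?_
    have u1 : 0 ≤ R / N j * tmA a R j := by positivity
    have u2 := mul_nonneg hW0 (mul_nonneg hC1.le u1)
    have u3 := mul_nonneg hW0 (mul_nonneg (by positivity : 0 ≤ C1 + 2 * C0) hP)
    nlinarith
  · rw [if_neg c, add_zero]
    have b := h1 a (fun n => sym3 k n) R P (t * j) ((-(1 / 6) : ℝ) : ℂ) ha ntj.1 hP
      (by rw [Complex.ofReal_re]; norm_num)
      (fun hl y => hPT _ k y hl (by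
        rw [N_mul]
        exact mul_le_mul (N_le_of_dvd (Dvd.intro_left g e1.symm) hh.ne_zero) (not_lt.1 c)
          (N_nonneg _) (N_nonneg _)) hk hkQ) R
    rw [Complex.ofReal_im, abs_zero, add_zero, one_pow, mul_one] at b
    have e4 : (∑ n ∈ ballN R, if t * j ∣ n then a n * φ n else 0) =
        (sym3 k (m' * j) * (((N m * R / N h2) ^ (-(1 / 6) : ℝ) : ℝ) : ℂ)) *
          ∑ n ∈ ballN (R / N (t * j)), a (t * j * n) * sym3 k n *
            ((N (t * j * n) / R : ℝ) : ℂ) ^ ((-(1 / 6) : ℝ) : ℂ) := by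
      rw [sum_ballN_dvd _ ntj, Finset.mul_sum]
      refine Finset.sum_congr rfl fun n hn => ?_
      have hn' := (mem_ballN.1 hn).1
      by_cases c0 : a (t * j * n) = 0
      · simp [c0]
      rw [if_pos (ha _ c0).1, ← Complex.ofReal_cpow (div_nonneg (N_nonneg _) hR.le)]
      simp only [hφ]
      rw [mul_assoc t, hdiv, hN, Real.mul_rpow (by positivity) (div_nonneg (N_nonneg _) hR.le),
        ← mul_assoc m', sym3_mul_right _ (mul_ne_zero hm'.ne_zero j1.ne_zero) hn'.ne_zero]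
      push_cast
      ring
    rw [e4, norm_mul, mul_pow, norm_mul, mul_pow, Complex.norm_real,
      Real.norm_of_nonneg (by positivity), tmod_sq (by positivity), ← hW]
    have y2 : ‖sym3 k (m' * j)‖ ^ 2 ≤ 1 := pow_le_one₀ (norm_nonneg _) (norm_sym3_le _ _)
    calc _ ≤ 1 * W * (C1 * P) := by gcongr
      _ ≤ _ := by
        rw [one_mul]
        refine mul_le_mul_of_nonneg_left (mul_le_mul_of_nonneg_right (by linarith) hP) hW0

/-- one term of the model against a vector on a shell -/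
theorem model_term {ε : ℝ} (hε : 0 < ε) : ∃ C : ℝ, 0 < C ∧
    ∀ (Z Q M R J P : ℝ) (a : O → ℂ) (k h2 : O), 1 ≤ Z → 0 < M → M ≤ Z → 0 < R → R ≤ Z → 1 ≤ J →
    0 ≤ P → Sh a R → NN h2 → k ≠ 0 → h2 ∣ k → N k ≤ Q → PT a (N h2 * J) Q P →
    ∑ m ∈ ballN M, ‖∑ n ∈ ballN R, a n * (if NN (m * n) ∧ h2 ∣ m * n then
        sym3 k (m * n / h2) * ((N (m * n / h2) ^ (-(1 / 6) : ℝ) : ℝ) : ℂ) else 0)‖ ^ 2 ≤
      C * Z ^ ε * N h2 ^ (1 / 3 : ℝ) * (M ^ (2 / 3 : ℝ) * R ^ (-(1 / 3) : ℝ) * P +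
        (M * R) ^ (2 / 3 : ℝ) / J ^ 2 * nsq (ballN R) a) := by
  obtain ⟨C1, hC1, h1⟩ := tmod_row
  obtain ⟨C2, hC2, h2⟩ := dv_le (half_pos hε)
  obtain ⟨C3, hC3, h3⟩ := sum_N_rpow_le (a := -(1 / 3)) (by norm_num)
  refine ⟨C1 * C2 ^ 2 * C3, by positivity,
    fun Z Q M R J P a k h hZ hM hMZ hR hRZ hJ hP ha hh hk _ hkQ hPT => ?_⟩
  have nh := N_pos hh.ne_zero
  set D := C2 * Z ^ (ε / 2) with hD
  have hD0 : 0 ≤ D := by positivity
  have hdv : ∀ m ∈ ballN M, dv m ≤ D := fun m hm => by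
    obtain ⟨k1, k2⟩ := mem_ballN.1 hm
    exact (h2 m k1.ne_zero).trans (mul_le_mul_of_nonneg_left
      (Real.rpow_le_rpow (N_nonneg _) (k2.trans hMZ) (by linarith)) hC2.le)
  let g : O → ℝ := fun j => if J < N j then R / N j * tmA a R j else 0
  have hg0 : ∀ j, 0 ≤ g j := fun j => by
    simp only [g]; split_ifs
    · exact mul_nonneg (div_nonneg hR.le (N_nonneg _)) (tmA_nonneg _ _ _)
    · exact le_rfl
  set w : O → ℝ := fun m => N m ^ (-(1 / 3) : ℝ) with hw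
  have hw0 : ∀ m, 0 ≤ w m := fun m => Real.rpow_nonneg (N_nonneg _) _
  set V := R ^ (-(1 / 3) : ℝ) * N h ^ (1 / 3 : ℝ) with hV
  have hV0 : 0 ≤ V := by positivity
  have e13 : (1 : ℝ) + -(1 / 3) = 2 / 3 := by norm_num
  have s0 : ∑ m ∈ ballN M, w m ≤ C3 * M ^ (2 / 3 : ℝ) := by
    have := h3 M hM.le
    rw [e13] at this
    exact (Finset.sum_le_sum_of_subset_of_nonneg (dual_sub M) fun _ _ _ => hw0 _).trans this
  have s1 : ∀ m ∈ ballN M, ‖∑ n ∈ ballN R, a n * (if NN (m * n) ∧ h ∣ m * n then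
      sym3 k (m * n / h) * ((N (m * n / h) ^ (-(1 / 6) : ℝ) : ℝ) : ℂ) else 0)‖ ^ 2 ≤
      D * V * C1 * (D * P * w m + w m * ∑ j ∈ divs m, g j) := by
    intro m hm
    have hm' := (mem_ballN.1 hm).1
    refine (h1 Q R J P a k h m hR hP ha hh hk hkQ hPT hm').trans ?_
    have e : (N m * R / N h) ^ (-(1 / 3) : ℝ) = w m * V := by
      rw [Real.div_rpow (mul_nonneg (N_nonneg _) hR.le) nh.le,
        Real.mul_rpow (N_nonneg _) hR.le, Real.rpow_neg nh.le, hV, div_inv_eq_mul, mul_assoc]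
    rw [e, Finset.sum_add_distrib, Finset.sum_const, nsmul_eq_mul]
    have c1 := (card_divs_le m).trans (hdv m hm)
    have c2 : 0 ≤ ∑ j ∈ divs m, g j := Finset.sum_nonneg fun j _ => hg0 j
    have c3 := hw0 m
    calc dv m * (w m * V * (C1 * ((divs m).card * P + ∑ j ∈ divs m, g j)))
        ≤ D * (w m * V * (C1 * (D * P + ∑ j ∈ divs m, g j))) :=
          mul_le_mul (hdv m hm) (by gcongr) (by positivity) hD0
      _ = _ := by ring
  have s2 : ∑ m ∈ ballN M, w m * ∑ j ∈ divs m, g j ≤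
      C3 * M ^ (2 / 3 : ℝ) * (R / J ^ 2) * (D * nsq (ballN R) a) := by
    calc ∑ m ∈ ballN M, w m * ∑ j ∈ divs m, g j
        ≤ ∑ m ∈ ballO M, ∑ j ∈ ballO M, if j ∣ m then w m * g j else 0 := by
          refine le_trans (Finset.sum_le_sum fun m hm => ?_)
            (Finset.sum_le_sum_of_subset_of_nonneg (dual_sub M) fun _ _ _ =>
              Finset.sum_nonneg fun j _ => by
                split_ifs
                · exact mul_nonneg (hw0 _) (hg0 _)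
                · exact le_rfl)
          obtain ⟨k1, k2⟩ := mem_ballN.1 hm
          rw [← Finset.sum_filter (· ∣ m) (fun j => w m * g j), Finset.mul_sum]
          refine Finset.sum_le_sum_of_subset_of_nonneg (fun j hj => ?_)
            fun _ _ _ => mul_nonneg (hw0 _) (hg0 _)
          obtain ⟨j1, j2⟩ := (mem_divs k1.ne_zero).1 hj
          exact Finset.mem_filter.2
            ⟨mem_ballO.2 ⟨j1.ne_zero, (N_le_of_dvd j2 k1.ne_zero).trans k2⟩, j2⟩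
      _ ≤ ∑ j ∈ ballO M, C3 * M ^ (2 / 3 : ℝ) * (R / J ^ 2) * tmA a R j := by
          rw [Finset.sum_comm]
          refine Finset.sum_le_sum fun j hj => ?_
          have j0 := (mem_ballO.1 hj).1
          have jp := N_pos j0
          rw [← Finset.sum_filter (j ∣ ·) (fun m => w m * g j), ← Finset.sum_mul]
          have b1 : ∑ m ∈ (ballO M).filter (j ∣ ·), w m ≤ C3 * M ^ (2 / 3 : ℝ) / N j := by
            refine (tm_cover j0 M hw0).trans ?_
            have := h3 (M / N j) (by positivity)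
            rw [e13] at this
            simp only [hw, N_mul]
            rw [Finset.sum_congr rfl fun m _ => Real.mul_rpow jp.le (N_nonneg m),
              ← Finset.mul_sum]
            refine (mul_le_mul_of_nonneg_left this (by positivity)).trans (le_of_eq ?_)
            rw [Real.div_rpow hM.le jp.le, Real.rpow_neg jp.le]
            have : N j = N j ^ (1 / 3 : ℝ) * N j ^ (2 / 3 : ℝ) := by
              rw [← Real.rpow_add jp]; norm_num
            conv_rhs => rw [this]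
            field_simp
          refine (mul_le_mul_of_nonneg_right b1 (hg0 j)).trans ?_
          have hA := tmA_nonneg a R j
          simp only [g]
          split_ifs with c
          · have : R / N j ^ 2 ≤ R / J ^ 2 := by gcongr
            calc C3 * M ^ (2 / 3 : ℝ) / N j * (R / N j * tmA a R j)
                = C3 * M ^ (2 / 3 : ℝ) * (R / N j ^ 2) * tmA a R j := by field_simp
              _ ≤ _ := by gcongr
          · rw [mul_zero]; positivity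
      _ ≤ _ := by
          rw [← Finset.mul_sum]
          exact mul_le_mul_of_nonneg_left (tm_sumA hC2.le (by linarith) h2 a hRZ _)
            (by positivity)
  have hDD : D * D = C2 ^ 2 * Z ^ ε := by
    rw [hD, show Z ^ ε = Z ^ (ε / 2) * Z ^ (ε / 2) by
      rw [← Real.rpow_add (by linarith)]; ring_nf]
    ring
  have eR : R ^ (2 / 3 : ℝ) = R ^ (-(1 / 3) : ℝ) * R := by
    rw [← Real.rpow_add_one hR.ne']; norm_num
  refine (Finset.sum_le_sum s1).trans ?_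
  rw [← Finset.mul_sum, Finset.sum_add_distrib, ← Finset.mul_sum]
  calc D * V * C1 * (D * P * ∑ m ∈ ballN M, w m + ∑ m ∈ ballN M, w m * ∑ j ∈ divs m, g j)
      ≤ D * V * C1 * (D * P * (C3 * M ^ (2 / 3 : ℝ)) +
          C3 * M ^ (2 / 3 : ℝ) * (R / J ^ 2) * (D * nsq (ballN R) a)) := by gcongr
    _ = C1 * (D * D) * C3 * N h ^ (1 / 3 : ℝ) * (M ^ (2 / 3 : ℝ) * R ^ (-(1 / 3) : ℝ) * P +
        M ^ (2 / 3 : ℝ) * (R ^ (-(1 / 3) : ℝ) * R) / J ^ 2 * nsq (ballN R) a) := by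
        rw [hV]; ring
    _ = _ := by rw [hDD, ← eR, Real.mul_rpow hM.le hR.le]; ring

theorem model_bd {ε : ℝ} (hε : 0 < ε) : ∃ C : ℝ, 0 < C ∧
    ∀ (Z Q M R P : ℝ) (a : O → ℂ), 1 ≤ Z → 1 ≤ Q → 0 < M → M ≤ Z → 0 < R → R ≤ Z →
    0 ≤ P → Sh a R → PT a (Q ^ 4) Q P →
    ∑ m ∈ ballN M, ‖∑ n ∈ ballN R, a n * mdl Q (m * n)‖ ^ 2 ≤
      C * Z ^ ε * (Q ^ 5 * M ^ (2 / 3 : ℝ) * R ^ (-(1 / 3) : ℝ) * P +
        (M * R) ^ (2 / 3 : ℝ) / Q ^ 2 * nsq (ballN R) a) := by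
  obtain ⟨C1, hC1, h1⟩ := model_term hε
  obtain ⟨C2, hC2, h2⟩ := card_MI_le
  obtain ⟨C3, hC3, h3⟩ := norm_cc_le
  refine ⟨C1 * C2 ^ 2 * C3 ^ 2, by positivity, fun Z Q M R P a hZ hQ hM hMZ hR hRZ hP ha hPT => ?_⟩
  have hQ0 : 0 < Q := by linarith
  let T : O × O × O → O → ℂ := fun t m => ∑ n ∈ ballN R, a n *
    (if NN (m * n) ∧ t.2.2 ∣ m * n then sym3 (cf t) (m * n / t.2.2) *
      ((N (m * n / t.2.2) ^ (-(1 / 6) : ℝ) : ℝ) : ℂ) else 0)
  have e : ∀ m, ∑ n ∈ ballN R, a n * mdl Q (m * n) =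
      ∑ t ∈ MI Q, G t.2.2 * cc (t.1 * t.2.1) * T t m := by
    intro m
    simp only [T, Finset.mul_sum]
    rw [Finset.sum_comm]
    refine Finset.sum_congr rfl fun n _ => ?_
    unfold mdl
    by_cases c : NN (m * n)
    · rw [if_pos c, Finset.mul_sum]
      refine Finset.sum_congr rfl fun t _ => ?_
      by_cases c' : t.2.2 ∣ m * n
      · rw [if_pos c', if_pos ⟨c, c'⟩]; ring
      · rw [if_neg c', if_neg fun h => c' h.2]; ring
    · simp [c]
  set J := Q ^ (7 / 2 : ℝ) with hJ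
  have hJ1 : 1 ≤ J := Real.one_le_rpow hQ (by norm_num)
  have hJ2 : J ^ 2 = Q ^ 7 := by
    rw [hJ, ← Real.rpow_natCast, ← Real.rpow_mul hQ0.le, ← Real.rpow_natCast]; norm_num
  set E := M ^ (2 / 3 : ℝ) * R ^ (-(1 / 3) : ℝ) * P +
    (M * R) ^ (2 / 3 : ℝ) / J ^ 2 * nsq (ballN R) a with hE
  have hn := nsq_nonneg (ballN R) a
  have hE0 : 0 ≤ E := by positivity
  have key : ∀ t ∈ MI Q, ∑ m ∈ ballN M, ‖G t.2.2 * cc (t.1 * t.2.1) * T t m‖ ^ 2 ≤
      C3 ^ 2 * C1 * Z ^ ε * Q * E := by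
    intro t ht
    obtain ⟨t1, t2, t3, -, t5⟩ := mem_MI.1 ht
    have r0 : t.1 * t.2.1 ≠ 0 := mul_ne_zero (XI_ne_zero t1) t2.ne_zero
    have n1 := one_le_N r0
    have n2 := one_le_N t3.ne_zero
    have ecf : N (cf t) = N (t.1 * t.2.1) * N t.2.2 ^ 2 := by rw [cf, N_mul, N_pow]
    have hJU : N t.2.2 * J ≤ Q ^ 4 := by
      have : N t.2.2 ^ 2 ≤ Q := (le_mul_of_one_le_left (by positivity) n1).trans (ecf ▸ t5)
      refine le_of_sq_le_sq ?_ (by positivity)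
      rw [mul_pow, hJ2]
      calc N t.2.2 ^ 2 * Q ^ 7 ≤ Q * Q ^ 7 := by gcongr
        _ = _ := by ring
    have b := h1 Z Q M R J P a (cf t) t.2.2 hZ hM hMZ hR hRZ hJ1 hP ha t3 (cf_ne_zero ht)
      ⟨t.1 * t.2.1 * t.2.2, by rw [cf]; ring⟩ t5
      (fun l h y l1 l2 => hPT l h y l1 (l2.trans hJU))
    have c1 : ‖G t.2.2 * cc (t.1 * t.2.1)‖ ^ 2 * N t.2.2 ^ (1 / 3 : ℝ) ≤ C3 ^ 2 * Q := by
      have u1 : ‖G t.2.2 * cc (t.1 * t.2.1)‖ ≤ C3 * N (t.1 * t.2.1) ^ (1 / 3 : ℝ) := by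
        rw [norm_mul]
        exact (mul_le_of_le_one_left (norm_nonneg _) (norm_G_le _)).trans (h3 _ r0)
      have u2 : (N (t.1 * t.2.1) ^ (1 / 3 : ℝ)) ^ 2 ≤ N (t.1 * t.2.1) := by
        rw [← Real.rpow_natCast, ← Real.rpow_mul (by linarith)]
        exact (Real.rpow_le_rpow_of_exponent_le n1 (by norm_num)).trans_eq (Real.rpow_one _)
      have u3 : N t.2.2 ^ (1 / 3 : ℝ) ≤ N t.2.2 ^ 2 := by
        rw [← Real.rpow_natCast]
        exact Real.rpow_le_rpow_of_exponent_le n2 (by norm_num)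
      calc _ ≤ (C3 * N (t.1 * t.2.1) ^ (1 / 3 : ℝ)) ^ 2 * N t.2.2 ^ 2 := by gcongr
        _ ≤ C3 ^ 2 * N (t.1 * t.2.1) * N t.2.2 ^ 2 := by rw [mul_pow]; gcongr
        _ ≤ C3 ^ 2 * Q := by rw [mul_assoc, ← ecf]; gcongr
    simp only [norm_mul (G t.2.2 * cc (t.1 * t.2.1)), mul_pow]
    rw [← Finset.mul_sum]
    calc _ ≤ ‖G t.2.2 * cc (t.1 * t.2.1)‖ ^ 2 * (C1 * Z ^ ε * N t.2.2 ^ (1 / 3 : ℝ) * E) :=
          mul_le_mul_of_nonneg_left b (by positivity)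
      _ = ‖G t.2.2 * cc (t.1 * t.2.1)‖ ^ 2 * N t.2.2 ^ (1 / 3 : ℝ) * (C1 * Z ^ ε * E) := by ring
      _ ≤ C3 ^ 2 * Q * (C1 * Z ^ ε * E) := mul_le_mul_of_nonneg_right c1 (by positivity)
      _ = _ := by ring
  have hc := h2 Q hQ
  simp only [e]
  calc _ ≤ ∑ m ∈ ballN M, (MI Q).card *
        ∑ t ∈ MI Q, ‖G t.2.2 * cc (t.1 * t.2.1) * T t m‖ ^ 2 :=
        Finset.sum_le_sum fun m _ => tm_sq_sum _ _
    _ ≤ (MI Q).card * ((MI Q).card * (C3 ^ 2 * C1 * Z ^ ε * Q * E)) := by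
        rw [← Finset.mul_sum, Finset.sum_comm]
        refine mul_le_mul_of_nonneg_left ((Finset.sum_le_sum key).trans ?_) (Nat.cast_nonneg _)
        rw [Finset.sum_const, nsmul_eq_mul]
    _ ≤ C2 * Q ^ 2 * (C2 * Q ^ 2 * (C3 ^ 2 * C1 * Z ^ ε * Q * E)) := by gcongr
    _ = _ := by rw [hE, hJ2]; field_simp

theorem tm_two (x y : ℂ) : ‖x - y‖ ^ 2 ≤ 2 * ‖x‖ ^ 2 + 2 * ‖y‖ ^ 2 := by
  have := pow_le_pow_left₀ (norm_nonneg _) (norm_sub_le x y) 2
  nlinarith [sq_nonneg (‖x‖ - ‖y‖)]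

/-- crude bound -/
theorem opN_crude {ε : ℝ} (hε : 0 < ε)
    (hls : ∃ C : ℝ, 0 < C ∧ ∀ Z A B : ℝ, 1 ≤ Z → 0 < A → A ≤ Z → 0 < B → B ≤ Z →
      OpB sym3 (ballN A) (ballN B) (C * Z ^ ε * (A + B + (A * B) ^ (2 / 3 : ℝ)))) :
    ∃ C : ℝ, 0 < C ∧ ∀ Z Q A B : ℝ, 1 ≤ Z → 1 ≤ Q → 0 < A → A ≤ Z → 0 < B → B ≤ Z →
      OpB (Kd Q) (ballN A) (ballN B) (C * Z ^ ε * (A + B + Q ^ 6 * (A * B) ^ (2 / 3 : ℝ))) := by
  obtain ⟨C1, hC1, h1⟩ := hls
  obtain ⟨C2, hC2, h2⟩ := norm_mdl_le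
  obtain ⟨C3, hC3, h3⟩ := sum_N_rpow_le (a := -(1 / 3)) (by norm_num)
  refine ⟨2 * C1 + 2 * (C2 ^ 2 * C3 ^ 2), by positivity, fun Z Q A B hZ hQ hA hAZ hB hBZ a => ?_⟩
  have e13 : (1 : ℝ) + -(1 / 3) = 2 / 3 := by norm_num
  have s0 : ∀ M : ℝ, 0 < M → ∑ m ∈ ballN M, N m ^ (-(1 / 3) : ℝ) ≤ C3 * M ^ (2 / 3 : ℝ) := by
    intro M hM
    have := h3 M hM.le
    rw [e13] at this
    exact (Finset.sum_le_sum_of_subset_of_nonneg (dual_sub M)
      fun _ _ _ => Real.rpow_nonneg (N_nonneg _) _).trans this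
  have hn := nsq_nonneg (ballN B) a
  have b1 : ∑ m ∈ ballN A, ‖∑ n ∈ ballN B, a n * G (m * n)‖ ^ 2 ≤
      C1 * Z ^ ε * (A + B + (A * B) ^ (2 / 3 : ℝ)) * nsq (ballN B) a := by
    have := (h1 Z A B hZ hA hAZ hB hBZ).conj (fun n => a n * G n)
    refine le_trans (Finset.sum_le_sum fun m hm => ?_) (this.trans ?_)
    · have : ∑ n ∈ ballN B, a n * G (m * n) =
          G m * ∑ n ∈ ballN B, a n * G n * conj (sym3 m n) := by
        rw [Finset.mul_sum]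
        refine Finset.sum_congr rfl fun n hn => ?_
        rw [G_mul (mem_ballN.1 hm).1.1 (mem_ballN.1 hn).1.1]; ring
      rw [this, norm_mul, mul_pow]
      exact mul_le_of_le_one_left (by positivity) (pow_le_one₀ (norm_nonneg _) (norm_G_le _))
    · refine mul_le_mul_of_nonneg_left (Finset.sum_le_sum fun n _ => ?_) (by positivity)
      rw [norm_mul, mul_pow]
      exact mul_le_of_le_one_right (by positivity) (pow_le_one₀ (norm_nonneg _) (norm_G_le _))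
  have b2 : ∑ m ∈ ballN A, ‖∑ n ∈ ballN B, a n * mdl Q (m * n)‖ ^ 2 ≤
      C2 ^ 2 * C3 ^ 2 * (Q ^ 6 * (A * B) ^ (2 / 3 : ℝ)) * nsq (ballN B) a := by
    calc _ ≤ ∑ m ∈ ballN A, N m ^ (-(1 / 3) : ℝ) *
          (C2 ^ 2 * Q ^ 6 * (C3 * B ^ (2 / 3 : ℝ)) * nsq (ballN B) a) := by
          refine Finset.sum_le_sum fun m _ => ?_
          have c1 : ‖∑ n ∈ ballN B, a n * mdl Q (m * n)‖ ≤
              ∑ n ∈ ballN B, ‖a n‖ * ‖mdl Q (m * n)‖ :=
            (norm_sum_le _ _).trans (le_of_eq (Finset.sum_congr rfl fun n _ => norm_mul _ _))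
          refine (pow_le_pow_left₀ (norm_nonneg _) c1 2).trans
            ((Finset.sum_mul_sq_le_sq_mul_sq _ _ _).trans ?_)
          have c2 : ∑ n ∈ ballN B, ‖mdl Q (m * n)‖ ^ 2 ≤
              N m ^ (-(1 / 3) : ℝ) * (C2 ^ 2 * Q ^ 6 * (C3 * B ^ (2 / 3 : ℝ))) := by
            calc _ ≤ ∑ n ∈ ballN B,
                  N m ^ (-(1 / 3) : ℝ) * (C2 ^ 2 * Q ^ 6) * N n ^ (-(1 / 3) : ℝ) := by
                  refine Finset.sum_le_sum fun n _ => ?_
                  refine (pow_le_pow_left₀ (norm_nonneg _) (h2 Q _ hQ) 2).trans (le_of_eq ?_)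
                  rw [mul_pow, tmod_sq (N_nonneg _), N_mul,
                    Real.mul_rpow (N_nonneg _) (N_nonneg _)]
                  ring
              _ ≤ _ := by
                  rw [← Finset.mul_sum, mul_assoc]
                  have := Real.rpow_nonneg (N_nonneg m) (-(1 / 3) : ℝ)
                  have := s0 B hB
                  gcongr
          calc _ ≤ nsq (ballN B) a *
                (N m ^ (-(1 / 3) : ℝ) * (C2 ^ 2 * Q ^ 6 * (C3 * B ^ (2 / 3 : ℝ)))) :=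
                mul_le_mul_of_nonneg_left c2 hn
            _ = _ := by ring
      _ ≤ C3 * A ^ (2 / 3 : ℝ) * (C2 ^ 2 * Q ^ 6 * (C3 * B ^ (2 / 3 : ℝ)) * nsq (ballN B) a) := by
          rw [← Finset.sum_mul]
          exact mul_le_mul_of_nonneg_right (s0 A hA) (by positivity)
      _ = _ := by rw [Real.mul_rpow hA.le hB.le]; ring
  have hZε : 1 ≤ Z ^ ε := Real.one_le_rpow hZ hε.le
  have hQ6 : 1 ≤ Q ^ 6 := one_le_pow₀ hQ
  have hab : 0 ≤ (A * B) ^ (2 / 3 : ℝ) := by positivity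
  set F := A + B + Q ^ 6 * (A * B) ^ (2 / 3 : ℝ) with hF
  have f1 : A + B + (A * B) ^ (2 / 3 : ℝ) ≤ F := by
    have := le_mul_of_one_le_left hab hQ6
    linarith
  have f2 : Q ^ 6 * (A * B) ^ (2 / 3 : ℝ) ≤ Z ^ ε * F :=
    le_trans (by linarith) (le_mul_of_one_le_left (by positivity) hZε)
  calc _ ≤ ∑ m ∈ ballN A, (2 * ‖∑ n ∈ ballN B, a n * G (m * n)‖ ^ 2 +
        2 * ‖∑ n ∈ ballN B, a n * mdl Q (m * n)‖ ^ 2) := by
        refine Finset.sum_le_sum fun m _ => ?_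
        simp only [Kd, del, mul_sub, Finset.sum_sub_distrib]
        exact tm_two _ _
    _ ≤ 2 * (C1 * Z ^ ε * F * nsq (ballN B) a) +
        2 * (C2 ^ 2 * C3 ^ 2 * (Z ^ ε * F) * nsq (ballN B) a) := by
        rw [Finset.sum_add_distrib, ← Finset.mul_sum, ← Finset.mul_sum]
        refine add_le_add (mul_le_mul_of_nonneg_left (b1.trans ?_) two_pos.le)
          (mul_le_mul_of_nonneg_left (b2.trans ?_) two_pos.le) <;> gcongr
    _ = _ := by ring

end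

end Vale.Agent.P006
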