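import Vale.Agent.P006.TFg
import Vale.Agent.P006.TGs
import Vale.Agent.P006.TMod

namespace Vale.Agent.P006

open Vale.Agent.P026 Complex MeasureTheory Filter Topology
open scoped Classical ComplexConjugate Real MatrixGroups

noncomputable section

theorem tff_c {η : ℝ} (hη : 0 < η) : ∃ c : ℝ, 1 ≤ c ∧ ∀ Z X : ℝ, 1 ≤ Z → Z ^ (1 / 4 : ℝ) ≤ X →
    81 * Z ^ η ≤ (c * Z) ^ η ∧ (c * Z) ^ (1 / 4 : ℝ) ≤ c * X ∧ (c * Z) ^ (-η) ≤ Z ^ (-η) := by
  have c1 : (1 : ℝ) ≤ 81 ^ (1 / η) := Real.one_le_rpow (by norm_num) (by positivity)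
  refine ⟨81 ^ (1 / η), c1, fun Z X hZ hX => ⟨?_, ?_, ?_⟩⟩
  · rw [Real.mul_rpow (by positivity) (by positivity), ← Real.rpow_mul (by norm_num),
      one_div_mul_cancel hη.ne', Real.rpow_one]
  · rw [Real.mul_rpow (by positivity) (by positivity)]
    refine mul_le_mul ?_ hX (by positivity) (by positivity)
    simpa using Real.rpow_le_rpow_of_exponent_le c1 (by norm_num : (1 / 4 : ℝ) ≤ 1)
  · exact Real.rpow_le_rpow_of_nonpos (by linarith) (le_mul_of_one_le_left (by linarith) c1)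
      (by linarith)

theorem tff_gs : ∃ η : ℝ, 0 < η ∧ ∃ C : ℝ, 0 < C ∧ ∀ (Z X y : ℝ) (k r : O),
    1 ≤ Z → Z ^ (1 / 4 : ℝ) ≤ X → X ≤ Z → y ≤ X → k ≠ 0 → N k ≤ 81 * Z ^ η → r ≠ 0 →
    N r ≤ Z ^ 2 →
    ‖∑ n ∈ ballN y, (if IsCoprime r n then G n * conj (sym3 k n) else 0)‖ ≤
      C * Z ^ (-η) * X := by
  obtain ⟨η, hη, C, hC, h⟩ := gs1
  obtain ⟨c, c1, hc⟩ := tff_c hη
  refine ⟨η, hη, C * c, by positivity, fun Z X y k r hZ hX XZ hy hk kZ hr rZ => ?_⟩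
  obtain ⟨a1, a2, a3⟩ := hc Z X hZ hX
  have X0 : 0 < X := lt_of_lt_of_le (by positivity) hX
  have b1 : Z ≤ c * Z := le_mul_of_one_le_left (by linarith) c1
  refine (h (c * Z) (c * X) y k r (by linarith) a2 (by gcongr)
    (hy.trans (le_mul_of_one_le_left X0.le c1)) hk (kZ.trans a1) hr
    (rZ.trans (by gcongr))).trans ?_
  calc _ ≤ C * Z ^ (-η) * (c * X) := by gcongr
    _ = _ := by ring

theorem tff_fg : ∃ η : ℝ, 0 < η ∧ ∃ C : ℝ, 0 < C ∧ ∀ (Z Y R y : ℝ) (k : O),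
    1 ≤ Z → Z ^ (1 / 4 : ℝ) ≤ R → R ≤ Y → Y ≤ Z → Y ≤ R * Z ^ η → y ≤ R → k ≠ 0 →
    N k ≤ 81 * Z ^ η →
    ∑ a ∈ ballN Y, ‖∑ m ∈ ballN y, sym3 (a * k) m‖ ^ 2 ≤
      C * Z ^ (-η) * Y ^ (2 / 3 : ℝ) * R ^ (5 / 3 : ℝ) := by
  obtain ⟨η, hη, C, hC, h⟩ := fake_g
  obtain ⟨c, c1, hc⟩ := tff_c hη
  refine ⟨η, hη, C * (c ^ (2 / 3 : ℝ) * c ^ (5 / 3 : ℝ)), by positivity,
    fun Z Y R y k hZ hR RY YZ YR hy hk kZ => ?_⟩
  obtain ⟨a1, a2, a3⟩ := hc Z R hZ hR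
  have R0 : 0 < R := lt_of_lt_of_le (by positivity) hR
  have Y0 : 0 < Y := by linarith
  have z0 : 0 < Z ^ η := by positivity
  have b1 : Z ≤ c * Z := le_mul_of_one_le_left (by linarith) c1
  have b2 := h (c * Z) (c * Y) (c * R) y k (by linarith) a2 (by gcongr) (by gcongr)
    (by calc c * Y ≤ c * (R * Z ^ η) := by gcongr
          _ ≤ c * (R * (c * Z) ^ η) := by gcongr
          _ = _ := by ring)
    (hy.trans (le_mul_of_one_le_left R0.le c1)) hk (kZ.trans a1)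
  refine le_trans (Finset.sum_le_sum_of_subset_of_nonneg (fun a ha => ?_)
    fun _ _ _ => by positivity) (b2.trans ?_)
  · exact mem_ballN.2 ⟨(mem_ballN.1 ha).1,
      (mem_ballN.1 ha).2.trans (le_mul_of_one_le_left Y0.le c1)⟩
  · rw [Real.mul_rpow (by linarith) Y0.le, Real.mul_rpow (by linarith) R0.le]
    calc _ ≤ C * Z ^ (-η) * (c ^ (2 / 3 : ℝ) * Y ^ (2 / 3 : ℝ)) *
          (c ^ (5 / 3 : ℝ) * R ^ (5 / 3 : ℝ)) := by gcongr
      _ = _ := by ring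

theorem tff_ring {l : O} (hl : l ≠ 0) {R : ℝ} (hR : 0 ≤ R) (y : ℝ) (f : O → ℂ)
    (hf : ∀ n, NN n → ¬ NN (l * n) → f n = 0) :
    ∑ n ∈ ballN (y / N l), (if l * n ∈ ringN (R / 2) R then f n else 0) =
      ∑ n ∈ ballN (min y R / N l), f n - ∑ n ∈ ballN (min y (R / 2) / N l), f n := by
  have l0 := N_pos hl
  have cut : ∀ u : ℝ, ∑ n ∈ ballN (min y u / N l), f n =
      ∑ n ∈ ballN (y / N l), if N (l * n) ≤ u then f n else 0 := fun u => by
    rw [← Finset.sum_filter]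
    refine Finset.sum_congr ?_ fun _ _ => rfl
    ext n
    simp only [Finset.mem_filter, mem_ballN, le_div_iff₀ l0, le_min_iff, N_mul, mul_comm (N l),
      and_assoc]
  rw [cut, cut, ← Finset.sum_sub_distrib]
  refine Finset.sum_congr rfl fun n hn => ?_
  simp only [mem_ringN]
  by_cases k : NN (l * n)
  · by_cases k1 : N (l * n) ≤ R / 2
    · rw [if_pos k1, if_pos (by linarith : N (l * n) ≤ R), sub_self,
        if_neg fun x => absurd x.2.1 (not_lt.2 k1)]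
    · rw [if_neg k1, sub_zero]
      simp only [k, not_le.1 k1, true_and]
  · simp [hf n (mem_ballN.1 hn).1 k]

theorem tff_le {l : O} (hl : l ≠ 0) {R u : ℝ} (hR : 0 ≤ R) (hu : u ≤ R) (y : ℝ) :
    min y u / N l ≤ R :=
  (div_le_div_of_nonneg_right ((min_le_right _ _).trans hu) (N_nonneg l)).trans
    (div_le_self hR (one_le_N hl))

theorem tff_row : ∃ η : ℝ, 0 < η ∧ ∃ C : ℝ, 0 < C ∧ ∀ (Z R y : ℝ) (l h k h2 m : O),
    1 ≤ Z → Z ^ (1 / 4 : ℝ) ≤ R → R ≤ Z → NN l → NN m → NN h2 → h ≠ 0 → k ≠ 0 →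
    N h2 * N h ^ 2 * N k ≤ 81 * Z ^ η → N m * N l * N h2 ≤ Z ^ 2 →
    ‖∑ n ∈ ballN (y / N l), (if l * n ∈ ringN (R / 2) R then conj (G n * sym3 h n) *
      (if NN (m * (l * n)) ∧ h2 ∣ m * (l * n) then sym3 k (m * (l * n) / h2) *
        ((N (m * (l * n) / h2) ^ (-(1 / 6) : ℝ) : ℝ) : ℂ) else 0) else 0)‖ ≤
      C * Z ^ (-η) * R * (N m * R / N h2) ^ (-(1 / 6) : ℝ) := by
  obtain ⟨η, hη, C1, hC1, h1⟩ := tff_gs
  obtain ⟨C2, hC2, h2'⟩ := abel_sh
  refine ⟨η, hη, 2 * C1 * C2, by positivity,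
    fun Z R y l h k h2 m hZ hR RZ hl hm hh h0 k0 kZ rZ => ?_⟩
  have R0 : 0 < R := lt_of_lt_of_le (by positivity) hR
  have nh := N_pos hh.ne_zero
  have nm := N_pos hm.ne_zero
  have nl := N_pos hl.ne_zero
  by_cases hr : NN (m * l)
  swap
  · rw [Finset.sum_eq_zero fun n hn => by
      rw [if_neg (show ¬ (NN (m * (l * n)) ∧ _) from fun x => hr
        (x.1.of_dvd (hm.1.mul hl.1) ⟨n, by ring⟩))]
      simp]
    rw [norm_zero]; positivity
  obtain ⟨g, t, m', ht, hm', e1, e2, hc⟩ := tmod_gcd hr hh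
  have g0 : g ≠ 0 := by rintro rfl; exact hh.ne_zero (by rw [e1, zero_mul])
  have nt := N_pos ht.ne_zero
  have tN : N t ≤ N h2 := N_le_of_dvd (Dvd.intro_left g e1.symm) hh.ne_zero
  have hlt : NN (l * t) :=
    (nn_mul_iff hl.1 ht.1).2 ⟨hl, ht, (hc.of_isCoprime_of_dvd_right (dvd_mul_left l m)).symm⟩
  have hdiv : ∀ n, m * (l * (t * n)) / h2 = m' * n := fun n => by
    have : m * (l * (t * n)) = h2 * (m' * n) := by rw [← mul_assoc, e1, e2]; ring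
    rw [this, mul_div_cancel_left₀ _ hh.ne_zero]
  have hN : ∀ n, N (m' * n) = N m * R / N h2 * (N (l * t * n) / R) := fun n => by
    have := N_pos g0
    have e3 : N m * N l = N g * N m' := by rw [← N_mul, e2, N_mul]
    rw [e1]; simp only [N_mul]; field_simp; linear_combination (-(N n)) * e3
  set a : O → ℂ := fun n => if n ∈ ringN (R / 2) R then 1 else 0 with ha
  have sa : Sh a R := fun n hn => mem_ringN.1 (by by_contra c; exact hn (if_neg c))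
  set f : O → ℂ := fun n =>
    if IsCoprime (m * l * t) n then G n * conj (sym3 (t * h ^ 2 * k) n) else 0 with hf
  have B := h2' a f R (2 * (C1 * Z ^ (-η) * R)) (l * t) ((-(1 / 6) : ℝ) : ℂ) sa hlt.ne_zero
    (by rw [Complex.ofReal_re]; norm_num [abs_le]) (fun y' => by
      have u : ∀ u ≤ R, ‖∑ n ∈ ballN (min y' u / N (l * t)), f n‖ ≤ C1 * Z ^ (-η) * R :=
        fun u hu => h1 Z R _ _ _ hZ hR RZ (tff_le hlt.ne_zero R0.le hu y')
          (mul_ne_zero (mul_ne_zero ht.ne_zero (pow_ne_zero _ h0)) k0)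
          (le_trans (by
            rw [N_mul, N_mul, N_pow]
            have := N_nonneg h
            have := N_nonneg k
            gcongr) kZ)
          (mul_ne_zero hr.ne_zero ht.ne_zero)
          (le_trans (by rw [N_mul, N_mul]; gcongr) rZ)
      rw [Finset.sum_congr rfl fun n _ => (show a (l * t * n) * f n =
        if l * t * n ∈ ringN (R / 2) R then f n else 0 by simp only [ha, boole_mul]),
        tff_ring hlt.ne_zero R0.le y' f fun n hn c => if_neg fun x => c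
          ((nn_mul_iff hlt.1 hn.1).2 ⟨hlt, hn,
            x.of_isCoprime_of_dvd_left ⟨m, by ring⟩⟩)]
      exact (norm_sub_le_of_le (u R le_rfl) (u (R / 2) (by linarith))).trans_eq (by ring)) y
  rw [Complex.ofReal_im, abs_zero, add_zero, mul_one] at B
  set φ : O → ℂ := fun n => if l * n ∈ ringN (R / 2) R then conj (G n * sym3 h n) *
      (if NN (m * (l * n)) ∧ h2 ∣ m * (l * n) then sym3 k (m * (l * n) / h2) *
        ((N (m * (l * n) / h2) ^ (-(1 / 6) : ℝ) : ℝ) : ℂ) else 0) else 0 with hφ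
  have e : ∑ n ∈ ballN (y / N l), φ n =
      conj (G t * sym3 h t) * sym3 k m' * (((N m * R / N h2) ^ (-(1 / 6) : ℝ) : ℝ) : ℂ) *
        conj (∑ n ∈ ballN (y / N (l * t)), a (l * t * n) * f n *
          ((N (l * t * n) / R : ℝ) : ℂ) ^ ((-(1 / 6) : ℝ) : ℂ)) := by
    rw [Finset.sum_congr rfl fun n _ => (show φ n = if t ∣ n then φ n else 0 by
      by_cases c : t ∣ n
      · rw [if_pos c]
      · rw [if_neg c]
        simp only [hφ]
        rw [if_neg (show ¬ (NN (m * (l * n)) ∧ h2 ∣ m * (l * n)) from fun x => c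
          (hc.dvd_of_dvd_mul_left (((Dvd.intro_left g e1.symm).trans x.2).trans
            (by rw [mul_assoc]))))]
        simp), sum_ballN_dvd _ ht, div_div, ← N_mul, map_sum, Finset.mul_sum]
    refine Finset.sum_congr rfl fun n hn => ?_
    have hn' := (mem_ballN.1 hn).1
    by_cases c : IsCoprime (m * l * t) n
    · have c1 : NN (t * n) := (nn_mul_iff ht.1 hn'.1).2 ⟨ht, hn', c.of_mul_left_right⟩
      have c2 : NN (m * (l * (t * n))) := by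
        rw [← mul_assoc]
        exact (nn_mul_iff hr.1 c1.1).2 ⟨hr, c1, hc.symm.mul_right c.of_mul_left_left⟩
      rw [if_pos c1, ← Complex.ofReal_cpow (div_nonneg (N_nonneg _) R0.le)]
      simp only [hφ, hf, ha, if_pos c, ← mul_assoc l t n]
      by_cases c3 : l * t * n ∈ ringN (R / 2) R
      · rw [if_pos c3, if_pos c3, mul_assoc l t n,
          if_pos (show NN (m * (l * (t * n))) ∧ h2 ∣ m * (l * (t * n)) from
            ⟨c2, m' * n, by rw [← mul_assoc, e1, e2]; ring⟩), hdiv, hN,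
          Real.mul_rpow (by positivity) (div_nonneg (N_nonneg _) R0.le), G_mul ht.1 hn'.1,
          sym3_mul_right _ ht.ne_zero hn'.ne_zero, sym3_mul_right _ hm'.ne_zero hn'.ne_zero,
          sym3_mul_left, sym3_mul_left, sym3_pow_left, ← conj_sym3 h n, mul_assoc l t n]
        simp only [map_mul, Complex.conj_conj, Complex.conj_ofReal, one_mul, Complex.ofReal_mul]
        ring
      · rw [if_neg c3, if_neg c3]; simp
    · simp only [hf, if_neg c, mul_zero, zero_mul, map_zero]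
      split_ifs with c1
      · simp only [hφ]
        rw [if_neg (show ¬ (NN (m * (l * (t * n))) ∧ _) from fun x => c (by
          have x1 := x.1
          rw [← mul_assoc] at x1
          exact (((nn_mul_iff hr.1 c1.1).1 x1).2.2.of_mul_right_right).mul_left
            ((nn_mul_iff ht.1 hn'.1).1 c1).2.2))]
        simp
      · rfl
  rw [e, norm_mul, norm_conj, norm_mul, norm_mul, norm_conj, norm_mul, Complex.norm_real,
    Real.norm_of_nonneg (by positivity)]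
  have u1 := norm_G_le t
  have u2 := norm_sym3_le h t
  have u3 := norm_sym3_le k m'
  calc _ ≤ 1 * 1 * 1 * (N m * R / N h2) ^ (-(1 / 6) : ℝ) * (C2 * (2 * (C1 * Z ^ (-η) * R))) := by
        gcongr
    _ = _ := by ring

theorem tff_Q {Z Q θ c : ℝ} (hZ : 1 ≤ Z) (hQ : 1 ≤ Q) (h : Q ≤ Z ^ θ) (n : ℕ) (hc : θ * n ≤ c) :
    Q ^ n ≤ Z ^ c := by
  refine (pow_le_pow_left₀ (by linarith) h n).trans ?_
  rw [← Real.rpow_natCast, ← Real.rpow_mul (by linarith)]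
  exact Real.rpow_le_rpow_of_exponent_le hZ hc

theorem tff_Z {Z R : ℝ} (h1 : Z ^ (1 / 4 : ℝ) ≤ R) (h2 : R ≤ Z) {θ Q : ℝ} (hθ : 0 < θ) (hQ : 1 ≤ Q)
    (h : Q ≤ Z ^ θ) : 1 ≤ Z := by
  by_contra c
  have c := not_le.1 c
  rcases le_or_gt 0 Z with z | z
  · exact absurd (hQ.trans h) (not_le.2 (Real.rpow_lt_one z c hθ))
  · have : 0 ≤ Z ^ (1 / 4 : ℝ) := by
      rw [Real.rpow_def_of_neg z]
      exact mul_nonneg (Real.exp_pos _).le (Real.cos_nonneg_of_mem_Icc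
        ⟨by linarith [Real.pi_pos], by linarith [Real.pi_pos]⟩)
    linarith

theorem tff_inv {Z Q η : ℝ} (hZ : 1 ≤ Z) (hQ : 1 ≤ Q) (h : Q ^ 11 ≤ Z ^ η) :
    Z ^ (-η) ≤ 1 / Q ^ 11 := by
  rw [Real.rpow_neg (by linarith), ← one_div]
  exact one_div_le_one_div_of_le (by positivity) h

/-- the model against Gauss sum directions -/
theorem fake_m : ∃ θ : ℝ, 0 < θ ∧ ∃ C : ℝ, 0 < C ∧
    ∀ (Z Q Y R y : ℝ) (l h : O), 1 ≤ Q → Q ≤ Z ^ θ → Z ^ (1 / 4 : ℝ) ≤ R → R ≤ Y → Y ≤ Z →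
    NN l → N l ≤ Q ^ 5 → h ≠ 0 → N h ≤ 9 * Q ^ 11 →
    ∑ m ∈ ballN Y, ‖∑ n ∈ ballN (y / N l), (if l * n ∈ ringN (R / 2) R then
        conj (G n * sym3 h n) * mdl Q (m * (l * n)) else 0)‖ ^ 2 ≤
      C * Y ^ (2 / 3 : ℝ) * R ^ (5 / 3 : ℝ) / Q ^ 11 := by
  obtain ⟨η, hη, C1, hC1, h1⟩ := tff_row
  obtain ⟨C2, hC2, h2⟩ := card_MI_le
  obtain ⟨C3, hC3, h3⟩ := norm_cc_le
  obtain ⟨C4, hC4, h4⟩ := sum_N_rpow_le (a := -(1 / 3)) (by norm_num)
  refine ⟨min (η / 24) (1 / 6), by positivity, C1 ^ 2 * C2 ^ 2 * C3 ^ 2 * C4, by positivity,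
    fun Z Q Y R y l h hQ QZ hR RY YZ hl lQ h0 hQ' => ?_⟩
  have hZ : 1 ≤ Z := tff_Z hR (RY.trans YZ) (by positivity) hQ QZ
  have R0 : 0 < R := lt_of_lt_of_le (by positivity) hR
  have Y0 : 0 < Y := by linarith
  have Q0 : 0 < Q := by linarith
  have m1 := min_le_left (η / 24) (1 / 6)
  have m2 := min_le_right (η / 24) (1 / 6)
  have q24 := tff_Q hZ hQ QZ 24 (c := η) (by push_cast; linarith)
  have q6 := tff_Q hZ hQ QZ 6 (c := 1) (by push_cast; linarith)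
  rw [Real.rpow_one] at q6
  let T : O × O × O → O → ℂ := fun t m => ∑ n ∈ ballN (y / N l),
    (if l * n ∈ ringN (R / 2) R then conj (G n * sym3 h n) *
      (if NN (m * (l * n)) ∧ t.2.2 ∣ m * (l * n) then sym3 (cf t) (m * (l * n) / t.2.2) *
        ((N (m * (l * n) / t.2.2) ^ (-(1 / 6) : ℝ) : ℝ) : ℂ) else 0) else 0)
  have e : ∀ m, ∑ n ∈ ballN (y / N l), (if l * n ∈ ringN (R / 2) R then
        conj (G n * sym3 h n) * mdl Q (m * (l * n)) else 0) =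
      ∑ t ∈ MI Q, G t.2.2 * cc (t.1 * t.2.1) * T t m := by
    intro m
    simp only [T, Finset.mul_sum]
    rw [Finset.sum_comm]
    refine Finset.sum_congr rfl fun n _ => ?_
    by_cases c0 : l * n ∈ ringN (R / 2) R
    · simp only [if_pos c0]
      unfold mdl
      by_cases c : NN (m * (l * n))
      · rw [if_pos c, Finset.mul_sum]
        refine Finset.sum_congr rfl fun t _ => ?_
        by_cases c' : t.2.2 ∣ m * (l * n)
        · rw [if_pos c', if_pos ⟨c, c'⟩]; ring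
        · rw [if_neg c', if_neg fun h => c' h.2]; ring
      · simp [c]
    · simp [c0]
  set W := C1 * Z ^ (-η) * R with hW
  have W0 : 0 ≤ W := by positivity
  have key : ∀ t ∈ MI Q, ∑ m ∈ ballN Y, ‖G t.2.2 * cc (t.1 * t.2.1) * T t m‖ ^ 2 ≤
      C3 ^ 2 * Q * (W ^ 2 * R ^ (-(1 / 3) : ℝ)) * (C4 * Y ^ (2 / 3 : ℝ)) := by
    intro t ht
    obtain ⟨t1, t2, t3, -, t5⟩ := mem_MI.1 ht
    have r0 : t.1 * t.2.1 ≠ 0 := mul_ne_zero (XI_ne_zero t1) t2.ne_zero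
    have n1 := one_le_N r0
    have n2 := one_le_N t3.ne_zero
    have ecf : N (cf t) = N (t.1 * t.2.1) * N t.2.2 ^ 2 := by rw [cf, N_mul, N_pow]
    have n3 : N t.2.2 ≤ Q := (le_self_pow₀ n2 two_ne_zero).trans
      ((le_mul_of_one_le_left (by positivity) n1).trans (ecf ▸ t5))
    have c1 : ‖G t.2.2 * cc (t.1 * t.2.1)‖ ^ 2 * N t.2.2 ^ (1 / 3 : ℝ) ≤ C3 ^ 2 * Q := by
      have u1 : ‖G t.2.2 * cc (t.1 * t.2.1)‖ ≤ C3 * N (t.1 * t.2.1) ^ (1 / 3 : ℝ) := by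
        rw [norm_mul]
        exact (mul_le_of_le_one_left (norm_nonneg _) (norm_G_le _)).trans (h3 _ r0)
      have u2 : (N (t.1 * t.2.1) ^ (1 / 3 : ℝ)) ^ 2 ≤ N (t.1 * t.2.1) := by
        rw [← Real.rpow_natCast, ← Real.rpow_mul (by linarith)]
        exact (Real.rpow_le_rpow_of_exponent_le n1 (by norm_num)).trans_eq (Real.rpow_one _)
      have u3 : N t.2.2 ^ (1 / 3 : ℝ) ≤ N t.2.2 ^ 2 := by
        rw [← Real.rpow_natCast]
        exact Real.rpow_le_rpow_of_exponent_le n2 (by norm_num)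
      calc _ ≤ (C3 * N (t.1 * t.2.1) ^ (1 / 3 : ℝ)) ^ 2 * N t.2.2 ^ 2 := by gcongr
        _ ≤ C3 ^ 2 * N (t.1 * t.2.1) * N t.2.2 ^ 2 := by rw [mul_pow]; gcongr
        _ ≤ C3 ^ 2 * Q := by rw [mul_assoc, ← ecf]; gcongr
    have s0 : ∑ m ∈ ballN Y, N m ^ (-(1 / 3) : ℝ) ≤ C4 * Y ^ (2 / 3 : ℝ) := by
      have := h4 Y Y0.le
      rw [show (1 : ℝ) + -(1 / 3) = 2 / 3 by norm_num] at this
      exact (Finset.sum_le_sum_of_subset_of_nonneg (dual_sub Y) fun _ _ _ =>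
        Real.rpow_nonneg (N_nonneg _) _).trans this
    refine le_trans (Finset.sum_le_sum fun m hm => ?_) (by
      rw [← Finset.mul_sum]; exact mul_le_mul_of_nonneg_left s0 (by positivity))
    obtain ⟨k1, k2⟩ := mem_ballN.1 hm
    have nm := N_pos k1.ne_zero
    have nh := N_nonneg h
    have nc := N_nonneg (cf t)
    have nl := N_nonneg l
    have b := h1 Z R y l h (cf t) t.2.2 m hZ hR (RY.trans YZ) hl k1 t3 h0 (cf_ne_zero ht)
      (by calc _ ≤ Q * (9 * Q ^ 11) ^ 2 * Q := by gcongr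
            _ = 81 * Q ^ 24 := by ring
            _ ≤ _ := by gcongr)
      (by calc _ ≤ Z * Q ^ 5 * Q := by gcongr; exact k2.trans YZ
            _ = Z * Q ^ 6 := by ring
            _ ≤ Z * Z := by gcongr
            _ = _ := by ring)
    have b2 := pow_le_pow_left₀ (norm_nonneg _) b 2
    rw [mul_pow, tmod_sq (by positivity), ← hW, Real.div_rpow (by positivity) (by positivity),
      Real.mul_rpow nm.le R0.le, Real.rpow_neg (by positivity : 0 ≤ N t.2.2), div_inv_eq_mul] at b2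
    rw [norm_mul, mul_pow]
    calc _ ≤ ‖G t.2.2 * cc (t.1 * t.2.1)‖ ^ 2 * (W ^ 2 * (N m ^ (-(1 / 3) : ℝ) *
          R ^ (-(1 / 3) : ℝ) * N t.2.2 ^ (1 / 3 : ℝ))) :=
          mul_le_mul_of_nonneg_left b2 (by positivity)
      _ = ‖G t.2.2 * cc (t.1 * t.2.1)‖ ^ 2 * N t.2.2 ^ (1 / 3 : ℝ) *
          (W ^ 2 * R ^ (-(1 / 3) : ℝ) * N m ^ (-(1 / 3) : ℝ)) := by ring
      _ ≤ C3 ^ 2 * Q * (W ^ 2 * R ^ (-(1 / 3) : ℝ) * N m ^ (-(1 / 3) : ℝ)) :=
          mul_le_mul_of_nonneg_right c1 (by positivity)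
      _ = _ := by ring
  have hc := h2 Q hQ
  have eR : R ^ (5 / 3 : ℝ) = R ^ 2 * R ^ (-(1 / 3) : ℝ) := by
    rw [← Real.rpow_natCast, ← Real.rpow_add R0]; norm_num
  have z1 := tff_inv hZ hQ ((pow_le_pow_right₀ hQ (by norm_num)).trans q24)
  have z2 : Q ^ 5 * Z ^ (-η) ≤ 1 := by
    rw [Real.rpow_neg (by linarith), ← div_eq_mul_inv, div_le_one (by positivity)]
    exact (pow_le_pow_right₀ hQ (by norm_num)).trans q24
  simp only [e]
  calc _ ≤ ∑ m ∈ ballN Y, (MI Q).card *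
        ∑ t ∈ MI Q, ‖G t.2.2 * cc (t.1 * t.2.1) * T t m‖ ^ 2 :=
        Finset.sum_le_sum fun m _ => tm_sq_sum _ _
    _ ≤ (MI Q).card * ((MI Q).card *
          (C3 ^ 2 * Q * (W ^ 2 * R ^ (-(1 / 3) : ℝ)) * (C4 * Y ^ (2 / 3 : ℝ)))) := by
        rw [← Finset.mul_sum, Finset.sum_comm]
        refine mul_le_mul_of_nonneg_left ((Finset.sum_le_sum key).trans ?_) (Nat.cast_nonneg _)
        rw [Finset.sum_const, nsmul_eq_mul]
    _ ≤ C2 * Q ^ 2 * (C2 * Q ^ 2 *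
          (C3 ^ 2 * Q * (W ^ 2 * R ^ (-(1 / 3) : ℝ)) * (C4 * Y ^ (2 / 3 : ℝ)))) := by gcongr
    _ = C1 ^ 2 * C2 ^ 2 * C3 ^ 2 * C4 * Y ^ (2 / 3 : ℝ) * R ^ (5 / 3 : ℝ) *
          ((Q ^ 5 * Z ^ (-η)) * Z ^ (-η)) := by rw [hW, eR]; ring
    _ ≤ C1 ^ 2 * C2 ^ 2 * C3 ^ 2 * C4 * Y ^ (2 / 3 : ℝ) * R ^ (5 / 3 : ℝ) * (1 * (1 / Q ^ 11)) := by
        gcongr
    _ = _ := by ring

theorem tff_g : ∃ θ : ℝ, 0 < θ ∧ ∃ C : ℝ, 0 < C ∧
    ∀ (Z Q Y R y : ℝ) (l h : O), 1 ≤ Q → Q ≤ Z ^ θ → Z ^ (1 / 4 : ℝ) ≤ R → R ≤ Y → Y ≤ Z →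
    Y ≤ R * Q → NN l → N l ≤ Q ^ 5 → h ≠ 0 → N h ≤ 9 * Q ^ 11 →
    ∑ m ∈ ballN Y, ‖∑ n ∈ ballN (y / N l), (if l * n ∈ ringN (R / 2) R then
        conj (G n * sym3 h n) * G (m * (l * n)) else 0)‖ ^ 2 ≤
      C * Y ^ (2 / 3 : ℝ) * R ^ (5 / 3 : ℝ) / Q ^ 11 := by
  obtain ⟨η, hη, C, hC, h1⟩ := tff_fg
  refine ⟨η / 16, by positivity, 4 * C, by positivity,
    fun Z Q Y R y l h hQ QZ hR RY YZ YR hl lQ h0 hQ' => ?_⟩
  have hZ : 1 ≤ Z := tff_Z hR (RY.trans YZ) (by positivity) hQ QZ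
  have R0 : 0 < R := lt_of_lt_of_le (by positivity) hR
  have Y0 : 0 < Y := by linarith
  have q16 := tff_Q hZ hQ QZ 16 (c := η) (by push_cast; linarith)
  have z1 := tff_inv hZ hQ ((pow_le_pow_right₀ hQ (by norm_num)).trans q16)
  have u : ∀ u ≤ R, ∑ m ∈ ballN Y, ‖∑ n ∈ ballN (min y u / N l), sym3 (m * (l * h)) n‖ ^ 2 ≤
      C * Z ^ (-η) * Y ^ (2 / 3 : ℝ) * R ^ (5 / 3 : ℝ) := fun u hu =>
    h1 Z Y R _ _ hZ hR RY YZ
      (YR.trans (mul_le_mul_of_nonneg_left ((le_self_pow₀ hQ (by norm_num)).trans q16) R0.le))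
      (tff_le hl.ne_zero R0.le hu y) (mul_ne_zero hl.ne_zero h0) (by
        have := N_nonneg h
        have : 0 < Z ^ η := by positivity
        rw [N_mul]
        calc _ ≤ Q ^ 5 * (9 * Q ^ 11) := by gcongr
          _ = 9 * Q ^ 16 := by ring
          _ ≤ _ := by linarith)
  calc _ ≤ ∑ m ∈ ballN Y, (2 * ‖∑ n ∈ ballN (min y R / N l), sym3 (m * (l * h)) n‖ ^ 2 +
        2 * ‖∑ n ∈ ballN (min y (R / 2) / N l), sym3 (m * (l * h)) n‖ ^ 2) := by
        refine Finset.sum_le_sum fun m hm => le_trans ?_ (tm_two _ _)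
        rw [← tff_ring hl.ne_zero R0.le y _ fun n hn c => (sym3_eq_zero_iff hn.ne_zero).2 fun x =>
          c ((nn_mul_iff hl.1 hn.1).2 ⟨hl, hn, x.of_mul_left_right.of_mul_left_left⟩)]
        have : ∑ n ∈ ballN (y / N l), (if l * n ∈ ringN (R / 2) R then
            conj (G n * sym3 h n) * G (m * (l * n)) else 0) = G (m * l) *
            conj (∑ n ∈ ballN (y / N l),
              (if l * n ∈ ringN (R / 2) R then sym3 (m * (l * h)) n else 0)) := by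
          rw [map_sum, Finset.mul_sum]
          refine Finset.sum_congr rfl fun n hn => ?_
          have hn' := (mem_ballN.1 hn).1
          split_ifs
          · have k : conj (G n) * G n = 1 := by
              rw [Complex.conj_mul', norm_G hn']; simp
            rw [← mul_assoc m, ← mul_assoc m, G_mul ((gm_prim hm).mul hl.1) hn'.1,
              sym3_mul_left _ h, map_mul, map_mul]
            linear_combination (G (m * l) * conj (sym3 (m * l) n) * conj (sym3 h n)) * k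
          · simp
        rw [this, norm_mul, norm_conj]
        exact pow_le_pow_left₀ (by positivity)
          (mul_le_of_le_one_left (norm_nonneg _) (norm_G_le _)) 2
    _ ≤ 2 * (C * Z ^ (-η) * Y ^ (2 / 3 : ℝ) * R ^ (5 / 3 : ℝ)) +
        2 * (C * Z ^ (-η) * Y ^ (2 / 3 : ℝ) * R ^ (5 / 3 : ℝ)) := by
        rw [Finset.sum_add_distrib, ← Finset.mul_sum, ← Finset.mul_sum]
        have := u R le_rfl
        have := u (R / 2) (by linarith)
        linarith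
    _ = 4 * C * Y ^ (2 / 3 : ℝ) * R ^ (5 / 3 : ℝ) * Z ^ (-η) := by ring
    _ ≤ 4 * C * Y ^ (2 / 3 : ℝ) * R ^ (5 / 3 : ℝ) * (1 / Q ^ 11) := by gcongr
    _ = _ := by ring

/-- Gauss sum directions -/
theorem ffake : ∃ θ : ℝ, 0 < θ ∧ ∃ C : ℝ, 0 < C ∧
    ∀ (Z Q Y R y : ℝ) (l h : O), 1 ≤ Q → Q ≤ Z ^ θ → Z ^ (1 / 4 : ℝ) ≤ R → R ≤ Y → Y ≤ Z →
    Y ≤ R * Q → NN l → N l ≤ Q ^ 5 → h ≠ 0 → N h ≤ 9 * Q ^ 11 →
    ∑ m ∈ ballN Y, ‖∑ n ∈ ballN (y / N l), (if l * n ∈ ringN (R / 2) R then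
        conj (G n * sym3 h n) * del Q (m * (l * n)) else 0)‖ ^ 2 ≤
      C * Y ^ (2 / 3 : ℝ) * R ^ (5 / 3 : ℝ) / Q ^ 11 := by
  obtain ⟨θ1, t1, C1, hC1, h1⟩ := tff_g
  obtain ⟨θ2, t2, C2, hC2, h2⟩ := fake_m
  refine ⟨min θ1 θ2, by positivity, 2 * C1 + 2 * C2, by positivity,
    fun Z Q Y R y l h hQ QZ hR RY YZ YR hl lQ h0 hQ' => ?_⟩
  have hZ : 1 ≤ Z := tff_Z hR (RY.trans YZ) (by positivity) hQ QZ
  have b1 := h1 Z Q Y R y l h hQ
    (QZ.trans (Real.rpow_le_rpow_of_exponent_le hZ (min_le_left _ _))) hR RY YZ YR hl lQ h0 hQ'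
  have b2 := h2 Z Q Y R y l h hQ
    (QZ.trans (Real.rpow_le_rpow_of_exponent_le hZ (min_le_right _ _))) hR RY YZ hl lQ h0 hQ'
  refine le_trans (Finset.sum_le_sum fun m _ => le_trans (le_of_eq ?_) (tm_two
    (∑ n ∈ ballN (y / N l), (if l * n ∈ ringN (R / 2) R then
        conj (G n * sym3 h n) * G (m * (l * n)) else 0))
    (∑ n ∈ ballN (y / N l), (if l * n ∈ ringN (R / 2) R then
        conj (G n * sym3 h n) * mdl Q (m * (l * n)) else 0)))) ?_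
  · rw [← Finset.sum_sub_distrib]
    congr 2
    refine Finset.sum_congr rfl fun n _ => ?_
    split_ifs
    · rw [del, mul_sub]
    · rw [sub_zero]
  · rw [Finset.sum_add_distrib, ← Finset.mul_sum, ← Finset.mul_sum]
    calc _ ≤ 2 * (C1 * Y ^ (2 / 3 : ℝ) * R ^ (5 / 3 : ℝ) / Q ^ 11) +
          2 * (C2 * Y ^ (2 / 3 : ℝ) * R ^ (5 / 3 : ℝ) / Q ^ 11) := by linarith
      _ = _ := by ring

end

end Vale.Agent.P006
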