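import Vale.Agent.P006.LBas
import Vale.Agent.P006.TPv1

namespace Vale.Agent.P006

open Vale.Agent.P026 Complex MeasureTheory Filter Topology
open scoped Classical ComplexConjugate Real MatrixGroups

noncomputable section

theorem pvg_hat {r q0 : O} {f0 : O → ℂ} (hr : r ≠ 0) (hq : q0 ≠ 0) (hc : IsCoprime r q0)
    (hf : Per q0 f0) (h : O) :
    ∑ x ∈ rs (r * q0), sym3 x r * f0 x * psi (toC h * toC x / toC (r * q0)) =
      sym3 q0 r * g3 h r * ∑ y ∈ rs q0, f0 (y * r) * psi (toC h * toC y / toC q0) := by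
  have hp : Per (r * q0) fun x => sym3 x r * f0 x := fun x y hxy => by
    simp only [sym3_congr ((dvd_mul_right r q0).trans hxy), hf x y ((dvd_mul_left q0 r).trans hxy)]
  rw [sum_rs_crt hr hq hc (gau_per (mul_ne_zero hr hq) hp h), g3, mul_assoc,
    Finset.sum_mul_sum, Finset.mul_sum]
  refine Finset.sum_congr rfl fun x _ => ?_
  rw [Finset.mul_sum]
  refine Finset.sum_congr rfl fun y _ => ?_
  have e1 : sym3 (x * q0 + y * r) r = sym3 x r * sym3 q0 r := by
    rw [← sym3_mul_left]; exact sym3_congr ⟨y, by ring⟩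
  have e2 : f0 (x * q0 + y * r) = f0 (y * r) := hf _ _ ⟨x, by ring⟩
  have e3 : toC h * toC (x * q0 + y * r) / toC (r * q0) =
      toC h * toC x / toC r + toC h * toC y / toC q0 := by
    have := toC_ne_zero hr
    have := toC_ne_zero hq
    simp only [map_add, map_mul]
    field_simp
  rw [e1, e2, e3, psi_add]
  ring

/-- smooth Polya-Vinogradov -/
theorem pvg : ∃ C : ℝ, 0 < C ∧ ∀ (r q0 : O) (f0 : O → ℂ) (X τ : ℝ), NN r → r ≠ 1 → q0 ≠ 0 →
    IsCoprime r q0 → Wt q0 f0 → 0 < X →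
    ‖∑' n : O, sym3 n r * f0 n *
        Complex.exp (-(kap * (1 + τ * Complex.I) * ((N n / X : ℝ) : ℂ)))‖ ≤
      C * (1 + |τ|) * √(N r) * N q0 := by
  obtain ⟨C, hC, hb⟩ := dual_bound
  refine ⟨C, hC, fun r q0 f0 X τ hr h1 hq hc hf hX => ?_⟩
  have r0 := hr.ne_zero
  have hp : Per (r * q0) fun x => sym3 x r * f0 x := fun x y hxy => by
    simp only [sym3_congr ((dvd_mul_right r q0).trans hxy),
      hf.1 x y ((dvd_mul_left q0 r).trans hxy)]
  have sre : ((1 + τ * Complex.I) * ((X⁻¹ : ℝ) : ℂ)).re = X⁻¹ := by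
    rw [re_mul_ofReal]
    simp
  have e : ∀ n : O, sym3 n r * f0 n *
      Complex.exp (-(kap * (1 + τ * Complex.I) * ((N n / X : ℝ) : ℂ))) = sym3 n r * f0 n *
      Complex.exp (-(kap * ((1 + τ * Complex.I) * ((X⁻¹ : ℝ) : ℂ)) * (N n : ℝ))) := fun n => by
    congr 2
    push_cast
    ring
  have Nq := N_pos (mul_ne_zero r0 hq)
  have Xi := inv_pos.2 hX
  rw [tsum_congr e, poisson_char_c (mul_ne_zero r0 hq) hp (by rw [sre]; exact Xi)]
  refine (hb _ _ (√(N r) * N q0) (by rw [re_mul_ofReal, sre]; positivity) (fun h => ?_) ?_).trans ?_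
  · rw [pvg_hat r0 hq hc hf.1, norm_mul, norm_mul, g3_twist' hr.1 hr.2.1, norm_mul, norm_conj,
      norm_g3_one hr.1 hr.2.1]
    refine mul_le_mul ?_ ?_ (norm_nonneg _) (Real.sqrt_nonneg _)
    · rw [← mul_assoc]
      exact mul_le_of_le_one_left (Real.sqrt_nonneg _)
        (mul_le_one₀ (norm_sym3_le _ _) (norm_nonneg _) (norm_sym3_le _ _))
    · refine (norm_sum_le_of_le (n := fun _ => (1 : ℝ)) _ fun y _ => ?_).trans_eq ?_
      · rw [norm_mul, norm_psi, mul_one]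
        exact hf.2 _
      · rw [Finset.sum_const, card_rs hq, nsmul_eq_mul, mul_one, N]
  · rw [pvg_hat r0 hq hc hf.1, g3_twist' hr.1 hr.2.1, (sym3_eq_zero_iff r0).2 fun h =>
      h1 (hr.1.eq_one_of_isUnit (isCoprime_zero_left.1 h))]
    simp
  · have a : ‖(1 + τ * Complex.I) * ((X⁻¹ : ℝ) : ℂ) * (N (r * q0) : ℝ)‖ /
        ((1 + τ * Complex.I) * ((X⁻¹ : ℝ) : ℂ) * (N (r * q0) : ℝ)).re ≤ 1 + |τ| := by
      rw [re_mul_ofReal, sre, norm_mul, norm_mul, norm_real, norm_real, Real.norm_of_nonneg Xi.le,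
        Real.norm_of_nonneg Nq.le, mul_assoc, mul_div_cancel_right₀ _ (by positivity)]
      refine (norm_add_le _ _).trans_eq ?_
      simp
    have := N_nonneg q0
    calc _ ≤ C * (√(N r) * N q0) * (1 + |τ|) := by gcongr
      _ = _ := by ring

end

end Vale.Agent.P006
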