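import Vale.Agent.P006.TApx
import Vale.Agent.P006.TPv
import Vale.Agent.P006.LRec
import Vale.Agent.P006.NT

namespace Vale.Agent.P006

open Vale.Agent.P026 Complex MeasureTheory Filter Topology
open scoped Classical ComplexConjugate Real MatrixGroups

noncomputable section

theorem tfg_pv : ∃ C : ℝ, 0 < C ∧ ∀ (a k l : O) (X τ : ℝ), NN a → k ≠ 0 → ¬a ∣ k → l ≠ 0 → 0 < X →
    ‖∑' n : O, (if Prim n ∧ OddO n then sym3 (a * k) (l ^ 2 * n) else 0) *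
      Complex.exp (-(kap * (1 + τ * Complex.I) * ((N n / X : ℝ) : ℂ)))‖ ≤
        (1 + |τ|) * (C * √(N a) * N k ^ 2) := by
  obtain ⟨C, hC, h⟩ := pvg
  refine ⟨C * 324, by positivity, fun a k l X τ ha hk hak hl hX => ?_⟩
  obtain ⟨g, hg, ⟨r, rfl⟩, gk, hd⟩ := exists_prim_gcd ha.1 k
  have pr := ha.1.of_mul hg
  obtain ⟨ng, nr, cgr⟩ := (nn_mul_iff hg pr).1 ha
  have crk : IsCoprime r k := (isCoprime_iff_no_prime (Or.inl nr.ne_zero)).2 fun p hp a1 a2 =>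
    hp.not_isUnit (cgr.isUnit_of_dvd' (hd p (a1.mul_left g) a2) a1)
  have c18 : IsCoprime r 18 := by
    have := (oddO_iff_coprime.1 nr.2.2).mul_right (pr.coprime_three.pow_right (n := 2))
    norm_num at this
    exact this
  have gk0 : g * k ≠ 0 := mul_ne_zero hg.ne_zero hk
  have h18 : (18 : O) ≠ 0 := by decide
  have := h r (18 * (g * k) * 1)
    (fun x => if Prim x ∧ OddO x ∧ IsCoprime x 1 then sym3 (g * k) x else 0) X τ nr
    (fun e => hak (by rw [e, mul_one]; exact gk)) (mul_ne_zero (mul_ne_zero h18 gk0) one_ne_zero)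
    ((c18.mul_right (cgr.symm.mul_right crk)).mul_right isCoprime_one_right)
    ⟨per_sym3 gk0, fun x => by
      beta_reduce
      split_ifs
      · exact norm_sym3_le _ _
      · simp⟩ hX
  have e : ∀ n : O, (if Prim n ∧ OddO n then sym3 (g * r * k) (l ^ 2 * n) else 0) *
      Complex.exp (-(kap * (1 + τ * Complex.I) * ((N n / X : ℝ) : ℂ))) =
      sym3 (g * r * k) (l ^ 2) * (sym3 n r *
        (if Prim n ∧ OddO n ∧ IsCoprime n 1 then sym3 (g * k) n else 0) *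
        Complex.exp (-(kap * (1 + τ * Complex.I) * ((N n / X : ℝ) : ℂ)))) := fun n => by
    by_cases hn : Prim n ∧ OddO n
    · rw [if_pos hn, if_pos ⟨hn.1, hn.2, isCoprime_one_right⟩,
        sym3_mul_right _ (pow_ne_zero 2 hl) hn.1.ne_zero, cubic_recip hn.1 pr,
        show g * r * k = r * (g * k) by ring, sym3_mul_left r (g * k) n]
      ring
    · rw [if_neg hn, if_neg fun x => hn ⟨x.1, x.2.1⟩]
      simp
  rw [tsum_congr e, tsum_mul_left, norm_mul]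
  refine (mul_le_of_le_one_left (norm_nonneg _) (norm_sym3_le _ _)).trans (this.trans ?_)
  have a1 : √(N r) ≤ √(N (g * r)) := Real.sqrt_le_sqrt (N_le_of_dvd (dvd_mul_left _ _) ha.ne_zero)
  have a2 : N (18 * (g * k) * 1) ≤ 324 * N k ^ 2 := by
    rw [mul_one, N_mul, N_mul, N_ofNat, sq (N k)]
    have := mul_le_mul_of_nonneg_right (N_le_of_dvd gk hk) (N_nonneg k)
    linarith
  have := N_nonneg (18 * (g * k) * 1)
  calc _ ≤ C * (1 + |τ|) * √(N (g * r)) * (324 * N k ^ 2) := by gcongr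
    _ = _ := by ring

theorem tfg_two {x : ℝ} (hx : x ≤ 1) : (2 : ℝ) ^ x ≤ 2 := by
  simpa using Real.rpow_le_rpow_of_exponent_le (by norm_num : (1 : ℝ) ≤ 2) hx

theorem tfg_sq (x E : ℝ) : (x + E) ^ 2 ≤ 2 * x ^ 2 + 2 * E ^ 2 := by
  nlinarith [sq_nonneg (x - E)]

theorem tfg_p1 {C u y r : ℝ} (c : 0 < C) (u1 : 1 ≤ u) (r1 : 1 ≤ r) (ur : u ^ 75 ≤ r)
    (ry : r ≤ y ^ 2) : C * u ^ 3 * (C * r ^ 3) ^ 2 ≤ C ^ 3 * (y ^ 4 * r ^ 5 / u ^ 3) := by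
  have u0 : 0 < u := by linarith
  have r0 : 0 < r := by linarith
  rw [← mul_div_assoc, le_div_iff₀ (by positivity)]
  calc _ = C ^ 3 * (u ^ 6 * r * r ^ 5) := by ring
    _ ≤ C ^ 3 * (y ^ 2 * y ^ 2 * r ^ 5) := by
        gcongr
        exact ((pow_le_pow_right₀ u1 (by norm_num)).trans ur).trans ry
    _ = _ := by ring

theorem tfg_p2 {u y r x : ℝ} (u1 : 1 ≤ u) (y1 : 1 ≤ y) (r1 : 1 ≤ r) (ry : r ≤ y ^ 2)
    (yr : y ^ 2 ≤ r * u) (hx : x ≤ 2 * r) :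
    2 * r ^ 3 + x * y ^ 6 + 2 * (r ^ 2 * y ^ 4) ≤ 6 * (r ^ 2 * y ^ 4 * u) := by
  have r0 : 0 < r := by linarith
  have y0 : 0 < y := by linarith
  have e1 : r ^ 3 ≤ r ^ 2 * y ^ 4 * u := by
    calc r ^ 3 = r ^ 2 * (r * 1) * 1 := by ring
      _ ≤ r ^ 2 * (y ^ 2 * y ^ 2) * u := by
          gcongr
          exact one_le_pow₀ y1
      _ = _ := by ring
  have e2 : x * y ^ 6 ≤ 2 * (r ^ 2 * y ^ 4 * u) := by
    calc _ ≤ 2 * r * y ^ 6 := by gcongr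
      _ = 2 * r * y ^ 4 * y ^ 2 := by ring
      _ ≤ 2 * r * y ^ 4 * (r * u) := by gcongr
      _ = _ := by ring
  have e3 : r ^ 2 * y ^ 4 ≤ r ^ 2 * y ^ 4 * u := le_mul_of_one_le_right (by positivity) u1
  linarith

theorem tfg_p4 {C D u y r x : ℝ} (c : 0 < C) (u1 : 1 ≤ u) (y1 : 1 ≤ y) (r1 : 1 ≤ r)
    (ur : u ^ 75 ≤ r) (yr : y ^ 2 ≤ r * u) (hx : x ≤ C * y ^ 6) :
    x * (D * (u ^ 25 * y ^ 3)) ^ 2 ≤ C * D ^ 2 * (y ^ 4 * r ^ 5 / u ^ 3) := by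
  have u0 : 0 < u := by linarith
  have r0 : 0 < r := by linarith
  have y0 : 0 < y := by linarith
  rw [← mul_div_assoc, le_div_iff₀ (by positivity)]
  calc _ ≤ C * y ^ 6 * (D * (u ^ 25 * y ^ 3)) ^ 2 * u ^ 3 := by gcongr
    _ = C * D ^ 2 * (y ^ 4 * ((y ^ 2) ^ 4 * u ^ 53)) := by ring
    _ ≤ C * D ^ 2 * (y ^ 4 * ((r * u) ^ 4 * u ^ 53)) := by gcongr
    _ = C * D ^ 2 * (y ^ 4 * (r ^ 4 * u ^ 57)) := by ring
    _ ≤ C * D ^ 2 * (y ^ 4 * (r ^ 4 * r)) := by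
        gcongr
        exact (pow_le_pow_right₀ u1 (by norm_num)).trans ur
    _ = _ := by ring

theorem tfg_fin {Y : ℝ} {k : O} {F G : O → ℂ} {E A B D T : ℝ}
    (b1 : ∑ a ∈ ballN Y with a ∣ k, ‖F a‖ ^ 2 ≤ A * T) (b2 : ∑ a ∈ ballN Y, ‖G a‖ ^ 2 ≤ B * T)
    (b3 : ∀ a ∈ ballN Y, ¬a ∣ k → ‖F a - G a‖ ≤ E) (b4 : ((ballN Y).card : ℝ) * E ^ 2 ≤ D * T) :
    ∑ a ∈ ballN Y, ‖F a‖ ^ 2 ≤ (A + 2 * B + 2 * D) * T := by
  have b5 : ∑ a ∈ ballN Y with ¬a ∣ k, ‖F a‖ ^ 2 ≤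
      ∑ a ∈ ballN Y, (2 * ‖G a‖ ^ 2 + 2 * E ^ 2) := by
    refine le_trans (Finset.sum_le_sum fun a ha => ?_) (Finset.sum_le_sum_of_subset_of_nonneg
      (Finset.filter_subset _ _) fun _ _ _ => by positivity)
    obtain ⟨a1, a2⟩ := Finset.mem_filter.1 ha
    have := (norm_le_norm_add_norm_sub' _ _).trans (add_le_add le_rfl (b3 a a1 a2))
    exact (pow_le_pow_left₀ (norm_nonneg _) this 2).trans (tfg_sq _ _)
  rw [Finset.sum_add_distrib, ← Finset.mul_sum, ← Finset.mul_sum, Finset.sum_const,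
    nsmul_eq_mul] at b5
  rw [← Finset.sum_filter_add_sum_filter_not _ (· ∣ k)]
  linarith

/-- mean square of cubic character sums of length about the conductor -/
theorem fake_g : ∃ η : ℝ, 0 < η ∧ ∃ C : ℝ, 0 < C ∧ ∀ (Z Y R y : ℝ) (k : O),
    1 ≤ Z → Z ^ (1 / 4 : ℝ) ≤ R → R ≤ Y → Y ≤ Z → Y ≤ R * Z ^ η → y ≤ R → k ≠ 0 → N k ≤ Z ^ η →
    ∑ a ∈ ballN Y, ‖∑ m ∈ ballN y, sym3 (a * k) m‖ ^ 2 ≤
      C * Z ^ (-η) * Y ^ (2 / 3 : ℝ) * R ^ (5 / 3 : ℝ) := by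
  obtain ⟨C1, c1, h1⟩ := apx (ε := 1 / 900) (by norm_num)
  obtain ⟨C2, c2, h2⟩ := tfg_pv
  obtain ⟨C3, c3, h3⟩ := lsall_dual (ε := 1 / 900) (by norm_num)
  obtain ⟨C4, c4, h4⟩ := card_ballO_le
  obtain ⟨C5, c5, h5⟩ : ∃ C : ℝ, 0 < C ∧ ∀ x : ℝ, 0 < x → Real.exp (-x) ≤ C / x ^ 150 :=
    ⟨(Nat.factorial 150 : ℝ), by positivity, fun x hx => by
      have := Real.pow_div_factorial_le_exp x hx.le 150
      rw [Real.exp_neg, ← inv_div]
      exact inv_anti₀ (by positivity) this⟩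
  refine ⟨1 / 300, by norm_num, C4 ^ 3 + 2 * (12 * C3 * C1) + 2 * (C4 * (C1 * (C2 + C5)) ^ 2),
    by positivity, fun Z Y R y k hZ hR hRY hYZ hYR hy hk hkZ => ?_⟩
  have Z0 : 0 < Z := by linarith
  have R1 : 1 ≤ R := (Real.one_le_rpow hZ (by norm_num)).trans hR
  have R0 : 0 < R := by linarith
  have Y0 : 0 < Y := by linarith
  obtain ⟨u, hu⟩ : ∃ u, u = Z ^ (1 / 900 : ℝ) := ⟨_, rfl⟩
  obtain ⟨y3, hy3⟩ : ∃ y3, y3 = Y ^ (1 / 6 : ℝ) := ⟨_, rfl⟩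
  obtain ⟨r3, hr3⟩ : ∃ r3, r3 = R ^ (1 / 3 : ℝ) := ⟨_, rfl⟩
  have pw : ∀ {x : ℝ}, 0 ≤ x → ∀ (c : ℝ) (n : ℕ), (x ^ c) ^ n = x ^ (c * n) := fun hx c n => by
    rw [← Real.rpow_natCast, ← Real.rpow_mul hx]
  have u1 : 1 ≤ u := hu ▸ Real.one_le_rpow hZ (by norm_num)
  have y1 : 1 ≤ y3 := hy3 ▸ Real.one_le_rpow (R1.trans hRY) (by norm_num)
  have r1 : 1 ≤ r3 := hr3 ▸ Real.one_le_rpow R1 (by norm_num)
  have u0 : 0 < u := by linarith
  have y0 : 0 < y3 := by linarith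
  have r0 : 0 < r3 := by linarith
  have eZ : Z = u ^ 900 := by rw [hu, pw Z0.le]; norm_num
  have eZ4 : Z ^ (1 / 4 : ℝ) = u ^ 225 := by rw [hu, pw Z0.le]; norm_num
  have eη : Z ^ (1 / 300 : ℝ) = u ^ 3 := by rw [hu, pw Z0.le]; norm_num
  have eY : Y = y3 ^ 6 := by rw [hy3, pw Y0.le]; norm_num
  have eY1 : Y ^ (2 / 3 : ℝ) = y3 ^ 4 := by rw [hy3, pw Y0.le]; norm_num
  have eY2 : √Y = y3 ^ 3 := by rw [hy3, pw Y0.le, Real.sqrt_eq_rpow]; norm_num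
  have eR : R = r3 ^ 3 := by rw [hr3, pw R0.le]; norm_num
  have eR2 : R ^ (2 / 3 : ℝ) = r3 ^ 2 := by rw [hr3, pw R0.le]; norm_num
  have eR5 : R ^ (5 / 3 : ℝ) = r3 ^ 5 := by rw [hr3, pw R0.le]; norm_num
  rw [eZ4] at hR
  rw [eη] at hYR hkZ
  have ur : u ^ 75 ≤ r3 := (pow_le_pow_iff_left₀ (by positivity) r0.le three_ne_zero).1 (by
    rw [← pow_mul, ← eR]; exact hR)
  have ry : r3 ≤ y3 ^ 2 := (pow_le_pow_iff_left₀ r0.le (by positivity) three_ne_zero).1 (by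
    rw [← pow_mul, ← eR, ← eY]; exact hRY)
  have yr : y3 ^ 2 ≤ r3 * u := (pow_le_pow_iff_left₀ (by positivity) (by positivity)
    three_ne_zero).1 (by rw [← pow_mul, mul_pow, ← eR, ← eY]; exact hYR)
  have yu : y3 ≤ u ^ 150 := (pow_le_pow_iff_left₀ y0.le (by positivity) (by norm_num : 6 ≠ 0)).1 (by
    rw [← pow_mul, ← eY, ← eZ]; exact hYZ)
  have up : ∀ m n : ℕ, m ≤ n → u ^ m ≤ u ^ n := fun m n h => pow_le_pow_right₀ u1 h
  obtain ⟨d, d1, d2, d3⟩ := h1 Z R y (u ^ 6) (one_le_pow₀ u1) ((up 6 225 (by norm_num)).trans hR)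
    (hRY.trans hYZ) hy
  rw [← hu] at d2 d3
  obtain ⟨T, hT⟩ : ∃ T, T = y3 ^ 4 * r3 ^ 5 / u ^ 3 := ⟨_, rfl⟩
  have b1 : ∑ a ∈ ballN Y with a ∣ k, ‖∑ m ∈ ballN y, sym3 (a * k) m‖ ^ 2 ≤ C4 ^ 3 * T := by
    refine (Finset.sum_le_card_nsmul _ _ ((C4 * R) ^ 2) fun a _ => ?_).trans ?_
    · refine pow_le_pow_left₀ (norm_nonneg _) ((norm_sum_le_of_le (n := fun _ => (1 : ℝ)) _
        fun m _ => norm_sym3_le _ _).trans ?_) 2
      rw [Finset.sum_const, nsmul_eq_mul, mul_one]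
      exact le_trans (Nat.cast_le.2 (Finset.card_le_card ((dual_sub y).trans (ballO_mono hy))))
        (h4 R R0.le)
    · have : (((ballN Y).filter (· ∣ k)).card : ℝ) ≤ C4 * u ^ 3 := by
        refine le_trans (Nat.cast_le.2 (Finset.card_le_card fun a ha => ?_)) (h4 _ (by positivity))
        obtain ⟨a1, a2⟩ := Finset.mem_filter.1 ha
        exact mem_ballO.2 ⟨(gm_prim a1).ne_zero, (N_le_of_dvd a2 hk).trans hkZ⟩
      rw [nsmul_eq_mul, hT, eR]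
      exact (mul_le_mul_of_nonneg_right this (sq_nonneg _)).trans (tfg_p1 c4 u1 r1 ur ry)
  have b2 : ∑ a ∈ ballN Y, ‖∑ n ∈ ballO (2 * R), d n * sym3 (a * k) n‖ ^ 2 ≤ 12 * C3 * C1 * T := by
    have a0 := h3 (2 * Z) (2 * R) Y (by linarith) (by linarith) (by linarith) Y0 (by linarith)
      fun n => d n * sym3 k n
    have a1 : (2 * Z) ^ (1 / 900 : ℝ) ≤ 2 * u := by
      rw [Real.mul_rpow (by norm_num) Z0.le, ← hu]
      exact mul_le_mul_of_nonneg_right (tfg_two (by norm_num)) u0.le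
    have a2 : (2 * R) ^ (1 / 3 : ℝ) ≤ 2 * r3 := by
      rw [Real.mul_rpow (by norm_num) R0.le, ← hr3]
      exact mul_le_mul_of_nonneg_right (tfg_two (by norm_num)) r0.le
    have a3 : (2 * R * Y) ^ (2 / 3 : ℝ) ≤ 2 * (r3 ^ 2 * y3 ^ 4) := by
      rw [mul_assoc, Real.mul_rpow (by norm_num) (by positivity), Real.mul_rpow R0.le Y0.le, eR2, eY1]
      exact mul_le_mul_of_nonneg_right (tfg_two (by norm_num)) (by positivity)
    have a4 : 2 * R + (2 * R) ^ (1 / 3 : ℝ) * Y + (2 * R * Y) ^ (2 / 3 : ℝ) ≤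
        6 * (r3 ^ 2 * y3 ^ 4 * u) := by
      have := tfg_p2 u1 y1 r1 ry yr a2
      rw [← eR, ← eY] at this
      exact (add_le_add le_rfl a3).trans this
    have a5 := (lqd_nsq (ballO (2 * R)) d k).trans d2
    have a6 := nsq_nonneg (ballO (2 * R)) fun n => d n * sym3 k n
    refine le_trans (le_of_eq (Finset.sum_congr rfl fun a ha => ?_)) (a0.trans ?_)
    · congr 2
      refine Finset.sum_congr rfl fun n _ => ?_
      by_cases h0 : d n = 0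
      · simp [h0]
      · rw [sym3_mul_left, cubic_recip (gm_prim ha) (d1 n h0).1]
        ring
    · calc _ ≤ C3 * (2 * u) * (6 * (r3 ^ 2 * y3 ^ 4 * u)) * (C1 * u * R / u ^ 6) := by gcongr
        _ = _ := by
            rw [hT, eR]
            field_simp
            ring
  obtain ⟨E, hE⟩ : ∃ E, E = C1 * (C2 + C5) * (u ^ 25 * y3 ^ 3) := ⟨_, rfl⟩
  have b3 : ∀ a ∈ ballN Y, ¬a ∣ k → ‖∑ m ∈ ballN y, sym3 (a * k) m -
      ∑ n ∈ ballO (2 * R), d n * sym3 (a * k) n‖ ≤ E := by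
    intro a ha hak
    obtain ⟨a1, a2⟩ := mem_ballN.1 ha
    refine (d3 (sym3 (a * k)) (C2 * y3 ^ 3 * (u ^ 3) ^ 2) (norm_sym3_le _) (by positivity)
      fun l hl τ => ?_).trans ?_
    · have l0 := (gm_prim hl).ne_zero
      refine (h2 a k l _ τ a1 hk hak l0 (div_pos R0 (pow_pos (N_pos l0) 2))).trans ?_
      have := N_nonneg k
      rw [← eY2]
      gcongr
    · have e1 : R * Real.exp (-u ^ 6) ≤ C5 * (u ^ 24 * y3 ^ 3) := by
        refine (mul_le_mul (hRY.trans hYZ) (h5 _ (by positivity)) (Real.exp_pos _).le Z0.le).trans ?_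
        rw [← pow_mul, ← eZ, mul_div_cancel₀ _ Z0.ne']
        exact le_mul_of_one_le_right c5.le
          (one_le_mul_of_one_le_of_one_le (one_le_pow₀ u1) (one_le_pow₀ y1))
      calc _ ≤ C1 * u * ((u ^ 6) ^ 3 * (C2 * y3 ^ 3 * (u ^ 3) ^ 2) + C5 * (u ^ 24 * y3 ^ 3)) := by
            gcongr
        _ = _ := by rw [hE]; ring
  have b4 : ((ballN Y).card : ℝ) * E ^ 2 ≤ C4 * (C1 * (C2 + C5)) ^ 2 * T := by
    have a1 : ((ballN Y).card : ℝ) ≤ C4 * Y :=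
      le_trans (Nat.cast_le.2 (Finset.card_le_card (dual_sub Y))) (h4 Y Y0.le)
    rw [hT, hE]
    exact tfg_p4 c4 u1 y1 r1 ur yr (eY ▸ a1)
  refine (tfg_fin b1 b2 b3 b4).trans (le_of_eq ?_)
  rw [Real.rpow_neg Z0.le, eη, eY1, eR5, hT]
  ring

end

end Vale.Agent.P006
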