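import Vale.Agent.P006.Defs2
import Vale.Agent.P026.Zk2
import Vale.Agent.P006.Bas

namespace Vale.Agent.P006

open Vale.Agent.P026 Complex MeasureTheory Filter Topology
open scoped Classical ComplexConjugate Real MatrixGroups

noncomputable section

theorem th_N0 (n : O) : 0 ≤ N n := Nat.cast_nonneg _

theorem th_sf3 {a : O} (hs : Squarefree a) : ∀ p, Prime p → ¬ p ^ 3 ∣ a := fun p hp h =>
  hp.not_isUnit (hs p (Dvd.dvd.trans ⟨p, by ring⟩ h))

theorem th_ne {m : O} (h : th m ≠ 0) :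
    ∃ a d, Prim a ∧ Squarefree a ∧ Prim d ∧ m = a * d ^ 3 := by
  obtain ⟨d, hd, hne⟩ := Finset.exists_ne_zero_of_sum_ne_zero h
  obtain ⟨-, hP, hdv⟩ := Finset.mem_filter.1 hd
  have hc : Prim (m / d ^ 3) ∧ Squarefree (m / d ^ 3) := by
    by_contra hc
    exact hne (if_neg hc)
  refine ⟨_, d, hc.1, hc.2, hP, ?_⟩
  rw [mul_comm, EuclideanDomain.mul_div_cancel' (pow_ne_zero _ hP.ne_zero) hdv]

theorem th_zero0 {n p a d : O} (hp : Prime p) (hpn : ¬ p ∣ n) (hs : Squarefree a)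
    (h : n * p ^ 2 = a * d ^ 3) : False := by
  by_cases hd : p ∣ d
  · obtain ⟨e, rfl⟩ := hd
    apply hpn
    refine ⟨a * e ^ 3, mul_right_cancel₀ (pow_ne_zero 2 hp.ne_zero) ?_⟩
    rw [h]; ring
  · have hc : IsCoprime (p ^ 2) (d ^ 3) := ((hp.irreducible.coprime_iff_not_dvd).2 hd).pow
    have : p ^ 2 ∣ a := hc.dvd_of_dvd_mul_right ⟨n, by rw [← h]; ring⟩
    exact hp.not_isUnit (hs p (by rwa [← pow_two]))

theorem th_zero1 {n p d : O} (hn : Prim n) (hp : Prime p) (hP : Prim p) (hd : Prim d)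
    (hpn : ¬ p ∣ n) : th (n * p ^ 2 * d ^ 3) = 0 := by
  by_contra h
  obtain ⟨a, e, ha, hs, he, hm⟩ := th_ne h
  obtain ⟨n0, f, hn0, hf, hnf, h3⟩ := cube_decomp (hn.mul (hP.pow 2))
  have := (cube_unique hn0 ha (hf.mul hd) he h3 (th_sf3 hs) (by rw [← hm, hnf]; ring)).1
  rw [this] at hnf
  exact th_zero0 hp hpn hs hnf

theorem th_eq {a d : O} (ha : Prim a) (hs : Squarefree a) (hd : Prim d) :
    th (a * d ^ 3) = conj (G0 a) * ((N a ^ (-(1 / 6) : ℝ) : ℝ) : ℂ) := by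
  have hd3 : d ^ 3 ≠ 0 := pow_ne_zero _ hd.ne_zero
  have hm : a * d ^ 3 ≠ 0 := mul_ne_zero ha.ne_zero hd3
  have hdiv : a * d ^ 3 / d ^ 3 = a := mul_div_cancel_right₀ a hd3
  rw [th, Finset.sum_eq_single d]
  · rw [hdiv, if_pos ⟨ha, hs⟩]
  · intro e he hne
    obtain ⟨-, hP, hdv⟩ := Finset.mem_filter.1 he
    rw [if_neg]
    rintro ⟨h1, h2⟩
    apply hne
    refine (cube_unique h1 ha hP hd (th_sf3 h2) (th_sf3 hs) ?_).2
    rw [mul_comm, EuclideanDomain.mul_div_cancel' (pow_ne_zero _ hP.ne_zero) hdv]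
  · intro h
    exact absurd (Finset.mem_filter.2 ⟨mem_ballO.2 ⟨hd.ne_zero,
      N_le_of_dvd ⟨a * d ^ 2, by ring⟩ hm⟩, hd, dvd_mul_left _ _⟩) h
theorem th_zero {n p : O} (hn : Prim n) (hp : Prime p) (hP : Prim p) (hpn : ¬ p ∣ n) :
    th (n * p ^ 2) = 0 := by
  have := th_zero1 hn hp hP prim_one hpn
  rwa [one_pow, mul_one] at this
/-- every primary element is `a * d ^ 3` with `a` squarefree, or has a prime of exponent 2 mod 3 -/
theorem th_cases {m : O} (hm : Prim m) :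
    (∃ a d, Prim a ∧ Squarefree a ∧ Prim d ∧ m = a * d ^ 3) ∨
    (th m = 0 ∧ ∃ n p d, Prim n ∧ Prime p ∧ Prim p ∧ Prim d ∧ ¬ p ∣ n ∧
      m = n * p ^ 2 * d ^ 3) := by
  obtain ⟨n0, d, hn0, hd, rfl, h3⟩ := cube_decomp hm
  by_cases hs : Squarefree n0
  · exact Or.inl ⟨n0, d, hn0, hs, hd, rfl⟩
  · obtain ⟨p, n, hp, hP, hn, hpn, rfl⟩ := exists_exact_sq hn0 h3 hs
    exact Or.inr ⟨th_zero1 hn hp hP hd hpn, n, p, d, hn, hp, hP, hd, hpn, rfl⟩
theorem norm_th_le (m : O) : ‖th m‖ ≤ 1 := by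
  by_cases h : th m = 0
  · rw [h, norm_zero]; exact zero_le_one
  · obtain ⟨a, d, ha, hs, hd, rfl⟩ := th_ne h
    rw [th_eq ha hs hd, norm_mul, Complex.norm_conj, norm_G0 ha hs, one_mul, Complex.norm_real,
      Real.norm_of_nonneg (Real.rpow_nonneg (th_N0 _) _)]
    exact Real.rpow_le_one_of_one_le_of_nonpos (one_le_N ha.ne_zero) (by norm_num)
/-- summation over primary elements as (squarefree) times (cube) -/
theorem tsum_th {F : O → ℂ} (hF : Summable (fun m => ‖F m‖)) :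
    Summable (fun p : O × O => if Prim p.1 ∧ Prim p.2 ∧ Squarefree p.2 then
      ‖F (p.2 * p.1 ^ 3)‖ * N p.2 ^ (-(1 / 6) : ℝ) else 0) ∧
    ∑' m : O, (if Prim m then th m * F m else 0) =
      ∑' e : O, ∑' a : O, (if Prim e ∧ Prim a ∧ Squarefree a then
        conj (G0 a) * ((N a ^ (-(1 / 6) : ℝ) : ℝ) : ℂ) * F (a * e ^ 3) else 0) := by
  have hinj : ∀ p q : O × O, (Prim p.1 ∧ Prim p.2 ∧ Squarefree p.2) →
      (Prim q.1 ∧ Prim q.2 ∧ Squarefree q.2) → p.2 * p.1 ^ 3 = q.2 * q.1 ^ 3 → p = q := by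
    intro p q hp hq h
    have := cube_unique hp.2.1 hq.2.1 hp.1 hq.1 (th_sf3 hp.2.2) (th_sf3 hq.2.2) h
    exact Prod.ext this.2 this.1
  have hS : Summable (fun p : O × O => if Prim p.1 ∧ Prim p.2 ∧ Squarefree p.2 then
      ‖F (p.2 * p.1 ^ 3)‖ * N p.2 ^ (-(1 / 6) : ℝ) else 0) := by
    have h1 : Summable ((fun p : O × O => ‖F (p.2 * p.1 ^ 3)‖) ∘
        ((↑) : {p : O × O | Prim p.1 ∧ Prim p.2 ∧ Squarefree p.2} → O × O)) :=
      hF.comp_injective (i := fun p : {p : O × O | Prim p.1 ∧ Prim p.2 ∧ Squarefree p.2} =>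
        p.1.2 * p.1.1 ^ 3) fun p q h => Subtype.ext (hinj _ _ p.2 q.2 h)
    rw [summable_subtype_iff_indicator] at h1
    refine h1.of_nonneg_of_le (fun p => ?_) fun p => ?_
    · split_ifs
      · exact mul_nonneg (norm_nonneg _) (Real.rpow_nonneg (th_N0 _) _)
      · exact le_rfl
    · by_cases h : Prim p.1 ∧ Prim p.2 ∧ Squarefree p.2
      · rw [if_pos h, Set.indicator_of_mem (by exact h)]
        exact mul_le_of_le_one_right (norm_nonneg _)
          (Real.rpow_le_one_of_one_le_of_nonpos (one_le_N h.2.1.ne_zero) (by norm_num))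
      · rw [if_neg h, Set.indicator_of_notMem (by exact h)]
  refine ⟨hS, ?_⟩
  set g : O × O → ℂ := fun p => if Prim p.1 ∧ Prim p.2 ∧ Squarefree p.2 then
    conj (G0 p.2) * ((N p.2 ^ (-(1 / 6) : ℝ) : ℝ) : ℂ) * F (p.2 * p.1 ^ 3) else 0 with hg
  have hgs : Summable g := by
    refine Summable.of_norm_bounded hS fun p => ?_
    simp only [hg]
    split_ifs with h
    · rw [norm_mul, norm_mul, Complex.norm_conj, norm_G0 h.2.1 h.2.2, one_mul, Complex.norm_real,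
        Real.norm_of_nonneg (Real.rpow_nonneg (th_N0 _) _), mul_comm]
    · simp
  have hc : ∀ p, g p ≠ 0 → Prim p.1 ∧ Prim p.2 ∧ Squarefree p.2 := by
    intro p hp
    by_contra h
    exact hp (if_neg h)
  rw [← hgs.tsum_prod]
  refine tsum_eq_tsum_of_ne_zero_bij (fun p : Function.support g => p.1.2 * p.1.1 ^ 3)
    (fun p q h => Subtype.ext (hinj _ _ (hc _ p.2) (hc _ q.2) h)) ?_ ?_
  · intro m hm
    have hm' : (if Prim m then th m * F m else 0) ≠ 0 := hm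
    have hP : Prim m := by
      by_contra h
      exact hm' (if_neg h)
    rw [if_pos hP] at hm'
    obtain ⟨a, d, ha, hs, hd, rfl⟩ := th_ne (left_ne_zero_of_mul hm')
    refine ⟨⟨(d, a), ?_⟩, rfl⟩
    rw [Function.mem_support]
    simp only [hg]
    rw [if_pos ⟨hd, ha, hs⟩, ← th_eq ha hs hd]
    exact hm'
  · intro p
    obtain ⟨h1, h2, h3⟩ := hc _ p.2
    simp only [hg]
    rw [if_pos (h2.mul (h1.pow 3)), if_pos ⟨h1, h2, h3⟩, th_eq h2 h3 h1]
theorem mem_pf {r p : O} (hr : r ≠ 0) : p ∈ pf r ↔ Prime p ∧ Prim p ∧ p ∣ r := by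
  rw [pf, Finset.mem_filter, mem_ballO]
  exact ⟨fun h => h.2, fun h => ⟨⟨h.1.ne_zero, N_le_of_dvd h.2.2 hr⟩, h⟩⟩
theorem coprime_iff_pf {c r : O} (hc : Prim c) (hr : r ≠ 0) :
    IsCoprime c r ↔ ∀ p ∈ pf r, ¬ p ∣ c := by
  rw [isCoprime_iff_no_prime (Or.inr hr)]
  constructor
  · intro h p hp hpc
    obtain ⟨h1, -, h3⟩ := (mem_pf hr).1 hp
    exact h p h1 hpc h3
  · intro h p hp hpc hpr
    obtain ⟨q, hq, hQ, ha⟩ := div_prim_prime hc hp hpc
    exact h q ((mem_pf hr).2 ⟨hq, hQ, ha.dvd.trans hpr⟩) (ha.dvd.trans hpc)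
theorem zp2_pos : 1 ≤ zp2 := by
  have hs : Summable (fun n : O => if Prim n then N n ^ (-2 : ℝ) else 0) := by
    refine (summable_N_rpow (s := 2) (by norm_num)).of_nonneg_of_le (fun n => ?_) fun n => ?_
    · split_ifs
      · exact Real.rpow_nonneg (th_N0 _) _
      · exact le_rfl
    · split_ifs
      · exact le_rfl
      · exact Real.rpow_nonneg (th_N0 _) _
  have := hs.le_tsum 1 (fun n _ => by
    split_ifs
    · exact Real.rpow_nonneg (th_N0 _) _
    · exact le_rfl)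
  rwa [if_pos prim_one, N_one, Real.one_rpow] at this
theorem th_zeta {s : ℂ} (hs : 1 < s.re) (P : Finset O) (hP : ∀ p ∈ P, Prime p ∧ Prim p) :
    ∑' d : O, (if Prim d ∧ ∀ p ∈ P, ¬ p ∣ d then ((N d : ℝ) : ℂ) ^ (-s) else 0) =
      (∏ p ∈ P, (1 - ((N p : ℝ) : ℂ) ^ (-s))) *
        ∑' d : O, (if Prim d then ((N d : ℝ) : ℂ) ^ (-s) else 0) := by
  have hsum : ∀ (Q : O → Prop) [∀ d, Decidable (Prim d ∧ Q d)],
      Summable (fun d : O => if Prim d ∧ Q d then ((N d : ℝ) : ℂ) ^ (-s) else 0) := by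
    intro Q _
    refine Summable.of_norm_bounded (zk2_summ hs (fun _ => 1) (fun _ => by simp)) fun d => ?_
    by_cases h : Prim d ∧ Q d
    · rw [if_pos h, if_pos h.1, one_mul]
    · rw [if_neg h, norm_zero]; exact norm_nonneg _
  induction P using Finset.induction_on with
  | empty => simp
  | insert p P hp ih =>
    obtain ⟨hpp, hpP⟩ := hP p (Finset.mem_insert_self _ _)
    have hP' : ∀ q ∈ P, Prime q ∧ Prim q := fun q hq => hP q (Finset.mem_insert_of_mem hq)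
    rw [Finset.prod_insert hp, mul_assoc, ← ih hP']
    have e1 : ∑' d : O, (if Prim d ∧ (p ∣ d ∧ ∀ q ∈ P, ¬ q ∣ d) then ((N d : ℝ) : ℂ) ^ (-s) else 0) =
        ((N p : ℝ) : ℂ) ^ (-s) *
          ∑' d : O, (if Prim d ∧ ∀ q ∈ P, ¬ q ∣ d then ((N d : ℝ) : ℂ) ^ (-s) else 0) := by
      rw [← (mul_right_injective₀ hpp.ne_zero).tsum_eq, ← tsum_mul_left]
      · refine tsum_congr fun d => ?_
        have : (Prim (p * d) ∧ (p ∣ p * d ∧ ∀ q ∈ P, ¬ q ∣ p * d)) ↔
            (Prim d ∧ ∀ q ∈ P, ¬ q ∣ d) := by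
          constructor
          · rintro ⟨h1, -, h2⟩
            exact ⟨h1.of_mul hpP, fun q hq h => h2 q hq (h.mul_left p)⟩
          · rintro ⟨h1, h2⟩
            refine ⟨hpP.mul h1, dvd_mul_right _ _, fun q hq h => ?_⟩
            rcases (hP' q hq).1.dvd_or_dvd h with h | h
            · have := (hP' q hq).2.eq_of_associated hpP
                (((hP' q hq).1.irreducible.dvd_irreducible_iff_associated hpp.irreducible).1 h)
              exact hp (this ▸ hq)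
            · exact h2 q hq h
        by_cases h : Prim d ∧ ∀ q ∈ P, ¬ q ∣ d
        · rw [if_pos (this.2 h), if_pos h, zk2_cpow_mul]
        · rw [if_neg (fun h' => h (this.1 h')), if_neg h, mul_zero]
      · intro d hd
        have : Prim d ∧ (p ∣ d ∧ ∀ q ∈ P, ¬ q ∣ d) := by
          by_contra h
          exact hd (if_neg h)
        obtain ⟨e, he⟩ := this.2.1
        exact ⟨e, he.symm⟩
    rw [sub_mul, one_mul, ← e1, ← (hsum (fun d => ∀ q ∈ P, ¬ q ∣ d)).tsum_sub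
      (hsum (fun d => p ∣ d ∧ ∀ q ∈ P, ¬ q ∣ d))]
    refine tsum_congr fun d => ?_
    simp only [Finset.forall_mem_insert]
    by_cases h1 : Prim d <;> by_cases h2 : p ∣ d <;> by_cases h3 : ∀ q ∈ P, ¬ q ∣ d <;>
      simp [h1, h2, h3]

/-- Euler factors removed from the primary zeta function -/
theorem zeta_cop {k : O} (hk : k ≠ 0) {s : ℂ} (hs : 1 < s.re) :
    ∑' d : O, (if Prim d ∧ IsCoprime d k then ((N d : ℝ) : ℂ) ^ (-s) else 0) =
      (∏ p ∈ pf k, (1 - ((N p : ℝ) : ℂ) ^ (-s))) *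
        ∑' d : O, (if Prim d then ((N d : ℝ) : ℂ) ^ (-s) else 0) := by
  rw [← th_zeta hs (pf k) fun p hp => ⟨((mem_pf hk).1 hp).1, ((mem_pf hk).1 hp).2.1⟩]
  refine tsum_congr fun d => ?_
  by_cases h : Prim d
  · simp only [h, true_and, coprime_iff_pf h hk]
  · simp only [h, false_and, if_false]
theorem mu_cop {k : O} (hk : k ≠ 0) :
    ∑' d : O, (if Prim d ∧ IsCoprime d k then mu d * ((N d ^ (-2 : ℝ) : ℝ) : ℂ) else 0) =
      (((zp2 * ∏ p ∈ pf k, (1 - (N p ^ 2)⁻¹))⁻¹ : ℝ) : ℂ) := by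
  have h2 : (1 : ℝ) < (2 : ℂ).re := by norm_num
  have hc : ∀ d : O, ((N d ^ (-2 : ℝ) : ℝ) : ℂ) = ((N d : ℝ) : ℂ) ^ (-(2 : ℂ)) := by
    intro d
    rw [Complex.ofReal_cpow (th_N0 _)]; push_cast; rfl
  have key := zk2_mob h2 (fun d => if IsCoprime d k then 1 else 0)
    (fun n => by split_ifs <;> simp) (fun x y => by
      by_cases hx : IsCoprime x k <;> by_cases hy : IsCoprime y k <;>
        simp [hx, hy, IsCoprime.mul_left_iff]) (if_pos isCoprime_one_left)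
  have e1 : (∑' n : O, if Prim n then (if IsCoprime n k then (1 : ℂ) else 0) *
      ((N n : ℝ) : ℂ) ^ (-(2 : ℂ)) else 0) =
      ((zp2 * ∏ p ∈ pf k, (1 - (N p ^ 2)⁻¹) : ℝ) : ℂ) := by
    have e2 : (zp2 : ℂ) = ∑' d : O, (if Prim d then ((N d : ℝ) : ℂ) ^ (-(2 : ℂ)) else 0) := by
      rw [zp2, Complex.ofReal_tsum]
      refine tsum_congr fun d => ?_
      split_ifs
      · exact hc d
      · simp
    have e3 : ((∏ p ∈ pf k, (1 - (N p ^ 2)⁻¹) : ℝ) : ℂ) =
        ∏ p ∈ pf k, (1 - ((N p : ℝ) : ℂ) ^ (-(2 : ℂ))) := by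
      push_cast
      refine Finset.prod_congr rfl fun p _ => ?_
      rw [Complex.cpow_neg, Complex.cpow_two]
    rw [Complex.ofReal_mul, e2, e3, mul_comm, ← zeta_cop hk h2]
    refine tsum_congr fun d => ?_
    by_cases h1 : Prim d <;> by_cases h3 : IsCoprime d k <;> simp [h1, h3]
  rw [e1] at key
  rw [Complex.ofReal_inv, ← eq_inv_of_mul_eq_one_left key]
  refine tsum_congr fun d => ?_
  rw [hc]
  by_cases h1 : Prim d <;> by_cases h3 : IsCoprime d k <;> simp [h1, h3]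
theorem dens_nonneg (k : O) : 0 ≤ dens k := by
  have := zp2_pos
  have := kap_pos
  unfold dens
  refine mul_nonneg (by positivity) (Finset.prod_nonneg fun p _ => ?_)
  have : 0 ≤ N p := Nat.cast_nonneg _
  positivity
theorem dens_le (k : O) : dens k ≤ 1 := by
  have h1 := zp2_pos
  have h2 := kap_pos
  have h3 : kap ≤ 9 := by
    have a1 : 1 ≤ √3 := Real.one_le_sqrt.2 (by norm_num)
    have a2 := Real.pi_lt_four
    rw [kap, div_le_iff₀ (by linarith)]
    linarith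
  unfold dens
  refine mul_le_one₀ ?_ (Finset.prod_nonneg fun p _ => ?_) (Finset.prod_le_one (fun p _ => ?_)
    fun p _ => ?_)
  · rw [div_le_one (by linarith), div_le_iff₀ (by norm_num)]; linarith
  all_goals have : 0 ≤ N p := Nat.cast_nonneg _
  · positivity
  · positivity
  · rw [div_le_one (by linarith)]; linarith

end

end Vale.Agent.P006
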