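import Vale.Agent.P006.TMod1

namespace Vale.Agent.P006

open Vale.Agent.P026 Complex MeasureTheory Filter Topology
open scoped Classical ComplexConjugate Real MatrixGroups

noncomputable section

theorem trp_small : ∃ C : ℝ, 0 < C ∧ ∀ (R U V P : ℝ) (a : O → ℂ) (t : O × O × O) (s : ℂ)
    (c j : O), 0 ≤ P → Sh a R → t ∈ trip R → |s.re| ≤ 1 / 2 → NN j → c ≠ 0 →
    N (pr t) * N j ≤ U → 9 * N c * N (pr t) ^ 2 ≤ V → PT a U V P →
    ‖∑ n ∈ ballN (R / N (pr t)), if j ∣ n then aT a R t s n * sym3 c n else 0‖ ^ 2 ≤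
      C * (1 + |s.im|) ^ 2 * P := by
  obtain ⟨C, hC, h⟩ := tm_abel
  refine ⟨C, hC, fun R U V P a t s c j hP ha ht hs hj hc hU hV hPT => ?_⟩
  obtain ⟨t1, t2, t3, t4, -⟩ := mem_trip.1 ht
  have hp := tm_prim_pr ht
  set k := c * (lam ^ 2 * t.1 ^ 2 * t.2.1) with hk
  have hk0 : k ≠ 0 := mul_ne_zero hc (mul_ne_zero (mul_ne_zero (pow_ne_zero _ prime_lam.ne_zero)
    (pow_ne_zero _ t1.ne_zero)) t2.ne_zero)
  have hkV : N k ≤ V := by
    refine le_trans ?_ hV
    have n1 := one_le_N t1.ne_zero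
    have n2 := one_le_N t2.ne_zero
    have n3 := one_le_N t3.ne_zero
    have e : N t.1 ^ 2 * N t.2.1 ≤ N (pr t) ^ 2 := by
      rw [pr, N_mul, N_mul, mul_pow, mul_pow, mul_assoc]
      refine mul_le_mul_of_nonneg_left ?_ (by positivity)
      calc N t.2.1 ≤ N t.2.1 ^ 2 := le_self_pow₀ n2 (by norm_num)
        _ ≤ _ := le_mul_of_one_le_right (by positivity) (one_le_pow₀ n3)
    rw [hk, N_mul, N_mul, N_mul, N_pow, N_pow, N_lam]
    calc N c * (3 ^ 2 * N t.1 ^ 2 * N t.2.1) = 9 * N c * (N t.1 ^ 2 * N t.2.1) := by ring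
      _ ≤ _ := mul_le_mul_of_nonneg_left e (mul_nonneg (by norm_num) (N_nonneg _))
  have b := h a (fun m => sym3 k m) R P (pr t * j) s ha (hp.mul hj.1) hP (by linarith)
    (fun hl y => hPT _ k y hl (by rw [N_mul]; exact hU) hk0 hkV) R
  have e : (∑ n ∈ ballN (R / N (pr t)), if j ∣ n then aT a R t s n * sym3 c n else 0) =
      sym3 k j * ∑ m ∈ ballN (R / N (pr t * j)), a (pr t * j * m) * sym3 k m *
        ((N (pr t * j * m) / R : ℝ) : ℂ) ^ s := by
    rw [sum_ballN_dvd _ hj, N_mul, div_div, Finset.mul_sum]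
    refine Finset.sum_congr rfl fun m hm => ?_
    have hm' := (mem_ballN.1 hm).1
    by_cases c0 : a (pr t * j * m) = 0
    · have : a (pr t * (j * m)) = 0 := by rw [← mul_assoc]; exact c0
      simp [aT, c0, this]
    · rw [if_pos ((ha _ c0).1.of_dvd (hj.1.mul hm'.1) ⟨pr t, by ring⟩), aT, hk, ← mul_assoc (pr t),
        sym3_mul_left c, sym3_mul_left c, sym3_mul_right _ hj.ne_zero hm'.ne_zero,
        sym3_mul_right _ hj.ne_zero hm'.ne_zero]
      ring
  rw [e, norm_mul, mul_pow]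
  exact (mul_le_of_le_one_left (by positivity)
    (pow_le_one₀ (norm_nonneg _) (norm_sym3_le _ _))).trans b

/-- rows of small conductor: penalty -/
theorem reg_p {ε : ℝ} (hε : 0 < ε) : ∃ C : ℝ, 0 < C ∧
    ∀ (Z H R Q0 J U V P : ℝ) (a : O → ℂ) (t : O × O × O) (s : ℂ),
    1 ≤ Z → 0 < H → H ≤ Z → 1 ≤ R → R ≤ Z → 1 ≤ Q0 → 1 ≤ J → 0 ≤ P → Sh a R → t ∈ trip R →
    |s.re| ≤ 1 / 2 → N (pr t) * J ≤ U → 9 * Q0 * N (pr t) ^ 2 ≤ V → PT a U V P →
    ∑ x ∈ (Quad H).filter (fun x => N (cf x.1) ≤ Q0), FF (aT a R t s) (R / N (pr t)) x ≤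
      C * Z ^ ε * Q0 ^ 2 * H ^ (1 / 3 : ℝ) *
        ((1 + |s.im|) ^ 2 * P + R / J ^ 2 * nT a R t) := by
  obtain ⟨C0, hC0, h0⟩ := card_ballO_le
  obtain ⟨C1, hC1, h1⟩ := trp_small
  obtain ⟨C2, hC2, h2⟩ := dv_le (half_pos hε)
  obtain ⟨C3, hC3, h3⟩ := card_MI_le
  refine ⟨C3 * C2 ^ 2 * C0 * (C1 + 2 * C0), by positivity,
    fun Z H R Q0 J U V P a t s hZ hH hHZ hR hRZ hQ hJ hP ha ht hs hU hV hPT => ?_⟩
  have hp := tm_prim_pr ht
  have p1 := one_le_N hp.ne_zero
  set R' := R / N (pr t) with hR'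
  have hR'0 : 0 ≤ R' := by positivity
  have hR'R : R' ≤ R := div_le_self (by linarith) p1
  set b := aT a R t s with hb
  set K := H ^ (1 / 3 : ℝ) with hK
  have hK0 : 0 ≤ K := by positivity
  have hKZ : K ≤ Z := by
    rcases le_total H 1 with c | c
    · exact (Real.rpow_le_one hH.le c (by norm_num)).trans hZ
    · exact ((Real.rpow_le_rpow_of_exponent_le c (by norm_num : (1 / 3 : ℝ) ≤ 1)).trans_eq
        (Real.rpow_one H)).trans hHZ
  set D := C2 * Z ^ (ε / 2) with hD
  have hD0 : 0 ≤ D := by positivity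
  have hdv : ∀ k ∈ ballO K, dv k ≤ D := fun k hk => by
    obtain ⟨k1, k2⟩ := mem_ballO.1 hk
    exact (h2 k k1).trans (mul_le_mul_of_nonneg_left
      (Real.rpow_le_rpow (N_nonneg _) (k2.trans hKZ) (by linarith)) hC2.le)
  set P' := C1 * (1 + |s.im|) ^ 2 * P with hP'
  have hP'0 : 0 ≤ P' := by positivity
  let g : O → ℝ := fun j => if J < N j then C0 * (R / N j) * tmA b R' j else 0
  have hg0 : ∀ j, 0 ≤ g j := fun j => by
    simp only [g]; split_ifs
    · exact mul_nonneg (mul_nonneg hC0.le (div_nonneg (by linarith) (N_nonneg _)))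
        (tmA_nonneg _ _ _)
    · exact le_rfl
  have step1 : ∀ y ∈ MI Q0, ∀ k ∈ ballO K, FF b R' (y, k) ≤
      D * (D * P' + ∑ j ∈ divs k, g j) := by
    intro y hy k hk
    have k0 := (mem_ballO.1 hk).1
    have e : ∑ n ∈ ballN R', b n * sym3 (cf y * k ^ 3) n =
        ∑ n ∈ ballN R', if IsCoprime k n then b n * sym3 (cf y) n else 0 := by
      refine Finset.sum_congr rfl fun n hn => ?_
      rw [sym3_mul_left, sym3_cube_left (mem_ballN.1 hn).1.ne_zero]
      split_ifs <;> simp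
    unfold FF
    rw [e, tm_moeb k0]
    refine (tm_moeb_sq _).trans (mul_le_mul (hdv k hk) ?_
      (Finset.sum_nonneg fun _ _ => by positivity) hD0)
    calc _ ≤ ∑ j ∈ divs k, (P' + g j) := by
          refine Finset.sum_le_sum fun j hj => ?_
          have hj' := ((mem_divs k0).1 hj).1
          by_cases c : J < N j
          · have := tm_cs h0 hj'.ne_zero dvd_rfl hR'0 b (fun n => sym3 (cf y) n) (K := 1)
              (fun n _ _ _ => pow_le_one₀ (norm_nonneg _) (norm_sym3_le _ _)) zero_le_one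
            rw [one_mul] at this
            refine this.trans (le_add_of_nonneg_of_le hP'0 ?_)
            simp only [g, if_pos c]
            have := N_pos hj'.ne_zero
            have := tmA_nonneg b R' j
            gcongr
          · refine le_add_of_le_of_nonneg ?_ (hg0 j)
            refine h1 R U V P a t s (cf y) j hP ha ht hs hj' (cf_ne_zero hy)
              (le_trans (mul_le_mul_of_nonneg_left (not_lt.1 c) (by linarith)) hU)
              (le_trans ?_ hV) hPT
            have := (mem_MI.1 hy).2.2.2.2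
            gcongr
      _ ≤ _ := by
          rw [Finset.sum_add_distrib, Finset.sum_const, nsmul_eq_mul]
          exact add_le_add (mul_le_mul_of_nonneg_right ((card_divs_le k).trans (hdv k hk)) hP'0)
            le_rfl
  have step2 : ∑ k ∈ ballO K, ∑ j ∈ divs k, g j ≤ C0 * K * (C0 * (R / J ^ 2)) *
      (D * (2 * nT a R t)) := by
    calc ∑ k ∈ ballO K, ∑ j ∈ divs k, g j
        ≤ ∑ k ∈ ballO K, ∑ j ∈ ballO K, if j ∣ k then g j else 0 := by
          refine Finset.sum_le_sum fun k hk => ?_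
          obtain ⟨k1, k2⟩ := mem_ballO.1 hk
          rw [← Finset.sum_filter (· ∣ k) g]
          refine Finset.sum_le_sum_of_subset_of_nonneg (fun j hj => ?_) fun _ _ _ => hg0 _
          obtain ⟨j1, j2⟩ := (mem_divs k1).1 hj
          exact Finset.mem_filter.2 ⟨mem_ballO.2 ⟨j1.ne_zero, (N_le_of_dvd j2 k1).trans k2⟩, j2⟩
      _ ≤ ∑ j ∈ ballO K, C0 * K * (C0 * (R / J ^ 2)) * tmA b R' j := by
          rw [Finset.sum_comm]
          refine Finset.sum_le_sum fun j hj => ?_
          have j0 := (mem_ballO.1 hj).1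
          have jp := N_pos j0
          rw [← Finset.sum_filter, Finset.sum_const, nsmul_eq_mul]
          refine (mul_le_mul_of_nonneg_right (tm_card h0 j0 hK0) (hg0 j)).trans ?_
          have hA := tmA_nonneg b R' j
          simp only [g]
          split_ifs with c
          · have : R / N j ^ 2 ≤ R / J ^ 2 := by gcongr
            calc C0 * (K / N j) * (C0 * (R / N j) * tmA b R' j)
                = C0 * K * (C0 * (R / N j ^ 2)) * tmA b R' j := by field_simp
              _ ≤ _ := by gcongr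
          · rw [mul_zero]; positivity
      _ ≤ _ := by
          rw [← Finset.mul_sum]
          refine mul_le_mul_of_nonneg_left ((tm_sumA hC2.le (by linarith) h2 b
            (hR'R.trans hRZ) _).trans ?_) (by positivity)
          exact mul_le_mul_of_nonneg_left (nsq_aT_le ha ht hs) hD0
  have hsub : (Quad H).filter (fun x => N (cf x.1) ≤ Q0) ⊆ MI Q0 ×ˢ ballO K := by
    intro x hx
    obtain ⟨x1, x2⟩ := Finset.mem_filter.1 hx
    obtain ⟨a1, a2, a3, a4, a5, a6⟩ := mem_Quad.1 x1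
    have hy : x.1 ∈ MI Q0 := mem_MI.2 ⟨a1, a2, a3, a4, x2⟩
    refine Finset.mem_product.2 ⟨hy, mem_ballO.2 ⟨a5, ?_⟩⟩
    rw [N_mul, N_pow] at a6
    have : N x.2 ^ 3 ≤ H :=
      (le_mul_of_one_le_left (pow_nonneg (N_nonneg _) _) (one_le_N (cf_ne_zero hy))).trans a6
    rw [hK, one_div]
    exact (Real.le_rpow_inv_iff_of_pos (N_nonneg _) hH.le (by norm_num)).2 (by exact_mod_cast this)
  have hnT := nT_nonneg a R t
  have hDD : D * D = C2 ^ 2 * Z ^ ε := by
    rw [hD, show Z ^ ε = Z ^ (ε / 2) * Z ^ (ε / 2) by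
      rw [← Real.rpow_add (by linarith)]; ring_nf]
    ring
  calc _ ≤ ∑ x ∈ MI Q0 ×ˢ ballO K, FF b R' x :=
        Finset.sum_le_sum_of_subset_of_nonneg hsub fun _ _ _ => sq_nonneg _
    _ ≤ ∑ _y ∈ MI Q0, (C0 * K * (D * (D * P')) + D * (C0 * K * (C0 * (R / J ^ 2)) *
          (D * (2 * nT a R t)))) := by
        rw [Finset.sum_product]
        refine Finset.sum_le_sum fun y hy => (Finset.sum_le_sum (step1 y hy)).trans ?_
        simp only [mul_add D, Finset.sum_add_distrib, Finset.sum_const, nsmul_eq_mul,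
          ← Finset.mul_sum]
        exact add_le_add (mul_le_mul_of_nonneg_right (h0 K hK0) (by positivity))
          (mul_le_mul_of_nonneg_left step2 hD0)
    _ ≤ C3 * Q0 ^ 2 * (C0 * K * (D * (D * P')) + D * (C0 * K * (C0 * (R / J ^ 2)) *
          (D * (2 * nT a R t)))) := by
        rw [Finset.sum_const, nsmul_eq_mul]
        exact mul_le_mul_of_nonneg_right (h3 Q0 hQ) (by positivity)
    _ = C3 * Q0 ^ 2 * C0 * K * (D * D) * (C1 * ((1 + |s.im|) ^ 2 * P) +
          2 * C0 * (R / J ^ 2 * nT a R t)) := by rw [hP']; ring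
    _ ≤ C3 * Q0 ^ 2 * C0 * K * (D * D) * ((C1 + 2 * C0) * ((1 + |s.im|) ^ 2 * P +
          R / J ^ 2 * nT a R t)) := by
        refine mul_le_mul_of_nonneg_left ?_ (by positivity)
        have u1 : 0 ≤ (1 + |s.im|) ^ 2 * P := by positivity
        have u2 : 0 ≤ R / J ^ 2 * nT a R t := by positivity
        nlinarith [mul_nonneg hC1.le u2, mul_nonneg hC0.le u1]
    _ = _ := by rw [hDD]; ring

end

end Vale.Agent.P006
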