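import Vale.Agent.P006.TMod

namespace Vale.Agent.P006

open Vale.Agent.P026 Complex MeasureTheory Filter Topology
open scoped Classical ComplexConjugate Real MatrixGroups

noncomputable section

/-- Gauss sum directions of `a` control character directions of the transformed vector -/
theorem pt_of_pf : ∃ C : ℝ, 0 < C ∧ ∀ (R U V U' V' P : ℝ) (a : O → ℂ) (t : O × O × O) (s : ℂ)
    (k : O), 1 ≤ R → Sh a R → t ∈ trip R → |s.re| ≤ 1 / 2 → k ≠ 0 → N (pr t) * U' ≤ U →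
    9 * N t.1 ^ 2 * N t.2.1 * N k * U' ^ 2 * V' ^ 2 ≤ V → PF a U V P →
    PT (fun n => if NN n then conj (aT a R t s n * (sym3 k n * G n)) else 0) U' V'
      (C * (1 + |s.im|) ^ 2 * P) := by
  obtain ⟨C, hC, h⟩ := tm_abel
  refine ⟨C, hC, fun R U V U' V' P a t s k _ ha ht hs hk hU hV hPF l h' y hl hlU h0 hV' => ?_⟩
  obtain ⟨t1, t2, t3, t4, -⟩ := mem_trip.1 ht
  have hp := tm_prim_pr ht
  have p1 := one_le_N hp.ne_zero
  have l1 := one_le_N hl.ne_zero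
  set c := lam ^ 2 * t.1 ^ 2 * t.2.1 with hc
  set k' := c * k * l ^ 2 * h' ^ 2 with hk'
  have hk0 : k' ≠ 0 := mul_ne_zero (mul_ne_zero (mul_ne_zero (mul_ne_zero (mul_ne_zero
    (pow_ne_zero _ prime_lam.ne_zero) (pow_ne_zero _ t1.ne_zero)) t2.ne_zero) hk)
    (pow_ne_zero _ hl.ne_zero)) (pow_ne_zero _ h0)
  have hkV : N k' ≤ V := by
    refine le_trans ?_ hV
    rw [hk', hc]
    simp only [N_mul, N_pow, N_lam]
    have := N_nonneg t.1
    have := N_nonneg t.2.1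
    have := N_nonneg k
    have := N_nonneg h'
    have := N_nonneg l
    rw [show (3 : ℝ) ^ 2 = 9 by norm_num]
    gcongr
  have hlU' : N (pr t * l) ≤ U := by
    rw [N_mul]
    exact (mul_le_mul_of_nonneg_left hlU (by linarith)).trans hU
  have hP : 0 ≤ P := by
    refine (sq_nonneg _).trans (hPF 1 k' 0 nn_one ?_ hk0 hkV)
    rw [N_one]
    exact (one_le_N (mul_ne_zero hp.ne_zero hl.ne_zero)).trans hlU'
  have b := h a (fun m => G m * sym3 k' m) R P (pr t * l) s ha (hp.mul hl.1) hP (by linarith)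
    (fun hl' y => by
      have := hPF _ k' y hl' hlU' hk0 hkV
      simpa only [S2, mul_assoc] using this) (y * N (pr t))
  have e : conj (S1 (fun n => if NN n then conj (aT a R t s n * (sym3 k n * G n)) else 0) l h' y) =
      (sym3 c l * sym3 k l * G l) * ∑ m ∈ ballN (y * N (pr t) / N (pr t * l)),
        a (pr t * l * m) * (G m * sym3 k' m) * ((N (pr t * l * m) / R : ℝ) : ℂ) ^ s := by
    rw [S1, map_sum, N_mul, mul_comm y, mul_div_mul_left _ _ (by linarith), Finset.mul_sum]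
    refine Finset.sum_congr rfl fun m hm => ?_
    have hm' := (mem_ballN.1 hm).1
    by_cases c0 : a (pr t * l * m) = 0
    · have : a (pr t * (l * m)) = 0 := by rw [← mul_assoc]; exact c0
      simp [aT, c0, this]
    · rw [if_pos ((ha _ c0).1.of_dvd (hl.1.mul hm'.1) ⟨pr t, by ring⟩), map_mul, conj_conj, aT,
        ← hc, hk', ← mul_assoc (pr t), G_mul hl.1 hm'.1, conj_sym3, conj_sym3,
        sym3_mul_right _ hl.ne_zero hm'.ne_zero, sym3_mul_right _ hl.ne_zero hm'.ne_zero]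
      simp only [sym3_mul_left _ _ m, sym3_pow_left]
      ring
  rw [← RCLike.norm_conj, e, norm_mul, mul_pow]
  refine (mul_le_of_le_one_left (by positivity) (pow_le_one₀ (norm_nonneg _) ?_)).trans b
  rw [norm_mul, norm_mul]
  exact mul_le_one₀ (mul_le_one₀ (norm_sym3_le _ _) (norm_nonneg _) (norm_sym3_le _ _))
    (norm_nonneg _) (norm_G_le _)

theorem trw_one {ε : ℝ} (hε : 0 < ε) : ∃ C : ℝ, 0 < C ∧
    ∀ (Z Q H R B D P : ℝ) (a : O → ℂ) (t : O × O × O) (s : ℂ) (k : O),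
    1 ≤ Z → 1 ≤ Q → 0 < H → H ≤ Z → 1 ≤ R → R ≤ Z → B ≤ Q → 0 ≤ D → 0 ≤ P →
    Sh a R → t ∈ trip R → N (pr t) ≤ Q → |s.re| ≤ 1 / 2 → HW Q H B R D →
    (1 < B → PF a (Q ^ 5) (9 * Q ^ 11) P) → k ≠ 0 → N t.2.1 * N t.1 ^ 2 * N k < B →
    N t.1 * ∑ h ∈ ringN (H / B) (H / (N t.2.1 * N t.1 ^ 2) / N k),
        ‖∑ n ∈ ballN (R / N (pr t)), aT a R t s n * sym3 (k * h) n‖ ^ 2 ≤
      4 * D * nT a R t * (√(N k))⁻¹ + C * Z ^ ε * ((H * R) ^ (2 / 3 : ℝ) / Q ^ 2 * nT a R t +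
        Q ^ 6 * (1 + |s.im|) ^ 2 * H ^ (2 / 3 : ℝ) * R ^ (-(1 / 3) : ℝ) * P) := by
  obtain ⟨C1, hC1, h1⟩ := pt_of_pf
  obtain ⟨C2, hC2, h2⟩ := model_bd hε
  refine ⟨2 * C2 * (C1 + 2), by positivity,
    fun Z Q H R B D P a t s k hZ hQ hH hHZ hR hRZ hB hD hP ha ht hpQ hs hW hPF hk hkB => ?_⟩
  obtain ⟨t1, t2, t3, t4, -⟩ := mem_trip.1 ht
  have p1 := one_le_N (tm_prim_pr ht).ne_zero
  have g1 := one_le_N t1.ne_zero
  have e1 := one_le_N t2.ne_zero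
  have k1 := one_le_N hk
  set R' := R / N (pr t) with hR'
  have hR'0 : 0 < R' := by positivity
  have hR'R : R' ≤ R := div_le_self (by linarith) p1
  set H1 := H / (N t.2.1 * N t.1 ^ 2) / N k with hH1
  have hH10 : 0 < H1 := by positivity
  have w1 : 1 ≤ N t.2.1 * N k := one_le_mul_of_one_le_of_one_le e1 k1
  have hH1g : N t.1 ^ 2 * H1 ≤ H := by
    have : N t.1 ^ 2 * H1 = H / (N t.2.1 * N k) := by rw [hH1]; field_simp
    rw [this]; exact div_le_self hH.le w1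
  have hH1H : H1 ≤ H := (le_mul_of_one_le_left hH10.le (one_le_pow₀ g1)).trans hH1g
  set b : O → ℂ := fun n => if NN n then conj (aT a R t s n * (sym3 k n * G n)) else 0 with hb
  have hbS : Sh b R' := fun n hn => sh_aT ha ht s (fun n => sym3 k n * G n) n fun c => hn (by
    simp only [hb]; split_ifs with c1
    · simp only [if_pos c1] at c; rw [c, map_zero]
    · rfl)
  have hnT := nT_nonneg a R t
  have hbn : nsq (ballN R') b ≤ 2 * nT a R t := by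
    refine le_trans (Finset.sum_le_sum fun n hn => ?_) (nsq_aT_le ha ht hs)
    simp only [hb, if_pos (mem_ballN.1 hn).1]
    rw [RCLike.norm_conj, norm_mul, norm_mul]
    refine pow_le_pow_left₀ (by positivity) (mul_le_of_le_one_right (norm_nonneg _) ?_) 2
    exact mul_le_one₀ (norm_sym3_le _ _) (norm_nonneg _) (norm_G_le _)
  have w2 : 1 ≤ N t.2.1 * N t.1 ^ 2 * N k := one_le_mul_of_one_le_of_one_le
    (one_le_mul_of_one_le_of_one_le e1 (one_le_pow₀ g1)) k1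
  have hPT := h1 R (Q ^ 5) (9 * Q ^ 11) (Q ^ 4) Q P a t s k hR ha ht hs hk
    (by calc N (pr t) * Q ^ 4 ≤ Q * Q ^ 4 := by gcongr
        _ = _ := by ring)
    (by calc _ = 9 * (N t.2.1 * N t.1 ^ 2 * N k) * Q ^ 10 := by ring
        _ ≤ 9 * Q * Q ^ 10 := by gcongr; linarith
        _ = _ := by ring) (hPF (by linarith))
  have m1 := h2 Z Q H1 R' _ b hZ hQ hH10 (hH1H.trans hHZ) hR'0 (hR'R.trans hRZ) (by positivity)
    hbS hPT
  have m2 := (hW H1 hH1H).mono subset_rfl (ballN_mono hR'R) le_rfl b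
  have row : ∀ h ∈ ringN (H / B) H1, ‖∑ n ∈ ballN R', aT a R t s n * sym3 (k * h) n‖ ^ 2 ≤
      2 * ‖∑ n ∈ ballN R', b n * Kd Q h n‖ ^ 2 + 2 * ‖∑ n ∈ ballN R', b n * mdl Q (h * n)‖ ^ 2 := by
    intro h hh
    have hh' := (mem_ringN.1 hh).1
    have e : G h * conj (∑ n ∈ ballN R', aT a R t s n * sym3 (k * h) n) =
        ∑ n ∈ ballN R', b n * Kd Q h n - -∑ n ∈ ballN R', b n * mdl Q (h * n) := by
      rw [sub_neg_eq_add, ← Finset.sum_add_distrib, map_sum, Finset.mul_sum]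
      refine Finset.sum_congr rfl fun n hn => ?_
      have hn' := (mem_ballN.1 hn).1
      have u : conj (G n) * G n = 1 := by
        rw [Complex.conj_mul', norm_G hn']; simp
      rw [← mul_add, Kd, del, sub_add_cancel, G_mul hh'.1 hn'.1, sym3_mul_left]
      simp only [hb, if_pos hn', map_mul]
      linear_combination (-(G h * conj (aT a R t s n) * conj (sym3 k n) * conj (sym3 h n))) * u
    have := tm_two (∑ n ∈ ballN R', b n * Kd Q h n) (-∑ n ∈ ballN R', b n * mdl Q (h * n))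
    rwa [← e, norm_mul, norm_G hh', one_mul, RCLike.norm_conj, norm_neg] at this
  have s1 : N t.1 * √(H1 / H) ≤ (√(N k))⁻¹ := by
    rw [← Real.sqrt_inv, ← Real.sqrt_sq (by linarith : 0 ≤ N t.1), ← Real.sqrt_mul (by positivity)]
    refine Real.sqrt_le_sqrt ?_
    have : N t.1 ^ 2 * (H1 / H) = (N k)⁻¹ / N t.2.1 := by rw [hH1]; field_simp
    rw [this]; exact div_le_self (by positivity) e1
  have s2 : N t.1 * H1 ^ (2 / 3 : ℝ) ≤ H ^ (2 / 3 : ℝ) := by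
    refine le_trans ?_ (Real.rpow_le_rpow (by positivity) hH1g (by norm_num))
    rw [Real.mul_rpow (by positivity) hH10.le, ← Real.rpow_natCast, ← Real.rpow_mul (by linarith)]
    refine mul_le_mul_of_nonneg_right ?_ (by positivity)
    exact (Real.rpow_one _).symm.le.trans (Real.rpow_le_rpow_of_exponent_le g1 (by norm_num))
  have s3 : R' ^ (-(1 / 3) : ℝ) ≤ R ^ (-(1 / 3) : ℝ) * Q := by
    rw [hR', Real.div_rpow (by linarith) (by linarith), Real.rpow_neg (x := N (pr t)) (by linarith),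
      div_inv_eq_mul]
    refine mul_le_mul_of_nonneg_left ?_ (by positivity)
    exact ((Real.rpow_le_rpow_of_exponent_le p1 (by norm_num : (1 / 3 : ℝ) ≤ 1)).trans_eq
      (Real.rpow_one _)).trans hpQ
  have s4 : N t.1 * (H1 * R') ^ (2 / 3 : ℝ) ≤ (H * R) ^ (2 / 3 : ℝ) := by
    rw [Real.mul_rpow hH10.le hR'0.le, Real.mul_rpow hH.le (by linarith), ← mul_assoc]
    exact mul_le_mul s2 (Real.rpow_le_rpow hR'0.le hR'R (by norm_num)) (by positivity)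
      (by positivity)
  have hsub : ringN (H / B) H1 ⊆ ballN H1 := Finset.filter_subset _ _
  set X := (H * R) ^ (2 / 3 : ℝ) / Q ^ 2 * nT a R t with hX
  set Y := Q ^ 6 * (1 + |s.im|) ^ 2 * H ^ (2 / 3 : ℝ) * R ^ (-(1 / 3) : ℝ) * P with hY
  have hX0 : 0 ≤ X := by positivity
  have hY0 : 0 ≤ Y := by positivity
  calc _ ≤ N t.1 * (2 * (D * √(H1 / H) * (2 * nT a R t)) + 2 * (C2 * Z ^ ε *
          (Q ^ 5 * H1 ^ (2 / 3 : ℝ) * R' ^ (-(1 / 3) : ℝ) * (C1 * (1 + |s.im|) ^ 2 * P) +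
            (H1 * R') ^ (2 / 3 : ℝ) / Q ^ 2 * (2 * nT a R t)))) := by
        refine mul_le_mul_of_nonneg_left ((Finset.sum_le_sum row).trans ?_) (by linarith)
        rw [Finset.sum_add_distrib, ← Finset.mul_sum, ← Finset.mul_sum]
        refine add_le_add (mul_le_mul_of_nonneg_left (m2.trans ?_) (by norm_num))
          (mul_le_mul_of_nonneg_left (le_trans (Finset.sum_le_sum_of_subset_of_nonneg hsub
            fun _ _ _ => by positivity) (m1.trans ?_)) (by norm_num))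
        · gcongr
        · gcongr
    _ = 4 * D * nT a R t * (N t.1 * √(H1 / H)) + 2 * C2 * Z ^ ε *
          (C1 * (Q ^ 5 * (1 + |s.im|) ^ 2 * (N t.1 * H1 ^ (2 / 3 : ℝ)) * R' ^ (-(1 / 3) : ℝ) * P) +
            2 * (N t.1 * (H1 * R') ^ (2 / 3 : ℝ) / Q ^ 2 * nT a R t)) := by ring
    _ ≤ 4 * D * nT a R t * (√(N k))⁻¹ + 2 * C2 * Z ^ ε *
          (C1 * (Q ^ 5 * (1 + |s.im|) ^ 2 * H ^ (2 / 3 : ℝ) * (R ^ (-(1 / 3) : ℝ) * Q) * P) +
            2 * X) := by rw [hX]; gcongr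
    _ = 4 * D * nT a R t * (√(N k))⁻¹ + 2 * C2 * Z ^ ε * (C1 * Y + 2 * X) := by rw [hY]; ring
    _ ≤ _ := by
        have : C1 * Y + 2 * X ≤ (C1 + 2) * (X + Y) := by nlinarith [mul_nonneg hC1.le hX0]
        calc _ ≤ 4 * D * nT a R t * (√(N k))⁻¹ + 2 * C2 * Z ^ ε * ((C1 + 2) * (X + Y)) := by
              gcongr
          _ = _ := by ring

def trwK (y : O × O × O) : O := y.1 * y.2.1 ^ 2 * y.2.2 ^ 3

theorem trw_cov {H B Z W : ℝ} (hH : 0 < H) (hHZ : H ≤ Z) (hB : 1 ≤ B) (w1 : 1 ≤ W)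
    (F : (O × O × O) × O → ℝ) (hF : ∀ x, 0 ≤ F x) :
    ∑ x ∈ (Quad (H / W)).filter (fun x => H / B < N x.1.2.1), F x ≤
      ∑ y ∈ (XI ×ˢ ballO (min B Z) ×ˢ ballO (min B Z)).filter (fun y => W * N (trwK y) < B),
        ∑ g ∈ ringN (H / B) (H / W / N (trwK y)), F ((y.1, g, y.2.1), y.2.2) := by
  rw [Finset.sum_sigma']
  refine dual_cover _ _ (fun p : (_ : O × O × O) × O => ((p.1.1, p.2, p.1.2.1), p.1.2.2)) F hF ?_
  rintro ⟨⟨ξ, g, h⟩, k⟩ hx
  obtain ⟨x1, x2⟩ := Finset.mem_filter.1 hx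
  obtain ⟨a1, a2, a3, -, a5, a6⟩ := mem_Quad.1 x1
  simp only at a1 a2 a3 a5 a6 x2
  have n1 := one_le_N (XI_ne_zero a1)
  have n2 := one_le_N a2.ne_zero
  have n3 := one_le_N a3.ne_zero
  have n4 := one_le_N a5
  have ek : N (trwK (ξ, h, k)) = N ξ * N h ^ 2 * N k ^ 3 := by simp only [trwK, N_mul, N_pow]
  have e2 : N (cf (ξ, g, h) * k ^ 3) = N g * N (trwK (ξ, h, k)) := by
    rw [ek]; simp only [cf, N_mul, N_pow]; ring
  rw [e2] at a6
  have b1 : N h ≤ N (trwK (ξ, h, k)) := by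
    rw [ek]
    calc N h ≤ 1 * N h ^ 2 * 1 := by nlinarith
      _ ≤ _ := by gcongr; exact one_le_pow₀ n4
  have b2 : N k ≤ N (trwK (ξ, h, k)) := by
    rw [ek]
    calc N k ≤ 1 * 1 * N k ^ 3 := by
          rw [one_mul, one_mul]; exact le_self_pow₀ n4 (by norm_num)
      _ ≤ _ := by gcongr; exact one_le_pow₀ n3
  set K := N (trwK (ξ, h, k)) with hK
  have K1 : 1 ≤ K := n3.trans b1
  have b3 : W * K < B := by
    rw [div_lt_iff₀ (by linarith)] at x2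
    rw [le_div_iff₀ (by linarith)] at a6
    refine lt_of_mul_lt_mul_left (a := N g) ?_ (by linarith)
    linarith
  have b4 : K ≤ min B Z := by
    refine le_min ((le_mul_of_one_le_left (by linarith) w1).trans b3.le) ?_
    exact (((le_mul_of_one_le_left (by linarith) n2).trans a6).trans
      (div_le_self hH.le w1)).trans hHZ
  refine ⟨⟨(ξ, h, k), g⟩, Finset.mem_sigma.2 ⟨Finset.mem_filter.2 ⟨?_, b3⟩,
    mem_ringN.2 ⟨a2, x2, ?_⟩⟩, rfl⟩
  · exact Finset.mem_product.2 ⟨a1, Finset.mem_product.2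
      ⟨mem_ballO.2 ⟨a3.ne_zero, b1.trans b4⟩, mem_ballO.2 ⟨a5, b2.trans b4⟩⟩⟩
  · exact (le_div_iff₀ (by linarith)).2 a6

theorem trw_sum (S : Finset O) {A X E F : ℝ} (hA : 0 ≤ A) (hX : 0 ≤ X)
    (h1 : ∑ n ∈ S, (N n)⁻¹ ≤ E) (h2 : (S.card : ℝ) ≤ F) :
    ∑ y ∈ XI ×ˢ S ×ˢ S, (A * ((N y.2.1)⁻¹ * (N y.2.2)⁻¹) + X) ≤
      27 * (A * (E * E) + F * F * X) := by
  have hXI : (XI.card : ℝ) ≤ 27 := by exact_mod_cast card_XI_le
  have hs0 : 0 ≤ ∑ n ∈ S, (N n)⁻¹ := Finset.sum_nonneg fun n _ => inv_nonneg.2 (N_nonneg n)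
  have hF : 0 ≤ F := (Nat.cast_nonneg _).trans h2
  have hE : 0 ≤ E := hs0.trans h1
  calc _ = XI.card * (A * ((∑ n ∈ S, (N n)⁻¹) * ∑ n ∈ S, (N n)⁻¹) + S.card * S.card * X) := by
        simp only [Finset.sum_product, Finset.sum_add_distrib, Finset.sum_const, nsmul_eq_mul,
          ← Finset.mul_sum, ← Finset.sum_mul, Finset.card_product]
        push_cast
        ring
    _ ≤ _ := by gcongr

theorem trw_inv {y : O × O × O} (z1 : y.1 ≠ 0) (z2 : y.2.1 ≠ 0) (z3 : y.2.2 ≠ 0) :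
    (√(N (trwK y)))⁻¹ ≤ (N y.2.1)⁻¹ * (N y.2.2)⁻¹ := by
  have n1 := one_le_N z1
  have n2 := one_le_N z2
  have n3 := one_le_N z3
  rw [← mul_inv]
  refine inv_anti₀ (by positivity) (Real.le_sqrt_of_sq_le ?_)
  simp only [trwK, N_mul, N_pow]
  calc _ = 1 * N y.2.1 ^ 2 * N y.2.2 ^ 2 := by ring
    _ ≤ _ := by gcongr; norm_num

/-- rows in the window -/
theorem reg_w {ε : ℝ} (hε : 0 < ε) : ∃ C : ℝ, 0 < C ∧
    ∀ (Z Q H R B D P : ℝ) (a : O → ℂ) (t : O × O × O) (s : ℂ),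
    1 ≤ Z → 1 ≤ Q → 0 < H → H ≤ Z → 1 ≤ R → R ≤ Z → 1 ≤ B → B ^ 2 ≤ Q → 0 ≤ D → 0 ≤ P →
    Sh a R → t ∈ trip R → N (pr t) ≤ Q → |s.re| ≤ 1 / 2 → HW Q H B R D →
    (1 < B → PF a (Q ^ 5) (9 * Q ^ 11) P) →
    N t.1 * ∑ x ∈ (Quad (H / (N t.2.1 * N t.1 ^ 2))).filter (fun x => H / B < N x.1.2.1),
        FF (aT a R t s) (R / N (pr t)) x ≤
      C * Z ^ ε * ((D + (H * R) ^ (2 / 3 : ℝ) / Q) * nT a R t +
        Q ^ 7 * (1 + |s.im|) ^ 2 * H ^ (2 / 3 : ℝ) * R ^ (-(1 / 3) : ℝ) * P) := by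
  obtain ⟨C0, hC0, h0⟩ := card_ballO_le
  obtain ⟨C1, hC1, h1⟩ := trw_one hε
  obtain ⟨C2, hC2, h2⟩ := sum_inv_N_le (half_pos hε)
  refine ⟨27 * (4 * C2 ^ 2 + C0 ^ 2 * C1), by positivity,
    fun Z Q H R B D P a t s hZ hQ hH hHZ hR hRZ hB hBQ hD hP ha ht hpQ hs hW hPF => ?_⟩
  obtain ⟨t1, t2, -⟩ := mem_trip.1 ht
  have g1 := one_le_N t1.ne_zero
  have e1 := one_le_N t2.ne_zero
  have w1 : 1 ≤ N t.2.1 * N t.1 ^ 2 := one_le_mul_of_one_le_of_one_le e1 (one_le_pow₀ g1)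
  have L1 : 1 ≤ min B Z := le_min hB hZ
  have hnT := nT_nonneg a R t
  obtain ⟨X, hX⟩ : ∃ X, X = (H * R) ^ (2 / 3 : ℝ) / Q ^ 2 * nT a R t +
    Q ^ 6 * (1 + |s.im|) ^ 2 * H ^ (2 / 3 : ℝ) * R ^ (-(1 / 3) : ℝ) * P := ⟨_, rfl⟩
  have hX0 : 0 ≤ X := by rw [hX]; positivity
  have hs1 : ∑ n ∈ ballO (min B Z), (N n)⁻¹ ≤ C2 * Z ^ (ε / 2) :=
    (h2 _ L1).trans (mul_le_mul_of_nonneg_left
      (Real.rpow_le_rpow (by linarith) (min_le_right _ _) (by linarith)) hC2.le)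
  have hc1 : ((ballO (min B Z)).card : ℝ) ≤ C0 * B :=
    (h0 _ (by linarith)).trans (mul_le_mul_of_nonneg_left (min_le_left _ _) hC0.le)
  have hZZ : Z ^ (ε / 2) * Z ^ (ε / 2) = Z ^ ε := by
    rw [← Real.rpow_add (by linarith)]; ring_nf
  have hZ0 : 0 ≤ Z ^ ε := by positivity
  have hA : 0 ≤ 4 * D * nT a R t := by positivity
  have hY : 0 ≤ C1 * Z ^ ε * X := by positivity
  refine (mul_le_mul_of_nonneg_left (trw_cov hH hHZ hB w1 (FF (aT a R t s) (R / N (pr t)))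
    fun _ => sq_nonneg _) (by linarith)).trans ?_
  rw [Finset.mul_sum]
  refine le_trans (Finset.sum_le_sum (g := fun y => 4 * D * nT a R t *
    ((N y.2.1)⁻¹ * (N y.2.2)⁻¹) + C1 * Z ^ ε * X) fun y hy => ?_) ?_
  · obtain ⟨y0, y4⟩ := Finset.mem_filter.1 hy
    obtain ⟨y1, y23⟩ := Finset.mem_product.1 y0
    obtain ⟨y2, y3⟩ := Finset.mem_product.1 y23
    have z1 := XI_ne_zero y1
    have z2 := (mem_ballO.1 y2).1
    have z3 := (mem_ballO.1 y3).1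
    have := h1 Z Q H R B D P a t s (trwK y) hZ hQ hH hHZ hR hRZ
      ((le_self_pow₀ hB (by norm_num)).trans hBQ) hD hP ha ht hpQ hs hW hPF
      (mul_ne_zero (mul_ne_zero z1 (pow_ne_zero _ z2)) (pow_ne_zero _ z3)) y4
    rw [← hX] at this
    refine le_trans (le_of_eq ?_) (this.trans (add_le_add_left
      (mul_le_mul_of_nonneg_left (trw_inv z1 z2 z3) hA) _))
    congr 1
    refine Finset.sum_congr rfl fun g _ => ?_
    have : cf (y.1, g, y.2.1) * y.2.2 ^ 3 = trwK y * g := by simp only [cf, trwK]; ring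
    simp only [FF, this]
  refine le_trans (Finset.sum_le_sum_of_subset_of_nonneg (Finset.filter_subset _ _)
    fun y _ _ => add_nonneg (mul_nonneg hA (mul_nonneg (inv_nonneg.2 (N_nonneg _))
      (inv_nonneg.2 (N_nonneg _)))) hY) ((trw_sum _ hA hY hs1 hc1).trans ?_)
  have e : (D + (H * R) ^ (2 / 3 : ℝ) / Q) * nT a R t +
      Q ^ 7 * (1 + |s.im|) ^ 2 * H ^ (2 / 3 : ℝ) * R ^ (-(1 / 3) : ℝ) * P =
      D * nT a R t + Q * X := by rw [hX]; field_simp; ring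
  rw [e]
  have u0 : 0 ≤ D * nT a R t := by positivity
  calc _ = 27 * Z ^ ε * (4 * C2 ^ 2 * (D * nT a R t) + C0 ^ 2 * C1 * (B ^ 2 * X)) := by
        rw [← hZZ]; ring
    _ ≤ 27 * Z ^ ε * (4 * C2 ^ 2 * (D * nT a R t) + C0 ^ 2 * C1 * (Q * X)) := by gcongr
    _ ≤ 27 * Z ^ ε * ((4 * C2 ^ 2 + C0 ^ 2 * C1) * (D * nT a R t + Q * X)) := by
        refine mul_le_mul_of_nonneg_left ?_ (by positivity)
        have u1 : 0 ≤ C2 ^ 2 * (Q * X) := by positivity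
        have u2 : 0 ≤ C0 ^ 2 * C1 * (D * nT a R t) := by positivity
        linarith
    _ = _ := by ring

end

end Vale.Agent.P006
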