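import Vale.Agent.P006.LRc
import Vale.Agent.P006.TRp
import Vale.Agent.P006.TRw

namespace Vale.Agent.P006

open Vale.Agent.P026 Complex MeasureTheory Filter Topology
open scoped Classical ComplexConjugate Real MatrixGroups

noncomputable section

theorem ths_pwL {Q H R g e f d : ℝ} (hQ : 1 ≤ Q) (hH : 0 < H) (hR : 0 < R) (hg : 1 ≤ g)
    (he : 1 ≤ e) (hf : 1 ≤ f) (hd : 1 ≤ d) (h : Q ^ (1 / 4 : ℝ) / d ≤ g * e * f) :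
    g * (H / (e * g ^ 2) + (H / (e * g ^ 2)) ^ (1 / 3 : ℝ) * (R / (g * e * f)) +
      (H / (e * g ^ 2) * (R / (g * e * f))) ^ (2 / 3 : ℝ)) ≤
      d * (H + Q ^ (-(1 / 6) : ℝ) * (H ^ (1 / 3 : ℝ) * R + (H * R) ^ (2 / 3 : ℝ))) := by
  obtain ⟨c, c0, rfl⟩ := lal_log hd
  obtain ⟨q, q0, rfl⟩ := lal_log hQ
  obtain ⟨h', rfl⟩ := lrec_exp hH
  obtain ⟨r, rfl⟩ := lrec_exp hR
  obtain ⟨u, u0, rfl⟩ := lal_log hg
  obtain ⟨v, v0, rfl⟩ := lal_log he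
  obtain ⟨w, w0, rfl⟩ := lal_log hf
  rw [mul_add, mul_add, mul_add, mul_add, mul_add, ← add_assoc]
  simp only [← Real.exp_nat_mul, ← Real.exp_add, ← Real.exp_sub, ← Real.exp_mul,
    Real.exp_le_exp] at h ⊢
  refine add_le_add (add_le_add ?_ ?_) ?_ <;> rw [Real.exp_le_exp] <;> push_cast <;> linarith

/-- triples of large norm -/
theorem hs_large {ε : ℝ} (hε : 0 < ε) : ∃ C : ℝ, 0 < C ∧
    ∀ (Z Q H R : ℝ) (a : O → ℂ) (t : O × O × O) (s : ℂ),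
    1 ≤ Z → 1 ≤ Q → 0 < H → H ≤ Z → 1 ≤ R → R ≤ Z → Sh a R → t ∈ trip R →
    Q ^ (1 / 4 : ℝ) / 3 ≤ N (pr t) → |s.re| ≤ 1 / 2 →
    N t.1 * HS (aT a R t s) (R / N (pr t)) (H / (N t.2.1 * N t.1 ^ 2)) ≤
      C * Z ^ ε * (H + Q ^ (-(1 / 6) : ℝ) * (H ^ (1 / 3 : ℝ) * R + (H * R) ^ (2 / 3 : ℝ))) *
        nT a R t := by
  obtain ⟨C, hC, h1⟩ := lsall' hε
  refine ⟨6 * C, by positivity, fun Z Q H R a t s hZ hQ H0 HZ hR RZ sa ht hp hs => ?_⟩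
  obtain ⟨hg, he, hf, -⟩ := mem_trip.1 ht
  have g1 := one_le_N hg.ne_zero
  have e1 := one_le_N he.ne_zero
  have f1 := one_le_N hf.ne_zero
  have ep : N (pr t) = N t.1 * N t.2.1 * N t.2.2 := by rw [pr, N_mul, N_mul]
  have p1 : 1 ≤ N (pr t) := one_le_N (lbas_pr_ne ht)
  have b1 := h1 Z (H / (N t.2.1 * N t.1 ^ 2)) (R / N (pr t)) hZ (by positivity)
    ((div_le_self H0.le (one_le_mul_of_one_le_of_one_le e1 (one_le_pow₀ g1))).trans HZ)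
    (by positivity) ((div_le_self (by linarith) p1).trans RZ) (aT a R t s)
  have b2 := nsq_aT_le sa ht hs
  have b3 := ths_pwL (R := R) hQ H0 (by linarith) g1 e1 f1 (by norm_num) (ep ▸ hp)
  have t0 := nT_nonneg a R t
  rw [← ep] at b3
  set F := H / (N t.2.1 * N t.1 ^ 2) + (H / (N t.2.1 * N t.1 ^ 2)) ^ (1 / 3 : ℝ) * (R / N (pr t)) +
    (H / (N t.2.1 * N t.1 ^ 2) * (R / N (pr t))) ^ (2 / 3 : ℝ) with hF
  have F0 : 0 ≤ F := by rw [hF]; positivity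
  calc _ ≤ N t.1 * (C * Z ^ ε * F * (2 * nT a R t)) :=
        mul_le_mul_of_nonneg_left (le_trans b1 (mul_le_mul_of_nonneg_left b2 (by positivity)))
          (by linarith)
    _ = 2 * C * Z ^ ε * (N t.1 * F) * nT a R t := by ring
    _ ≤ 2 * C * Z ^ ε * (3 * (H + Q ^ (-(1 / 6) : ℝ) * (H ^ (1 / 3 : ℝ) * R +
          (H * R) ^ (2 / 3 : ℝ)))) * nT a R t := by gcongr
    _ = _ := by ring

theorem ths_cover (H Q0 T Hw : ℝ) {f : (O × O × O) × O → ℝ} (hf : ∀ x, 0 ≤ f x) :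
    ∑ x ∈ Quad H, f x ≤ ∑ x ∈ (Quad H).filter (fun x => N (cf x.1) ≤ Q0), f x +
      ∑ x ∈ (Quad H).filter (fun x => Q0 ≤ N (cf x.1) ∧ N x.1.2.1 ≤ T * N x.1.2.2), f x +
      ∑ x ∈ (Quad H).filter (fun x => T * N x.1.2.2 < N x.1.2.1 ∧ N x.1.2.1 ≤ Hw), f x +
      ∑ x ∈ (Quad H).filter (fun x => Hw < N x.1.2.1), f x := by
  simp only [Finset.sum_filter, ← Finset.sum_add_distrib]
  refine Finset.sum_le_sum fun x _ => ?_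
  have := hf x
  by_cases c1 : N (cf x.1) ≤ Q0
  · rw [if_pos c1]; split_ifs <;> linarith
  · by_cases c2 : N x.1.2.1 ≤ T * N x.1.2.2
    · rw [if_pos (show Q0 ≤ N (cf x.1) ∧ _ from ⟨(not_le.1 c1).le, c2⟩)]; split_ifs <;> linarith
    · by_cases c3 : N x.1.2.1 ≤ Hw
      · rw [if_pos (show T * N x.1.2.2 < N x.1.2.1 ∧ _ from ⟨not_le.1 c2, c3⟩)]
        split_ifs <;> linarith
      · rw [if_pos (not_le.1 c3)]; split_ifs <;> linarith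

theorem ths_pwS {Q H R K B g e f : ℝ} (hQ : 1 ≤ Q) (hH : 0 < H) (hR : Q ^ 4 ≤ R) (hK : 1 ≤ K)
    (hHK : H ≤ K * R) (hB : 1 ≤ B) (hBQ : B ^ 2 ≤ Q) (hg : 1 ≤ g) (he : 1 ≤ e)
    (hf : 1 ≤ f) (h : g * e * f ≤ Q ^ (1 / 4 : ℝ)) :
    g * ((Q ^ (1 / 2 : ℝ)) ^ 2 * (H / (e * g ^ 2)) ^ (1 / 3 : ℝ)) ≤
      K * (Q ^ 7 * H ^ (1 / 3 : ℝ)) ∧
    g * ((Q ^ (1 / 2 : ℝ)) ^ 2 * (H / (e * g ^ 2)) ^ (1 / 3 : ℝ)) * (R / Q ^ 2) ≤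
      K * (Q ^ (-(1 / 6) : ℝ) * H ^ (1 / 3 : ℝ) * R) ∧
    g * ((H / (e * g ^ 2) / Q ^ (1 / 2 : ℝ)) ^ (1 / 3 : ℝ) * (R / (g * e * f))) ≤
      K * (Q ^ (-(1 / 6) : ℝ) * H ^ (1 / 3 : ℝ) * R) ∧
    g * ((R / (g * e * f)) ^ (1 / 3 : ℝ) * (H / (e * g ^ 2)) ^ (8 / 9 : ℝ) *
      (Q ^ (1 / 2 : ℝ)) ^ (4 / 9 : ℝ)) ≤ K * (Q ^ (-(1 / 6) : ℝ) * H ^ (1 / 3 : ℝ) * R) ∧
    g * ((R / (g * e * f)) ^ (1 / 6 : ℝ) * (H / (e * g ^ 2)) *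
      (Q ^ (1 / 2 : ℝ)) ^ (1 / 2 : ℝ)) ≤ K * (Q ^ (-(1 / 6) : ℝ) * H ^ (1 / 3 : ℝ) * R) ∧
    g * (H / (e * g ^ 2)) ≤ K * H ∧
    g * ((H / (e * g ^ 2)) ^ (1 / 2 : ℝ) * (H / B) ^ (1 / 6 : ℝ) *
      (R / (g * e * f)) ^ (2 / 3 : ℝ)) ≤ K * ((H * R) ^ (2 / 3 : ℝ) * B ^ (-(1 / 6) : ℝ)) ∧
    (H * R) ^ (2 / 3 : ℝ) / Q ≤ K * ((H * R) ^ (2 / 3 : ℝ) * B ^ (-(1 / 6) : ℝ)) ∧
    H ^ (2 / 3 : ℝ) * R ^ (-(1 / 3) : ℝ) ≤ K * H ^ (1 / 3 : ℝ) := by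
  have hR0 : 0 < R := lt_of_lt_of_le (by positivity) hR
  obtain ⟨q, q0, rfl⟩ := lal_log hQ
  obtain ⟨h', rfl⟩ := lrec_exp hH
  obtain ⟨r, rfl⟩ := lrec_exp hR0
  obtain ⟨k, k0, rfl⟩ := lal_log hK
  obtain ⟨b, b0, rfl⟩ := lal_log hB
  obtain ⟨u, u0, rfl⟩ := lal_log hg
  obtain ⟨v, v0, rfl⟩ := lal_log he
  obtain ⟨w, w0, rfl⟩ := lal_log hf
  simp only [← Real.exp_nat_mul, ← Real.exp_add, ← Real.exp_sub, ← Real.exp_mul,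
    Real.exp_le_exp] at h hR hHK hBQ ⊢
  push_cast at *
  refine ⟨?_, ?_, ?_, ?_, ?_, ?_, ?_, ?_, ?_⟩ <;> linarith

theorem ths_num {g C1 C2 C3 C4 z K H D w1 w2 n m i P Q7 h3 S S1 S2 S3 S4 x0 x1 x2 y1 y2 y3 u1 u3 v1
    v2 v3 : ℝ} (g0 : 0 ≤ g) (hC1 : 0 < C1) (hC2 : 0 < C2) (hC3 : 0 < C3) (hC4 : 0 < C4)
    (z0 : 0 < z) (hK : 1 ≤ K) (H0 : 0 < H) (hD : 0 ≤ D) (W1 : 0 ≤ w1) (W2 : 0 ≤ w2) (t0 : 0 ≤ n)
    (i0 : 0 ≤ i) (hP : 0 ≤ P) (q7 : 0 ≤ Q7) (k3 : 0 ≤ h3) (Y0 : 0 ≤ y1 + y2 + y3)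
    (U0 : 0 ≤ u1 + y1 + u3)
    (b1 : S1 ≤ C1 * z * x0 * x1 * (i * P + x2 * n)) (b2 : S2 ≤ C2 * z * (y1 + y2 + y3) * m)
    (b3 : S3 ≤ C3 * z * (u1 + y1 + u3) * m)
    (b4 : g * S4 ≤ C4 * z * ((D + v1) * n + Q7 * i * v2 * v3 * P)) (b5 : m ≤ 2 * n)
    (c0 : S ≤ S1 + S2 + S3 + S4)
    (nn : g * (x0 * x1) ≤ K * (Q7 * h3) ∧ g * (x0 * x1) * x2 ≤ K * w2 ∧ g * y1 ≤ K * w2 ∧
      g * y2 ≤ K * w2 ∧ g * y3 ≤ K * w2 ∧ g * u1 ≤ K * H ∧ g * u3 ≤ K * w1 ∧ v1 ≤ K * w1 ∧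
      v2 * v3 ≤ K * h3) :
    g * S ≤ (C1 + 6 * C2 + 2 * C3 + C4) * z * K * ((H + D + w1 + w2) * n + Q7 * i * h3 * P) := by
  obtain ⟨n1, n2, n3, n4, n5, n6, n7, n8, n9⟩ := nn
  have KD : D ≤ K * D := le_mul_of_one_le_left hD hK
  have j1 : 0 ≤ K * H := by positivity
  have j2 : 0 ≤ K * D := by positivity
  have j3 : 0 ≤ K * w1 := by positivity
  have j4 : 0 ≤ K * w2 := by positivity
  have j5 : 0 ≤ i * P := by positivity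
  obtain ⟨E, hE⟩ : ∃ E, E = K * H + K * D + K * w1 + K * w2 := ⟨_, rfl⟩
  obtain ⟨A, hA⟩ : ∃ A, A = E * n + K * (Q7 * h3) * (i * P) := ⟨_, rfl⟩
  have A1 : E * n ≤ A := by rw [hA]; exact le_add_of_nonneg_right (by positivity)
  have d1 : g * S1 ≤ C1 * z * A :=
    calc _ ≤ g * (C1 * z * x0 * x1 * (i * P + x2 * n)) := mul_le_mul_of_nonneg_left b1 g0
      _ = C1 * z * (g * (x0 * x1) * x2 * n + g * (x0 * x1) * (i * P)) := by ring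
      _ ≤ _ := by
        rw [hA]
        exact mul_le_mul_of_nonneg_left (add_le_add (mul_le_mul_of_nonneg_right (by linarith) t0)
          (mul_le_mul_of_nonneg_right n1 j5)) (by positivity)
  have d2 : g * S2 ≤ 6 * C2 * z * A :=
    calc _ ≤ g * (C2 * z * (y1 + y2 + y3) * (2 * n)) := mul_le_mul_of_nonneg_left
          (b2.trans (mul_le_mul_of_nonneg_left b5 (by positivity))) g0
      _ = 2 * C2 * z * ((g * y1 + g * y2 + g * y3) * n) := by ring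
      _ ≤ 2 * C2 * z * (3 * E * n) :=
          mul_le_mul_of_nonneg_left (mul_le_mul_of_nonneg_right (by linarith) t0) (by positivity)
      _ = 6 * C2 * z * (E * n) := by ring
      _ ≤ _ := mul_le_mul_of_nonneg_left A1 (by positivity)
  have d3 : g * S3 ≤ 2 * C3 * z * A :=
    calc _ ≤ g * (C3 * z * (u1 + y1 + u3) * (2 * n)) := mul_le_mul_of_nonneg_left
          (b3.trans (mul_le_mul_of_nonneg_left b5 (by positivity))) g0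
      _ = 2 * C3 * z * ((g * u1 + g * y1 + g * u3) * n) := by ring
      _ ≤ 2 * C3 * z * (E * n) :=
          mul_le_mul_of_nonneg_left (mul_le_mul_of_nonneg_right (by linarith) t0) (by positivity)
      _ ≤ _ := mul_le_mul_of_nonneg_left A1 (by positivity)
  have d4 : g * S4 ≤ C4 * z * A := by
    refine b4.trans (mul_le_mul_of_nonneg_left ?_ (by positivity))
    calc _ = (D + v1) * n + Q7 * (i * P) * (v2 * v3) := by ring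
      _ ≤ E * n + Q7 * (i * P) * (K * h3) :=
          add_le_add (mul_le_mul_of_nonneg_right (by linarith) t0)
            (mul_le_mul_of_nonneg_left n9 (by positivity))
      _ = _ := by rw [hA]; ring
  calc _ ≤ g * (S1 + S2 + S3 + S4) := mul_le_mul_of_nonneg_left c0 g0
    _ ≤ C1 * z * A + 6 * C2 * z * A + 2 * C3 * z * A + C4 * z * A := by linarith
    _ = _ := by rw [hA, hE]; ring

/-- triples of small norm -/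
theorem hs_small {ε : ℝ} (hε : 0 < ε) : ∃ C : ℝ, 0 < C ∧
    ∀ (Z Q H R K B D P : ℝ) (a : O → ℂ) (t : O × O × O) (s : ℂ),
    1 ≤ Z → 1 ≤ Q → Q ^ 4 ≤ R → R ≤ Z → 0 < H → H ≤ Z → 1 ≤ K → H ≤ K * R → 1 ≤ B → B ^ 2 ≤ Q →
    0 ≤ D → 0 ≤ P → Sh a R → t ∈ trip R → N (pr t) ≤ Q ^ (1 / 4 : ℝ) / 3 → |s.re| ≤ 1 / 2 →
    HW Q H B R D → PT a (Q ^ 4) Q P → (1 < B → PF a (Q ^ 5) (9 * Q ^ 11) P) →
    N t.1 * HS (aT a R t s) (R / N (pr t)) (H / (N t.2.1 * N t.1 ^ 2)) ≤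
      C * Z ^ ε * K * ((H + D + (H * R) ^ (2 / 3 : ℝ) * B ^ (-(1 / 6) : ℝ) +
          Q ^ (-(1 / 6) : ℝ) * H ^ (1 / 3 : ℝ) * R) * nT a R t +
        Q ^ 7 * (1 + |s.im|) ^ 2 * H ^ (1 / 3 : ℝ) * P) := by
  obtain ⟨C1, hC1, h1⟩ := reg_p hε
  obtain ⟨C2, hC2, h2⟩ := reg_c hε
  obtain ⟨C3, hC3, h3⟩ := reg_a hε
  obtain ⟨C4, hC4, h4⟩ := reg_w hε
  refine ⟨C1 + 6 * C2 + 2 * C3 + C4, by positivity,
    fun Z Q H R K B D P a t s hZ hQ QR RZ H0 HZ hK HK hB BQ hD hP sa ht hp hs hw pt pf => ?_⟩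
  obtain ⟨hg, he, hf, -⟩ := mem_trip.1 ht
  have g1 := one_le_N hg.ne_zero
  have e1 := one_le_N he.ne_zero
  have f1 := one_le_N hf.ne_zero
  have ep : N (pr t) = N t.1 * N t.2.1 * N t.2.2 := by rw [pr, N_mul, N_mul]
  have p1 : 1 ≤ N (pr t) := one_le_N (lbas_pr_ne ht)
  have Q4 : Q ≤ Q ^ 4 := le_self_pow₀ hQ (by norm_num)
  have hR : 1 ≤ R := by linarith
  have q4 : 1 ≤ Q ^ (1 / 4 : ℝ) := Real.one_le_rpow hQ (by norm_num)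
  have q2 : 1 ≤ Q ^ (1 / 2 : ℝ) := Real.one_le_rpow hQ (by norm_num)
  have q4' : Q ^ (1 / 4 : ℝ) ≤ Q := by
    simpa using Real.rpow_le_rpow_of_exponent_le hQ (by norm_num : (1 / 4 : ℝ) ≤ 1)
  have q2' : Q ^ (1 / 2 : ℝ) ≤ Q := by
    simpa using Real.rpow_le_rpow_of_exponent_le hQ (by norm_num : (1 / 2 : ℝ) ≤ 1)
  have q44 : Q ^ (1 / 2 : ℝ) * (Q ^ (1 / 4 : ℝ)) ^ 2 = Q := by
    rw [sq, ← Real.rpow_add (by linarith), ← Real.rpow_add (by linarith)]; norm_num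
  have pQ : N (pr t) ≤ Q := by linarith
  have T0 : 0 < H / (N t.2.1 * N t.1 ^ 2) := by positivity
  have TZ : H / (N t.2.1 * N t.1 ^ 2) ≤ Z :=
    (div_le_self H0.le (one_le_mul_of_one_le_of_one_le e1 (one_le_pow₀ g1))).trans HZ
  have S0 : 0 < R / N (pr t) := by positivity
  have SZ : R / N (pr t) ≤ Z := (div_le_self (by linarith) p1).trans RZ
  have b1 := h1 Z _ R (Q ^ (1 / 2 : ℝ)) Q (Q ^ 4) Q P a t s hZ T0 TZ hR RZ q2 hQ hP sa ht hs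
    (by calc N (pr t) * Q ≤ Q * Q := by gcongr
          _ = Q ^ 2 := by ring
          _ ≤ Q ^ 4 := pow_le_pow_right₀ hQ (by norm_num))
    (by calc 9 * Q ^ (1 / 2 : ℝ) * N (pr t) ^ 2 ≤
            9 * Q ^ (1 / 2 : ℝ) * (Q ^ (1 / 4 : ℝ) / 3) ^ 2 := by gcongr
          _ = Q ^ (1 / 2 : ℝ) * (Q ^ (1 / 4 : ℝ)) ^ 2 := by ring
          _ = Q := q44
          _ ≤ Q := le_rfl) pt
  have b2 := h2 Z _ _ (Q ^ (1 / 2 : ℝ)) (Q ^ (1 / 2 : ℝ)) (aT a R t s) hZ T0 TZ S0 SZ q2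
    (by linarith) (by linarith)
  have b3 := h3 Z _ _ (Q ^ (1 / 2 : ℝ)) (H / B) (aT a R t s) hZ T0 TZ S0 SZ q2 (by positivity)
  have b4 := h4 Z Q H R B D P a t s hZ hQ H0 HZ hR RZ hB BQ hD hP sa ht pQ hs hw pf
  have b5 := nsq_aT_le sa ht hs
  have b6 := ths_cover (H / (N t.2.1 * N t.1 ^ 2)) (Q ^ (1 / 2 : ℝ)) (Q ^ (1 / 2 : ℝ)) (H / B)
    (FF_nonneg (aT a R t s) (R / N (pr t)))
  have b7 : HS (aT a R t s) (R / N (pr t)) (H / (N t.2.1 * N t.1 ^ 2)) ≤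
      ∑ x ∈ Quad (H / (N t.2.1 * N t.1 ^ 2)), FF (aT a R t s) (R / N (pr t)) x :=
    quad_cover _ (f := fun h => ‖∑ n ∈ ballN (R / N (pr t)), aT a R t s n * sym3 h n‖ ^ 2)
      fun _ => by positivity
  have nn := ths_pwS hQ H0 QR hK HK hB BQ g1 e1 f1 (by rw [← ep]; linarith)
  rw [← ep] at nn
  exact ths_num (by linarith) hC1 hC2 hC3 hC4 (by positivity) hK H0 hD (by positivity)
    (by positivity) (nT_nonneg a R t) (by positivity) hP (by positivity) (by positivity)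
    (by positivity) (by positivity) b1 b2 b3 b4 b5 (b7.trans b6) nn

end

end Vale.Agent.P006
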