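import Vale.Agent.P006.LBas

namespace Vale.Agent.P006

open Vale.Agent.P026 Complex MeasureTheory Filter Topology
open scoped Classical ComplexConjugate Real MatrixGroups

noncomputable section

theorem tm_cover {j : O} (hj : j ≠ 0) (R : ℝ) {f : O → ℝ} (hf : ∀ n, 0 ≤ f n) :
    ∑ n ∈ (ballO R).filter (j ∣ ·), f n ≤ ∑ m ∈ ballO (R / N j), f (j * m) := by
  refine dual_cover _ _ (fun m => j * m) f hf fun n hn => ?_
  obtain ⟨h1, m, rfl⟩ := Finset.mem_filter.1 hn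
  obtain ⟨h2, h3⟩ := mem_ballO.1 h1
  refine ⟨m, mem_ballO.2 ⟨right_ne_zero_of_mul h2, ?_⟩, rfl⟩
  rw [le_div_iff₀ (N_pos hj), mul_comm, ← N_mul]; exact h3

theorem tm_card {C0 : ℝ} (h0 : ∀ R : ℝ, 0 ≤ R → ((ballO R).card : ℝ) ≤ C0 * R) {j : O}
    (hj : j ≠ 0) {R : ℝ} (hR : 0 ≤ R) :
    (((ballO R).filter (j ∣ ·)).card : ℝ) ≤ C0 * (R / N j) := by
  have := tm_cover hj R (f := fun _ => 1) fun _ => zero_le_one
  simp only [Finset.sum_const, nsmul_eq_mul, mul_one] at this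
  exact this.trans (h0 _ (div_nonneg hR (N_nonneg _)))

/-- mass on the multiples of `j` -/
def tmA (a : O → ℂ) (R : ℝ) (j : O) : ℝ := ∑ n ∈ ballN R, if j ∣ n then ‖a n‖ ^ 2 else 0

theorem tmA_nonneg (a : O → ℂ) (R : ℝ) (j : O) : 0 ≤ tmA a R j :=
  Finset.sum_nonneg fun _ _ => by split_ifs <;> positivity

theorem tm_sq_sum {ι : Type*} (s : Finset ι) (f : ι → ℂ) :
    ‖∑ i ∈ s, f i‖ ^ 2 ≤ s.card * ∑ i ∈ s, ‖f i‖ ^ 2 :=
  (pow_le_pow_left₀ (norm_nonneg _) (norm_sum_le _ _) 2).trans sq_sum_le_card_mul_sum_sq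

theorem tm_cs {C0 : ℝ} (h0 : ∀ R : ℝ, 0 ≤ R → ((ballO R).card : ℝ) ≤ C0 * R) {l j : O}
    (hj : j ≠ 0) (hjl : j ∣ l) {R K : ℝ} (hR : 0 ≤ R) (a φ : O → ℂ)
    (hφ : ∀ n ∈ ballN R, l ∣ n → a n ≠ 0 → ‖φ n‖ ^ 2 ≤ K) (hK : 0 ≤ K) :
    ‖∑ n ∈ ballN R, if l ∣ n then a n * φ n else 0‖ ^ 2 ≤ C0 * (R / N j) * (K * tmA a R j) := by
  rw [← Finset.sum_filter]
  refine (tm_sq_sum _ _).trans (mul_le_mul ?_ ?_ (Finset.sum_nonneg fun _ _ => by positivity)
    ((Nat.cast_nonneg _).trans (tm_card h0 hj hR)))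
  · refine le_trans ?_ (tm_card h0 hj hR)
    have : (ballN R).filter (l ∣ ·) ⊆ (ballO R).filter (j ∣ ·) := fun n hn => by
      obtain ⟨a1, a2⟩ := Finset.mem_filter.1 hn
      exact Finset.mem_filter.2 ⟨dual_sub R a1, hjl.trans a2⟩
    exact_mod_cast Finset.card_le_card this
  · rw [tmA, Finset.mul_sum, Finset.sum_filter]
    refine Finset.sum_le_sum fun n hn => ?_
    by_cases c : l ∣ n
    · rw [if_pos c, if_pos (hjl.trans c), norm_mul, mul_pow, mul_comm]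
      by_cases c0 : a n = 0
      · simp [c0]
      · exact mul_le_mul_of_nonneg_right (hφ n hn c c0) (by positivity)
    · rw [if_neg c]; split_ifs <;> positivity

theorem tm_sumA {C Z ε : ℝ} (hC : 0 ≤ C) (hε : 0 ≤ ε) (hd : ∀ n : O, n ≠ 0 → dv n ≤ C * N n ^ ε)
    (a : O → ℂ) {R : ℝ} (hR : R ≤ Z) (S : Finset O) :
    ∑ j ∈ S, tmA a R j ≤ C * Z ^ ε * nsq (ballN R) a := by
  unfold tmA nsq
  rw [Finset.sum_comm, Finset.mul_sum]
  refine Finset.sum_le_sum fun n hn => ?_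
  obtain ⟨k1, k2⟩ := mem_ballN.1 hn
  rw [← Finset.sum_filter, Finset.sum_const, nsmul_eq_mul]
  refine mul_le_mul_of_nonneg_right ?_ (by positivity)
  refine (card_le_dv k1.ne_zero _ fun d hd => (Finset.mem_filter.1 hd).2).trans
    ((hd n k1.ne_zero).trans ?_)
  exact mul_le_mul_of_nonneg_left (Real.rpow_le_rpow (N_nonneg _) (k2.trans hR) hε) hC

/-- Moebius expansion of a coprimality condition -/
theorem tm_moeb {c : O} (hc : c ≠ 0) (R : ℝ) (f : O → ℂ) :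
    ∑ n ∈ ballN R, (if IsCoprime c n then f n else 0) =
      ∑ j ∈ divs c, mu j * ∑ n ∈ ballN R, if j ∣ n then f n else 0 := by
  simp only [Finset.mul_sum]
  rw [Finset.sum_comm]
  refine Finset.sum_congr rfl fun n hn => ?_
  obtain ⟨k1, -⟩ := mem_ballN.1 hn
  have := sum_mu_divs' hc k1.1 k1.2.2
  calc (if IsCoprime c n then f n else 0) = (if IsCoprime c n then 1 else 0) * f n := by
        split_ifs <;> simp
    _ = _ := by
        rw [← this, Finset.sum_mul]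
        refine Finset.sum_congr rfl fun j _ => ?_
        split_ifs <;> simp

theorem tm_moeb_sq {c : O} (V : O → ℂ) :
    ‖∑ j ∈ divs c, mu j * V j‖ ^ 2 ≤ dv c * ∑ j ∈ divs c, ‖V j‖ ^ 2 := by
  refine (tm_sq_sum _ _).trans (mul_le_mul (card_divs_le c) (Finset.sum_le_sum fun j _ => ?_)
    (Finset.sum_nonneg fun _ _ => by positivity) (div_dv_nonneg c))
  rw [norm_mul, mul_pow]
  exact mul_le_of_le_one_left (by positivity) (pow_le_one₀ (norm_nonneg _) (norm_mu_le j))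

/-- Abel summation from a family of squared bounds -/
theorem tm_abel : ∃ C : ℝ, 0 < C ∧ ∀ (a g : O → ℂ) (R P : ℝ) (l : O) (s : ℂ), Sh a R → Prim l →
    0 ≤ P → |s.re| ≤ 1 →
    (NN l → ∀ y : ℝ, ‖∑ m ∈ ballN (y / N l), a (l * m) * g m‖ ^ 2 ≤ P) → ∀ y : ℝ,
    ‖∑ m ∈ ballN (y / N l), a (l * m) * g m * ((N (l * m) / R : ℝ) : ℂ) ^ s‖ ^ 2 ≤
      C * (1 + |s.im|) ^ 2 * P := by
  obtain ⟨C, hC, h⟩ := abel_sh
  refine ⟨C ^ 2, by positivity, fun a g R P l s ha hl hP hs H y => ?_⟩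
  have key : ∀ y : ℝ, ‖∑ m ∈ ballN (y / N l), a (l * m) * g m‖ ≤ √P := by
    intro y
    by_cases c : NN l
    · exact Real.le_sqrt_of_sq_le (H c y)
    · rw [Finset.sum_eq_zero, norm_zero]
      · positivity
      · intro m _
        have : a (l * m) = 0 := by
          by_contra k
          exact c ((ha _ k).1.of_dvd hl (dvd_mul_right _ _))
        rw [this, zero_mul]
  have := h a g R (√P) l s ha hl.ne_zero hs key y
  calc _ ≤ (C * (1 + |s.im|) * √P) ^ 2 := pow_le_pow_left₀ (norm_nonneg _) this 2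
    _ = _ := by rw [mul_pow, mul_pow, Real.sq_sqrt hP]

theorem tm_prim_pr {R : ℝ} {t : O × O × O} (ht : t ∈ trip R) : Prim (pr t) :=
  (mem_trip.1 ht).2.2.2.1.1

end

end Vale.Agent.P006
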