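import Vale.Agent.P006.TSf

namespace Vale.Agent.P006

open Vale.Agent.P026 Complex MeasureTheory Filter Topology
open scoped Classical ComplexConjugate Real MatrixGroups

noncomputable section

theorem tnum_hw_one (Q H R : ℝ) : HW Q H 1 R 0 := by
  intro H1 h1 a
  have : ringN (H / 1) H1 = ∅ := by
    apply Finset.eq_empty_of_forall_notMem
    intro n hn
    have := mem_ringN.1 hn
    rw [div_one] at this
    linarith [this.2.1, this.2.2]
  rw [this]; simp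

theorem round1 {e : ℝ} (he : 0 < e) : ∃ θ : ℝ, 0 < θ ∧ θ ≤ 1 / 100 ∧ ∀ ε : ℝ, 0 < ε → ε ≤ 1 / 2 →
    ∃ C : ℝ, 0 < C ∧ ∀ Z Q Y R : ℝ, 1 ≤ Q → Q ≤ Z ^ θ → Z ^ (1 / 4 : ℝ) ≤ R → R ≤ Y → Y ≤ Z →
    Y ≤ R ^ 2 * Z ^ (-e) →
    OpB (Kd Q) (ballN Y) (ringN (R / 2) R)
      (C * Z ^ (4 * ε) * (Y + Y ^ (1 / 3 : ℝ) * R +
        Q ^ (-(1 / 6) : ℝ) * (Y * R) ^ (2 / 3 : ℝ))) := by
  obtain ⟨θ, h0, h1, h⟩ := sf he
  refine ⟨θ, h0, h1, fun ε hε hε1 => ?_⟩
  obtain ⟨C, hC, h⟩ := h ε hε hε1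
  refine ⟨C, hC, fun Z Q Y R a1 a2 a3 a4 a5 a6 => ?_⟩
  have := h Z Q Y R 1 0 a1 a2 a3 a4 a5 a6 le_rfl (by simpa using a1) (fun h => absurd h (lt_irrefl _))
    le_rfl (tnum_hw_one _ _ _)
  simpa using this

/-- logarithmic coordinates -/
theorem tnum_exp {x : ℝ} (hx : 0 < x) : ∃ u : ℝ, x = Real.exp u := ⟨Real.log x, (Real.exp_log hx).symm⟩

theorem tnum_Z {Z Q θ : ℝ} (h0 : 0 < θ) (hZ : 0 < Z) (h1 : 1 ≤ Q) (h2 : Q ≤ Z ^ θ) : 1 ≤ Z := by
  by_contra h
  have := Real.rpow_lt_one hZ.le (not_le.1 h) h0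
  linarith

theorem tnum_hw {Q H B R D c : ℝ} (hH : 0 < H) (hB : 0 < B) (hc : 1 / 2 ≤ c) (hD : 0 ≤ D)
    (h : ∀ H', H / B < H' → H' ≤ H → OpB (Kd Q) (ballN R) (ringN (H' / 2) H') (D * H' ^ c)) :
    HW Q H B R (4 * D * H ^ c) := by
  intro H1 h1
  rcases le_or_gt H1 0 with h0 | h0
  · intro a
    have : ringN (H / B) H1 = ∅ := by
      apply Finset.eq_empty_of_forall_notMem
      intro n hn
      have := mem_ringN.1 hn
      have := div_pos hH hB
      linarith [(mem_ringN.1 hn).2.1, (mem_ringN.1 hn).2.2]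
    rw [this, Finset.sum_empty]
    exact mul_nonneg (mul_nonneg (by positivity) (Real.sqrt_nonneg _)) (nsq_nonneg _ _)
  have h2 := opB_ring_rows (K := Kd Q) (T := ballN R) (b := H) (div_pos hH hB) hc hD
    (fun H' a1 a2 => opB_Kd_symm (mul_nonneg hD (Real.rpow_nonneg ((div_pos hH hB).le.trans a1.le) _))
      (h H' a1 a2)) h0.le h1
  refine h2.mono subset_rfl subset_rfl ?_
  have h3 : H1 ^ c = H ^ c * (H1 / H) ^ c := by
    rw [← Real.mul_rpow hH.le (div_pos h0 hH).le]; congr 1; field_simp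
  have h4 : (H1 / H) ^ c ≤ √(H1 / H) := by
    rw [Real.sqrt_eq_rpow]
    exact Real.rpow_le_rpow_of_exponent_ge (div_pos h0 hH) ((div_le_one hH).2 h1) hc
  rw [h3, ← mul_assoc]
  exact mul_le_mul_of_nonneg_left h4 (by positivity)

theorem round2 : ∃ θ : ℝ, 0 < θ ∧ θ ≤ 1 / 100 ∧ ∀ ε : ℝ, 0 < ε → ε ≤ 1 / 2 →
    ∃ C : ℝ, 0 < C ∧ ∀ Z Q x R : ℝ, 1 ≤ Q → Q ≤ Z ^ θ → Z ^ (2 * ε) ≤ Q ^ (1 / 30 : ℝ) →
    Z ^ (1 / 3 : ℝ) ≤ x → x ≤ Z → x / Q ^ (1 / 6 : ℝ) ≤ R → R ≤ Z ^ ε * x / Q ^ (1 / 30 : ℝ) →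
    OpB (Kd Q) (ballN x) (ringN (R / 2) R) (C * Z ^ (9 * ε) * R ^ (4 / 3 : ℝ)) := by
  obtain ⟨θ1, p1, q1, h1⟩ := round1 (e := 1 / 10) (by norm_num)
  obtain ⟨θ2, p2, q2, h2⟩ := sf (e := 1 / 10) (by norm_num)
  refine ⟨min θ1 θ2, lt_min p1 p2, (min_le_left _ _).trans q1, fun ε hε hε1 => ?_⟩
  obtain ⟨C1, hC1, h1⟩ := h1 ε hε hε1
  obtain ⟨C2, hC2, h2⟩ := h2 ε hε hε1
  refine ⟨C2 * (3 + 12 * C1), by positivity, fun Z Q x R a1 a2 a3 a4 a5 a6 a7 => ?_⟩
  have hQ : 0 < Q := by linarith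
  have hZ0 : 0 < Z := by
    by_contra h
    push Not at h
    have hx : x ≤ 0 := a5.trans h
    rcases h.eq_or_lt with h | h
    · subst h
      rw [Real.zero_rpow (lt_min p1 p2).ne'] at a2; linarith
    · have := Real.rpow_def_of_neg h (1 / 3 : ℝ)
      have hc : 0 < Real.cos (1 / 3 * π) := by
        rw [show 1 / 3 * π = π / 3 by ring, Real.cos_pi_div_three]; norm_num
      have : 0 < Z ^ (1 / 3 : ℝ) := by rw [this]; positivity
      linarith
  have hZ := tnum_Z (lt_min p1 p2) hZ0 a1 a2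
  have hx : 0 < x := lt_of_lt_of_le (Real.rpow_pos_of_pos hZ0 _) a4
  have hR : 0 < R := lt_of_lt_of_le (by positivity) a6
  have b1 : Q ≤ Z ^ θ1 := a2.trans (Real.rpow_le_rpow_of_exponent_le hZ (min_le_left _ _))
  have b2 : Q ≤ Z ^ θ2 := a2.trans (Real.rpow_le_rpow_of_exponent_le hZ (min_le_right _ _))
  have b3 : Q ≤ Z ^ (1 / 100 : ℝ) := b1.trans (Real.rpow_le_rpow_of_exponent_le hZ q1)
  obtain ⟨z, rfl⟩ := tnum_exp hZ0
  obtain ⟨q, rfl⟩ := tnum_exp hQ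
  obtain ⟨u, rfl⟩ := tnum_exp hx
  obtain ⟨r, rfl⟩ := tnum_exp hR
  have c0 : 0 ≤ z := by simpa using hZ
  have c1 : 0 ≤ q := by simpa using a1
  simp only [← Real.exp_mul, ← Real.exp_add, ← Real.exp_sub, Real.exp_le_exp] at a3 a4 a5 a6 a7 b3
  have hεz : 0 ≤ z * ε := by positivity
  set H : ℝ := Real.exp z ^ ε * Real.exp r ^ 2 / Real.exp u with hH
  have hH' : H = Real.exp (z * ε + 2 * r - u) := by
    rw [hH, ← Real.exp_mul, ← Real.exp_nat_mul, ← Real.exp_add, ← Real.exp_sub]; norm_num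
  have hw : HW (Real.exp q) H (Real.exp (q / 3)) (Real.exp r)
      (4 * (3 * C1 * Real.exp (z * (4 * ε) + r / 3)) * H ^ (1 : ℝ)) := by
    refine tnum_hw (by rw [hH']; positivity) (by positivity) (by norm_num) (by positivity) ?_
    intro H' d1 d2
    have hH0 : 0 < H' := lt_trans (by rw [hH']; positivity) d1
    obtain ⟨v, rfl⟩ := tnum_exp hH0
    rw [hH', ← Real.exp_sub, Real.exp_lt_exp] at d1
    rw [hH', Real.exp_le_exp] at d2
    have := h1 (Real.exp z) (Real.exp q) (Real.exp r) (Real.exp v) a1 b1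
      (by rw [← Real.exp_mul, Real.exp_le_exp]; linarith) (by rw [Real.exp_le_exp]; linarith)
      (by rw [Real.exp_le_exp]; linarith)
      (by rw [← Real.exp_mul, ← Real.exp_nat_mul, ← Real.exp_add, Real.exp_le_exp]; push_cast; linarith)
    refine this.mono subset_rfl subset_rfl ?_
    simp only [← Real.exp_mul, ← Real.exp_add]
    have e1 : Real.exp r ≤ Real.exp (r / 3 + v) := by rw [Real.exp_le_exp]; linarith
    have e2 : Real.exp (r * (1 / 3) + v) ≤ Real.exp (r / 3 + v) := by rw [Real.exp_le_exp]; linarith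
    have e3 : Real.exp (q * (-(1 / 6)) + (r + v) * (2 / 3)) ≤ Real.exp (r / 3 + v) := by
      rw [Real.exp_le_exp]; linarith
    calc _ ≤ C1 * Real.exp (z * (4 * ε)) * (3 * Real.exp (r / 3 + v)) := by gcongr; linarith
      _ = _ := by
        simp only [Real.exp_add, mul_one]; ring
  have := h2 (Real.exp z) (Real.exp q) (Real.exp u) (Real.exp r) (Real.exp (q / 3)) _ a1 b2
    (by rw [← Real.exp_mul, Real.exp_le_exp]; linarith) (by rw [Real.exp_le_exp]; linarith)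
    (by rw [Real.exp_le_exp]; linarith)
    (by rw [← Real.exp_mul, ← Real.exp_nat_mul, ← Real.exp_add, Real.exp_le_exp]; push_cast; linarith)
    (Real.one_le_exp (by linarith))
    (by rw [← Real.exp_nat_mul, Real.exp_le_exp]; push_cast; linarith)
    (fun _ => by rw [← Real.exp_add, Real.exp_le_exp]; linarith)
    (by rw [hH']; positivity) hw
  refine this.mono subset_rfl subset_rfl ?_
  rw [hH']
  simp only [← Real.exp_mul, ← Real.exp_add, ← Real.exp_sub]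
  set T := Real.exp (z * (5 * ε) + r * (4 / 3)) with hT
  have e1 : Real.exp u ≤ T := by rw [hT, Real.exp_le_exp]; linarith
  have e2 : Real.exp (u - r) * (4 * (3 * C1 * Real.exp (z * (4 * ε) + r / 3)) *
      Real.exp ((z * ε + 2 * r - u) * 1)) = 12 * C1 * T := by
    have : Real.exp (u - r) * Real.exp (z * (4 * ε) + r / 3) * Real.exp ((z * ε + 2 * r - u) * 1) = T := by
      rw [← Real.exp_add, ← Real.exp_add, hT]; congr 1; ring
    rw [← this]; ring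
  have e3 : Real.exp (u * (1 / 3) + r + q / 3 * (-(1 / 6))) ≤ T := by
    rw [hT, Real.exp_le_exp]; linarith
  have e4 : Real.exp (q * (-(1 / 6)) + (u + r) * (2 / 3)) ≤ T := by
    rw [hT, Real.exp_le_exp]; linarith
  have e5 : Real.exp (z * (9 * ε)) * Real.exp (r * (4 / 3)) = Real.exp (z * (4 * ε)) * T := by
    rw [hT, ← Real.exp_add, ← Real.exp_add]; congr 1; ring
  rw [e2]
  calc _ ≤ C2 * Real.exp (z * (4 * ε)) * ((3 + 12 * C1) * T) := by gcongr; linarith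
    _ = C2 * (3 + 12 * C1) * (Real.exp (z * (9 * ε)) * Real.exp (r * (4 / 3))) := by rw [e5]; ring
    _ = _ := by ring

theorem round3 : ∃ θ : ℝ, 0 < θ ∧ θ ≤ 1 / 100 ∧ ∀ ε : ℝ, 0 < ε → ε ≤ 1 / 2 →
    ∃ C : ℝ, 0 < C ∧ ∀ Z Q x : ℝ, 1 ≤ Q → Q ≤ Z ^ θ → Z ^ (2 * ε) ≤ Q ^ (1 / 30 : ℝ) →
    Z ^ (1 / 3 : ℝ) ≤ x → x * Q ^ (1 / 30 : ℝ) ≤ Z →
    OpB (Kd Q) (ballN (x * Q ^ (1 / 30 : ℝ))) (ringN (x / 2) x)
      (C * Z ^ (15 * ε) * x ^ (4 / 3 : ℝ) * Q ^ (-(1 / 90) : ℝ)) := by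
  obtain ⟨θ1, p1, q1, h1⟩ := round2
  obtain ⟨θ2, p2, q2, h2⟩ := sf (e := 1 / 10) (by norm_num)
  refine ⟨min θ1 θ2, lt_min p1 p2, (min_le_left _ _).trans q1, fun ε hε hε1 => ?_⟩
  obtain ⟨C1, hC1, h1⟩ := h1 ε hε hε1
  obtain ⟨C2, hC2, h2⟩ := h2 ε hε hε1
  refine ⟨C2 * (3 + 4 * C1), by positivity, fun Z Q x a1 a2 a3 a4 a5 => ?_⟩
  have hQ : 0 < Q := by linarith
  have hZ0 : 0 < Z := by
    by_contra h
    push Not at h
    have hx : x ≤ 0 := by
      by_contra hx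
      have := mul_pos (not_le.1 hx) (Real.rpow_pos_of_pos hQ (1 / 30 : ℝ))
      linarith
    rcases h.eq_or_lt with h | h
    · subst h
      rw [Real.zero_rpow (lt_min p1 p2).ne'] at a2; linarith
    · have := Real.rpow_def_of_neg h (1 / 3 : ℝ)
      have hc : 0 < Real.cos (1 / 3 * π) := by
        rw [show 1 / 3 * π = π / 3 by ring, Real.cos_pi_div_three]; norm_num
      have : 0 < Z ^ (1 / 3 : ℝ) := by rw [this]; positivity
      linarith
  have hZ := tnum_Z (lt_min p1 p2) hZ0 a1 a2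
  have hx : 0 < x := lt_of_lt_of_le (Real.rpow_pos_of_pos hZ0 _) a4
  have b1 : Q ≤ Z ^ θ1 := a2.trans (Real.rpow_le_rpow_of_exponent_le hZ (min_le_left _ _))
  have b2 : Q ≤ Z ^ θ2 := a2.trans (Real.rpow_le_rpow_of_exponent_le hZ (min_le_right _ _))
  have b3 : Q ≤ Z ^ (1 / 100 : ℝ) := b1.trans (Real.rpow_le_rpow_of_exponent_le hZ q1)
  obtain ⟨z, rfl⟩ := tnum_exp hZ0
  obtain ⟨q, rfl⟩ := tnum_exp hQ
  obtain ⟨u, rfl⟩ := tnum_exp hx
  have c0 : 0 ≤ z := by simpa using hZ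
  have c1 : 0 ≤ q := by simpa using a1
  have a3' := a3
  have a4' := a4
  simp only [← Real.exp_mul, ← Real.exp_add, ← Real.exp_sub, Real.exp_le_exp] at a3 a4 a5 b3
  have hεz : 0 ≤ z * ε := by positivity
  have hY : Real.exp u * Real.exp q ^ (1 / 30 : ℝ) = Real.exp (u + q / 30) := by
    rw [← Real.exp_mul, ← Real.exp_add]; congr 1; ring
  rw [hY]
  set H : ℝ := Real.exp z ^ ε * Real.exp u ^ 2 / Real.exp (u + q / 30) with hH
  have hH' : H = Real.exp (z * ε + u - q / 30) := by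
    rw [hH, ← Real.exp_mul, ← Real.exp_nat_mul, ← Real.exp_add, ← Real.exp_sub]; congr 1
    push_cast; ring
  have hw : HW (Real.exp q) H (Real.exp (q * (2 / 15))) (Real.exp u)
      (4 * (C1 * Real.exp z ^ (9 * ε)) * H ^ (4 / 3 : ℝ)) := by
    refine tnum_hw (by rw [hH']; positivity) (by positivity) (by norm_num) (by positivity) ?_
    intro H' d1 d2
    have hH0 : 0 < H' := lt_trans (by rw [hH']; positivity) d1
    obtain ⟨v, rfl⟩ := tnum_exp hH0
    rw [hH', ← Real.exp_sub, Real.exp_lt_exp] at d1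
    rw [hH', Real.exp_le_exp] at d2
    exact h1 (Real.exp z) (Real.exp q) (Real.exp u) (Real.exp v) a1 b1 a3' a4'
      (by rw [Real.exp_le_exp]; linarith)
      (by rw [← Real.exp_mul, ← Real.exp_sub, Real.exp_le_exp]; linarith)
      (by simp only [← Real.exp_mul, ← Real.exp_add, ← Real.exp_sub, Real.exp_le_exp]; linarith)
  have := h2 (Real.exp z) (Real.exp q) (Real.exp (u + q / 30)) (Real.exp u)
    (Real.exp (q * (2 / 15))) _ a1 b2
    (by rw [← Real.exp_mul, Real.exp_le_exp]; linarith) (by rw [Real.exp_le_exp]; linarith)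
    (by rw [Real.exp_le_exp]; linarith)
    (by rw [← Real.exp_mul, ← Real.exp_nat_mul, ← Real.exp_add, Real.exp_le_exp]; push_cast; linarith)
    (Real.one_le_exp (by linarith))
    (by rw [← Real.exp_nat_mul, Real.exp_le_exp]; push_cast; linarith)
    (fun _ => by rw [← Real.exp_add, Real.exp_le_exp]; linarith)
    (by rw [hH']; positivity) hw
  refine this.mono subset_rfl subset_rfl ?_
  rw [hH']
  simp only [← Real.exp_mul, ← Real.exp_add, ← Real.exp_sub]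
  set T := Real.exp (z * (11 * ε) + u * (4 / 3) - q / 90) with hT
  have e1 : Real.exp (u + q / 30) ≤ T := by rw [hT, Real.exp_le_exp]; linarith
  have e2 : Real.exp (u + q / 30 - u) * (4 * (C1 * Real.exp (z * (9 * ε))) *
      Real.exp ((z * ε + u - q / 30) * (4 / 3))) ≤ 4 * C1 * T := by
    have : Real.exp (u + q / 30 - u) * Real.exp (z * (9 * ε)) *
        Real.exp ((z * ε + u - q / 30) * (4 / 3)) ≤ T := by
      rw [← Real.exp_add, ← Real.exp_add, hT, Real.exp_le_exp]; linarith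
    calc _ = 4 * C1 * (Real.exp (u + q / 30 - u) * Real.exp (z * (9 * ε)) *
        Real.exp ((z * ε + u - q / 30) * (4 / 3))) := by ring
      _ ≤ _ := by gcongr
  have e3 : Real.exp ((u + q / 30) * (1 / 3) + u + q * (2 / 15) * (-(1 / 6))) ≤ T := by
    rw [hT, Real.exp_le_exp]; linarith
  have e4 : Real.exp (q * (-(1 / 6)) + (u + q / 30 + u) * (2 / 3)) ≤ T := by
    rw [hT, Real.exp_le_exp]; linarith
  have e5 : Real.exp (z * (15 * ε)) * Real.exp (u * (4 / 3)) * Real.exp (q * (-(1 / 90))) =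
      Real.exp (z * (4 * ε)) * T := by
    rw [hT, ← Real.exp_add, ← Real.exp_add, ← Real.exp_add]; congr 1; ring
  calc _ ≤ C2 * Real.exp (z * (4 * ε)) * ((3 + 4 * C1) * T) := by gcongr; linarith
    _ = C2 * (3 + 4 * C1) * (Real.exp (z * (15 * ε)) * Real.exp (u * (4 / 3)) *
        Real.exp (q * (-(1 / 90)))) := by rw [e5]; ring
    _ = _ := by ring

end

end Vale.Agent.P006
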