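import Vale.Agent.P006.GS
import Vale.Agent.P006.MS

namespace Vale.Agent.P006

open Vale.Agent.P026 Complex MeasureTheory Filter Topology
open scoped Classical ComplexConjugate Real MatrixGroups

noncomputable section

theorem ts_G {b : O} (hb : NN b) (m : O) : G (b * m) = G b * G m * conj (sym3 b m) := by
  by_cases hm : Prim m
  · exact G_mul hb.1 hm
  · rw [G, if_neg (fun h => hm (h.1.of_mul hb.1)), G.eq_1 m, if_neg (fun h => hm h.1)]; simp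

theorem ts_Phi {A Y K D : ℝ} (hA : 0 ≤ A) (hY : 0 ≤ Y) (hK : 0 ≤ K) (hD : 0 ≤ D) :
    A * Y ≤ PhiI A Y K D := by
  unfold PhiI
  have : 0 ≤ K ^ (16 / 5 : ℝ) * (D ^ 2 * A ^ (4 / 3 : ℝ) * Y ^ (1 / 3 : ℝ) +
    D ^ (2 / 5 : ℝ) * A ^ (4 / 15 : ℝ) * Y ^ (13 / 15 : ℝ)) := by positivity
  have : 0 ≤ Y ^ 2 / D ^ 3 := by positivity
  have : 0 ≤ A ^ (2 / 3 : ℝ) * Y ^ (5 / 3 : ℝ) / D ^ 2 := by positivity
  linarith

theorem ts : ∃ c0 : ℝ, 0 < c0 ∧ ∀ ε > (0 : ℝ), ∃ C : ℝ, 0 < C ∧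
    ∀ (Z A Y R K D : ℝ) (h : O) (y : O → ℝ),
    1 ≤ A → A ≤ Z → 1 ≤ Y → Y ≤ Z → 1 ≤ R → R ≤ Z → 1 ≤ K → K ≤ Z → 1 ≤ D → h ≠ 0 → N h ≤ R →
    (∀ b, Y / 2 ≤ y b ∧ y b ≤ Y) →
    ∑ b ∈ ballN A, ‖∑' m : O, del R (b * m) * conj (sym3 h m) * WK K 0 (N m / y b)‖ ^ 2 ≤
      C * Z ^ ε * R ^ c0 * PhiI A Y K D := by
  obtain ⟨c1, hc1, h1⟩ := gs_main
  obtain ⟨c2, hc2, h2⟩ := ms
  obtain ⟨Cb, hCb, hb⟩ := card_ballO_le
  obtain ⟨Cm, hCm, hm⟩ := norm_mdl_le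
  refine ⟨c1 + 2 * c2, by positivity, fun ε hε => ?_⟩
  obtain ⟨C1, hC1, h1⟩ := h1 ε hε
  obtain ⟨C2, hC2, h2⟩ := h2 (ε / 2) (by positivity)
  refine ⟨2 * C1 + 2 * (Cb * C2 ^ 2), by positivity,
    fun Z A Y R K D h y hA hAZ hY hYZ hR hRZ hK hKZ hD hh hhR hy => ?_⟩
  have hZ : 0 < Z := by linarith
  have hR0 : 0 < R := by linarith
  set M : O → ℂ := fun b => cc (8 * b * h) *
    ((dens (8 * b * h) * Fh K (5 / 6) * y b ^ (5 / 6 : ℝ) : ℝ) : ℂ) with hM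
  have hpt : ∀ b ∈ ballN A,
      ‖∑' m : O, del R (b * m) * conj (sym3 h m) * WK K 0 (N m / y b)‖ ^ 2 ≤
      2 * ‖∑' m : O, G m * conj (sym3 (b * h) m) * WK K 0 (N m / y b) - M b‖ ^ 2 +
        2 * ((C2 * Z ^ (ε / 2) * R ^ c2) ^ 2 * Y) := by
    intro b hb
    obtain ⟨hb, hbA⟩ := mem_ballN.1 hb
    have y0 : 0 < y b := by linarith [(hy b).1]
    have s1 : Summable fun m => G m * conj (sym3 (b * h) m) * WK K 0 (N m / y b) :=
      ms_summ (B := 1) (fun m => by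
        rw [norm_mul, Complex.norm_conj]
        exact mul_le_one₀ (norm_G_le _) (norm_nonneg _) (norm_sym3_le _ _))
        (by rw [G, if_neg (fun h => h.1.ne_zero rfl), zero_mul]) hK 0 y0
    have s2 : Summable fun m => mdl R (b * m) * conj (sym3 h m) * WK K 0 (N m / y b) :=
      ms_summ (B := Cm * R ^ 3) (fun m => by
        rw [norm_mul, Complex.norm_conj]
        refine (mul_le_of_le_one_right (norm_nonneg _) (norm_sym3_le _ _)).trans ?_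
        by_cases hn : NN (b * m)
        · exact (hm R _ hR).trans (mul_le_of_le_one_right (by positivity)
            (Real.rpow_le_one_of_one_le_of_nonpos (one_le_N hn.1.ne_zero) (by norm_num)))
        · rw [mdl, if_neg hn, norm_zero]; positivity)
        (by rw [mdl, if_neg (fun h => h.1.ne_zero (mul_zero b)), zero_mul]) hK 0 y0
    have e : ∑' m : O, del R (b * m) * conj (sym3 h m) * WK K 0 (N m / y b) =
        G b * (∑' m : O, G m * conj (sym3 (b * h) m) * WK K 0 (N m / y b) - M b) -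
          (∑' m : O, mdl R (b * m) * conj (sym3 h m) * WK K 0 (N m / y b) - G b * M b) := by
      rw [mul_sub, sub_sub_sub_cancel_right, ← tsum_mul_left, ← (s1.mul_left _).tsum_sub s2]
      refine tsum_congr fun m => ?_
      rw [del, ts_G hb, sym3_mul_left, map_mul]; ring
    have a1 := h2 Z R K (y b) b h hR hRZ hK (by linarith [(hy b).1]) ((hy b).2.trans hYZ) hb
      (hbA.trans hAZ) hh hhR
    rw [mul_assoc (G b)] at a1
    have a2 : (C2 * Z ^ (ε / 2) * R ^ c2 * √(y b)) ^ 2 ≤ (C2 * Z ^ (ε / 2) * R ^ c2) ^ 2 * Y := by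
      rw [mul_pow, Real.sq_sqrt y0.le]
      exact mul_le_mul_of_nonneg_left (hy b).2 (sq_nonneg _)
    have a3 := (pow_le_pow_left₀ (norm_nonneg _) a1 2).trans a2
    rw [e]
    set u := ∑' m : O, G m * conj (sym3 (b * h) m) * WK K 0 (N m / y b) - M b
    set v := ∑' m : O, mdl R (b * m) * conj (sym3 h m) * WK K 0 (N m / y b) - G b * M b
    have a4 : ‖G b * u - v‖ ≤ ‖u‖ + ‖v‖ := by
      refine (norm_sub_le _ _).trans ?_
      rw [norm_mul, norm_G hb, one_mul]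
    have a5 := pow_le_pow_left₀ (norm_nonneg _) a4 2
    have a6 : ‖v‖ ^ 2 ≤ (C2 * Z ^ (ε / 2) * R ^ c2) ^ 2 * Y := a3
    nlinarith [sq_nonneg (‖u‖ - ‖v‖)]
  refine (Finset.sum_le_sum hpt).trans ?_
  rw [Finset.sum_add_distrib, ← Finset.mul_sum, Finset.sum_const, nsmul_eq_mul]
  have b1 := h1 Z A Y K D h y hA hAZ hY hYZ hK hKZ hD hh (hhR.trans hRZ) hy
  have b2 : ((ballN A).card : ℝ) ≤ Cb * A :=
    le_trans (by exact_mod_cast Finset.card_le_card (Finset.filter_subset _ _)) (hb A (by linarith))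
  have b3 := ts_Phi (A := A) (Y := Y) (K := K) (D := D) (by linarith) (by linarith) (by linarith)
    (by linarith)
  have b4 : N h ^ c1 ≤ R ^ (c1 + 2 * c2) :=
    (Real.rpow_le_rpow (N_nonneg _) hhR hc1.le).trans
      (Real.rpow_le_rpow_of_exponent_le hR (by linarith))
  have b5 : (R ^ c2) ^ 2 ≤ R ^ (c1 + 2 * c2) := by
    rw [← Real.rpow_natCast, ← Real.rpow_mul hR0.le]
    exact Real.rpow_le_rpow_of_exponent_le hR (by push_cast; linarith)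
  have b6 : (Z ^ (ε / 2)) ^ 2 = Z ^ ε := by
    rw [← Real.rpow_natCast, ← Real.rpow_mul hZ.le]; congr 1; push_cast; ring
  have b0 : 0 ≤ A * Y := by positivity
  have b7 : C1 * Z ^ ε * N h ^ c1 * PhiI A Y K D ≤ C1 * Z ^ ε * R ^ (c1 + 2 * c2) * PhiI A Y K D := by
    have := b0.trans b3
    gcongr
  have b8 : ((ballN A).card : ℝ) * (2 * ((C2 * Z ^ (ε / 2) * R ^ c2) ^ 2 * Y)) ≤
      2 * (Cb * C2 ^ 2) * Z ^ ε * R ^ (c1 + 2 * c2) * PhiI A Y K D := by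
    calc _ ≤ Cb * A * (2 * ((C2 * Z ^ (ε / 2) * R ^ c2) ^ 2 * Y)) := by gcongr
      _ = 2 * (Cb * C2 ^ 2) * (Z ^ (ε / 2)) ^ 2 * (R ^ c2) ^ 2 * (A * Y) := by ring
      _ ≤ _ := by rw [b6]; gcongr
  have b9 := b1.trans b7
  simp only [hM]
  linarith

end

end Vale.Agent.P006
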