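import Vale.Agent.P006.TStep
import Vale.Agent.P006.TFf

namespace Vale.Agent.P006

open Vale.Agent.P026 Complex MeasureTheory Filter Topology
open scoped Classical ComplexConjugate Real MatrixGroups

noncomputable section

theorem tsf_cs (S : Finset O) (c f : O → ℂ) :
    ‖∑ m ∈ S, c m * f m‖ ^ 2 ≤ nsq S c * ∑ m ∈ S, ‖f m‖ ^ 2 := by
  refine (pow_le_pow_left₀ (norm_nonneg _) (norm_sum_le _ _) 2).trans ?_
  simp only [norm_mul]
  exact Finset.sum_mul_sq_le_sq_mul_sq _ _ _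

/-- removal of penalties by two applications of duality -/
theorem two_stage {ι : Type*} (S T : Finset O) (K : O → O → ℂ) (I : ι → Prop) (D : ι → Finset O)
    (φ : ι → O → O) (v : ι → O → ℂ) {E Λ F : ℝ} (hE : 0 ≤ E) (hΛ : 0 ≤ Λ) (hF : 0 ≤ F)
    (h1 : ∀ (a : O → ℂ) (P : ℝ), (∀ n, n ∉ T → a n = 0) → 0 ≤ P →
      (∀ i, I i → ‖∑ n ∈ D i, a (φ i n) * v i n‖ ^ 2 ≤ P) →
      ∑ m ∈ S, ‖∑ n ∈ T, a n * K m n‖ ^ 2 ≤ E * nsq T a + Λ * P)
    (h2 : ∀ i, I i → ∑ m ∈ S,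
      ‖∑ n ∈ D i, (if φ i n ∈ T then conj (v i n) * K m (φ i n) else 0)‖ ^ 2 ≤ F) :
    OpB K S T (E + √(Λ * F)) := by
  have s0 := Real.sqrt_nonneg (Λ * F)
  refine OpB.dual (K := fun n m => K m n) (by positivity) fun c => ?_
  obtain ⟨a, ha⟩ : ∃ a : O → ℂ, a = fun n => if n ∈ T then conj (∑ m ∈ S, c m * K m n) else 0 :=
    ⟨_, rfl⟩
  obtain ⟨x, hx⟩ : ∃ x, x = ∑ n ∈ T, ‖∑ m ∈ S, c m * K m n‖ ^ 2 := ⟨_, rfl⟩
  have x0 : 0 ≤ x := hx ▸ Finset.sum_nonneg fun _ _ => by positivity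
  have c0 := nsq_nonneg S c
  have e1 : nsq T a = x := by
    rw [hx, ha]
    exact Finset.sum_congr rfl fun n hn => by simp only [if_pos hn, norm_conj]
  have e2 : (x : ℂ) = ∑ m ∈ S, c m * ∑ n ∈ T, a n * K m n := by
    simp only [Finset.mul_sum]
    rw [Finset.sum_comm, hx, ofReal_sum]
    refine Finset.sum_congr rfl fun n hn => ?_
    rw [ofReal_pow, ← Complex.conj_mul', ha]
    simp only [if_pos hn]
    rw [Finset.mul_sum]
    exact Finset.sum_congr rfl fun m _ => by ring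
  have b1 := h1 a (nsq S c * F) (fun n hn => by simp only [ha, if_neg hn]) (by positivity)
    fun i hi => by
      have e : ∑ n ∈ D i, a (φ i n) * v i n = conj (∑ m ∈ S, c m *
          ∑ n ∈ D i, if φ i n ∈ T then conj (v i n) * K m (φ i n) else 0) := by
        simp only [Finset.mul_sum]
        rw [Finset.sum_comm, map_sum]
        refine Finset.sum_congr rfl fun n _ => ?_
        rw [ha]
        by_cases h : φ i n ∈ T
        · simp only [if_pos h, map_sum, map_mul, conj_conj, Finset.sum_mul]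
          exact Finset.sum_congr rfl fun m _ => by ring
        · simp [h]
      rw [e, norm_conj]
      exact (tsf_cs _ _ _).trans (mul_le_mul_of_nonneg_left (h2 i hi) c0)
  have b2 : x ^ 2 ≤ nsq S c * (E * x + Λ * (nsq S c * F)) := by
    have := tsf_cs S c fun m => ∑ n ∈ T, a n * K m n
    rw [← e2, norm_real, Real.norm_of_nonneg x0] at this
    exact this.trans (mul_le_mul_of_nonneg_left (e1 ▸ b1) c0)
  rw [← hx]
  by_contra h
  rw [not_le] at h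
  have s1 := Real.mul_self_sqrt (mul_nonneg hΛ hF)
  generalize √(Λ * F) = s at *
  generalize nsq S c = u at *
  have a1 : 0 ≤ s * u := by positivity
  have a2 : 0 ≤ E * u := by positivity
  have a3 : s * u * (s * u) < x * (x - E * u) :=
    mul_lt_mul'' (by linarith) (by linarith) a1 a1
  have a4 : s * u * (s * u) = u * (Λ * (u * F)) := by
    rw [mul_mul_mul_comm, s1]
    ring
  nlinarith

theorem tsf_one {Z θ : ℝ} (hθ : 0 < θ) (h1 : 1 ≤ Z ^ θ) (h2 : Z ^ (1 / 4 : ℝ) ≤ Z) : 1 ≤ Z := by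
  by_contra h
  rw [not_le] at h
  rcases lt_or_ge Z 0 with k | k
  · rw [Real.rpow_def_of_neg k, show (1 / 4 : ℝ) * π = π / 4 by ring, Real.cos_pi_div_four] at h2
    have : 0 < Real.exp (Real.log Z * (1 / 4)) * (√2 / 2) := by positivity
    linarith
  · exact absurd (Real.rpow_lt_one k h hθ) (not_lt.2 h1)

/-- one round of the corrected large sieve -/
theorem sf {e : ℝ} (he : 0 < e) : ∃ θ : ℝ, 0 < θ ∧ θ ≤ 1 / 100 ∧ ∀ ε : ℝ, 0 < ε → ε ≤ 1 / 2 →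
    ∃ C : ℝ, 0 < C ∧ ∀ Z Q Y R B D : ℝ, 1 ≤ Q → Q ≤ Z ^ θ → Z ^ (1 / 4 : ℝ) ≤ R → R ≤ Y → Y ≤ Z →
    Y ≤ R ^ 2 * Z ^ (-e) → 1 ≤ B → B ^ 2 ≤ Q → (1 < B → Y ≤ R * Q) → 0 ≤ D →
    HW Q (Z ^ ε * R ^ 2 / Y) B R D →
    OpB (Kd Q) (ballN Y) (ringN (R / 2) R)
      (C * Z ^ (4 * ε) * (Y + Y / R * D + Y ^ (1 / 3 : ℝ) * R * B ^ (-(1 / 6) : ℝ) +
        Q ^ (-(1 / 6) : ℝ) * (Y * R) ^ (2 / 3 : ℝ))) := by
  obtain ⟨θ1, t1, C1, c1, h1⟩ := ftrue he
  obtain ⟨θ2, t2, C2, c2, h2⟩ := ffake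
  refine ⟨min (min θ1 θ2) (1 / 100), by positivity, min_le_right _ _, fun ε hε hε1 => ?_⟩
  obtain ⟨C3, c3, h3⟩ := step hε hε1
  refine ⟨C3 + √(C3 * (C1 + C2)), by positivity,
    fun Z Q Y R B D hQ hQZ hR hRY hYZ hYR hB hBQ hBY hD hW => ?_⟩
  have hZ : 1 ≤ Z := tsf_one (by positivity) (hQ.trans hQZ) (hR.trans (hRY.trans hYZ))
  have up : ∀ θ, min (min θ1 θ2) (1 / 100) ≤ θ → Q ≤ Z ^ θ := fun θ h =>
    hQZ.trans (Real.rpow_le_rpow_of_exponent_le hZ h)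
  have R1 : 1 ≤ R := (Real.one_le_rpow hZ (by norm_num)).trans hR
  have R0 : 0 < R := by linarith
  have Y0 : 0 < Y := by linarith
  have Q0 : 0 < Q := by linarith
  have B0 : 0 < B := by linarith
  have Z0 : 0 < Z := by linarith
  have Q4 : Q ^ 4 ≤ R := by
    refine le_trans ?_ hR
    refine (pow_le_pow_left₀ Q0.le (up (1 / 16) ((min_le_right _ _).trans (by norm_num))) 4).trans_eq ?_
    rw [← Real.rpow_natCast, ← Real.rpow_mul Z0.le]
    norm_num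
  have hT : ringN (R / 2) R ⊆ ballN R := Finset.filter_subset _ _
  refine (two_stage (ι := Bool × O × O × ℝ) (ballN Y) (ringN (R / 2) R) (Kd Q)
    (fun i => if i.1 then 1 < B ∧ NN i.2.1 ∧ N i.2.1 ≤ Q ^ 5 ∧ i.2.2.1 ≠ 0 ∧ N i.2.2.1 ≤ 9 * Q ^ 11
      else NN i.2.1 ∧ N i.2.1 ≤ Q ^ 4 ∧ i.2.2.1 ≠ 0 ∧ N i.2.2.1 ≤ Q)
    (fun i => ballN (i.2.2.2 / N i.2.1)) (fun i n => i.2.1 * n)
    (fun i n => if i.1 then G n * sym3 i.2.2.1 n else sym3 i.2.2.1 n)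
    (E := C3 * Z ^ (4 * ε) * (Y + Y / R * D + Y ^ (1 / 3 : ℝ) * R * B ^ (-(1 / 6) : ℝ) +
      Q ^ (-(1 / 6) : ℝ) * (Y * R) ^ (2 / 3 : ℝ)))
    (Λ := C3 * Z ^ (4 * ε) * (Q ^ 10 * Y ^ (2 / 3 : ℝ) * R ^ (-(1 / 3) : ℝ)))
    (F := (C1 + C2) * Y ^ (2 / 3 : ℝ) * R ^ (5 / 3 : ℝ) / Q ^ 11)
    (by positivity) (by positivity) (by positivity) (fun a P ha hP hd => ?_) ?_).mono
    subset_rfl subset_rfl ?_
  · have sh : Sh a R := fun n hn => mem_ringN.1 (by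
      by_contra h
      exact hn (ha n h))
    have := h3 Z Q Y R B D P a hQ Q4 hRY hYZ hB hBQ hD hP sh hW
      (fun l h y a1 a2 a3 a4 => hd (false, l, h, y) ⟨a1, a2, a3, a4⟩)
      (fun b l h y a1 a2 a3 a4 => by
        simpa only [S2, mul_assoc, if_true] using hd (true, l, h, y) ⟨b, a1, a2, a3, a4⟩)
    rw [nsq, ← Finset.sum_subset hT fun n _ hn => by simp [ha n hn],
      Finset.sum_congr rfl fun m _ => by
        rw [← Finset.sum_subset hT fun n _ hn => by simp [ha n hn]]] at this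
    refine this.trans_eq ?_
    rw [nsq]
    ring
  · rintro ⟨b, l, h, y⟩ hi
    cases b
    · obtain ⟨a1, a2, a3, a4⟩ := hi
      refine (h1 Z Q Y R y l h hQ (up _ ((min_le_left _ _).trans (min_le_left _ _))) R1 hRY hYZ hYR
        a1 a2 a3 a4).trans ?_
      gcongr
      linarith
    · obtain ⟨b, a1, a2, a3, a4⟩ := hi
      refine (h2 Z Q Y R y l h hQ (up _ ((min_le_left _ _).trans (min_le_right _ _))) hR hRY hYZ
        (hBY b) a1 a2 a3 a4).trans ?_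
      gcongr
      linarith
  · have key : √(C3 * Z ^ (4 * ε) * (Q ^ 10 * Y ^ (2 / 3 : ℝ) * R ^ (-(1 / 3) : ℝ)) *
        ((C1 + C2) * Y ^ (2 / 3 : ℝ) * R ^ (5 / 3 : ℝ) / Q ^ 11)) ≤
        √(C3 * (C1 + C2)) * Z ^ (4 * ε) * (Q ^ (-(1 / 6) : ℝ) * (Y * R) ^ (2 / 3 : ℝ)) := by
      rw [Real.sqrt_le_left (by positivity), mul_pow, mul_pow, mul_pow,
        Real.sq_sqrt (by positivity), Real.mul_rpow Y0.le R0.le, mul_pow]
      have a1 : R ^ (-(1 / 3) : ℝ) * R ^ (5 / 3 : ℝ) = (R ^ (2 / 3 : ℝ)) ^ 2 := by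
        rw [sq, ← Real.rpow_add R0, ← Real.rpow_add R0]
        norm_num
      have a2 : Q⁻¹ ≤ (Q ^ (-(1 / 6) : ℝ)) ^ 2 := by
        rw [sq, ← Real.rpow_add Q0, ← Real.rpow_neg_one]
        exact Real.rpow_le_rpow_of_exponent_le hQ (by norm_num)
      have a3 : Z ^ (4 * ε) ≤ (Z ^ (4 * ε)) ^ 2 :=
        le_self_pow₀ (Real.one_le_rpow hZ (by positivity)) two_ne_zero
      calc _ = C3 * (C1 + C2) * Z ^ (4 * ε) * (Q⁻¹ * ((Y ^ (2 / 3 : ℝ)) ^ 2 *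
            (R ^ (-(1 / 3) : ℝ) * R ^ (5 / 3 : ℝ)))) := by
            field_simp
        _ ≤ _ := by
            rw [a1]
            gcongr
    have p1 : 0 ≤ Y + Y / R * D + Y ^ (1 / 3 : ℝ) * R * B ^ (-(1 / 6) : ℝ) := by positivity
    have p2 : 0 ≤ √(C3 * (C1 + C2)) * Z ^ (4 * ε) := by positivity
    nlinarith [mul_nonneg p1 p2]

end

end Vale.Agent.P006
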