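import Vale.Agent.P006.LDefs
import Vale.Agent.P006.QGf

namespace Vale.Agent.P006

open Vale.Agent.P026 Complex MeasureTheory Filter Topology
open scoped Classical ComplexConjugate Real MatrixGroups

noncomputable section

theorem tsm_kap : 1 ≤ kap := by
  have h : √3 ≤ 2 := Real.sqrt_le_iff.2 ⟨by norm_num, by norm_num⟩
  have h0 : 0 < √3 := Real.sqrt_pos.2 (by norm_num)
  rw [kap, le_div_iff₀ h0]
  linarith [Real.pi_gt_three]

theorem tsm_norm (b w τ : ℝ) :
    ‖Complex.exp (b * (1 + τ * Complex.I) ^ 2 - kap * (1 + τ * Complex.I) * w)‖ =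
      Real.exp (b - kap * w) * Real.exp (-b * τ ^ 2) := by
  rw [norm_exp, ← Real.exp_add]
  congr 1
  simp [pow_two]
  ring

theorem tsm_gauss {δ : ℝ} (hδ : 0 < δ) (w : ℝ) :
    ∫ τ : ℝ, Complex.exp (((δ * kap / 2) ^ 2 : ℝ) * (1 + τ * Complex.I) ^ 2 -
      kap * (1 + τ * Complex.I) * w) =
      ((√π / (δ * kap / 2) * Real.exp (-(1 / δ) ^ 2 * w ^ 2) : ℝ) : ℂ) := by
  have k0 := kap_pos
  set c : ℝ := δ * kap / 2 with hc
  have c0 : 0 < c := by positivity
  have h := integral_cexp_quadratic (b := -((c ^ 2 : ℝ) : ℂ))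
    (by rw [neg_re, ofReal_re]; exact neg_neg_of_pos (by positivity))
    (Complex.I * (2 * (c ^ 2 : ℝ) - kap * w)) ((c ^ 2 : ℝ) - kap * w)
  have e1 : ∀ τ : ℝ, ((c ^ 2 : ℝ) : ℂ) * (1 + τ * Complex.I) ^ 2 - kap * (1 + τ * Complex.I) * w =
      -((c ^ 2 : ℝ) : ℂ) * τ ^ 2 + Complex.I * (2 * (c ^ 2 : ℝ) - kap * w) * τ +
        ((c ^ 2 : ℝ) - kap * w) := fun τ => by
    linear_combination ((c ^ 2 : ℝ) : ℂ) * τ ^ 2 * Complex.I_sq
  simp only [e1]
  rw [h, neg_neg, ← qg_sqrt c0, Real.sqrt_eq_rpow, ofReal_mul, ofReal_cpow (by positivity),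
    ofReal_exp]
  have c1 : (c : ℂ) ≠ 0 := ofReal_ne_zero.2 c0.ne'
  have d1 : (δ : ℂ) ≠ 0 := ofReal_ne_zero.2 hδ.ne'
  have k1 : (kap : ℂ) ≠ 0 := ofReal_ne_zero.2 k0.ne'
  congr 2
  · push_cast; rfl
  · push_cast; rfl
  · rw [mul_pow, Complex.I_sq, hc]
    push_cast
    field_simp
    ring

/-- Gaussian smoothing of a sharp cutoff -/
theorem smooth_cut : ∃ C : ℝ, 0 < C ∧ ∀ δ y0 : ℝ, 0 < δ → δ ≤ 1 → 0 ≤ y0 → y0 ≤ 1 →
    ∃ (m : ℝ → ℂ) (V : ℝ → ℝ), Integrable m ∧ Integrable (fun τ => ‖m τ‖ * (1 + |τ|)) ∧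
      ∫ τ, ‖m τ‖ * (1 + |τ|) ≤ C / δ ^ 2 ∧
      (∀ x : ℝ, ((V x : ℝ) : ℂ) =
        ∫ τ : ℝ, m τ * Complex.exp (-(kap * (1 + τ * Complex.I) * (x : ℂ)))) ∧
      ∀ x : ℝ, 0 ≤ x → |V x - (if x ≤ y0 then 1 else 0)| ≤
        Real.exp (-((x - y0) / δ) ^ 2) + Real.exp (-((x + 1) / δ) ^ 2) := by
  have k0 := kap_pos
  have k1 := tsm_kap
  have p0 : 0 < √π := Real.sqrt_pos.2 Real.pi_pos
  refine ⟨Real.exp (kap ^ 2 + kap) * (2 * √π), by positivity, fun δ y0 hδ hδ1 h0 h1 => ?_⟩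
  set c : ℝ := δ * kap / 2 with hc
  have c0 : 0 < c := by positivity
  set s : ℝ → ℂ := fun τ => kap * (1 + τ * Complex.I) with hs
  have s1 : ∀ τ, (s τ).re = kap := fun τ => by simp [hs]
  have s0 : ∀ τ, s τ ≠ 0 := fun τ h => by
    have := s1 τ
    rw [h, zero_re] at this
    exact k0.ne this
  set m : ℝ → ℂ := fun τ => ((kap / (2 * π) : ℝ) : ℂ) *
    Complex.exp ((c ^ 2 : ℝ) * (1 + τ * Complex.I) ^ 2 - s τ * (-y0 : ℝ)) / s τ with hm
  have mc : Continuous m := Continuous.div (by fun_prop) (by fun_prop) s0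
  have ig := integrable_exp_neg_mul_sq (b := c ^ 2) (by positivity)
  have mb : ∀ τ, ‖m τ‖ * (1 + |τ|) ≤ Real.exp (kap ^ 2 + kap) * Real.exp (-c ^ 2 * τ ^ 2) := by
    intro τ
    have a1 : 1 ≤ ‖1 + τ * Complex.I‖ := by
      simpa using abs_re_le_norm (1 + τ * Complex.I)
    have a2 : |τ| ≤ ‖1 + τ * Complex.I‖ := by
      simpa using abs_im_le_norm (1 + τ * Complex.I)
    have a3 : Real.exp (c ^ 2 - kap * -y0) ≤ Real.exp (kap ^ 2 + kap) := by
      have : c ≤ kap := by rw [hc]; nlinarith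
      exact Real.exp_le_exp.2 (by nlinarith)
    simp only [hm, hs]
    rw [norm_div, norm_mul, tsm_norm, norm_mul, norm_real, norm_real,
      Real.norm_of_nonneg (by positivity), Real.norm_of_nonneg k0.le, div_mul_eq_mul_div,
      div_le_iff₀ (by positivity)]
    have a4 : kap / (2 * π) * (1 + |τ|) ≤ kap * ‖1 + τ * Complex.I‖ := by
      rw [div_mul_eq_mul_div, div_le_iff₀ (by positivity), mul_assoc]
      exact mul_le_mul_of_nonneg_left (by nlinarith [Real.pi_gt_three]) k0.le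
    calc _ = Real.exp (c ^ 2 - kap * -y0) * Real.exp (-c ^ 2 * τ ^ 2) *
          (kap / (2 * π) * (1 + |τ|)) := by ring
      _ ≤ _ := by gcongr
  have i2 : Integrable (fun τ => ‖m τ‖ * (1 + |τ|)) :=
    (ig.const_mul _).mono' (by fun_prop) (.of_forall fun τ => by
      rw [Real.norm_of_nonneg (by positivity)]; exact mb τ)
  refine ⟨m, fun x => 1 / δ / √π * ∫ u in Set.Iic (0 : ℝ), Real.exp (-(1 / δ) ^ 2 * (x - y0 - u) ^ 2),
    i2.mono' mc.aestronglyMeasurable (.of_forall fun τ =>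
      le_mul_of_one_le_right (norm_nonneg _) (by linarith [abs_nonneg τ])), i2, ?_, fun x => ?_,
    fun x _ => ?_⟩
  · refine (integral_mono i2 (ig.const_mul _) mb).trans ?_
    rw [integral_const_mul, integral_gaussian, qg_sqrt c0, mul_div_assoc]
    refine mul_le_mul_of_nonneg_left ?_ (Real.exp_pos _).le
    rw [div_le_div_iff₀ c0 (by positivity), hc]
    have : δ ^ 2 ≤ δ * kap := by nlinarith
    nlinarith
  · set F : ℝ → ℝ → ℂ := fun u τ => Complex.exp ((c ^ 2 : ℝ) * (1 + τ * Complex.I) ^ 2 -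
      kap * (1 + τ * Complex.I) * (x - y0 - u : ℝ)) with hF
    have iF : Integrable (Function.uncurry F) ((volume.restrict (Set.Iic (0 : ℝ))).prod volume) := by
      refine (((integrableOn_exp_mul_Iic k0 0).const_mul
        (Real.exp (c ^ 2 - kap * (x - y0)))).mul_prod ig).mono'
        (Continuous.aestronglyMeasurable (by simp only [hF]; fun_prop)) (.of_forall fun z => ?_)
      simp only [hF, Function.uncurry]
      rw [tsm_norm, ← Real.exp_add (c ^ 2 - kap * (x - y0))]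
      exact le_of_eq (by congr 2; ring)
    have sw := integral_integral_swap iF
    have e1 : ∀ τ : ℝ, m τ * Complex.exp (-(kap * (1 + τ * Complex.I) * (x : ℂ))) =
        ((kap / (2 * π) : ℝ) : ℂ) * ∫ u in Set.Iic (0 : ℝ), F u τ := fun τ => by
      have e2 : ∀ u : ℝ, F u τ = Complex.exp ((c ^ 2 : ℝ) * (1 + τ * Complex.I) ^ 2 -
          s τ * (-y0 : ℝ)) * Complex.exp (-(kap * (1 + τ * Complex.I) * (x : ℂ))) *
          Complex.exp (s τ * u) := fun u => by
        simp only [hF, hs, ← Complex.exp_add]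
        congr 1
        push_cast
        ring
      simp only [e2]
      rw [integral_const_mul, integral_exp_mul_complex_Iic (by rw [s1]; exact k0)]
      simp only [hm, ofReal_zero, mul_zero, Complex.exp_zero]
      ring
    simp only [e1]
    rw [integral_const_mul, ← sw]
    simp only [hF, hc, tsm_gauss hδ]
    rw [integral_complex_ofReal, integral_const_mul, ← ofReal_mul, ← mul_assoc]
    congr 2
    have := Real.mul_self_sqrt Real.pi_pos.le
    field_simp
    nlinarith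
  · have h := qg_phi_approx (K := 1 / δ) (by positivity) (x - y0)
    simp only [sub_nonpos] at h
    refine (h.trans (le_of_eq ?_)).trans (le_add_of_nonneg_right (Real.exp_pos _).le)
    congr 2
    ring

end

end Vale.Agent.P006
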