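import Vale.Agent.P006.THs
import Vale.Agent.P006.LPs
import Vale.Agent.P026.TL3b

namespace Vale.Agent.P006

open Vale.Agent.P026 Complex MeasureTheory Filter Topology
open scoped Classical ComplexConjugate Real MatrixGroups

noncomputable section

theorem tst_cube {x : ℝ} (hx : 0 ≤ x) (c : ℝ) : (x ^ 3) ^ c = x ^ (3 * c) := by
  rw [← Real.rpow_natCast, ← Real.rpow_mul hx]; norm_num

theorem tst_pow {z R Y : ℝ} (hz : 1 ≤ z) (hR : 0 < R) (hY : 0 < Y) :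
    Y / R * (z * R ^ 2 / Y * R) ^ (2 / 3 : ℝ) ≤ z * (Y ^ (1 / 3 : ℝ) * R) ∧
    Y / R * (z * R ^ 2 / Y) ^ (1 / 3 : ℝ) ≤ z * (Y ^ (2 / 3 : ℝ) * R ^ (-(1 / 3) : ℝ)) ∧
    Y ^ (2 / 3 : ℝ) * R ^ (-(1 / 3) : ℝ) * R = (Y * R) ^ (2 / 3 : ℝ) := by
  obtain ⟨r, r0, rfl⟩ : ∃ r : ℝ, 0 < r ∧ R = r ^ 3 :=
    ⟨R ^ (1 / 3 : ℝ), by positivity, by rw [← Real.rpow_natCast, ← Real.rpow_mul hR.le]; norm_num⟩
  obtain ⟨y, y0, rfl⟩ : ∃ r : ℝ, 0 < r ∧ Y = r ^ 3 :=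
    ⟨Y ^ (1 / 3 : ℝ), by positivity, by rw [← Real.rpow_natCast, ← Real.rpow_mul hY.le]; norm_num⟩
  have z0 : 0 < z := by linarith
  have u : ∀ c : ℝ, c ≤ 1 → z ^ c ≤ z := fun c hc => by
    simpa using Real.rpow_le_rpow_of_exponent_le hz hc
  rw [show z * (r ^ 3) ^ 2 / y ^ 3 * r ^ 3 = z * (r ^ 3 / y) ^ 3 by field_simp,
    show z * (r ^ 3) ^ 2 / y ^ 3 = z * (r ^ 2 / y) ^ 3 by field_simp, ← mul_pow,
    Real.mul_rpow z0.le (by positivity), Real.mul_rpow z0.le (by positivity),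
    tst_cube y0.le, tst_cube y0.le, tst_cube r0.le, tst_cube (by positivity),
    tst_cube (by positivity), tst_cube (by positivity)]
  norm_num [Real.rpow_neg_one]
  refine ⟨?_, ?_, ?_⟩
  · calc _ ≤ y ^ 3 / r ^ 3 * (z * ((r ^ 3) ^ 2 / y ^ 2)) := by
          rw [← div_pow (r ^ 3)]; gcongr; exact u _ (by norm_num)
      _ = _ := by field_simp
  · calc _ ≤ y ^ 3 / r ^ 3 * (z * (r ^ 2 / y)) := by gcongr; exact u _ (by norm_num)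
      _ = _ := by field_simp
  · field_simp

theorem tst_hs {ε : ℝ} (hε : 0 < ε) : ∃ C : ℝ, 0 < C ∧
    ∀ (Z Q H R K B D P : ℝ) (a : O → ℂ) (t : O × O × O) (s : ℂ),
    1 ≤ Z → 1 ≤ Q → Q ^ 4 ≤ R → R ≤ Z → 0 < H → H ≤ Z → 1 ≤ K → H ≤ K * R → 1 ≤ B → B ^ 2 ≤ Q →
    0 ≤ D → 0 ≤ P → Sh a R → t ∈ trip R → |s.re| ≤ 1 / 2 →
    HW Q H B R D → PT a (Q ^ 4) Q P → (1 < B → PF a (Q ^ 5) (9 * Q ^ 11) P) →
    N t.1 * HS (aT a R t s) (R / N (pr t)) (H / (N t.2.1 * N t.1 ^ 2)) ≤ (1 + |s.im|) ^ 2 *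
      (C * (Z ^ ε * K) * ((H + D + (H * R) ^ (2 / 3 : ℝ) * B ^ (-(1 / 6) : ℝ) +
          Q ^ (-(1 / 6) : ℝ) * H ^ (1 / 3 : ℝ) * R) * nT a R t +
        if N (pr t) ≤ Q ^ (1 / 4 : ℝ) / 3 then Q ^ 7 * H ^ (1 / 3 : ℝ) * P else 0)) := by
  obtain ⟨C1, hC1, h1⟩ := hs_large hε
  obtain ⟨C2, hC2, h2⟩ := hs_small hε
  refine ⟨C1 + C2, by positivity,
    fun Z Q H R K B D P a t s hZ hQ hR hRZ H0 hH hK hHK hB hBQ hD hP ha ht hs hW hT hF => ?_⟩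
  have R1 : 1 ≤ R := (one_le_pow₀ hQ).trans hR
  have t0 := nT_nonneg a R t
  have s1 : 1 ≤ (1 + |s.im|) ^ 2 := one_le_pow₀ (by linarith [abs_nonneg s.im])
  have qb : Q ^ (-(1 / 6) : ℝ) ≤ B ^ (-(1 / 6) : ℝ) :=
    Real.rpow_le_rpow_of_nonpos (by linarith) (by nlinarith) (by norm_num)
  have z0 : 0 ≤ Z ^ ε := by positivity
  have q0 : 0 ≤ Q ^ (-(1 / 6) : ℝ) := by positivity
  have u0 : 0 ≤ (H * R) ^ (2 / 3 : ℝ) := by positivity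
  have v0 : 0 ≤ H ^ (1 / 3 : ℝ) := by positivity
  split_ifs with k
  · refine (h2 Z Q H R K B D P a t s hZ hQ hR hRZ H0 hH hK hHK hB hBQ hD hP ha ht k hs hW hT
      hF).trans ?_
    clear h1 h2 hW hT hF k
    generalize Z ^ ε = z, Q ^ (-(1 / 6) : ℝ) = q, B ^ (-(1 / 6) : ℝ) = b, (H * R) ^ (2 / 3 : ℝ) = u,
      H ^ (1 / 3 : ℝ) = v, (1 + |s.im|) ^ 2 = σ, nT a R t = n at *
    have b0 := q0.trans qb
    calc _ = C2 * (z * K) * (1 * ((H + D + u * b + q * v * R) * n) + σ * (Q ^ 7 * v * P)) := by ring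
      _ ≤ (C1 + C2) * (z * K) * (σ * ((H + D + u * b + q * v * R) * n) + σ * (Q ^ 7 * v * P)) := by
          gcongr; linarith
      _ = _ := by ring
  · refine (h1 Z Q H R a t s hZ hQ H0 hH R1 hRZ ha ht (not_le.1 k).le hs).trans ?_
    clear h1 h2 hW hT hF k
    generalize Z ^ ε = z, Q ^ (-(1 / 6) : ℝ) = q, B ^ (-(1 / 6) : ℝ) = b, (H * R) ^ (2 / 3 : ℝ) = u,
      H ^ (1 / 3 : ℝ) = v, (1 + |s.im|) ^ 2 = σ, nT a R t = n at *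
    have b0 := q0.trans qb
    have a1 := mul_le_mul_of_nonneg_left qb u0
    calc _ = 1 * (C1 * (z * 1) * ((H + q * (v * R + u)) * n)) := by ring
      _ ≤ σ * (C1 * (z * K) * ((H + q * (v * R + u)) * n)) := by gcongr
      _ ≤ σ * ((C1 + C2) * (z * K) * ((H + D + u * b + q * v * R) * n)) := by
          gcongr σ * (?_ * (z * K) * (?_ * n)) <;> linarith
      _ = _ := by ring

theorem tst_num {C0 C1 C3 C4 w A F n W E T S y : ℝ} (h0 : 0 < C0) (h1 : 0 < C1) (h3 : 0 < C3)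
    (h4 : 0 < C4) (w1 : 1 ≤ w) (n0 : 0 ≤ n) (F0 : 0 ≤ F) (T0 : 0 ≤ T) (y0 : 0 ≤ y) (hA : y ≤ A)
    (hW : T * W ≤ w ^ 2 * A) (hE : T * E ≤ w ^ 2 * F) (hS : S ≤ W * (C3 * w * n) + C4 * E) :
    C0 * w ^ 2 * (y * n + T * (C1 * (w * w ^ 2) * S)) ≤
      C0 * (1 + C1 * (C3 + C4)) * w ^ 8 * (A * n + F) := by
  have A0 : 0 ≤ A := by linarith
  calc _ ≤ C0 * w ^ 2 * (A * n + T * (C1 * (w * w ^ 2) * (W * (C3 * w * n) + C4 * E))) := by gcongr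
    _ = C0 * w ^ 2 * (1 * (A * n + 0) + C1 * w ^ 3 *
        (C3 * w * (T * W * n + 0) + C4 * (1 * (0 + T * E)))) := by ring
    _ ≤ C0 * w ^ 2 * (w ^ 6 * (A * n + F) + C1 * w ^ 3 *
        (C3 * w * (w ^ 2 * A * n + w ^ 2 * F) + C4 * (w * (w ^ 2 * A * n + w ^ 2 * F)))) := by
        have : 1 * (0 + T * E) ≤ w * (w ^ 2 * A * n + w ^ 2 * F) := by
          rw [one_mul, zero_add]
          exact hE.trans ((le_add_of_nonneg_left (by positivity)).trans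
            (le_mul_of_one_le_left (by positivity) w1))
        gcongr
        · exact one_le_pow₀ w1
        · positivity
    _ = _ := by ring

theorem tst_main {ε : ℝ} (hε : 0 < ε) (hε1 : ε ≤ 1 / 2) : ∃ C : ℝ, 0 < C ∧
    ∀ (Z Q Y R B D P : ℝ) (a : O → ℂ),
    1 ≤ Q → Q ^ 4 ≤ R → R ≤ Y → Y ≤ Z → 1 ≤ B → B ^ 2 ≤ Q → 0 ≤ D → 0 ≤ P → Sh a R →
    HW Q (Z ^ ε * R ^ 2 / Y) B R D → PT a (Q ^ 4) Q P → (1 < B → PF a (Q ^ 5) (9 * Q ^ 11) P) →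
    ∑ m ∈ ballO Y, ‖∑ n ∈ ballN R, a n * G n * conj (sym3 m n)‖ ^ 2 ≤
      C * Z ^ (4 * ε) * ((Y + Y / R * D + Y ^ (1 / 3 : ℝ) * R * B ^ (-(1 / 6) : ℝ) +
          Q ^ (-(1 / 6) : ℝ) * (Y * R) ^ (2 / 3 : ℝ)) * nsq (ballN R) a +
        Q ^ 10 * Y ^ (2 / 3 : ℝ) * R ^ (-(1 / 3) : ℝ) * P) := by
  obtain ⟨C0, hC0, h0⟩ := ps hε hε1
  obtain ⟨C1, hC1, h1⟩ := tst_hs (ε := ε / 4) (by positivity)
  obtain ⟨C3, hC3, h3⟩ := sum_nT_le (ε := ε / 2) (by positivity)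
  obtain ⟨C4, hC4, h4⟩ := tl3_card_trip
  refine ⟨C0 * (1 + C1 * (C3 + C4)), by positivity,
    fun Z Q Y R B D P a hQ hR hY hZ hB hBQ hD hP ha hW hT hF => ?_⟩
  have R1 : 1 ≤ R := (one_le_pow₀ hQ).trans hR
  have Z1 : 1 ≤ Z := by linarith
  have R0 : 0 < R := by linarith
  have Y0 : 0 < Y := by linarith
  have Z0 : 0 < Z := by linarith
  obtain ⟨w, hw⟩ : ∃ w, w = Z ^ (ε / 2) := ⟨_, rfl⟩
  have w1 : 1 ≤ w := hw ▸ Real.one_le_rpow Z1 (by positivity)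
  have e1 : Z ^ ε = w ^ 2 := by
    rw [hw, ← Real.rpow_natCast, ← Real.rpow_mul Z0.le]; congr 1; push_cast; ring
  have e2 : (Z ^ 2) ^ (ε / 4) = w := by
    rw [hw, ← Real.rpow_natCast, ← Real.rpow_mul Z0.le]; congr 1; push_cast; ring
  have e3 : Z ^ (4 * ε) = w ^ 8 := by
    rw [hw, ← Real.rpow_natCast, ← Real.rpow_mul Z0.le]; congr 1; push_cast; ring
  have e4 : R ^ (ε / 2) ≤ w := hw ▸ Real.rpow_le_rpow R0.le (by linarith) (by positivity)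
  have e5 : w ^ 2 ≤ Z := by
    rw [← e1]; simpa using Real.rpow_le_rpow_of_exponent_le Z1 (show ε ≤ 1 by linarith)
  have w2 : 1 ≤ w ^ 2 := one_le_pow₀ w1
  obtain ⟨p1, p2, p3⟩ := tst_pow w2 R0 Y0
  have m2 := h0 Z Y R a
  rw [e1] at hW m2
  rw [e3]
  obtain ⟨H, hH⟩ : ∃ H, H = w ^ 2 * R ^ 2 / Y := ⟨_, rfl⟩
  rw [← hH] at hW p1 p2
  have H0 : 0 < H := by rw [hH]; positivity
  have H1 : H ≤ w ^ 2 * R := by
    rw [hH, div_le_iff₀ Y0, pow_two R, ← mul_assoc]; gcongr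
  have H2 : H ≤ Z ^ 2 := H1.trans (by rw [pow_two Z]; gcongr; linarith)
  have ZZ : Z ≤ Z ^ 2 := by nlinarith
  have m3 := m2 _ R1 (by linarith) (by linarith) hZ ha fun t ht s hs => by
    rw [show w ^ 2 * Ht R Y t = H / (N t.2.1 * N t.1 ^ 2) by rw [Ht, hH]; ring]
    exact h1 (Z ^ 2) Q H R (w ^ 2) B D P a t s (by linarith) hQ hR (by linarith) H0 H2 w2 H1 hB
      hBQ hD hP ha ht hs hW hT hF
  rw [e2, ← Finset.mul_sum] at m3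
  have n0 := nsq_nonneg (ballN R) a
  have a1 : Y / R * H ≤ w ^ 2 * Y := by
    rw [show Y / R * H = w ^ 2 * R by rw [hH]; field_simp]; gcongr
  have a2 : Y / R * D ≤ w ^ 2 * (Y / R * D) := le_mul_of_one_le_left (by positivity) w2
  have a3 := mul_le_mul_of_nonneg_right p1 (show 0 ≤ B ^ (-(1 / 6) : ℝ) by positivity)
  have a4 := mul_le_mul_of_nonneg_right p2 (show 0 ≤ Q ^ (-(1 / 6) : ℝ) * R by positivity)
  have a5 := mul_le_mul_of_nonneg_right p2 (show 0 ≤ Q ^ 10 * P by positivity)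
  refine m3.trans (tst_num (W := H + D + (H * R) ^ (2 / 3 : ℝ) * B ^ (-(1 / 6) : ℝ) +
    Q ^ (-(1 / 6) : ℝ) * H ^ (1 / 3 : ℝ) * R) (E := Q ^ 3 * (Q ^ 7 * H ^ (1 / 3 : ℝ) * P)) hC0 hC1
    hC3 hC4 w1 n0 (by positivity) (by positivity) Y0.le ?_ ?_ (by linarith) ?_)
  · rw [add_assoc, add_assoc]; exact le_add_of_nonneg_right (by positivity)
  · rw [← p3]; linarith
  · rw [Finset.sum_add_distrib, ← Finset.mul_sum, ← Finset.sum_filter, Finset.sum_const,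
      nsmul_eq_mul, ← mul_assoc C4]
    refine add_le_add (mul_le_mul_of_nonneg_left ((h3 a R R1 ha).trans (by gcongr)) (by positivity))
      (mul_le_mul_of_nonneg_right (le_trans (Nat.cast_le.2 (Finset.card_le_card fun t ht => ?_))
      (h4 Q (by linarith))) (by positivity))
    obtain ⟨k1, k2⟩ := Finset.mem_filter.1 ht
    obtain ⟨b1, b2, b3, b4, -⟩ := mem_trip.1 k1
    have : Q ^ (1 / 4 : ℝ) ≤ Q := by
      simpa using Real.rpow_le_rpow_of_exponent_le hQ (show (1 / 4 : ℝ) ≤ 1 by norm_num)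
    exact mem_trip.2 ⟨b1, b2, b3, b4, k2.trans (by linarith)⟩

theorem step {ε : ℝ} (hε : 0 < ε) (hε1 : ε ≤ 1 / 2) : ∃ C : ℝ, 0 < C ∧
    ∀ (Z Q Y R B D P : ℝ) (a : O → ℂ),
    1 ≤ Q → Q ^ 4 ≤ R → R ≤ Y → Y ≤ Z → 1 ≤ B → B ^ 2 ≤ Q → 0 ≤ D → 0 ≤ P → Sh a R →
    HW Q (Z ^ ε * R ^ 2 / Y) B R D → PT a (Q ^ 4) Q P → (1 < B → PF a (Q ^ 5) (9 * Q ^ 11) P) →
    ∑ m ∈ ballN Y, ‖∑ n ∈ ballN R, a n * Kd Q m n‖ ^ 2 ≤
      C * Z ^ (4 * ε) * ((Y + Y / R * D + Y ^ (1 / 3 : ℝ) * R * B ^ (-(1 / 6) : ℝ) +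
          Q ^ (-(1 / 6) : ℝ) * (Y * R) ^ (2 / 3 : ℝ)) * nsq (ballN R) a +
        Q ^ 10 * Y ^ (2 / 3 : ℝ) * R ^ (-(1 / 3) : ℝ) * P) := by
  obtain ⟨C0, hC0, h0⟩ := tst_main hε hε1
  obtain ⟨C5, hC5, h5⟩ := model_bd hε
  refine ⟨2 * C0 + 2 * C5, by positivity,
    fun Z Q Y R B D P a hQ hR hY hZ hB hBQ hD hP ha hW hT hF => ?_⟩
  have R1 : 1 ≤ R := (one_le_pow₀ hQ).trans hR
  have Z1 : 1 ≤ Z := by linarith
  have R0 : 0 < R := by linarith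
  have Y0 : 0 < Y := by linarith
  have m4 := (Finset.sum_le_sum_of_subset_of_nonneg (Finset.filter_subset NN (ballO Y))
    fun _ _ _ => by positivity).trans (h0 Z Q Y R B D P a hQ hR hY hZ hB hBQ hD hP ha hW hT hF)
  rw [← ballN] at m4
  have n0 := nsq_nonneg (ballN R) a
  have m5 := (h5 Z Q Y R P a Z1 hQ Y0 hZ R0 (by linarith) hP ha hT).trans
    (show _ ≤ C5 * Z ^ (4 * ε) * (Q ^ 10 * Y ^ (2 / 3 : ℝ) * R ^ (-(1 / 3) : ℝ) * P +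
      (Y + Y / R * D + Y ^ (1 / 3 : ℝ) * R * B ^ (-(1 / 6) : ℝ) +
        Q ^ (-(1 / 6) : ℝ) * (Y * R) ^ (2 / 3 : ℝ)) * nsq (ballN R) a) by
      have : 1 / Q ^ 2 ≤ Q ^ (-(1 / 6) : ℝ) := by
        rw [one_div, ← Real.rpow_two, ← Real.rpow_neg (by linarith)]
        exact Real.rpow_le_rpow_of_exponent_le hQ (by norm_num)
      gcongr
      · linarith
      · norm_num
      · rw [div_eq_mul_one_div, mul_comm]
        exact le_add_of_nonneg_of_le (by positivity) (by gcongr))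
  refine (Finset.sum_le_sum (g := fun m => 2 * ‖∑ n ∈ ballN R, a n * G n * conj (sym3 m n)‖ ^ 2 +
    2 * ‖∑ n ∈ ballN R, a n * mdl Q (m * n)‖ ^ 2) fun m hm => ?_).trans ?_
  · have e : ∑ n ∈ ballN R, a n * Kd Q m n = G m * ∑ n ∈ ballN R, a n * G n * conj (sym3 m n) -
        ∑ n ∈ ballN R, a n * mdl Q (m * n) := by
      rw [Finset.mul_sum, ← Finset.sum_sub_distrib]
      refine Finset.sum_congr rfl fun n hn => ?_
      rw [Kd, del, G_mul (gm_prim hm) (gm_prim hn)]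
      ring
    rw [e]
    generalize ∑ n ∈ ballN R, a n * G n * conj (sym3 m n) = u
    generalize ∑ n ∈ ballN R, a n * mdl Q (m * n) = v
    have a1 := norm_sub_le (G m * u) v
    rw [norm_mul] at a1
    have a2 := mul_le_of_le_one_left (norm_nonneg u) (norm_G_le m)
    refine (pow_le_pow_left₀ (norm_nonneg _) (a1.trans (add_le_add a2 le_rfl)) 2).trans ?_
    linarith [sq_nonneg (‖u‖ - ‖v‖)]
  · rw [Finset.sum_add_distrib, ← Finset.mul_sum, ← Finset.mul_sum]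
    linarith

end

end Vale.Agent.P006
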