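import Vale.Agent.P006.Defs
import Vale.Agent.P026.Dual

namespace Vale.Agent.P006

open Vale.Agent.P026 Complex MeasureTheory Filter Topology
open scoped Classical ComplexConjugate Real MatrixGroups

noncomputable section

theorem tri_ind (z : ℂ) (J : ℕ) : ∀ u v : ℕ, u < 2 ^ J → v < 2 ^ J →
    (if u < v then z else 0) = ∑ j ∈ Finset.range J,
      if (u / 2 ^ j) % 2 = 0 ∧ v / 2 ^ j = u / 2 ^ j + 1 then z else 0 := by
  induction J with
  | zero =>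
    intro u v hu hv
    rw [if_neg (by omega)]
    simp
  | succ J ih =>
    intro u v hu hv
    rw [Finset.sum_range_succ']
    simp only [pow_succ', ← Nat.div_div_eq_div_mul, pow_zero, Nat.div_one]
    rw [← ih (u / 2) (v / 2) (by omega) (by omega)]
    split_ifs <;> first | omega | simp

theorem tri_level {ι κ : Type*} (S : Finset ι) (T : Finset κ) (D : ι → κ → ℂ) {μ : ℝ} (hμ : 0 ≤ μ)
    (h : ∀ β : κ → ℂ, ∑ a ∈ S, ‖∑ b ∈ T, β b * D a b‖ ^ 2 ≤ μ * ∑ b ∈ T, ‖β b‖ ^ 2)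
    (P : ι → Prop) [DecidablePred P] (u : ι → ℕ) (v : κ → ℕ) (β : κ → ℂ) :
    ∑ a ∈ S, ‖∑ b ∈ T, β b * (if P a ∧ v b = u a then D a b else 0)‖ ^ 2 ≤
      μ * ∑ b ∈ T, ‖β b‖ ^ 2 := by
  calc _ ≤ ∑ a ∈ S, ∑ k ∈ S.image u, ‖∑ b ∈ T, (if v b = k then β b else 0) * D a b‖ ^ 2 := by
        refine Finset.sum_le_sum fun a ha => le_trans ?_ (Finset.single_le_sum
          (f := fun k => ‖∑ b ∈ T, (if v b = k then β b else 0) * D a b‖ ^ 2)
          (fun _ _ => by positivity) (Finset.mem_image_of_mem u ha))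
        by_cases hP : P a
        · simp [hP]
        · simp [hP]
    _ ≤ ∑ k ∈ S.image u, μ * ∑ b ∈ T, ‖if v b = k then β b else 0‖ ^ 2 := by
        rw [Finset.sum_comm]
        exact Finset.sum_le_sum fun k _ => h _
    _ ≤ _ := by
        rw [← Finset.mul_sum, Finset.sum_comm]
        refine mul_le_mul_of_nonneg_left (Finset.sum_le_sum fun b _ => ?_) hμ
        have : ∀ k, ‖if v b = k then β b else 0‖ ^ 2 = if v b = k then ‖β b‖ ^ 2 else 0 := by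
          intro k
          split_ifs <;> simp
        simp only [this, Finset.sum_ite_eq]
        split_ifs
        · exact le_rfl
        · positivity

/-- triangular truncation costs a logarithm -/
theorem tri {ι κ : Type*} (S : Finset ι) (T : Finset κ) (D : ι → κ → ℂ) {μ : ℝ} (hμ : 0 ≤ μ)
    (h : ∀ β : κ → ℂ, ∑ a ∈ S, ‖∑ b ∈ T, β b * D a b‖ ^ 2 ≤ μ * ∑ b ∈ T, ‖β b‖ ^ 2)
    (u : ι → ℕ) (v : κ → ℕ) (J : ℕ) (hu : ∀ a ∈ S, u a < 2 ^ J) (hv : ∀ b ∈ T, v b < 2 ^ J)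
    (β : κ → ℂ) :
    ∑ a ∈ S, ‖∑ b ∈ T, β b * (if u a < v b then D a b else 0)‖ ^ 2 ≤
      (J : ℝ) ^ 2 * μ * ∑ b ∈ T, ‖β b‖ ^ 2 := by
  calc _ ≤ ∑ a ∈ S, (J : ℝ) * ∑ j ∈ Finset.range J, ‖∑ b ∈ T, β b *
        (if (u a / 2 ^ j) % 2 = 0 ∧ v b / 2 ^ j = u a / 2 ^ j + 1 then D a b else 0)‖ ^ 2 := by
        refine Finset.sum_le_sum fun a ha => ?_
        rw [Finset.sum_congr rfl fun b hb => by
          rw [tri_ind (D a b) J _ _ (hu a ha) (hv b hb), Finset.mul_sum], Finset.sum_comm]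
        refine le_trans (pow_le_pow_left₀ (norm_nonneg _) (norm_sum_le _ _) 2) ?_
        refine sq_sum_le_card_mul_sum_sq.trans_eq ?_
        rw [Finset.card_range]
    _ ≤ (J : ℝ) * ∑ j ∈ Finset.range J, μ * ∑ b ∈ T, ‖β b‖ ^ 2 := by
        rw [← Finset.mul_sum, Finset.sum_comm]
        refine mul_le_mul_of_nonneg_left (Finset.sum_le_sum fun j _ => ?_) (Nat.cast_nonneg _)
        exact tri_level S T D hμ h (fun a => (u a / 2 ^ j) % 2 = 0) (fun a => u a / 2 ^ j + 1)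
          (fun b => v b / 2 ^ j) β
    _ = _ := by
        rw [Finset.sum_const, Finset.card_range, nsmul_eq_mul]
        ring

theorem eig_abs {H K ν : Type*} [NormedAddCommGroup H] [InnerProductSpace ℂ H]
    [FiniteDimensional ℂ H] [NormedAddCommGroup K] [InnerProductSpace ℂ K] (A : H →ₗ[ℂ] K)
    (v : ν → H) (lam : ν → ℝ) {E F : ℝ} (hE : 0 ≤ E) (hF : 0 ≤ F) (hl : ∀ j, 0 ≤ lam j)
    (h1 : ∀ (x : H) (s : ℝ), 0 ≤ s → (∀ j, lam j * ‖inner ℂ (v j) x‖ ^ 2 ≤ s) →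
      ‖A x‖ ^ 2 ≤ E * ‖x‖ ^ 2 + s)
    (h2 : ∀ j, lam j * ‖A (v j)‖ ^ 2 ≤ F) (x : H) : ‖A x‖ ^ 2 ≤ (E + √F) * ‖x‖ ^ 2 := by
  by_cases hx : x = 0
  · simp [hx]
  haveI := FiniteDimensional.proper_rclike ℂ H
  have sph : ∀ y : H, y ≠ 0 → ((‖y‖⁻¹ : ℝ) : ℂ) • y ∈ Metric.sphere (0 : H) 1 := fun y hy => by
    rw [mem_sphere_zero_iff_norm, norm_smul, norm_real, norm_inv, norm_norm,
      inv_mul_cancel₀ (norm_ne_zero_iff.2 hy)]
  obtain ⟨x0, hx0, hmax⟩ := (isCompact_sphere (0 : H) 1).exists_isMaxOn ⟨_, sph x hx⟩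
    (f := fun y => ‖A y‖) A.continuous_of_finiteDimensional.norm.continuousOn
  rw [mem_sphere_zero_iff_norm] at hx0
  obtain ⟨L, hL⟩ : ∃ L, L = ‖A x0‖ ^ 2 := ⟨_, rfl⟩
  have k1 : ∀ y, ‖A y‖ ^ 2 ≤ L * ‖y‖ ^ 2 := by
    intro y
    by_cases hy : y = 0
    · simp [hy]
    have h : ‖A (((‖y‖⁻¹ : ℝ) : ℂ) • y)‖ ≤ ‖A x0‖ := hmax (sph y hy)
    rw [map_smul, norm_smul, norm_real, norm_inv, norm_norm,
      inv_mul_le_iff₀ (norm_pos_iff.2 hy)] at h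
    rw [hL, ← mul_pow, mul_comm]
    exact pow_le_pow_left₀ (norm_nonneg _) h 2
  have k2 : ∀ y, inner ℂ (A y) (A x0) = (L : ℂ) * inner ℂ y x0 := by
    intro y
    obtain ⟨c, hc⟩ : ∃ c, c = (L : ℂ) * inner ℂ y x0 - inner ℂ (A y) (A x0) := ⟨_, rfl⟩
    obtain ⟨q, hq⟩ : ∃ q, q = L * ‖y‖ ^ 2 - ‖A y‖ ^ 2 := ⟨_, rfl⟩
    have q0 : 0 ≤ q := by rw [hq]; linarith [k1 y]
    obtain ⟨t, ht⟩ : ∃ t : ℝ, t = (q + 1)⁻¹ := ⟨_, rfl⟩
    have t0 : 0 < t := by rw [ht]; positivity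
    have t1 : t * q ≤ 1 := by
      rw [ht, inv_mul_le_iff₀ (by positivity)]
      linarith
    have h := k1 (x0 - ((t : ℂ) * c) • y)
    rw [map_sub, map_smul, norm_sub_sq (𝕜 := ℂ), norm_sub_sq (𝕜 := ℂ), inner_smul_right,
      inner_smul_right, norm_smul, norm_smul, norm_mul, norm_real, Real.norm_of_nonneg t0.le, hx0,
      ← hL, ← inner_conj_symm x0 y, ← inner_conj_symm (A x0) (A y)] at h
    have e : L * RCLike.re ((t : ℂ) * c * conj (inner ℂ y x0)) -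
        RCLike.re ((t : ℂ) * c * conj (inner ℂ (A y) (A x0))) = t * ‖c‖ ^ 2 := by
      have : (t : ℂ) * (c * conj c) = (L : ℂ) * ((t : ℂ) * c * conj (inner ℂ y x0)) -
          (t : ℂ) * c * conj (inner ℂ (A y) (A x0)) := by
        have : conj c = (L : ℂ) * conj (inner ℂ y x0) - conj (inner ℂ (A y) (A x0)) := by
          rw [hc, map_sub, map_mul, conj_ofReal]
        rw [this]
        ring
      rw [Complex.mul_conj', ← ofReal_pow, ← ofReal_mul] at this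
      have h2 := congrArg Complex.re this
      rw [ofReal_re, sub_re, re_ofReal_mul] at h2
      exact h2.symm
    have h3 : 2 * (t * ‖c‖ ^ 2) ≤ t * ‖c‖ ^ 2 * (t * q) := by
      rw [hq]
      nlinarith
    have h4 : t * ‖c‖ ^ 2 ≤ 0 := by
      have : 0 ≤ t * ‖c‖ ^ 2 := by positivity
      nlinarith
    have h5 : ‖c‖ ^ 2 = 0 := le_antisymm (by
      by_contra h6
      exact absurd h4 (not_le.2 (mul_pos t0 (not_le.1 h6)))) (by positivity)
    have h6 : c = 0 := norm_eq_zero.1 (pow_eq_zero_iff two_ne_zero |>.1 h5)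
    rw [h6] at hc
    linear_combination hc
  refine (k1 x).trans (mul_le_mul_of_nonneg_right ?_ (by positivity))
  by_contra hlt
  rw [not_le] at hlt
  have s0 := Real.sqrt_nonneg F
  have L0 : 0 < L := by linarith
  have h := h1 x0 (F / L) (by positivity) fun j => by
    rw [le_div_iff₀ L0]
    refine le_trans ?_ (h2 j)
    rw [mul_assoc]
    refine mul_le_mul_of_nonneg_left ?_ (hl j)
    have a1 : L * ‖inner ℂ (v j) x0‖ ≤ ‖A (v j)‖ * ‖A x0‖ := by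
      have := norm_inner_le_norm (𝕜 := ℂ) (A (v j)) (A x0)
      rwa [k2, norm_mul, norm_real, Real.norm_of_nonneg L0.le] at this
    have a2 := pow_le_pow_left₀ (by positivity) a1 2
    rw [mul_pow, mul_pow, ← hL] at a2
    refine le_of_mul_le_mul_right ?_ L0
    nlinarith
  rw [← hL, hx0] at h
  have a3 : F / L ≤ √F := by
    rw [div_le_iff₀ L0]
    nlinarith [Real.mul_self_sqrt hF]
  linarith

/-- the eigenvector trick -/
theorem eig {ι κ ν : Type*} (S : Finset ι) (T : Finset κ) (D : ι → κ → ℂ) (v : ν → κ → ℂ)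
    (lam : ν → ℝ) {E F : ℝ} (hE : 0 ≤ E) (hF : 0 ≤ F) (hl : ∀ j, 0 ≤ lam j)
    (h1 : ∀ (β : κ → ℂ) (s : ℝ), 0 ≤ s →
      (∀ j, lam j * ‖∑ b ∈ T, β b * conj (v j b)‖ ^ 2 ≤ s) →
      ∑ a ∈ S, ‖∑ b ∈ T, β b * D a b‖ ^ 2 ≤ E * ∑ b ∈ T, ‖β b‖ ^ 2 + s)
    (h2 : ∀ j, lam j * ∑ a ∈ S, ‖∑ b ∈ T, v j b * D a b‖ ^ 2 ≤ F) (β : κ → ℂ) :
    ∑ a ∈ S, ‖∑ b ∈ T, β b * D a b‖ ^ 2 ≤ (E + √F) * ∑ b ∈ T, ‖β b‖ ^ 2 := by
  let e : (κ → ℂ) → EuclideanSpace ℂ T := fun f => WithLp.toLp 2 fun b : T => f b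
  let A : EuclideanSpace ℂ T →ₗ[ℂ] EuclideanSpace ℂ S :=
    { toFun := fun x => WithLp.toLp 2 fun a : S => ∑ b : T, x b * D a b
      map_add' := fun x y => by
        ext a
        simp [add_mul, Finset.sum_add_distrib]
      map_smul' := fun c x => by
        ext a
        simp [Finset.mul_sum, mul_assoc] }
  have n1 : ∀ f, ‖e f‖ ^ 2 = ∑ b ∈ T, ‖f b‖ ^ 2 := fun f => by
    rw [EuclideanSpace.norm_sq_eq, ← Finset.sum_coe_sort T]
  have n2 : ∀ f, ‖A (e f)‖ ^ 2 = ∑ a ∈ S, ‖∑ b ∈ T, f b * D a b‖ ^ 2 := fun f => by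
    rw [EuclideanSpace.norm_sq_eq, ← Finset.sum_coe_sort S]
    refine Finset.sum_congr rfl fun a _ => ?_
    rw [← Finset.sum_coe_sort T]
    rfl
  have n3 : ∀ f g, inner ℂ (e g) (e f) = ∑ b ∈ T, f b * conj (g b) := fun f g => by
    rw [PiLp.inner_apply, ← Finset.sum_coe_sort T]
    rfl
  have sur : ∀ x, ∃ f, e f = x := fun x =>
    ⟨fun b => if h : b ∈ T then x ⟨b, h⟩ else 0, by
      ext b
      simp [e]⟩
  rw [← n1, ← n2]
  refine eig_abs A (fun j => e (v j)) lam hE hF hl (fun x s hs h => ?_) (fun j => ?_) _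
  · obtain ⟨f, rfl⟩ := sur x
    rw [n1, n2]
    refine h1 f s hs fun j => ?_
    rw [← n3]
    exact h j
  · rw [n2]
    exact h2 j

theorem OpN.symm {D : O → ℂ} {A B μ : ℝ} (hμ : 0 ≤ μ) (h : OpN D A B μ) : OpN D B A μ := by
  intro β
  have := duality (ballN B) (ballN A) (fun i j => D (j * i)) hμ h β
  simpa only [mul_comm] using this

theorem OpN.mono {D : O → ℂ} {A B A' B' μ μ' : ℝ} (h : OpN D A B μ) (hA : A' ≤ A) (hB : B' ≤ B)
    (hμ : μ ≤ μ') : OpN D A' B' μ' := by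
  intro β
  have h1 := h fun b => if b ∈ ballN B' then β b else 0
  have e : ∀ {M : Type} [AddCommMonoid M] (f g : O → M), (∀ b ∈ ballN B', f b = g b) →
      (∀ b ∉ ballN B', f b = 0) → ∑ b ∈ ballN B, f b = ∑ b ∈ ballN B', g b := by
    intro M _ f g a1 a2
    rw [← Finset.sum_subset (ballN_mono hB) fun b _ hb => a2 b hb]
    exact Finset.sum_congr rfl a1
  rw [e _ (fun b => ‖β b‖ ^ 2) (fun b hb => by rw [if_pos hb]) fun b hb => by simp [hb]] at h1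
  rw [Finset.sum_congr rfl fun a _ => by
    rw [e _ (fun b => β b * D (a * b)) (fun b hb => by rw [if_pos hb]) fun b hb => by simp [hb]]]
    at h1
  refine le_trans (Finset.sum_le_sum_of_subset_of_nonneg (ballN_mono hA) fun _ _ _ => by positivity)
    (h1.trans (mul_le_mul_of_nonneg_right hμ (by positivity)))

theorem OpN.bil {D : O → ℂ} {A B μ : ℝ} (hμ : 0 ≤ μ) (h : OpN D A B μ) (α β : O → ℂ) :
    ‖∑ a ∈ ballN A, ∑ b ∈ ballN B, α a * β b * D (a * b)‖ ^ 2 ≤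
      μ * (∑ a ∈ ballN A, ‖α a‖ ^ 2) * ∑ b ∈ ballN B, ‖β b‖ ^ 2 := by
  calc _ ≤ (∑ a ∈ ballN A, ‖α a‖ * ‖∑ b ∈ ballN B, β b * D (a * b)‖) ^ 2 := by
        refine pow_le_pow_left₀ (norm_nonneg _) (norm_sum_le_of_le _ fun a _ => ?_) 2
        rw [← norm_mul, Finset.mul_sum]
        simp only [mul_assoc, le_refl]
    _ ≤ (∑ a ∈ ballN A, ‖α a‖ ^ 2) * ∑ a ∈ ballN A, ‖∑ b ∈ ballN B, β b * D (a * b)‖ ^ 2 :=
        Finset.sum_mul_sq_le_sq_mul_sq _ _ _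
    _ ≤ (∑ a ∈ ballN A, ‖α a‖ ^ 2) * (μ * ∑ b ∈ ballN B, ‖β b‖ ^ 2) :=
        mul_le_mul_of_nonneg_left (h β) (by positivity)
    _ = _ := by ring

end

end Vale.Agent.P006
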