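import Vale.Agent.P006.UU3
import Vale.Agent.P006.Bas

namespace Vale.Agent.P006

open Vale.Agent.P026 Complex MeasureTheory Filter Topology
open scoped Classical ComplexConjugate Real MatrixGroups

noncomputable section

theorem uu_summable_WK {X S : ℝ} (hX : 1 ≤ X) (hS : 1 ≤ S) :
    Summable (fun n : O => if n ≠ 0 then ‖WK S 0 (N n / X)‖ else 0) := by
  obtain ⟨C, -, h⟩ := sum_WK_thin (ε := 1) one_pos 0
  exact (h S X 0 hS hX (by simp)).1

theorem uu_summable {X S K : ℝ} (hX : 1 ≤ X) (hS : 1 ≤ S) {f : O → ℂ} (h0 : f 0 = 0)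
    (hf : ∀ n, n ≠ 0 → ‖f n‖ ≤ K) : Summable (fun n : O => f n * WK S 0 (N n / X)) := by
  refine Summable.of_norm_bounded ((uu_summable_WK hX hS).mul_left K) fun n => ?_
  by_cases hn : n = 0
  · subst hn; simp [h0]
  · rw [if_pos hn, norm_mul]
    exact mul_le_mul_of_nonneg_right (hf n hn) (norm_nonneg _)

theorem uu_summable_del {X S R : ℝ} (hX : 1 ≤ X) (hS : 1 ≤ S) (hR : 1 ≤ R) :
    Summable (fun n : O => del R n * WK S 0 (N n / X)) := by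
  obtain ⟨C, -, h⟩ := norm_del_le
  exact uu_summable hX hS (del_eq_zero R fun h => h.ne_zero rfl) fun n _ => h R n hR

theorem uu_err {k : ℝ} (hk : 0 < k) (hk1 : k ≤ 1) : ∃ C : ℝ, 0 < C ∧ ∀ X S R : ℝ, 1 ≤ X → 1 ≤ S →
    1 ≤ R → R ≤ X → ∃ (g : O → ℝ) (E : ℝ), HasSum g E ∧ (∀ n, 0 ≤ g n) ∧
      (∀ n, NN n → (N n ≤ X ^ (1 - k) ∨ X ^ (1 + k) < N n) →
        ‖del R n * WK S 0 (N n / X)‖ ≤ g n) ∧ X ^ 3 * E ≤ C := by
  obtain ⟨Cd, hCd, hd⟩ := norm_del_le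
  obtain ⟨C0, hC0, h0⟩ := card_ballO_le
  set a : ℝ := max 2 (10 / k) with ha
  have ha2 : 2 ≤ a := le_max_left _ _
  have hak : 10 ≤ a * k := by
    have : 10 / k ≤ a := le_max_right _ _
    rwa [div_le_iff₀ hk] at this
  obtain ⟨Ca, hCa, hWa⟩ := WK_le a 0
  obtain ⟨Ct, hCt, hWt⟩ := tail_WK_le ha2 0
  refine ⟨Cd * (C0 * Ca + Ct), by positivity, fun X S R hX hS hR hRX => ?_⟩
  have hX0 : 0 < X := by linarith
  have hHi : 0 < X ^ (1 + k) := Real.rpow_pos_of_pos hX0 _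
  have hs : Summable (fun n : O => if X ^ (1 + k) < N n then ‖WK S 0 (N n / X)‖ else 0) := by
    refine Summable.of_nonneg_of_le (fun n => by split_ifs <;> positivity) (fun n => ?_)
      (uu_summable_WK hX hS)
    by_cases h : X ^ (1 + k) < N n
    · have : n ≠ 0 := by
        rintro rfl
        rw [N_zero] at h; linarith
      rw [if_pos h, if_pos this]
    · rw [if_neg h]; split_ifs <;> positivity
  have hf : HasSum (fun n : O => if n ∈ ballO (X ^ (1 - k)) then Ca * X ^ (-10 : ℝ) else 0)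
      ((ballO (X ^ (1 - k))).card * (Ca * X ^ (-10 : ℝ))) := by
    have := hasSum_sum_of_ne_finset_zero (s := ballO (X ^ (1 - k))) (L := .unconditional O)
      (f := fun n : O => if n ∈ ballO (X ^ (1 - k)) then Ca * X ^ (-10 : ℝ) else 0)
      (fun b hb => if_neg hb)
    rwa [Finset.sum_congr rfl (fun b hb => if_pos hb), Finset.sum_const, nsmul_eq_mul] at this
  have hpos : 0 ≤ Ca * X ^ (-10 : ℝ) := by positivity
  refine ⟨_, _, (hf.add hs.hasSum).mul_left (Cd * R ^ 3), fun n => ?_, fun n hn hr => ?_, ?_⟩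
  · refine mul_nonneg (by positivity) (add_nonneg ?_ ?_) <;> split_ifs <;> positivity
  · rw [norm_mul]
    refine mul_le_mul (hd R n hR) ?_ (norm_nonneg _) (by positivity)
    rcases hr with hr | hr
    · rw [if_pos (mem_ballO.2 ⟨hn.ne_zero, hr⟩)]
      have h1 := hWa S 0 (N n / X) hS (by simp) (div_pos (N_pos hn.ne_zero) hX0)
      have h2 : (N n / X) ^ a ≤ X ^ (-10 : ℝ) := by
        calc (N n / X) ^ a ≤ (X ^ (-k)) ^ a := by
              refine Real.rpow_le_rpow (div_nonneg (N_nonneg _) hX0.le) ?_ (by linarith)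
              rw [div_le_iff₀ hX0]
              refine hr.trans (le_of_eq ?_)
              rw [← Real.rpow_add_one hX0.ne']; ring_nf
          _ = X ^ (-k * a) := by rw [← Real.rpow_mul hX0.le]
          _ ≤ X ^ (-10 : ℝ) := Real.rpow_le_rpow_of_exponent_le hX (by linarith)
      have h3 : (0 : ℝ) ≤ if X ^ (1 + k) < N n then ‖WK S 0 (N n / X)‖ else 0 := by
        split_ifs <;> positivity
      have := mul_le_mul_of_nonneg_left h2 hCa.le
      linarith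
    · rw [if_pos hr]
      have h3 : (0 : ℝ) ≤ if n ∈ ballO (X ^ (1 - k)) then Ca * X ^ (-10 : ℝ) else 0 := by
        split_ifs <;> positivity
      linarith
  · have t1 := hWt S X (X ^ (1 + k)) 0 hS (by simp) hX0 hHi
    have t2 : X ^ (1 + k) * (X / X ^ (1 + k)) ^ a ≤ X ^ (-8 : ℝ) := by
      have e : X / X ^ (1 + k) = X ^ (-k) := by
        rw [div_eq_iff hHi.ne', ← Real.rpow_add hX0]; simp
      rw [e, ← Real.rpow_mul hX0.le, ← Real.rpow_add hX0]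
      exact Real.rpow_le_rpow_of_exponent_le hX (by linarith)
    have t3 : ((ballO (X ^ (1 - k))).card : ℝ) * (Ca * X ^ (-10 : ℝ)) ≤ C0 * Ca * X ^ (-8 : ℝ) := by
      calc ((ballO (X ^ (1 - k))).card : ℝ) * (Ca * X ^ (-10 : ℝ))
          ≤ C0 * X ^ (1 - k) * (Ca * X ^ (-10 : ℝ)) :=
            mul_le_mul_of_nonneg_right (h0 _ (by positivity)) hpos
        _ = C0 * Ca * X ^ (1 - k + -10) := by rw [Real.rpow_add hX0]; ring
        _ ≤ C0 * Ca * X ^ (-8 : ℝ) := mul_le_mul_of_nonneg_left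
            (Real.rpow_le_rpow_of_exponent_le hX (by linarith)) (by positivity)
    have t4 : Ct * X ^ (1 + k) * (X / X ^ (1 + k)) ^ a ≤ Ct * X ^ (-8 : ℝ) := by
      rw [mul_assoc]; exact mul_le_mul_of_nonneg_left t2 hCt.le
    have t5 : X ^ 3 * X ^ 3 * X ^ (-8 : ℝ) ≤ 1 := by
      rw [← Real.rpow_natCast, ← Real.rpow_add hX0, ← Real.rpow_add hX0]
      exact Real.rpow_le_one_of_one_le_of_nonpos hX (by norm_num)
    have t6 : R ^ 3 ≤ X ^ 3 := pow_le_pow_left₀ (by linarith) hRX 3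
    have t7 : (0 : ℝ) ≤ X ^ (-8 : ℝ) := by positivity
    calc X ^ 3 * (Cd * R ^ 3 * (((ballO (X ^ (1 - k))).card : ℝ) * (Ca * X ^ (-10 : ℝ)) +
          ∑' n : O, if X ^ (1 + k) < N n then ‖WK S 0 (N n / X)‖ else 0))
        ≤ X ^ 3 * (Cd * X ^ 3 * ((C0 * Ca + Ct) * X ^ (-8 : ℝ))) := by
          refine mul_le_mul_of_nonneg_left (mul_le_mul (mul_le_mul_of_nonneg_left t6 hCd.le)
            (by linarith) ?_ (by positivity)) (by positivity)
          exact add_nonneg (by positivity) (tsum_nonneg fun n => by split_ifs <;> positivity)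
      _ = Cd * (C0 * Ca + Ct) * (X ^ 3 * X ^ 3 * X ^ (-8 : ℝ)) := by ring
      _ ≤ Cd * (C0 * Ca + Ct) := mul_le_of_le_one_right (by positivity) t5

theorem uu_J {δ K : ℝ} (hδ : 0 < δ) (hK : 1 ≤ K) : ∃ C : ℝ, 0 < C ∧ ∀ X : ℝ, 1 ≤ X →
    ∃ J : ℕ, (∀ m : ℕ, (m : ℝ) ≤ K * X → m < 2 ^ J) ∧ (J : ℝ) ≤ C * X ^ δ := by
  have hl : 0 < Real.log 2 := Real.log_pos (by norm_num)
  refine ⟨K ^ δ / (δ * Real.log 2) + 1, by positivity, fun X hX => ?_⟩
  have hKX : 1 ≤ K * X := one_le_mul_of_one_le_of_one_le hK hX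
  refine ⟨Nat.log 2 ⌊K * X⌋₊ + 1, fun m hm => (Nat.le_floor hm).trans_lt
    (Nat.lt_pow_succ_log_self (by norm_num) _), ?_⟩
  have h1 : ⌊K * X⌋₊ ≠ 0 := (Nat.floor_pos.2 hKX).ne'
  have h2 : ((2 ^ Nat.log 2 ⌊K * X⌋₊ : ℕ) : ℝ) ≤ K * X :=
    le_trans (by exact_mod_cast Nat.pow_log_le_self 2 h1) (Nat.floor_le (by linarith))
  push_cast at h2
  have h3 : (Nat.log 2 ⌊K * X⌋₊ : ℝ) * Real.log 2 ≤ (K * X) ^ δ / δ := by
    rw [← Real.log_pow]
    exact (Real.log_le_log (by positivity) h2).trans (Real.log_le_rpow_div (by linarith) hδ)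
  have h4 : 1 ≤ X ^ δ := Real.one_le_rpow hX hδ.le
  rw [Real.mul_rpow (by linarith) (by linarith)] at h3
  have h5 : (Nat.log 2 ⌊K * X⌋₊ : ℝ) ≤ K ^ δ / (δ * Real.log 2) * X ^ δ := by
    rw [← le_div_iff₀ hl] at h3
    refine h3.trans (le_of_eq ?_)
    field_simp
  push_cast
  linarith

theorem uu_mem_Win (X η : ℝ) (p : O) : p ∈ Win X η ↔ NN p ∧ Prime p ∧
    X ^ (1 / 3 - 2 * η) ≤ N p ∧ N p < X ^ (1 / 3 + η) := by
  unfold Win PP
  simp only [Finset.mem_filter, mem_ballN]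
  exact ⟨fun h => ⟨h.1.1.1, h.1.2, h.2⟩, fun h => ⟨⟨⟨h.1, h.2.2.2.le⟩, h.2.1⟩, h.2.2⟩⟩

/-- reduction of the prime sum to type I, type II and the three-prime box -/
theorem uu_red {η κ2 C2 δ : ℝ} (hη : 0 < η) (hη' : η ≤ 1 / 100) (hκ2 : 0 < κ2) (hC2 : 0 ≤ C2)
    (hδ : 0 < δ) : ∃ C : ℝ, 0 < C ∧ ∃ X0 : ℝ, ∀ X R S : ℝ, X0 ≤ X → 1 ≤ R → R ≤ X → 1 ≤ S →
      (∀ A B : ℝ, 1 ≤ A → A ≤ X ^ (2 / 3 - η / 2) → 1 ≤ B → B ≤ X ^ (2 / 3 - η / 2) →
        A * B ≤ X ^ (1 + κ2) → OpN (del R) A B (C2 * X ^ (2 / 3 - 3 * κ2))) →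
      ‖∑' n : O, (if NN n ∧ Prime n then del R n * WK S 0 (N n / X) else 0)‖ ≤
        ‖∑ d ∈ ballN (X ^ (1 / 3 + 1 / 100 : ℝ)), uuC (X ^ (1 / 3 + η)) d *
          ∑' m : O, del R (d * m) * WK S 0 (N (d * m) / X)‖ +
        ‖∑ a ∈ Win X η, ∑ b ∈ Win X η, ∑ c ∈ Win X η,
          del R (a * b * c) * WK S 0 (N (a * b * c) / X)‖ / 3 +
        C * (X ^ (5 / 6 - κ2 + 2 * δ) + 1) := by
  obtain ⟨C0, hC0, h0⟩ := card_ballO_le
  obtain ⟨M, hM, hMr⟩ := mrep_WK 0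
  set k : ℝ := min (η / 2) (κ2 / 2) with hk
  have hk0 : 0 < k := lt_min (by linarith) (by linarith)
  have hkη : k ≤ η / 2 := min_le_left _ _
  have hkκ : k ≤ κ2 / 2 := min_le_right _ _
  obtain ⟨Ce, hCe, hE⟩ := uu_err hk0 (by linarith)
  obtain ⟨CJ, hCJ, hJ⟩ := uu_J hδ (K := C0 + 1) (by linarith)
  refine ⟨2 * (CJ ^ 2 * M * √C2 * C0) + 5 * (C0 + 1) ^ 3 * Ce, by positivity,
    max 2 (2 ^ (2 / κ2)), fun X R S hX hR hRX hS hOp => ?_⟩
  have hX2 : 2 ≤ X := (le_max_left _ _).trans hX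
  have hX1 : 1 < X := by linarith
  have hX0 : 0 < X := by linarith
  have hXκ : 2 ≤ X ^ (κ2 / 2) := by
    have := Real.rpow_le_rpow (by positivity) ((le_max_right _ _).trans hX) (z := κ2 / 2)
      (by positivity)
    rwa [← Real.rpow_mul (by norm_num), show 2 / κ2 * (κ2 / 2) = 1 by field_simp,
      Real.rpow_one] at this
  have mono : ∀ {a b : ℝ}, a ≤ b → X ^ a ≤ X ^ b := fun h =>
    Real.rpow_le_rpow_of_exponent_le hX1.le h
  have le1 : ∀ {a : ℝ}, a ≤ 1 → X ^ a ≤ X := fun h => (mono h).trans (Real.rpow_one X).le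
  have hcard : ∀ {a : ℝ}, a ≤ 1 → ((ballN (X ^ a)).card : ℝ) ≤ (C0 + 1) * X := fun h =>
    (uu_card_ballN h0 (by positivity)).trans (by nlinarith [le1 h])
  obtain ⟨g, E, hg, hg0, hFg, hEC⟩ := hE X S R hX1.le hS hR hRX
  obtain ⟨J, hJ1, hJ2⟩ := hJ X hX1.le
  have main := uu_decomp (F := fun n => del R n * WK S 0 (N n / X)) (W := Win X η)
    (D := X ^ (1 / 3 + η)) (z := X ^ (1 / 3 - 2 * η)) (Y := X ^ (2 / 3 - η / 2))
    (Y1 := X ^ (1 / 3 + 1 / 100 : ℝ)) (T := X ^ (1 + κ2)) (Lo := X ^ (1 - k)) (Hi := X ^ (1 + k))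
    (K := (C0 + 1) * X) (uu_summable_del hX1.le hS hR)
    (fun n hn => by rw [del_eq_zero R hn, zero_mul])
    (Real.one_lt_rpow hX1 (by linarith)) (mono (by linarith))
    (by rw [← Real.rpow_natCast, ← Real.rpow_mul hX0.le]; exact mono (by push_cast; linarith))
    (by rw [← Real.rpow_natCast, ← Real.rpow_mul hX0.le]; exact mono (by push_cast; linarith))
    (by rw [← Real.rpow_add hX0]; exact mono (by linarith))
    (by rw [← Real.rpow_add hX0]; exact mono (by linarith))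
    (by
      calc 2 * X ^ (1 + k) ≤ X ^ (κ2 / 2) * X ^ (1 + k) :=
            mul_le_mul_of_nonneg_right hXκ (by positivity)
        _ ≤ X ^ (1 + κ2) := by rw [← Real.rpow_add hX0]; exact mono (by linarith))
    (mono (by linarith)) (uu_mem_Win X η) (by nlinarith) (hcard (by norm_num))
    (hcard (by linarith))
    (le_trans (by
      exact_mod_cast (Finset.card_filter_le _ _).trans (Finset.card_filter_le _ _))
      (hcard (a := 1 / 3 + η) (by linarith))) hg hg0 hFg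
  have hY1 : 1 ≤ X ^ (2 / 3 - η / 2) := Real.one_le_rpow hX1.le (by linarith)
  have hYX : X ^ (2 / 3 - η / 2) ≤ X := le1 (by linarith)
  have hu : ∀ a ∈ ballN (X ^ (2 / 3 - η / 2)), uuU a < 2 ^ J := by
    intro a ha
    obtain ⟨a1, a2⟩ := mem_ballN.1 ha
    apply hJ1
    have b1 : ((uuU a : ℕ) : ℝ) ≤ (ballO (N (uuPm a))).card := by exact_mod_cast uuKey_le _
    have b2 := h0 _ (N_nonneg (uuPm a))
    have b3 := mul_le_mul_of_nonneg_left ((N_uuPm_le a1).trans (a2.trans hYX)) hC0.le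
    linarith
  have hN : ∀ a ∈ ballN (X ^ (2 / 3 - η / 2)), Nm a < 2 ^ J := by
    intro a ha
    apply hJ1
    have : N a ≤ X := (mem_ballN.1 ha).2.trans hYX
    unfold N at this
    nlinarith
  have hμ : 0 ≤ C2 * X ^ (2 / 3 - 3 * κ2) := by positivity
  have hMS : MRep (WK S 0) 0 M := hMr S 0 0 hS (by simp) (by simp)
  have bA := uu_typeII hOp hμ hM.le hMS hC0.le h0 hX0 hY1 (by positivity) J hu hN
    (norm_uuA_le (X ^ (1 / 3 + η)) (X ^ (1 / 3 - 2 * η))) (β := fun _ => 1)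
    (fun _ => norm_one.le)
  have bB := uu_typeII hOp hμ hM.le hMS hC0.le h0 hX0 hY1 (by positivity) J hu hN
    (norm_uuB_le (X ^ (1 / 3 + η)) (X ^ (1 / 3 - 2 * η))) (norm_uuB'_le (X ^ (1 / 3 + η)))
  have bJ : (J : ℝ) * (M * J * √(C2 * X ^ (2 / 3 - 3 * κ2)) * C0 * √(X ^ (1 + κ2))) ≤
      CJ ^ 2 * M * √C2 * C0 * X ^ (5 / 6 - κ2 + 2 * δ) := by
    have e1 : √(C2 * X ^ (2 / 3 - 3 * κ2)) * √(X ^ (1 + κ2)) = √C2 * X ^ (5 / 6 - κ2) := by
      rw [Real.sqrt_mul hC2, mul_assoc, Real.sqrt_eq_rpow (X ^ _), Real.sqrt_eq_rpow (X ^ _),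
        ← Real.rpow_mul hX0.le, ← Real.rpow_mul hX0.le, ← Real.rpow_add hX0]
      congr 2; ring
    have e2 : (J : ℝ) ^ 2 ≤ CJ ^ 2 * X ^ (2 * δ) := by
      calc (J : ℝ) ^ 2 ≤ (CJ * X ^ δ) ^ 2 := pow_le_pow_left₀ (Nat.cast_nonneg _) hJ2 2
        _ = CJ ^ 2 * X ^ (2 * δ) := by
          rw [mul_pow, ← Real.rpow_natCast (X ^ δ), ← Real.rpow_mul hX0.le]; congr 2; push_cast; ring
    calc (J : ℝ) * (M * J * √(C2 * X ^ (2 / 3 - 3 * κ2)) * C0 * √(X ^ (1 + κ2)))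
        = (J : ℝ) ^ 2 * (M * C0 * (√(C2 * X ^ (2 / 3 - 3 * κ2)) * √(X ^ (1 + κ2)))) := by ring
      _ ≤ CJ ^ 2 * X ^ (2 * δ) * (M * C0 * (√C2 * X ^ (5 / 6 - κ2))) := by
          rw [e1]; exact mul_le_mul_of_nonneg_right e2 (by positivity)
      _ = _ := by rw [Real.rpow_add hX0]; ring
  have bE : 5 * ((C0 + 1) * X) ^ 3 * E ≤ 5 * (C0 + 1) ^ 3 * Ce := by
    calc 5 * ((C0 + 1) * X) ^ 3 * E = 5 * (C0 + 1) ^ 3 * (X ^ 3 * E) := by ring
      _ ≤ _ := mul_le_mul_of_nonneg_left hEC (by positivity)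
  have p1 : 0 ≤ CJ ^ 2 * M * √C2 * C0 := by positivity
  have p2 : 0 ≤ 5 * (C0 + 1) ^ 3 * Ce * X ^ (5 / 6 - κ2 + 2 * δ) := by positivity
  nlinarith

end

end Vale.Agent.P006
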