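import Vale.Agent.P006.T1
import Vale.Agent.P006.T2
import Vale.Agent.P006.S2
import Vale.Agent.P006.S2M
import Vale.Agent.P006.Const
import Vale.Agent.P006.UU4

namespace Vale.Agent.P006

open Vale.Agent.P026 Complex MeasureTheory Filter Topology
open scoped Classical ComplexConjugate Real MatrixGroups

noncomputable section

theorem uu_split {X S R : ℝ} (hX : 1 ≤ X) (hS : 1 ≤ S) (hR : 1 ≤ R) :
    ∑' p : O, (if NN p ∧ Prime p then
        (G p - (cst : ℂ) * ((N p ^ (-(1 / 6) : ℝ) : ℝ) : ℂ)) * WK S 0 (N p / X) else 0) =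
      ∑' p : O, (if NN p ∧ Prime p then del R p * WK S 0 (N p / X) else 0) +
      ∑' p : O, (if NN p ∧ Prime p then
        (mdl R p - cc 1 * ((N p ^ (-(1 / 6) : ℝ) : ℝ) : ℂ)) * WK S 0 (N p / X) else 0) := by
  obtain ⟨C, hC, hm⟩ := norm_mdl_le
  have s1 : Summable (fun p : O => if NN p ∧ Prime p then del R p * WK S 0 (N p / X) else 0) := by
    refine Summable.of_norm_bounded (uu_summable_del hX hS hR).norm fun n => ?_
    split_ifs
    · exact le_rfl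
    · rw [norm_zero]; exact norm_nonneg _
  have s2 : Summable (fun p : O => if NN p ∧ Prime p then
      (mdl R p - cc 1 * ((N p ^ (-(1 / 6) : ℝ) : ℝ) : ℂ)) * WK S 0 (N p / X) else 0) := by
    have := uu_summable (K := C * R ^ 3 + ‖cc 1‖) hX hS (f := fun p => if NN p ∧ Prime p then
      (mdl R p - cc 1 * ((N p ^ (-(1 / 6) : ℝ) : ℝ) : ℂ)) else 0)
      (if_neg fun h => h.1.ne_zero rfl) (fun n hn => by
        have h1 : N n ^ (-(1 / 6) : ℝ) ≤ 1 :=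
          Real.rpow_le_one_of_one_le_of_nonpos (one_le_N hn) (by norm_num)
        have h2 : 0 ≤ N n ^ (-(1 / 6) : ℝ) := Real.rpow_nonneg (N_nonneg _) _
        have h3 : 0 ≤ C * R ^ 3 := by positivity
        split_ifs
        · refine (norm_sub_le _ _).trans (add_le_add ((hm R n hR).trans
            (mul_le_of_le_one_right h3 h1)) ?_)
          rw [norm_mul, Complex.norm_real, Real.norm_of_nonneg h2]
          exact mul_le_of_le_one_right (norm_nonneg _) h1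
        · rw [norm_zero]; positivity)
    refine this.congr fun n => ?_
    split_ifs
    · rfl
    · exact zero_mul _
  rw [← s1.tsum_add s2]
  refine tsum_congr fun p => ?_
  split_ifs
  · unfold del; rw [cc_one]; ring
  · exact (add_zero _).symm

/-- uniform Gaussian bound -/
theorem uu : ∃ c : ℝ, 0 < c ∧ ∀ ε > (0 : ℝ), ∃ κ : ℝ, 0 < κ ∧ ∃ X0 : ℝ, ∀ X S : ℝ,
    X0 ≤ X → 1 ≤ S → S ≤ X ^ (1 / 6 + 1 / 1000 : ℝ) →
      ‖∑' p : O, (if NN p ∧ Prime p then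
          (G p - (cst : ℂ) * ((N p ^ (-(1 / 6) : ℝ) : ℝ) : ℂ)) * WK S 0 (N p / X) else 0)‖ ≤
        ε * S ^ (-c) * X ^ (5 / 6 : ℝ) / Real.log X + X ^ (5 / 6 - κ) := by
  obtain ⟨c2, hc2, hs2⟩ := s2
  obtain ⟨ρm, hρm, hsm⟩ := s2m
  obtain ⟨ρp, hρp, κp, hκp, Cp, hprm⟩ := prm
  obtain ⟨ρ1, hρ1, κ1, hκ1, C1, hti⟩ := ti1
  refine ⟨min c2 1, lt_min hc2 one_pos, fun ε hε => ?_⟩
  obtain ⟨η2, hη2, hs2⟩ := hs2 ε hε
  obtain ⟨ηm, hηm, hsm⟩ := hsm ε hε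
  set η : ℝ := min (min η2 ηm) (1 / 100) with hηdef
  have hη : 0 < η := lt_min (lt_min hη2 hηm) (by norm_num)
  have hη' : η ≤ 1 / 100 := min_le_right _ _
  obtain ⟨κs, hκs, Xs, hs2⟩ := hs2 η hη ((min_le_left _ _).trans (min_le_left _ _))
  obtain ⟨κm, hκm, Xm, hsm⟩ := hsm η hη ((min_le_left _ _).trans (min_le_right _ _))
  obtain ⟨ρ2, hρ2, ht2⟩ := t2 (η := η / 2) (by linarith) (by linarith)
  obtain ⟨ρ, hρ, r1, r2, r3, r4, r5⟩ : ∃ ρ : ℝ, 0 < ρ ∧ ρ ≤ ρm ∧ ρ ≤ ρp ∧ ρ ≤ ρ1 ∧ ρ ≤ ρ2 ∧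
      ρ ≤ 1 :=
    ⟨min (min (min ρm ρp) (min ρ1 ρ2)) 1, by positivity, by simp, by simp, by simp, by simp,
      by simp⟩
  obtain ⟨κ2, hκ2, C2, hC2, ht2⟩ := ht2 ρ hρ r4
  obtain ⟨κ, hκ, k1, k2, k3, k4, k5, k6⟩ : ∃ κ : ℝ, 0 < κ ∧ κ ≤ κp ∧ κ ≤ κ1 ∧ κ ≤ κs ∧ κ ≤ κm ∧
      κ ≤ κ2 / 2 ∧ κ ≤ 5 / 6 :=
    ⟨min (min (min κp κ1) (min κs κm)) (min (κ2 / 2) (5 / 6)), by positivity, by simp, by simp,
      by simp, by simp, by simp, by simp⟩
  obtain ⟨Cr, hCr, Xr, hred⟩ := uu_red hη hη' hκ2 hC2 (δ := κ2 / 4) (by linarith)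
  set Ct : ℝ := |C1| + |Cp| + 1 + 2 * Cr with hCt
  have hCt0 : 0 < Ct := by positivity
  refine ⟨κ / 2, by linarith, max (max (max Xs Xm) (max Xr 2)) (Ct ^ (2 / κ)),
    fun X S hX hS hSX => ?_⟩
  simp only [max_le_iff] at hX
  obtain ⟨⟨⟨x1, x2⟩, x3, x4⟩, x5⟩ := hX
  have hX1 : 1 < X := by linarith
  have hX0 : 0 < X := by linarith
  have mono : ∀ {a b : ℝ}, a ≤ b → X ^ a ≤ X ^ b := fun h =>
    Real.rpow_le_rpow_of_exponent_le hX1.le h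
  have hR : 1 ≤ X ^ ρ := Real.one_le_rpow hX1.le hρ.le
  have hXκ : Ct ≤ X ^ (κ / 2) := by
    have := Real.rpow_le_rpow (by positivity) x5 (z := κ / 2) (by positivity)
    rwa [← Real.rpow_mul hCt0.le, show 2 / κ * (κ / 2) = 1 by field_simp,
      Real.rpow_one] at this
  have b1 := hred X (X ^ ρ) S x3 hR ((mono r5).trans (Real.rpow_one X).le) hS
    (fun A B a1 a2 a3 a4 a5 => ht2 X A B hX1.le a1 a2 a3 a4 a5)
  have b2 := hti X (X ^ ρ) S (uuC (X ^ (1 / 3 + η))) hX1.le hR (mono r3) hS hSX (norm_uuC_le _)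
  have b3 := hs2 X S x1 hS hSX
  have b4 := hsm X (X ^ ρ) S x2 hR (mono r1) hS
  have b5 := hprm X (X ^ ρ) S hX1.le hR (mono r2) hS
  have e3 : ∑ a ∈ Win X η, ∑ b ∈ Win X η, ∑ c ∈ Win X η,
      del (X ^ ρ) (a * b * c) * WK S 0 (N (a * b * c) / X) =
      ∑ a ∈ Win X η, ∑ b ∈ Win X η, ∑ c ∈ Win X η, G (a * b * c) * WK S 0 (N (a * b * c) / X) -
      ∑ a ∈ Win X η, ∑ b ∈ Win X η, ∑ c ∈ Win X η,
        mdl (X ^ ρ) (a * b * c) * WK S 0 (N (a * b * c) / X) := by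
    simp only [← Finset.sum_sub_distrib, del, sub_mul]
  rw [e3] at b1
  have t1 := norm_sub_le
    (∑ a ∈ Win X η, ∑ b ∈ Win X η, ∑ c ∈ Win X η, G (a * b * c) * WK S 0 (N (a * b * c) / X))
    (∑ a ∈ Win X η, ∑ b ∈ Win X η, ∑ c ∈ Win X η,
        mdl (X ^ ρ) (a * b * c) * WK S 0 (N (a * b * c) / X))
  rw [uu_split hX1.le hS hR]
  refine (norm_add_le _ _).trans ?_
  have hlog : 0 < Real.log X := Real.log_pos hX1
  have m1 : ε * S ^ (-c2) * X ^ (5 / 6 : ℝ) / Real.log X ≤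
      ε * S ^ (-min c2 1) * X ^ (5 / 6 : ℝ) / Real.log X := by
    have : S ^ (-c2) ≤ S ^ (-min c2 1) :=
      Real.rpow_le_rpow_of_exponent_le hS (neg_le_neg (min_le_left _ _))
    gcongr
  have m2 : ε * S⁻¹ * X ^ (5 / 6 : ℝ) / Real.log X ≤
      ε * S ^ (-min c2 1) * X ^ (5 / 6 : ℝ) / Real.log X := by
    have : S⁻¹ ≤ S ^ (-min c2 1) := by
      rw [← Real.rpow_neg_one]
      exact Real.rpow_le_rpow_of_exponent_le hS (neg_le_neg (min_le_right _ _))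
    gcongr
  have m0 : 0 ≤ ε * S ^ (-min c2 1) * X ^ (5 / 6 : ℝ) / Real.log X := by positivity
  set Z : ℝ := X ^ (5 / 6 - κ) with hZ
  have hZ0 : 0 ≤ Z := by positivity
  have z1 : C1 * X ^ (5 / 6 - κ1) ≤ |C1| * Z :=
    mul_le_mul (le_abs_self _) (mono (by linarith)) (by positivity) (abs_nonneg _)
  have z2 : Cp * X ^ (5 / 6 - κp) ≤ |Cp| * Z :=
    mul_le_mul (le_abs_self _) (mono (by linarith)) (by positivity) (abs_nonneg _)
  have z3 : X ^ (5 / 6 - κs) ≤ Z := mono (by linarith)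
  have z4 : X ^ (5 / 6 - κm) ≤ Z := mono (by linarith)
  have z5 : Cr * (X ^ (5 / 6 - κ2 + 2 * (κ2 / 4)) + 1) ≤ Cr * (Z + Z) :=
    mul_le_mul_of_nonneg_left (add_le_add (mono (by linarith))
      (Real.one_le_rpow hX1.le (by linarith))) hCr.le
  have z6 : Ct * Z ≤ X ^ (5 / 6 - κ / 2) := by
    calc Ct * Z ≤ X ^ (κ / 2) * Z := mul_le_mul_of_nonneg_right hXκ hZ0
      _ = X ^ (5 / 6 - κ / 2) := by rw [hZ, ← Real.rpow_add hX0]; congr 1; ring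
  have z7 : Ct * Z = |C1| * Z + |Cp| * Z + Z + Cr * (Z + Z) := by rw [hCt]; ring
  linarith

end

end Vale.Agent.P006
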