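import Vale.Agent.P006.Defs
import Vale.Agent.P026.Div

namespace Vale.Agent.P006

open Vale.Agent.P026 Complex MeasureTheory Filter Topology
open scoped Classical ComplexConjugate Real MatrixGroups

noncomputable section

/-! ### an injective key refining the norm -/

def uuEnc : O → ℕ := (exists_injective_nat O).choose

theorem uuEnc_inj : Function.Injective uuEnc := (exists_injective_nat O).choose_spec

def uuLk (x : O) : ℕ ×ₗ ℕ := toLex (Nm x, uuEnc x)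

theorem uuLk_inj : Function.Injective uuLk := fun _ _ h =>
  uuEnc_inj (congrArg (fun z => (ofLex z).2) h)

theorem uuLk_N {x y : O} (h : uuLk x ≤ uuLk y) : N x ≤ N y := by
  have := Prod.Lex.toLex_le_toLex.1 h
  unfold N
  rcases this with h | h
  · exact_mod_cast h.le
  · exact_mod_cast h.1.le

def uuKey (x : O) : ℕ := ((ballO (N x)).filter (fun y => uuLk y < uuLk x)).card

theorem uuKey_lt {x y : O} (hx : x ≠ 0) (h : uuLk x < uuLk y) : uuKey x < uuKey y := by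
  apply Finset.card_lt_card
  rw [Finset.ssubset_iff_of_subset]
  · exact ⟨x, Finset.mem_filter.2 ⟨mem_ballO.2 ⟨hx, uuLk_N h.le⟩, h⟩,
      fun h' => lt_irrefl _ (Finset.mem_filter.1 h').2⟩
  · intro z hz
    obtain ⟨h1, h2⟩ := Finset.mem_filter.1 hz
    exact Finset.mem_filter.2 ⟨ballO_mono (uuLk_N h.le) h1, h2.trans h⟩

theorem uuKey_le (x : O) : uuKey x ≤ (ballO (N x)).card := Finset.card_filter_le _ _

/-! ### the smallest prime factor -/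

def uuPf (n : O) : Finset O := (divs n).filter Prime

theorem mem_uuPf {n p : O} (hn : NN n) : p ∈ uuPf n ↔ Prime p ∧ Prim p ∧ p ∣ n := by
  unfold uuPf
  rw [Finset.mem_filter, mem_divs hn.ne_zero]
  exact ⟨fun h => ⟨h.2, h.1.1.1, h.1.2⟩, fun h => ⟨⟨hn.of_dvd h.2.1 h.2.2, h.2.2⟩, h.1⟩⟩

def uuPm (n : O) : O :=
  if h : (uuPf n).Nonempty then (Finset.exists_min_image (uuPf n) uuLk h).choose else 1

theorem uuPm_spec {n : O} (hn : NN n) (h1 : n ≠ 1) :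
    Prime (uuPm n) ∧ Prim (uuPm n) ∧ uuPm n ∣ n ∧
      ∀ q, Prime q → Prim q → q ∣ n → uuLk (uuPm n) ≤ uuLk q := by
  obtain ⟨p, m, hp, hP, -, rfl⟩ := bas_prime_factor hn.1 h1
  have hne : (uuPf (p * m)).Nonempty := ⟨p, (mem_uuPf hn).2 ⟨hp, hP, dvd_mul_right _ _⟩⟩
  have hs := (Finset.exists_min_image (uuPf (p * m)) uuLk hne).choose_spec
  have e : uuPm (p * m) = (Finset.exists_min_image (uuPf (p * m)) uuLk hne).choose := dif_pos hne
  rw [← e] at hs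
  obtain ⟨a, b, c⟩ := (mem_uuPf hn).1 hs.1
  exact ⟨a, b, c, fun q q1 q2 q3 => hs.2 q ((mem_uuPf hn).2 ⟨q1, q2, q3⟩)⟩

theorem uuPm_one : uuPm 1 = 1 := by
  unfold uuPm
  rw [dif_neg]
  rintro ⟨p, hp⟩
  obtain ⟨a, -, c⟩ := (mem_uuPf nn_one).1 hp
  exact a.not_isUnit (isUnit_of_dvd_one c)

theorem uuPm_eq {n e : O} (hn : NN n) (he : NN e) (hen : e ∣ n) (h1 : n ≠ 1)
    (h : uuPm n ∣ e) : uuPm e = uuPm n := by
  obtain ⟨a, b, -, d⟩ := uuPm_spec hn h1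
  have he1 : e ≠ 1 := by
    rintro rfl
    exact a.not_isUnit (isUnit_of_dvd_one h)
  obtain ⟨a', b', c', d'⟩ := uuPm_spec he he1
  exact uuLk_inj (le_antisymm (d' _ a b h) (d _ a' b' (c'.trans hen)))

theorem N_uuPm_le {n : O} (hn : NN n) : N (uuPm n) ≤ N n := by
  by_cases h1 : n = 1
  · rw [h1, uuPm_one]
  · exact N_le_of_dvd (uuPm_spec hn h1).2.2.1 hn.ne_zero

/-! ### factorisations -/

def uuPrs (n : O) : Finset (O × O) := (divs n ×ˢ divs n).filter (fun x => x.1 * x.2 = n)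

theorem mem_uuPrs {n : O} (hn : n ≠ 0) {x : O × O} :
    x ∈ uuPrs n ↔ NN x.1 ∧ NN x.2 ∧ x.1 * x.2 = n := by
  unfold uuPrs
  rw [Finset.mem_filter, Finset.mem_product, mem_divs hn, mem_divs hn]
  exact ⟨fun h => ⟨h.1.1.1, h.1.2.1, h.2⟩,
    fun h => ⟨⟨⟨h.1, ⟨_, h.2.2.symm⟩⟩, ⟨h.2.1, ⟨x.1, by rw [← h.2.2, mul_comm]⟩⟩⟩, h.2.2⟩⟩

theorem uuPrs_one : uuPrs 1 = {(1, 1)} := by
  ext x
  rw [mem_uuPrs one_ne_zero, Finset.mem_singleton]
  constructor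
  · rintro ⟨h1, h2, h3⟩
    exact Prod.ext (h1.1.eq_one_of_isUnit (IsUnit.of_mul_eq_one _ h3))
      (h2.1.eq_one_of_isUnit (IsUnit.of_mul_eq_one_right _ h3))
  · rintro rfl
    exact ⟨nn_one, nn_one, one_mul _⟩

theorem uu_not_dvd {p m : O} (hp : Prime p) (hP : Prim p) (hm : Prim m) (h : NN (p * m)) :
    ¬ p ∣ m := fun hd =>
  hp.not_isUnit (((nn_mul_iff hP hm).1 h).2.2.isUnit_of_dvd' dvd_rfl hd)

theorem uuPrs_split {p m : O} (hp : Prime p) (hP : Prim p) (hm : Prim m) (h : NN (p * m))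
    (f : O → O → ℂ) :
    ∑ x ∈ uuPrs (p * m), f x.1 x.2 = ∑ x ∈ uuPrs m, (f x.1 (p * x.2) + f (p * x.1) x.2) := by
  have hnd := uu_not_dvd hp hP hm h
  rw [Finset.sum_add_distrib, ← Finset.sum_filter_add_sum_filter_not (uuPrs (p * m))
    (fun x => p ∣ x.2)]
  congr 1
  · symm
    refine Finset.sum_bij (fun x _ => (x.1, p * x.2)) ?_ ?_ ?_ (fun _ _ => rfl)
    · intro x hx
      obtain ⟨h1, h2, h3⟩ := (mem_uuPrs hm.ne_zero).1 hx
      refine Finset.mem_filter.2 ⟨(mem_uuPrs h.ne_zero).2 ⟨h1, ?_, ?_⟩, dvd_mul_right _ _⟩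
      · exact h.of_dvd (hP.mul h2.1) ⟨x.1, by rw [← h3]; ring⟩
      · rw [← h3]; ring
    · intro x _ y _ hxy
      obtain ⟨e1, e2⟩ := Prod.ext_iff.1 hxy
      exact Prod.ext e1 (mul_left_cancel₀ hp.ne_zero e2)
    · rintro ⟨a, b⟩ hx
      obtain ⟨hx, c, rfl⟩ := Finset.mem_filter.1 hx
      obtain ⟨h1, h2, h3⟩ := (mem_uuPrs h.ne_zero).1 hx
      refine ⟨(a, c), (mem_uuPrs hm.ne_zero).2 ⟨h1, ?_, ?_⟩, rfl⟩
      · exact h2.of_dvd (h2.1.of_mul hP) (dvd_mul_left _ _)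
      · apply mul_left_cancel₀ hp.ne_zero
        rw [← h3]; ring
  · symm
    refine Finset.sum_bij (fun x _ => (p * x.1, x.2)) ?_ ?_ ?_ (fun _ _ => rfl)
    · intro x hx
      obtain ⟨h1, h2, h3⟩ := (mem_uuPrs hm.ne_zero).1 hx
      refine Finset.mem_filter.2 ⟨(mem_uuPrs h.ne_zero).2 ⟨?_, h2, ?_⟩, fun hd => hnd ?_⟩
      · exact h.of_dvd (hP.mul h1.1) ⟨x.2, by rw [← h3]; ring⟩
      · rw [← h3]; ring
      · rw [← h3]; exact hd.mul_left _
    · intro x _ y _ hxy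
      obtain ⟨e1, e2⟩ := Prod.ext_iff.1 hxy
      exact Prod.ext (mul_left_cancel₀ hp.ne_zero e1) e2
    · rintro ⟨a, b⟩ hx
      obtain ⟨hx, hb⟩ := Finset.mem_filter.1 hx
      obtain ⟨h1, h2, h3⟩ := (mem_uuPrs h.ne_zero).1 hx
      have : p ∣ a * b := ⟨m, h3⟩
      obtain ⟨c, rfl⟩ := (hp.dvd_or_dvd this).resolve_right hb
      refine ⟨(c, b), (mem_uuPrs hm.ne_zero).2 ⟨?_, h2, ?_⟩, rfl⟩
      · exact h1.of_dvd (h1.1.of_mul hP) (dvd_mul_left _ _)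
      · apply mul_left_cancel₀ hp.ne_zero
        rw [← h3]; ring

theorem uuPrs_double {n : O} (hn : n ≠ 0) (Y : ℝ) (g : O → O → ℂ) :
    ∑ a ∈ ballN Y, ∑ b ∈ ballN Y, (if a * b = n then g a b else 0) =
      ∑ x ∈ uuPrs n, (if N x.1 ≤ Y ∧ N x.2 ≤ Y then g x.1 x.2 else 0) := by
  rw [← Finset.sum_product' (f := fun a b => if a * b = n then g a b else 0), ← Finset.sum_filter,
    ← Finset.sum_filter]
  refine Finset.sum_congr ?_ (fun _ _ => rfl)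
  ext x
  simp only [Finset.mem_filter, Finset.mem_product, mem_ballN, mem_uuPrs hn]
  tauto

theorem uuPrs_single {n : O} (hn : NN n) (Y : ℝ) (g : O → ℂ) :
    ∑ d ∈ ballN Y, (if d ∣ n then g d else 0) =
      ∑ x ∈ uuPrs n, (if N x.1 ≤ Y then g x.1 else 0) := by
  rw [← Finset.sum_filter, ← Finset.sum_filter]
  symm
  refine Finset.sum_bij (fun x _ => x.1) ?_ ?_ ?_ (fun _ _ => rfl)
  · intro x hx
    obtain ⟨hx, hY⟩ := Finset.mem_filter.1 hx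
    obtain ⟨h1, -, h3⟩ := (mem_uuPrs hn.ne_zero).1 hx
    exact Finset.mem_filter.2 ⟨mem_ballN.2 ⟨h1, hY⟩, ⟨_, h3.symm⟩⟩
  · intro x hx y hy hxy
    obtain ⟨h1, -, h3⟩ := (mem_uuPrs hn.ne_zero).1 (Finset.mem_filter.1 hx).1
    obtain ⟨-, -, h3'⟩ := (mem_uuPrs hn.ne_zero).1 (Finset.mem_filter.1 hy).1
    refine Prod.ext hxy (mul_left_cancel₀ h1.ne_zero ?_)
    rw [h3, hxy, h3']
  · intro d hd
    obtain ⟨hd', m, hm⟩ := Finset.mem_filter.1 hd
    obtain ⟨h1, h2⟩ := mem_ballN.1 hd'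
    subst hm
    exact ⟨(d, m), Finset.mem_filter.2 ⟨(mem_uuPrs hn.ne_zero).2
      ⟨h1, hn.of_dvd (hn.1.of_mul h1.1) (dvd_mul_left _ _), rfl⟩, h2⟩, rfl⟩

/-! ### three primes -/

theorem uu_eq_of_dvd {q p : O} (hq : Prime q) (hQ : Prim q) (hp : Prime p) (hP : Prim p)
    (h : q ∣ p) : q = p := hQ.eq_of_associated hP (hq.associated_of_dvd hp h)

theorem uu_two {p1 p2 q1 q2 : O} (hp1 : Prime p1) (hP1 : Prim p1) (hp2 : Prime p2) (hP2 : Prim p2)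
    (hq1 : Prime q1) (hQ1 : Prim q1) (h : q1 * q2 = p1 * p2) :
    (q1 = p1 ∧ q2 = p2) ∨ (q1 = p2 ∧ q2 = p1) := by
  have : q1 ∣ p1 * p2 := ⟨_, h.symm⟩
  rcases hq1.dvd_or_dvd this with h1 | h1
  · obtain rfl := uu_eq_of_dvd hq1 hQ1 hp1 hP1 h1
    exact Or.inl ⟨rfl, mul_left_cancel₀ hq1.ne_zero h⟩
  · obtain rfl := uu_eq_of_dvd hq1 hQ1 hp2 hP2 h1
    exact Or.inr ⟨rfl, mul_left_cancel₀ hq1.ne_zero (by rw [h, mul_comm])⟩

/-- number of ordered triples from `W` with product `n` -/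
def uuIII (W : Finset O) (n : O) : ℂ :=
  ∑ p1 ∈ W, ∑ p2 ∈ W, ∑ p3 ∈ W, (if p1 * p2 * p3 = n then 1 else 0)

theorem uuIII_six {W : Finset O} (hW : ∀ p ∈ W, Prime p ∧ Prim p) {p0 p1 p2 : O} (h0 : p0 ∈ W)
    (h1 : p1 ∈ W) (h2 : p2 ∈ W) (h01 : p0 ≠ p1) (h02 : p0 ≠ p2) (h12 : p1 ≠ p2) :
    uuIII W (p0 * p1 * p2) = 6 := by
  unfold uuIII
  simp_rw [← Finset.sum_product']
  rw [← Finset.sum_filter]
  have : (W ×ˢ W ×ˢ W).filter (fun x => x.1 * x.2.1 * x.2.2 = p0 * p1 * p2) =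
      {(p0, p1, p2), (p0, p2, p1), (p1, p0, p2), (p1, p2, p0), (p2, p0, p1), (p2, p1, p0)} := by
    ext ⟨a, b, c⟩
    simp only [Finset.mem_filter, Finset.mem_product, Finset.mem_insert, Finset.mem_singleton,
      Prod.mk.injEq]
    constructor
    · rintro ⟨⟨ha, hb, -⟩, h⟩
      obtain ⟨a1, a2⟩ := hW a ha
      obtain ⟨b1, b2⟩ := hW b hb
      obtain ⟨x0, y0⟩ := hW p0 h0
      obtain ⟨x1, y1⟩ := hW p1 h1
      obtain ⟨x2, y2⟩ := hW p2 h2
      have hd : a ∣ p0 * p1 * p2 := ⟨b * c, by rw [← h]; ring⟩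
      rcases a1.dvd_or_dvd hd with hd | hd
      · rcases a1.dvd_or_dvd hd with hd | hd
        · obtain rfl := uu_eq_of_dvd a1 a2 x0 y0 hd
          have : b * c = p1 * p2 := mul_left_cancel₀ a1.ne_zero (by linear_combination h)
          rcases uu_two x1 y1 x2 y2 b1 b2 this with h | h <;> simp [h]
        · obtain rfl := uu_eq_of_dvd a1 a2 x1 y1 hd
          have : b * c = p0 * p2 := mul_left_cancel₀ a1.ne_zero (by linear_combination h)
          rcases uu_two x0 y0 x2 y2 b1 b2 this with h | h <;> simp [h]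
      · obtain rfl := uu_eq_of_dvd a1 a2 x2 y2 hd
        have : b * c = p0 * p1 := mul_left_cancel₀ a1.ne_zero (by linear_combination h)
        rcases uu_two x0 y0 x1 y1 b1 b2 this with h | h <;> simp [h]
    · rintro (⟨rfl, rfl, rfl⟩ | ⟨rfl, rfl, rfl⟩ | ⟨rfl, rfl, rfl⟩ | ⟨rfl, rfl, rfl⟩ |
        ⟨rfl, rfl, rfl⟩ | ⟨rfl, rfl, rfl⟩) <;>
        exact ⟨⟨‹_›, ‹_›, ‹_›⟩, by ring⟩
  rw [this, Finset.sum_const]
  have h10 := h01.symm
  have h20 := h02.symm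
  have h21 := h12.symm
  rw [Finset.card_insert_of_notMem (by simp [*]), Finset.card_insert_of_notMem (by simp [*]),
    Finset.card_insert_of_notMem (by simp [*]), Finset.card_insert_of_notMem (by simp [*]),
    Finset.card_insert_of_notMem (by simp [*]), Finset.card_singleton]
  norm_num

theorem uuIII_zero {W : Finset O} {n : O}
    (h : ¬ ∃ p1 ∈ W, ∃ p2 ∈ W, ∃ p3 ∈ W, p1 * p2 * p3 = n) : uuIII W n = 0 := by
  unfold uuIII
  refine Finset.sum_eq_zero fun a ha => Finset.sum_eq_zero fun b hb =>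
    Finset.sum_eq_zero fun c hc => if_neg fun e => h ⟨a, ha, b, hb, c, hc, e⟩

theorem uu_small {m : O} {z D : ℝ} (hm : NN m) (hz : ∀ q, Prime q → Prim q → q ∣ m → z ≤ N q)
    (hz0 : 0 ≤ z) (hD : N m < D) (hDz : D ≤ z ^ 2) : m = 1 ∨ Prime m := by
  by_cases h1 : m = 1
  · exact Or.inl h1
  obtain ⟨p, k, hp, hP, hk, rfl⟩ := bas_prime_factor hm.1 h1
  by_cases h2 : k = 1
  · right; rw [h2, mul_one]; exact hp
  obtain ⟨q, l, hq, hQ, hl, rfl⟩ := bas_prime_factor hk h2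
  exfalso
  have e1 := hz p hp hP (dvd_mul_right _ _)
  have e2 := hz q hq hQ ⟨p * l, by ring⟩
  have e3 := one_le_N hl.ne_zero
  rw [N_mul, N_mul] at hD
  have : z ^ 2 ≤ N p * N q := by rw [sq]; exact mul_le_mul e1 e2 hz0 (N_nonneg _)
  nlinarith [mul_nonneg (N_nonneg p) (N_nonneg q)]

end

end Vale.Agent.P006
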