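import Vale.Agent.P006.UU1

namespace Vale.Agent.P006

open Vale.Agent.P026 Complex MeasureTheory Filter Topology
open scoped Classical ComplexConjugate Real MatrixGroups

noncomputable section

/-- type I coefficient -/
def uuC (D : ℝ) (d : O) : ℂ := if N d < D then mu d else 0
/-- Buchstab weight -/
def uuW (D : ℝ) (e : O) : ℂ := if D ≤ N e ∧ N e < D * N (uuPm e) then -mu e else 0
def uuA (D z : ℝ) (e : O) : ℂ := if N (uuPm e) < z then uuW D e else 0
def uuB (D z : ℝ) (e : O) : ℂ := if z ≤ N (uuPm e) then uuW D e else 0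
def uuB' (D : ℝ) (b : O) : ℂ := if D ≤ N b then 1 else 0
def uuU (a : O) : ℕ := uuKey (uuPm a)

/-- type II coefficient -/
def uuT (T : ℝ) (α β : O → ℂ) (a b : O) : ℂ :=
  if N b * 2 ^ (Nat.log 2 (Nm a) + 1) ≤ T ∧ uuU a < uuU b then α a * β b else 0

def uuI (Y D : ℝ) (n : O) : ℂ := ∑ d ∈ ballN Y, (if d ∣ n then uuC D d else 0)
def uuII (Y T : ℝ) (α β : O → ℂ) (n : O) : ℂ :=
  ∑ a ∈ ballN Y, ∑ b ∈ ballN Y, (if a * b = n then uuT T α β a b else 0)

theorem norm_uuC_le (D : ℝ) (d : O) : ‖uuC D d‖ ≤ 1 := by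
  unfold uuC; split_ifs
  · exact norm_mu_le _
  · simp

theorem norm_uuW_le (D : ℝ) (d : O) : ‖uuW D d‖ ≤ 1 := by
  unfold uuW; split_ifs
  · rw [norm_neg]; exact norm_mu_le _
  · simp

theorem norm_uuA_le (D z : ℝ) (d : O) : ‖uuA D z d‖ ≤ 1 := by
  unfold uuA; split_ifs
  · exact norm_uuW_le _ _
  · simp

theorem norm_uuB_le (D z : ℝ) (d : O) : ‖uuB D z d‖ ≤ 1 := by
  unfold uuB; split_ifs
  · exact norm_uuW_le _ _
  · simp

theorem norm_uuB'_le (D : ℝ) (d : O) : ‖uuB' D d‖ ≤ 1 := by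
  unfold uuB'; split_ifs <;> simp

theorem norm_uuT_le (T : ℝ) {α β : O → ℂ} (hα : ∀ a, ‖α a‖ ≤ 1) (hβ : ∀ b, ‖β b‖ ≤ 1) (a b : O) :
    ‖uuT T α β a b‖ ≤ 1 := by
  unfold uuT; split_ifs
  · rw [norm_mul]; exact mul_le_one₀ (hα a) (norm_nonneg _) (hβ b)
  · simp

theorem uu_mu_step {p d : O} (hp : Prime p) (hP : Prim p) (hd : Prim d) (h : NN (p * d)) :
    mu (p * d) = -mu d := by
  rw [mu_mul ((nn_mul_iff hP hd).1 h).2.2, mu_prime hp]; ring

theorem uu_pow_log (a : O) (ha : a ≠ 0) : (2 : ℝ) ^ (Nat.log 2 (Nm a) + 1) ≤ 2 * N a := by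
  have := Nat.pow_log_le_self 2 (bas_Nm_pos ha).ne'
  have h : ((2 ^ Nat.log 2 (Nm a) : ℕ) : ℝ) ≤ (Nm a : ℝ) := by exact_mod_cast this
  push_cast at h
  rw [pow_succ]; unfold N; linarith

/-- the basic weight after pairing -/
def uuK (D : ℝ) (p d : O) : ℂ := if N d < D ∧ D ≤ N p * N d then mu d else 0

theorem uuI_eq {p m : O} {Y D : ℝ} (hp : Prime p) (hP : Prim p) (hm : Prim m) (h : NN (p * m))
    (hY : D ≤ Y) : uuI Y D (p * m) = ∑ x ∈ uuPrs m, uuK D p x.1 := by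
  unfold uuI
  rw [uuPrs_single h, uuPrs_split hp hP hm h (fun a _ => if N a ≤ Y then uuC D a else 0)]
  refine Finset.sum_congr rfl fun x hx => ?_
  obtain ⟨h1, -, h3⟩ := (mem_uuPrs hm.ne_zero).1 hx
  have hpd : NN (p * x.1) := h.of_dvd (hP.mul h1.1) ⟨x.2, by rw [← h3]; ring⟩
  have e : ∀ a, (if N a ≤ Y then uuC D a else 0) = uuC D a := by
    intro a
    unfold uuC
    split_ifs with a1 a2 a2
    · rfl
    · rfl
    · exact absurd (a2.le.trans hY) a1
    · rfl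
  rw [e, e]
  unfold uuC uuK
  rw [uu_mu_step hp hP h1.1 hpd, N_mul]
  have h4 := one_le_N hp.ne_zero
  have h5 : N x.1 ≤ N p * N x.1 := le_mul_of_one_le_left (N_nonneg _) h4
  by_cases c1 : N p * N x.1 < D
  · rw [if_pos (h5.trans_lt c1), if_pos c1, if_neg (fun c => absurd c.2 (not_le.2 c1))]; ring
  · by_cases c2 : N x.1 < D
    · rw [if_pos c2, if_neg c1, if_pos ⟨c2, not_lt.1 c1⟩, add_zero]
    · rw [if_neg c2, if_neg c1, if_neg (fun c => c2 c.1), add_zero]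

theorem uuW_eq {p d : O} {D : ℝ} (hp : Prime p) (hP : Prim p) (hd : Prim d) (h : NN (p * d))
    (hpm : uuPm (p * d) = p) : uuW D (p * d) = uuK D p d := by
  unfold uuW uuK
  rw [hpm, uu_mu_step hp hP hd h, N_mul, neg_neg]
  have h4 := N_pos hp.ne_zero
  refine if_congr ?_ rfl rfl
  rw [mul_comm D, mul_lt_mul_iff_right₀ h4]
  exact and_comm

theorem uuW_one {D : ℝ} (hD : 1 < D) : uuW D 1 = 0 := by
  unfold uuW
  rw [if_neg]
  rw [N_one]
  exact fun h => absurd h.1 (not_le.2 hD)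

/-- general evaluation of a type II coefficient -/
theorem uuII_eq {n m : O} {Y T : ℝ} {α β : O → ℂ} (hn : NN n) (h1 : n ≠ 1) (hm : Prim m)
    (hnm : n = uuPm n * m) (hα : α 1 = 0) (hT : 2 * N n ≤ T)
    (hc : ∀ x ∈ uuPrs m, α (uuPm n * x.1) * β x.2 ≠ 0 →
      N (uuPm n * x.1) ≤ Y ∧ N x.2 ≤ Y ∧ x.2 ≠ 1) :
    uuII Y T α β n = ∑ x ∈ uuPrs m, α (uuPm n * x.1) * β x.2 := by
  obtain ⟨hp, hP, -, hmin⟩ := uuPm_spec hn h1
  set p := uuPm n with hpdef
  have hn' : NN (p * m) := hnm ▸ hn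
  unfold uuII
  rw [uuPrs_double hn.ne_zero, hnm,
    uuPrs_split hp hP hm hn' (fun a b => if N a ≤ Y ∧ N b ≤ Y then uuT T α β a b else 0)]
  refine Finset.sum_congr rfl fun x hx => ?_
  obtain ⟨x1, x2, x3⟩ := (mem_uuPrs hm.ne_zero).1 hx
  have d1 : x.1 ∣ n := ⟨p * x.2, by rw [hnm, ← x3]; ring⟩
  have d2 : x.2 ∣ n := ⟨p * x.1, by rw [hnm, ← x3]; ring⟩
  have d3 : p * x.1 ∣ n := ⟨x.2, by rw [hnm, ← x3]; ring⟩
  have d4 : p * x.2 ∣ n := ⟨x.1, by rw [hnm, ← x3]; ring⟩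
  have n3 : NN (p * x.1) := hn.of_dvd (hP.mul x1.1) d3
  have n4 : NN (p * x.2) := hn.of_dvd (hP.mul x2.1) d4
  have e3 : uuPm (p * x.1) = p := uuPm_eq hn n3 d3 h1 (dvd_mul_right _ _)
  have e4 : uuPm (p * x.2) = p := uuPm_eq hn n4 d4 h1 (dvd_mul_right _ _)
  have z1 : uuT T α β x.1 (p * x.2) = 0 := by
    unfold uuT
    by_cases c : x.1 = 1
    · rw [c, hα]; simp
    · rw [if_neg]
      rintro ⟨-, hlt⟩
      obtain ⟨a, b, c', -⟩ := uuPm_spec x1 c
      unfold uuU at hlt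
      rw [e4] at hlt
      rcases (hmin _ a b (c'.trans d1)).eq_or_lt with e | e
      · rw [uuLk_inj e] at hlt; exact lt_irrefl _ hlt
      · exact lt_asymm hlt (uuKey_lt hp.ne_zero e)
  rw [z1, ite_self, zero_add]
  by_cases c : α (p * x.1) * β x.2 = 0
  · unfold uuT; rw [c]; simp
  obtain ⟨c1, c2, c3⟩ := hc x hx c
  rw [if_pos ⟨c1, c2⟩]
  unfold uuT
  rw [if_pos]
  constructor
  · have := uu_pow_log _ n3.ne_zero
    have e : N n = N (p * x.1) * N x.2 := by rw [← N_mul, hnm, ← x3]; ring_nf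
    calc N x.2 * 2 ^ (Nat.log 2 (Nm (p * x.1)) + 1) ≤ N x.2 * (2 * N (p * x.1)) :=
          mul_le_mul_of_nonneg_left this (N_nonneg _)
      _ = 2 * N n := by rw [e]; ring
      _ ≤ T := hT
  · obtain ⟨a, b, c', -⟩ := uuPm_spec x2 c3
    unfold uuU
    rw [e3]
    refine uuKey_lt hp.ne_zero (lt_of_le_of_ne (hmin _ a b (c'.trans d2)) fun e => ?_)
    have e' := uuLk_inj e
    apply uu_not_dvd hp hP hm hn'
    rw [e', ← x3]
    exact c'.mul_left _

theorem uuK_ne {D : ℝ} {p d : O} (h : uuK D p d ≠ 0) : N d < D ∧ D ≤ N p * N d := by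
  unfold uuK at h
  by_contra c
  exact h (if_neg c)

/-- the combinatorial identity -/
theorem uu_ident {n : O} {W : Finset O} {D z Y Y1 T Lo Hi : ℝ} (hn : NN n) (hLo : Lo < N n)
    (hHi : N n ≤ Hi) (hz : 1 < z) (hzD : z ≤ D) (hDz : D ≤ z ^ 2) (hDL : D ^ 2 ≤ Lo)
    (hY : D * z ≤ Y) (hHY : Hi ≤ D * Y) (hT : 2 * Hi ≤ T) (hY1 : D ≤ Y1)
    (hW : ∀ p, p ∈ W ↔ NN p ∧ Prime p ∧ z ≤ N p ∧ N p < D) :
    (if Prime n then (1 : ℂ) else 0) = uuI Y1 D n - uuII Y T (uuA D z) (fun _ => 1) n -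
      uuII Y T (uuB D z) (uuB' D) n + uuIII W n / 3 := by
  have hD : 1 < D := hz.trans_le hzD
  have hD0 : 0 < D := by linarith
  have hDL' : D ≤ Lo := by nlinarith
  have h1 : n ≠ 1 := by
    rintro rfl
    rw [N_one] at hLo; linarith
  obtain ⟨hp, hP, ⟨m, hnm⟩, hmin⟩ := uuPm_spec hn h1
  set p := uuPm n with hpdef
  have hn' : NN (p * m) := hnm ▸ hn
  have hm : Prim m := hn'.1.of_mul hP
  have hmN : NN m := hn'.of_dvd hm (dvd_mul_left _ _)
  have hminN : ∀ q, Prime q → Prim q → q ∣ n → N p ≤ N q := fun q a b c => uuLk_N (hmin q a b c)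
  have hT' : 2 * N n ≤ T := by linarith
  have facts : ∀ x ∈ uuPrs m, uuPm (p * x.1) = p ∧ uuW D (p * x.1) = uuK D p x.1 ∧
      N n = N p * N x.1 * N x.2 := by
    intro x hx
    obtain ⟨x1, x2, x3⟩ := (mem_uuPrs hm.ne_zero).1 hx
    have d3 : p * x.1 ∣ n := ⟨x.2, by rw [hnm, ← x3]; ring⟩
    have n3 : NN (p * x.1) := hn.of_dvd (hP.mul x1.1) d3
    have e3 : uuPm (p * x.1) = p := uuPm_eq hn n3 d3 h1 (dvd_mul_right _ _)
    exact ⟨e3, uuW_eq hp hP x1.1 n3 e3, by rw [← N_mul, ← N_mul, hnm, ← x3]; ring_nf⟩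
  have hb : ∀ x ∈ uuPrs m, D ≤ N p * N x.1 → N x.2 ≤ Y := by
    intro x hx h
    obtain ⟨-, -, e⟩ := facts x hx
    have : D * N x.2 ≤ D * Y := by
      calc D * N x.2 ≤ N p * N x.1 * N x.2 := mul_le_mul_of_nonneg_right h (N_nonneg _)
        _ ≤ D * Y := by linarith
    exact le_of_mul_le_mul_left this hD0
  have eA : ∀ x ∈ uuPrs m, uuA D z (p * x.1) = if N p < z then uuK D p x.1 else 0 := by
    intro x hx
    obtain ⟨e1, e2, -⟩ := facts x hx
    unfold uuA; rw [e1, e2]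
  have eB : ∀ x ∈ uuPrs m, uuB D z (p * x.1) = if z ≤ N p then uuK D p x.1 else 0 := by
    intro x hx
    obtain ⟨e1, e2, -⟩ := facts x hx
    unfold uuB; rw [e1, e2]
  have hI : uuI Y1 D n = ∑ x ∈ uuPrs m, uuK D p x.1 := by
    rw [hnm]; exact uuI_eq hp hP hm hn' hY1
  have hA : uuII Y T (uuA D z) (fun _ => 1) n = ∑ x ∈ uuPrs m, uuA D z (p * x.1) * 1 := by
    refine uuII_eq hn h1 hm hnm (by unfold uuA; rw [uuW_one hD]; simp) hT' fun x hx hne => ?_
    rw [mul_one, eA x hx] at hne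
    have c : N p < z := by
      by_contra c
      exact hne (if_neg c)
    rw [if_pos c] at hne
    obtain ⟨k1, k2⟩ := uuK_ne hne
    have k3 : N p * N x.1 ≤ D * z := by
      rw [mul_comm D]; exact mul_le_mul c.le k1.le (N_nonneg _) (by linarith)
    refine ⟨by rw [N_mul]; linarith, hb x hx k2, fun e => ?_⟩
    obtain ⟨-, -, e'⟩ := facts x hx
    rw [e, N_one, mul_one] at e'
    nlinarith
  have hB : uuII Y T (uuB D z) (uuB' D) n = ∑ x ∈ uuPrs m, uuB D z (p * x.1) * uuB' D x.2 := by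
    refine uuII_eq hn h1 hm hnm (by unfold uuB; rw [uuW_one hD]; simp) hT' fun x hx hne => ?_
    rw [eB x hx] at hne
    have c : D ≤ N x.2 := by
      by_contra c
      apply hne; unfold uuB'; rw [if_neg c, mul_zero]
    have c' : uuK D p x.1 ≠ 0 := by
      intro e; apply hne; rw [e]; simp
    obtain ⟨-, k2⟩ := uuK_ne c'
    obtain ⟨-, -, e'⟩ := facts x hx
    refine ⟨?_, hb x hx k2, fun e => ?_⟩
    · rw [N_mul]
      have : D * (N p * N x.1) ≤ D * Y := by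
        calc D * (N p * N x.1) ≤ N x.2 * (N p * N x.1) :=
              mul_le_mul_of_nonneg_right c (mul_nonneg (N_nonneg _) (N_nonneg _))
          _ = N n := by rw [e']; ring
          _ ≤ D * Y := by linarith
      exact le_of_mul_le_mul_left this hD0
    · rw [e, N_one] at c; linarith
  have hC : uuI Y1 D n - uuII Y T (uuA D z) (fun _ => 1) n - uuII Y T (uuB D z) (uuB' D) n =
      ∑ x ∈ uuPrs m, (if z ≤ N p ∧ N x.2 < D then uuK D p x.1 else 0) := by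
    rw [hI, hA, hB, ← Finset.sum_sub_distrib, ← Finset.sum_sub_distrib]
    refine Finset.sum_congr rfl fun x hx => ?_
    rw [eA x hx, eB x hx]
    unfold uuB'
    by_cases c1 : z ≤ N p
    · by_cases c2 : N x.2 < D
      · simp [c1, c2, not_lt.2 c1, not_le.2 c2]
      · simp [c1, c2, not_lt.2 c1, not_lt.1 c2]
    · simp [c1, not_le.1 c1]
  rw [hC]
  by_cases hm1 : m = 1
  · have hnp : n = p := by rw [hnm, hm1, mul_one]
    rw [uuIII_zero, hm1, uuPrs_one, Finset.sum_singleton, if_pos (hnp ▸ hp)]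
    · have : D ≤ N p := by rw [← hnp]; linarith
      unfold uuK
      rw [if_pos ⟨by linarith, by rw [N_one]; exact hD⟩,
        if_pos ⟨by rw [N_one]; exact hD, by rw [N_one, mul_one]; exact this⟩, mu_one]
      simp
    · rintro ⟨a, ha, b, hb', c, -, e⟩
      rw [hnp, mul_assoc] at e
      have a1 := (hW a).1 ha
      have b1 := (hW b).1 hb'
      obtain rfl := uu_eq_of_dvd a1.2.1 a1.1.1 hp hP ⟨_, e.symm⟩
      have : b * c = 1 := mul_left_cancel₀ hp.ne_zero (by rw [e, mul_one])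
      exact b1.2.1.not_isUnit (IsUnit.of_mul_eq_one _ this)
  have hnp : ¬ Prime n := by
    intro h
    apply hm1
    rcases (h.irreducible.isUnit_or_isUnit hnm) with u | u
    · exact absurd u hp.not_isUnit
    · exact hm.eq_one_of_isUnit u
  rw [if_neg hnp]
  by_cases hex : ∃ p1 ∈ W, ∃ p2 ∈ W, ∃ p3 ∈ W, p1 * p2 * p3 = n
  · have key : ∃ q1 ∈ W, ∃ q2 ∈ W, p ∈ W ∧ m = q1 * q2 := by
      obtain ⟨a, ha, b, hb', c, hc, e⟩ := hex
      have a1 := (hW a).1 ha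
      have b1 := (hW b).1 hb'
      have c1 := (hW c).1 hc
      have hd : p ∣ a * b * c := ⟨m, by rw [e, hnm]⟩
      rw [hnm] at e
      rcases hp.dvd_or_dvd hd with hd | hd
      · rcases hp.dvd_or_dvd hd with hd | hd
        · have e' := uu_eq_of_dvd hp hP a1.2.1 a1.1.1 hd
          exact ⟨b, hb', c, hc, e' ▸ ha, mul_left_cancel₀ hp.ne_zero (by rw [← e, ← e']; ring)⟩
        · have e' := uu_eq_of_dvd hp hP b1.2.1 b1.1.1 hd
          exact ⟨a, ha, c, hc, e' ▸ hb', mul_left_cancel₀ hp.ne_zero (by rw [← e, ← e']; ring)⟩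
      · have e' := uu_eq_of_dvd hp hP c1.2.1 c1.1.1 hd
        exact ⟨a, ha, b, hb', e' ▸ hc, mul_left_cancel₀ hp.ne_zero (by rw [← e, ← e']; ring)⟩
    obtain ⟨q1, hq1, q2, hq2, hpW, hmq⟩ := key
    obtain ⟨a1, a2, a3, a4⟩ := (hW q1).1 hq1
    obtain ⟨b1, b2, b3, b4⟩ := (hW q2).1 hq2
    obtain ⟨-, -, c3, -⟩ := (hW p).1 hpW
    have hnd := uu_not_dvd hp hP hm hn'
    have hq : NN (q1 * q2) := hmq ▸ hmN
    have n12 : q1 ≠ q2 := fun e => uu_not_dvd a2 a1.1 b1.1 hq (e ▸ dvd_rfl)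
    have n01 : p ≠ q1 := fun e => hnd (by rw [hmq, ← e]; exact dvd_mul_right _ _)
    have n02 : p ≠ q2 := fun e => hnd (by rw [hmq, ← e]; exact dvd_mul_left _ _)
    have six : uuIII W n = 6 := by
      rw [hnm, hmq, ← mul_assoc]
      exact uuIII_six (fun r hr => ⟨((hW r).1 hr).2.1, ((hW r).1 hr).1.1⟩) hpW hq1 hq2 n01 n02 n12
    have big : ∀ r s : O, z ≤ N r → z ≤ N s → D ≤ N r * N s := fun r s hr hs =>
      hDz.trans (by rw [sq]; exact mul_le_mul hr hs (by linarith) (N_nonneg _))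
    have q21 : NN (q2 * 1) := by rw [mul_one]; exact b1
    rw [six, hmq, uuPrs_split a2 a1.1 b1.1 hq
      (fun a b => if z ≤ N p ∧ N b < D then uuK D p a else 0)]
    conv_rhs => rw [← mul_one q2]
    rw [uuPrs_split b2 b1.1 prim_one q21 (fun a b =>
      (if z ≤ N p ∧ N (q1 * b) < D then uuK D p a else 0) +
        if z ≤ N p ∧ N b < D then uuK D p (q1 * a) else 0), uuPrs_one, Finset.sum_singleton]
    simp only [mul_one]
    have k1 : uuK D p q1 = -1 := by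
      unfold uuK; rw [if_pos ⟨a4, big _ _ c3 a3⟩, mu_prime a2]
    have k2 : uuK D p q2 = -1 := by
      unfold uuK; rw [if_pos ⟨b4, big _ _ c3 b3⟩, mu_prime b2]
    have k3 : uuK D p (q1 * q2) = 0 := by
      unfold uuK; rw [if_neg]
      rintro ⟨h, -⟩
      rw [N_mul] at h
      exact absurd (big _ _ a3 b3) (not_le.2 h)
    rw [k1, k2, k3, if_neg (fun h => absurd (big _ _ a3 b3) (not_le.2 (by rw [← N_mul]; exact h.2))),
      if_pos ⟨c3, b4⟩, if_pos ⟨c3, a4⟩]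
    simp only [ite_self]
    norm_num
  · rw [uuIII_zero hex, zero_div, add_zero]
    symm
    refine Finset.sum_eq_zero fun x hx => ?_
    by_contra hne
    have c : z ≤ N p ∧ N x.2 < D := by
      by_contra c
      exact hne (if_neg c)
    rw [if_pos c] at hne
    obtain ⟨k1, k2⟩ := uuK_ne hne
    obtain ⟨x1, x2, x3⟩ := (mem_uuPrs hm.ne_zero).1 hx
    obtain ⟨-, -, e⟩ := facts x hx
    have d1 : x.1 ∣ n := ⟨p * x.2, by rw [hnm, ← x3]; ring⟩
    have d2 : x.2 ∣ n := ⟨p * x.1, by rw [hnm, ← x3]; ring⟩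
    have s1 := uu_small x1 (fun q a b d => c.1.trans (hminN q a b (d.trans d1))) (by linarith) k1 hDz
    have s2 := uu_small x2 (fun q a b d => c.1.trans (hminN q a b (d.trans d2))) (by linarith) c.2 hDz
    rcases s1 with s1 | s1
    · rcases s2 with s2 | s2
      · exact hm1 (by rw [← x3, s1, s2, mul_one])
      · have := hminN _ s2 x2.1 d2
        rw [s1, N_one, mul_one] at k2
        linarith [c.2]
    · have l1 := hminN _ s1 x1.1 d1
      rcases s2 with s2 | s2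
      · rw [s2, N_one, mul_one] at e
        have : N p * N x.1 ≤ D * D := mul_le_mul (l1.trans k1.le) k1.le (N_nonneg _) hD0.le
        nlinarith
      · have l2 := hminN _ s2 x2.1 d2
        refine hex ⟨p, (hW _).2 ⟨hn'.of_dvd hP (dvd_mul_right _ _), hp, c.1, l1.trans_lt k1⟩,
          x.1, (hW _).2 ⟨x1, s1, c.1.trans l1, k1⟩, x.2, (hW _).2 ⟨x2, s2, c.1.trans l2, c.2⟩, ?_⟩
        rw [hnm, ← x3]; ring

end

end Vale.Agent.P006
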