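import Vale.Agent.P006.UU2
import Vale.Agent.P006.Sep
import Vale.Agent.P006.Tri

namespace Vale.Agent.P006

open Vale.Agent.P026 Complex MeasureTheory Filter Topology
open scoped Classical ComplexConjugate Real MatrixGroups

noncomputable section

theorem uu_card_ballN {C0 : ℝ} (hC0 : ∀ R : ℝ, 0 ≤ R → ((ballO R).card : ℝ) ≤ C0 * R) {R : ℝ}
    (hR : 0 ≤ R) : ((ballN R).card : ℝ) ≤ C0 * R :=
  le_trans (by exact_mod_cast Finset.card_filter_le _ _) (hC0 R hR)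

theorem uu_sum_sq_le {s : Finset O} {α : O → ℂ} (hα : ∀ a, ‖α a‖ ≤ 1) :
    ∑ a ∈ s, ‖α a‖ ^ 2 ≤ s.card := by
  calc ∑ a ∈ s, ‖α a‖ ^ 2 ≤ ∑ _a ∈ s, (1 : ℝ) :=
        Finset.sum_le_sum fun a _ => pow_le_one₀ (norm_nonneg _) (hα a)
    _ = s.card := by simp

theorem uu_piece {D : O → ℂ} {A B μ M C0 X S T : ℝ} (hOp : OpN D A B μ) (hμ : 0 ≤ μ)
    (hM0 : 0 ≤ M) (hM : MRep (WK S 0) 0 M) (hC00 : 0 ≤ C0)
    (hC0 : ∀ R : ℝ, 0 ≤ R → ((ballO R).card : ℝ) ≤ C0 * R) (hX : 0 < X) (hA : 0 ≤ A) (hB : 0 ≤ B)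
    (hT : A * B ≤ T) (u v : O → ℕ) (J : ℕ) (hu : ∀ a ∈ ballN A, u a < 2 ^ J)
    (hv : ∀ b ∈ ballN B, v b < 2 ^ J) {α β : O → ℂ} (hα : ∀ a, ‖α a‖ ≤ 1) (hβ : ∀ b, ‖β b‖ ≤ 1) :
    ‖∑ a ∈ ballN A, α a * ∑ b ∈ ballN B,
        (β b * (if u a < v b then D (a * b) else 0)) * WK S 0 (N b / (X / N a))‖ ≤
      M * J * √μ * C0 * √T := by
  have hsep := sep (P := (J : ℝ) ^ 2 * μ * (C0 * B)) (B := 1) hM (ballN A) (ballN B)
    (fun a b => β b * (if u a < v b then D (a * b) else 0)) N (fun a => X / N a)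
    (fun b hb => N_pos (mem_ballN.1 hb).1.ne_zero)
    (fun a ha => ⟨div_pos hX (N_pos (mem_ballN.1 ha).1.ne_zero), by rw [Real.rpow_zero]⟩)
    (fun τ => by
      have h := tri (ballN A) (ballN B) (fun a b => D (a * b)) hμ hOp u v J hu hv
        (fun b => β b * ((N b : ℝ) : ℂ) ^ (-(((0 : ℝ) : ℂ) + τ * Complex.I)))
      refine le_trans (le_of_eq ?_) (h.trans ?_)
      · refine Finset.sum_congr rfl fun a _ => ?_
        congr 2
        refine Finset.sum_congr rfl fun b _ => ?_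
        ring
      · refine mul_le_mul_of_nonneg_left ?_ (by positivity)
        refine le_trans (Finset.sum_le_sum fun b hb => ?_)
          ((uu_sum_sq_le (s := ballN B) hβ).trans (uu_card_ballN hC0 hB))
        rw [norm_mul, Complex.norm_cpow_eq_rpow_re_of_pos (N_pos (mem_ballN.1 hb).1.ne_zero)]
        simp)
  set x : O → ℂ := fun a => ∑ b ∈ ballN B,
    (β b * (if u a < v b then D (a * b) else 0)) * WK S 0 (N b / (X / N a)) with hx
  have h1 : ‖∑ a ∈ ballN A, α a * x a‖ ≤ ∑ a ∈ ballN A, ‖α a‖ * ‖x a‖ :=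
    (norm_sum_le _ _).trans (le_of_eq (Finset.sum_congr rfl fun a _ => norm_mul _ _))
  have h2 := Finset.sum_mul_sq_le_sq_mul_sq (ballN A) (fun a => ‖α a‖) (fun a => ‖x a‖)
  have h3 := (uu_sum_sq_le (s := ballN A) hα).trans (uu_card_ballN hC0 hA)
  have hT0 : 0 ≤ T := (mul_nonneg hA hB).trans hT
  refine h1.trans (le_of_sq_le_sq ?_ (by positivity))
  calc (∑ a ∈ ballN A, ‖α a‖ * ‖x a‖) ^ 2
      ≤ (∑ a ∈ ballN A, ‖α a‖ ^ 2) * ∑ a ∈ ballN A, ‖x a‖ ^ 2 := h2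
    _ ≤ (C0 * A) * (M ^ 2 * 1 ^ 2 * ((J : ℝ) ^ 2 * μ * (C0 * B))) :=
        mul_le_mul h3 hsep (Finset.sum_nonneg fun _ _ => sq_nonneg _) (by positivity)
    _ = (M ^ 2 * (J : ℝ) ^ 2 * μ * C0 ^ 2) * (A * B) := by ring
    _ ≤ (M ^ 2 * (J : ℝ) ^ 2 * μ * C0 ^ 2) * T := mul_le_mul_of_nonneg_left hT (by positivity)
    _ = (M * J * √μ * C0 * √T) ^ 2 := by
        simp only [mul_pow, Real.sq_sqrt hμ, Real.sq_sqrt hT0]

theorem uu_typeII {D : O → ℂ} {Y T μ M C0 X S : ℝ}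
    (hOp : ∀ A B : ℝ, 1 ≤ A → A ≤ Y → 1 ≤ B → B ≤ Y → A * B ≤ T → OpN D A B μ) (hμ : 0 ≤ μ)
    (hM0 : 0 ≤ M) (hM : MRep (WK S 0) 0 M) (hC00 : 0 ≤ C0)
    (hC0 : ∀ R : ℝ, 0 ≤ R → ((ballO R).card : ℝ) ≤ C0 * R) (hX : 0 < X) (hY : 1 ≤ Y) (hT : 0 ≤ T)
    (J : ℕ) (hu : ∀ a ∈ ballN Y, uuU a < 2 ^ J) (hJ : ∀ a ∈ ballN Y, Nm a < 2 ^ J)
    {α β : O → ℂ} (hα : ∀ a, ‖α a‖ ≤ 1) (hβ : ∀ b, ‖β b‖ ≤ 1) :
    ‖∑ a ∈ ballN Y, ∑ b ∈ ballN Y, uuT T α β a b * (D (a * b) * WK S 0 (N (a * b) / X))‖ ≤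
      J * (M * J * √μ * C0 * √T) := by
  rw [← Finset.sum_fiberwise_of_maps_to (s := ballN Y) (t := Finset.range J)
    (g := fun a => Nat.log 2 (Nm a)) (fun a ha => Finset.mem_range.2
      (Nat.log_lt_of_lt_pow (bas_Nm_pos (mem_ballN.1 ha).1.ne_zero).ne' (hJ a ha)))]
  refine (norm_sum_le _ _).trans ?_
  refine (Finset.sum_le_card_nsmul _ _ (M * J * √μ * C0 * √T) fun j _ => ?_).trans
    (by rw [Finset.card_range, nsmul_eq_mul])
  set A : ℝ := min (2 ^ (j + 1)) Y with hA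
  set B : ℝ := min (T / 2 ^ (j + 1)) Y with hB
  have h2 : (0 : ℝ) < 2 ^ (j + 1) := by positivity
  have hA1 : 1 ≤ A := le_min (one_le_pow₀ (by norm_num)) hY
  have hB0 : 0 ≤ B := le_min (by positivity) (by linarith)
  have hAB : A * B ≤ T := by
    calc A * B ≤ 2 ^ (j + 1) * (T / 2 ^ (j + 1)) :=
          mul_le_mul (min_le_left _ _) (min_le_left _ _) hB0 h2.le
      _ = T := by field_simp
  have e : ∑ a ∈ ballN Y with Nat.log 2 (Nm a) = j, ∑ b ∈ ballN Y,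
      uuT T α β a b * (D (a * b) * WK S 0 (N (a * b) / X)) =
      ∑ a ∈ ballN A, (if Nat.log 2 (Nm a) = j then α a else 0) * ∑ b ∈ ballN B,
        (β b * (if uuU a < uuU b then D (a * b) else 0)) * WK S 0 (N b / (X / N a)) := by
    have e1 : (ballN Y).filter (fun a => Nat.log 2 (Nm a) = j) =
        (ballN A).filter (fun a => Nat.log 2 (Nm a) = j) := by
      ext a
      simp only [Finset.mem_filter, mem_ballN]
      constructor
      · rintro ⟨⟨h1, h3⟩, h4⟩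
        refine ⟨⟨h1, le_min ?_ h3⟩, h4⟩
        have := Nat.lt_pow_succ_log_self (b := 2) (by norm_num) (Nm a)
        rw [h4] at this
        have h5 : ((Nm a : ℕ) : ℝ) < ((2 ^ (j + 1) : ℕ) : ℝ) := by exact_mod_cast this
        push_cast at h5
        exact h5.le
      · rintro ⟨⟨h1, h3⟩, h4⟩
        exact ⟨⟨h1, h3.trans (min_le_right _ _)⟩, h4⟩
    have e2 : ballN B = (ballN Y).filter (fun b => N b * 2 ^ (j + 1) ≤ T) := by
      ext b
      simp only [Finset.mem_filter, mem_ballN, hB, le_min_iff, le_div_iff₀ h2]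
      tauto
    rw [e1, Finset.sum_filter]
    refine Finset.sum_congr rfl fun a ha => ?_
    split_ifs with hj
    · rw [e2, Finset.sum_filter, Finset.mul_sum]
      refine Finset.sum_congr rfl fun b _ => ?_
      have hNa := N_pos (mem_ballN.1 ha).1.ne_zero
      have e3 : N b / (X / N a) = N (a * b) / X := by rw [N_mul]; field_simp
      unfold uuT
      rw [hj, e3]
      by_cases c1 : N b * 2 ^ (j + 1) ≤ T <;> by_cases c2 : uuU a < uuU b <;> simp [c1, c2]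
      ring
    · simp
  rw [e]
  by_cases hB1 : 1 ≤ B
  · exact uu_piece (hOp A B hA1 (min_le_right _ _) hB1 (min_le_right _ _) hAB) hμ hM0 hM hC00 hC0 hX
      (by linarith) hB0 hAB uuU uuU J (fun a ha => hu a (ballN_mono (min_le_right _ _) ha))
      (fun b hb => hu b (ballN_mono (min_le_right _ _) hb))
      (fun a => by split_ifs; exacts [hα a, by simp]) hβ
  · have : ballN B = ∅ := by
      unfold ballN; rw [ballO_eq_empty (not_le.1 hB1), Finset.filter_empty]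
    rw [this]
    simp only [Finset.sum_empty, mul_zero, Finset.sum_const_zero, norm_zero]
    positivity

/-! ### summation of the pointwise identity -/

theorem uu_hasSum_I {F : O → ℂ} (hF : Summable F) (Y D : ℝ) :
    HasSum (fun n => uuI Y D n * F n) (∑ d ∈ ballN Y, uuC D d * ∑' m : O, F (d * m)) := by
  unfold uuI
  simp_rw [Finset.sum_mul]
  refine hasSum_sum fun d hd => ?_
  have hd0 : d ≠ 0 := (mem_ballN.1 hd).1.ne_zero
  have hinj : Function.Injective (fun m : O => d * m) := mul_right_injective₀ hd0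
  have h1 : HasSum (fun m => uuC D d * F (d * m)) (uuC D d * ∑' m : O, F (d * m)) :=
    (hF.comp_injective hinj).hasSum.mul_left _
  refine (hinj.hasSum_iff (f := fun n => (if d ∣ n then uuC D d else 0) * F n) ?_).1 ?_
  · intro n hn
    rw [if_neg, zero_mul]
    rintro ⟨m, rfl⟩
    exact hn ⟨m, rfl⟩
  · convert h1 using 2 with m
    simp

theorem uu_hasSum_pt (F : O → ℂ) (k : O) (c : ℂ) :
    HasSum (fun n => (if k = n then c else 0) * F n) (c * F k) := by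
  convert hasSum_ite_eq k (c * F k) using 2 with n
  by_cases h : k = n
  · subst h; simp
  · rw [if_neg h, if_neg (Ne.symm h), zero_mul]

theorem uu_hasSum_II (F : O → ℂ) (Y T : ℝ) (α β : O → ℂ) :
    HasSum (fun n => uuII Y T α β n * F n)
      (∑ a ∈ ballN Y, ∑ b ∈ ballN Y, uuT T α β a b * F (a * b)) := by
  unfold uuII
  simp_rw [Finset.sum_mul]
  exact hasSum_sum fun a _ => hasSum_sum fun b _ => uu_hasSum_pt F _ _

theorem uu_hasSum_III (F : O → ℂ) (W : Finset O) :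
    HasSum (fun n => uuIII W n * F n) (∑ a ∈ W, ∑ b ∈ W, ∑ c ∈ W, F (a * b * c)) := by
  unfold uuIII
  simp_rw [Finset.sum_mul]
  refine hasSum_sum fun a _ => hasSum_sum fun b _ => hasSum_sum fun c _ => ?_
  simpa using uu_hasSum_pt F (a * b * c) 1

theorem uu_norm_sum_le {s : Finset O} {f : O → ℂ} {K : ℝ} (h : ∀ a, ‖f a‖ ≤ K) :
    ‖∑ a ∈ s, f a‖ ≤ s.card * K :=
  (norm_sum_le _ _).trans ((Finset.sum_le_card_nsmul _ _ K fun a _ => h a).trans
    (by rw [nsmul_eq_mul]))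

theorem norm_uuI_le (Y D : ℝ) (n : O) : ‖uuI Y D n‖ ≤ (ballN Y).card := by
  have := uu_norm_sum_le (s := ballN Y) (f := fun d => if d ∣ n then uuC D d else 0) (K := 1)
    (fun d => by split_ifs; exacts [norm_uuC_le _ _, by simp])
  rwa [mul_one] at this

theorem norm_uuII_le (Y T : ℝ) {α β : O → ℂ} (hα : ∀ a, ‖α a‖ ≤ 1) (hβ : ∀ b, ‖β b‖ ≤ 1) (n : O) :
    ‖uuII Y T α β n‖ ≤ (ballN Y).card * ((ballN Y).card * 1) :=
  uu_norm_sum_le fun a => uu_norm_sum_le fun b => by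
    split_ifs; exacts [norm_uuT_le T hα hβ a b, by simp]

theorem norm_uuIII_le (W : Finset O) (n : O) :
    ‖uuIII W n‖ ≤ W.card * (W.card * (W.card * 1)) :=
  uu_norm_sum_le fun a => uu_norm_sum_le fun b => uu_norm_sum_le fun c => by
    split_ifs <;> simp

/-- the decomposition of the prime sum -/
theorem uu_decomp {F : O → ℂ} {g : O → ℝ} {W : Finset O} {D z Y Y1 T Lo Hi K E : ℝ}
    (hF : Summable F) (hF0 : ∀ n, ¬ NN n → F n = 0)
    (hz : 1 < z) (hzD : z ≤ D) (hDz : D ≤ z ^ 2) (hDL : D ^ 2 ≤ Lo)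
    (hY : D * z ≤ Y) (hHY : Hi ≤ D * Y) (hT : 2 * Hi ≤ T) (hY1 : D ≤ Y1)
    (hW : ∀ p, p ∈ W ↔ NN p ∧ Prime p ∧ z ≤ N p ∧ N p < D)
    (hK : 1 ≤ K) (k1 : ((ballN Y1).card : ℝ) ≤ K) (k2 : ((ballN Y).card : ℝ) ≤ K)
    (k3 : (W.card : ℝ) ≤ K) (hg : HasSum g E) (hg0 : ∀ n, 0 ≤ g n)
    (hFg : ∀ n, NN n → (N n ≤ Lo ∨ Hi < N n) → ‖F n‖ ≤ g n) :
    ‖∑' n : O, (if NN n ∧ Prime n then F n else 0)‖ ≤
      ‖∑ d ∈ ballN Y1, uuC D d * ∑' m : O, F (d * m)‖ +
      ‖∑ a ∈ ballN Y, ∑ b ∈ ballN Y, uuT T (uuA D z) (fun _ => 1) a b * F (a * b)‖ +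
      ‖∑ a ∈ ballN Y, ∑ b ∈ ballN Y, uuT T (uuB D z) (uuB' D) a b * F (a * b)‖ +
      ‖∑ a ∈ W, ∑ b ∈ W, ∑ c ∈ W, F (a * b * c)‖ / 3 + 5 * K ^ 3 * E := by
  have hP : Summable (fun n : O => if NN n ∧ Prime n then F n else 0) := by
    refine Summable.of_norm_bounded hF.norm fun n => ?_
    split_ifs <;> simp
  have h := ((((hP.hasSum.sub (uu_hasSum_I hF Y1 D)).add
    (uu_hasSum_II F Y T (uuA D z) (fun _ => 1))).add
    (uu_hasSum_II F Y T (uuB D z) (uuB' D))).sub ((uu_hasSum_III F W).div_const 3))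
  have hb := h.norm_le_of_bounded (hg.mul_left (5 * K ^ 3)) (fun n => by
    have hK3 : 0 ≤ 5 * K ^ 3 * g n := mul_nonneg (by positivity) (hg0 n)
    by_cases hn : NN n
    swap
    · simpa [hF0 n hn] using hK3
    have e : (if NN n ∧ Prime n then F n else 0) - uuI Y1 D n * F n +
        uuII Y T (uuA D z) (fun _ => 1) n * F n + uuII Y T (uuB D z) (uuB' D) n * F n -
        uuIII W n * F n / 3 = ((if Prime n then (1 : ℂ) else 0) - (uuI Y1 D n -
          uuII Y T (uuA D z) (fun _ => 1) n - uuII Y T (uuB D z) (uuB' D) n +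
          uuIII W n / 3)) * F n := by
      by_cases hp : Prime n
      · rw [if_pos ⟨hn, hp⟩, if_pos hp]; ring
      · rw [if_neg (fun h => hp h.2), if_neg hp]; ring
    rw [e]
    by_cases hr : N n ≤ Lo ∨ Hi < N n
    · rw [norm_mul]
      refine mul_le_mul ?_ (hFg n hn hr) (norm_nonneg _) (by positivity)
      have a0 : ‖(if Prime n then (1 : ℂ) else 0)‖ ≤ 1 := by
        split_ifs
        · exact norm_one.le
        · rw [norm_zero]; exact zero_le_one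
      have a1 := norm_uuI_le Y1 D n
      have a2 := norm_uuII_le Y T (norm_uuA_le D z) (β := fun _ => 1) (fun _ => norm_one.le) n
      have a3 := norm_uuII_le Y T (norm_uuB_le D z) (norm_uuB'_le D) n
      have a4 := norm_uuIII_le W n
      have hK0 : 0 ≤ K := by linarith
      have b1 : K ≤ K ^ 3 := le_self_pow₀ hK (by norm_num)
      have b2 : ((ballN Y).card : ℝ) * ((ballN Y).card * 1) ≤ K ^ 3 := by
        calc ((ballN Y).card : ℝ) * ((ballN Y).card * 1) ≤ K * (K * K) :=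
              mul_le_mul k2 (mul_le_mul k2 hK zero_le_one hK0)
                (mul_nonneg (Nat.cast_nonneg _) zero_le_one) hK0
          _ = K ^ 3 := by ring
      have b3 : (W.card : ℝ) * (W.card * (W.card * 1)) ≤ K ^ 3 := by
        calc (W.card : ℝ) * (W.card * (W.card * 1)) = (W.card : ℝ) ^ 3 := by ring
          _ ≤ K ^ 3 := pow_le_pow_left₀ (Nat.cast_nonneg _) k3 3
      have t1 := norm_sub_le (if Prime n then (1 : ℂ) else 0) (uuI Y1 D n -
          uuII Y T (uuA D z) (fun _ => 1) n - uuII Y T (uuB D z) (uuB' D) n + uuIII W n / 3)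
      have t2 := norm_add_le (uuI Y1 D n -
          uuII Y T (uuA D z) (fun _ => 1) n - uuII Y T (uuB D z) (uuB' D) n) (uuIII W n / 3)
      have t3 := norm_sub_le (uuI Y1 D n - uuII Y T (uuA D z) (fun _ => 1) n)
        (uuII Y T (uuB D z) (uuB' D) n)
      have t4 := norm_sub_le (uuI Y1 D n) (uuII Y T (uuA D z) (fun _ => 1) n)
      have t5 : ‖uuIII W n / 3‖ ≤ ‖uuIII W n‖ := by
        rw [norm_div]
        exact div_le_self (norm_nonneg _) (by simp)
      linarith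
    · push Not at hr
      rw [uu_ident hn hr.1 hr.2 hz hzD hDz hDL hY hHY hT hY1 hW, sub_self, zero_mul, norm_zero]
      exact hK3)
  set P := ∑' n : O, (if NN n ∧ Prime n then F n else 0)
  set a := ∑ d ∈ ballN Y1, uuC D d * ∑' m : O, F (d * m)
  set b := ∑ a ∈ ballN Y, ∑ b ∈ ballN Y, uuT T (uuA D z) (fun _ => 1) a b * F (a * b)
  set c := ∑ a ∈ ballN Y, ∑ b ∈ ballN Y, uuT T (uuB D z) (uuB' D) a b * F (a * b)
  set d := ∑ a ∈ W, ∑ b ∈ W, ∑ c ∈ W, F (a * b * c)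
  have e : P = (P - a + b + c - d / 3) + a - b - c + d / 3 := by ring
  have t1 := norm_add_le ((P - a + b + c - d / 3) + a - b - c) (d / 3)
  have t2 := norm_sub_le ((P - a + b + c - d / 3) + a - b) c
  have t3 := norm_sub_le ((P - a + b + c - d / 3) + a) b
  have t4 := norm_add_le (P - a + b + c - d / 3) a
  have t5 : ‖d / 3‖ = ‖d‖ / 3 := by rw [norm_div]; simp
  rw [← e] at t1
  linarith

end

end Vale.Agent.P006
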