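import Vale.Agent.P006.CS
import Vale.Agent.P006.Sep
import Vale.Agent.P026.Cusp2

namespace Vale.Agent.P006

open Vale.Agent.P026 Complex MeasureTheory Filter Topology
open scoped Classical ComplexConjugate Real MatrixGroups

noncomputable section

theorem rho_bd : ∃ Bd : ℝ, ∀ (σ : SLO) (b : O → ℂ), (∀ n, ‖b n‖ ≤ 1) → ∀ R : ℝ, 1 ≤ R →
    ∑ n ∈ ballO R, ‖rho σ n * b n‖ ^ 2 ≤ Bd * R ^ (2 / 3 : ℝ) := by
  obtain ⟨Bd, h⟩ := rho_out.bound
  refine ⟨Bd, fun σ b hb R hR => (Finset.sum_le_sum fun n _ => ?_).trans (h σ R hR)⟩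
  rw [norm_mul]
  exact pow_le_pow_left₀ (by positivity) (mul_le_of_le_one_right (norm_nonneg _) (hb n)) 2

theorem vl_summable (σ : SLO) {b : O → ℂ} (hb : ∀ n, ‖b n‖ ≤ 1) {V : ℝ → ℂ} {C s : ℝ} (hs : 1 < s)
    (hV : ∀ x, 0 < x → ‖V x‖ ≤ C * x ^ (-s)) {c : ℝ} (hc : 0 < c) {f : O → ℝ}
    (hf : ∀ n, f n = N n * c) :
    Summable fun n => if n ≠ 0 then rho σ n * b n * V (f n) else 0 := by
  obtain ⟨Bd, h⟩ := rho_bd
  have h1 : ∀ R : ℝ, 1 ≤ R → ∑ n ∈ ballO R, ‖rho σ n * b n‖ ^ 2 ≤ max Bd 0 * R := fun R hR =>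
    (h σ b hb R hR).trans (mul_le_mul (le_max_left _ _) (by
      simpa using Real.rpow_le_rpow_of_exponent_le hR (by norm_num : (2 / 3 : ℝ) ≤ 1))
      (by positivity) (le_max_right _ _))
  refine .of_norm_bounded ((summable_of_sq_bound h1 hs).mul_left (C * c ^ (-s))) fun n => ?_
  have h0 : 0 ≤ C := by
    have := (norm_nonneg _).trans (hV 1 one_pos)
    simpa using this
  split_ifs with hn
  · have := hV _ (mul_pos (N_pos hn) hc)
    rw [Real.mul_rpow (N_nonneg n) hc.le] at this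
    rw [norm_mul, hf]
    calc _ ≤ ‖rho σ n * b n‖ * (C * (N n ^ (-s) * c ^ (-s))) := by gcongr
      _ = _ := by ring
  · have := N_nonneg n
    rw [norm_zero]; positivity

theorem norm_omc (c y n : O) : ‖omc c y n‖ = 1 := norm_psi _

/-- the Voronoi formula for a single cusp -/
theorem vor_WK {K a : ℝ} {FS : ℝ → ℂ} (hV : VT K a FS) (σ γ : SLO) (hc : γ 1 0 ≠ 0) {Y : ℝ}
    (hY : 0 < Y) :
    ∑' n : O, (if n ≠ 0 then rho σ n * psi (toC n * toC (γ 0 0) / (9 * toC (γ 1 0))) *
        WK K a (N n / Y) else 0) =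
      (((Y / (243 * N (γ 1 0))) ^ (2 / 3 : ℝ) : ℝ) : ℂ) *
        (rho (σ * γ) 0 * ((b0r * Fh K (2 / 3 + a) : ℝ) : ℂ) +
          ∑' n : O, (if n ≠ 0 then rho (σ * γ) n * omc (γ 1 0) (γ 1 1) n *
            FS (N n * Y / (243 * N (γ 1 0)) ^ 2) else 0)) := by
  obtain ⟨Bd, h⟩ := rho_bd
  have := hV _ _ (243 * N (γ 1 0)) Bd (by have := N_pos hc; positivity)
    (h σ _ fun n => (norm_psi _).le) (h (σ * γ) _ fun n => (norm_omc _ _ _).le)
    (fun x hx => vor_base σ γ hc hx) Y hY
  rw [this]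
  simp [omc, psi_zero]

theorem vl_ram {h : O} (hh : NN h) (n : O) :
    ∑ r ∈ rs h, (if IsCoprime r h then psi (toC (-n) * toC r / toC h) else 0) =
      ∑ d ∈ divs h, mu (h / d) * ((N d : ℝ) : ℂ) * (if d ∣ n then 1 else 0) := by
  have h0 := hh.ne_zero
  have e1 : ∀ r, (if IsCoprime r h then psi (toC (-n) * toC r / toC h) else 0) =
      ∑ e ∈ divs h, (if e ∣ r then mu e else 0) * psi (toC (-n) * toC r / toC h) := fun r => by
    rw [← Finset.sum_mul, sum_mu_divs hh.1 hh.2.2]
    split_ifs <;> simp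
  simp only [e1]
  rw [Finset.sum_comm]
  have hq : ∀ e ∈ divs h, e * (h / e) = h ∧ NN (h / e) := fun e he => by
    obtain ⟨h1, h2⟩ := (mem_divs h0).1 he
    have e2 := EuclideanDomain.mul_div_cancel' h1.ne_zero h2
    exact ⟨e2, hh.of_dvd (Prim.of_mul (by rw [e2]; exact hh.1) h1.1) (Dvd.intro_left e e2)⟩
  have hm : ∀ e ∈ divs h, h / e ∈ divs h := fun e he =>
    (mem_divs h0).2 ⟨(hq e he).2, Dvd.intro_left e (hq e he).1⟩
  have hi : ∀ e ∈ divs h, h / (h / e) = e := fun e he => by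
    have := (hq e he).1
    nth_rewrite 1 [← this]
    exact mul_div_cancel_right₀ _ (hq e he).2.ne_zero
  refine Finset.sum_nbij' (fun e => h / e) (fun e => h / e) hm hm hi hi fun e he => ?_
  obtain ⟨e2, e3⟩ := hq e he
  have e0 := ((mem_divs h0).1 he).1.ne_zero
  rw [hi e he]
  generalize h / e = d at e2 e3
  subst e2
  have hper : Per (e * d) (fun r => (if e ∣ r then mu e else 0) *
      psi (toC (-n) * toC r / toC (e * d))) := fun x y hxy => by
    have hd : e ∣ x - y := (dvd_mul_right _ _).trans hxy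
    have : e ∣ x ↔ e ∣ y :=
      ⟨fun h => by simpa using dvd_sub h hd, fun h => by simpa using dvd_add hd h⟩
    beta_reduce
    rw [← map_mul, ← map_mul, psi_congr h0 (x := -n * x) (y := -n * y) (by
      rw [← mul_sub]; exact hxy.mul_left _)]
    simp only [this]
  rw [sum_rs_split e0 e3.ne_zero hper]
  have e4 : ∀ x ∈ rs e, ∑ j ∈ rs d, (if e ∣ x + e * j then mu e else 0) *
      psi (toC (-n) * toC (x + e * j) / toC (e * d)) =
      if e ∣ 0 - x then mu e * ((N d : ℝ) : ℂ) * (if d ∣ n then 1 else 0) else 0 := fun x _ => by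
    have : ∀ j, e ∣ x + e * j ↔ e ∣ 0 - x := fun j => by
      rw [dvd_add_left (dvd_mul_right e j), zero_sub, dvd_neg]
    simp only [this]
    split_ifs with hx hn hn
    · obtain ⟨k, rfl⟩ := dvd_neg.1 (zero_sub x ▸ hx)
      obtain ⟨m, rfl⟩ := hn
      rw [Finset.sum_congr rfl (g := fun _ => mu e) fun j _ => ?_, Finset.sum_const,
        card_rs e3.ne_zero]
      · simp [N, mul_comm]
      · rw [← map_mul, show -(d * m) * (e * k + e * j) = e * d * (-(m * (k + j))) by ring,
          map_mul toC (e * d), mul_div_cancel_left₀ _ (toC_ne_zero h0), psi_toC, mul_one]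
    · obtain ⟨k, rfl⟩ := dvd_neg.1 (zero_sub x ▸ hx)
      have h1 := sum_psi e3.ne_zero (-n)
      rw [if_neg (mt dvd_neg.1 hn)] at h1
      rw [mul_zero, ← mul_zero (mu e * psi (toC (-n) * toC k / toC d)), ← h1, Finset.mul_sum]
      refine Finset.sum_congr rfl fun j _ => ?_
      rw [mul_assoc, ← psi_add]
      congr 2
      have := toC_ne_zero e0
      have := toC_ne_zero e3.ne_zero
      simp only [map_mul, map_add]
      field_simp
    · simp
  rw [Finset.sum_congr rfl e4, sum_class e0]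

theorem vl {M0 : O} (hM : M0 ≠ 0) : ∃ (c y : O → O) (σ : O → SLO),
    (∀ x, c x ≠ 0 ∧ c x ∣ M0) ∧
    ∀ (f : O → ℂ) (a1 : O), Wt M0 f → NN a1 → IsCoprime a1 M0 →
      ∃ e : O → ℂ, (∀ x, ‖e x‖ ≤ 1) ∧ ∀ (K a Y : ℝ) (FS : ℝ → ℂ) (M : ℝ), 1 ≤ K → |a| ≤ 1 →
        0 < Y → MRep FS (4 / 3) M → VT K a FS →
        ∑' n : O, (if n ≠ 0 then rho 1 n * f n * sym3 n a1 * WK K a (N n / Y) else 0) =
          ∑ x ∈ rs M0, e x *
            ((N a1 ^ (-(1 / 2) : ℝ) * (Y / (243 * N (c x) * N a1)) ^ (2 / 3 : ℝ) : ℝ) : ℂ) *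
            ∑ d ∈ divs a1, mu (a1 / d) * ((N d : ℝ) : ℂ) *
              (rho (σ x) 0 * ((b0r * Fh K (2 / 3 + a) : ℝ) : ℂ) +
                Vd FS (σ x) (omc (c x) (y x)) d ((243 * N (c x) * N a1) ^ 2 / Y)) := by
  choose c y σ hc0 hcM H using cusp hM
  refine ⟨c, y, σ, fun x => ⟨hc0 x, hcM x⟩, fun f h hf hh hcop => ?_⟩
  have h0 := hh.ne_zero
  have h9 : IsCoprime h 9 := by
    have := hh.1.coprime_three.pow_right (n := 2)
    rwa [show (3 : O) ^ 2 = 9 by norm_num] at this
  obtain ⟨t, k, htk⟩ := (h9.mul_right hcop).pow_left (m := 2)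
  have ht : 9 * M0 ∣ t * h ^ 2 - 1 := ⟨-k, by linear_combination htk⟩
  have htM : IsCoprime t M0 := ⟨h ^ 2, 9 * k, by linear_combination htk⟩
  choose η hη H using fun x => H x h t hh hcop ht
  choose! γ β H1 H2 H3 H4 H5 H6 using H
  obtain ⟨cf, hcp, hcs, hcf⟩ := fourier_rs hM hf
  have hc1 : ∀ x, ‖cf x‖ ≤ 1 := fun x => by
    obtain ⟨x', hx, hx'⟩ := rs_exists hM x
    rw [hcp x x' hx']
    exact (pow_le_one_iff_of_nonneg (norm_nonneg _) two_ne_zero).1
      ((Finset.single_le_sum (f := fun x => ‖cf x‖ ^ 2) (fun _ _ => by positivity) hx).trans hcs)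
  have hg : ‖g3 1 h‖ = √(N h) := by
    rw [← gs_two h0, cusp2_gs hh (by norm_num) (by norm_num), norm_toC]
  have n2 := N_pos h0
  have hs0 : 0 < √(N h) := Real.sqrt_pos.2 n2
  have hg0 : conj (g3 1 h) ≠ 0 := by
    rw [← norm_ne_zero_iff, RCLike.norm_conj, hg]; exact hs0.ne'
  refine ⟨fun x => cf (t * x) * η x * (((√(N h) : ℝ) : ℂ) / conj (g3 1 h)), fun x => ?_,
    fun K a Y FS M hK ha hY hF hV => ?_⟩
  · rw [norm_mul, norm_mul, hη, norm_div, RCLike.norm_conj, hg, Complex.norm_real,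
      Real.norm_of_nonneg hs0.le, div_self hs0.ne', mul_one, mul_one]
    exact hc1 _
  obtain ⟨CW, -, hW⟩ := WK_le (-2) 1
  have hW' : ∀ x, 0 < x → ‖WK K a x‖ ≤ CW * x ^ (-(2 : ℝ)) := fun x hx =>
    hW K a x hK (by simpa using ha) hx
  set z0 : ℂ := ((b0r * Fh K (2 / 3 + a) : ℝ) : ℂ) with hz0
  have s1 : ∀ x r, Summable fun n => if n ≠ 0 then rho 1 n *
      (psi (toC n * toC (x * t) / toC M0) * psi (toC n * toC r / toC h)) * WK K a (N n / Y)
      else 0 := fun x r => vl_summable 1 (fun n => by rw [norm_mul, norm_psi, norm_psi, mul_one])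
    one_lt_two hW' (inv_pos.2 hY) fun n => div_eq_mul_inv _ _
  have s2 : ∀ (x : O) (b : O → ℂ), (∀ n, ‖b n‖ ≤ 1) → Summable fun n => if n ≠ 0 then
      rho (σ x) n * (omc (c x) (y x) n * b n) * FS (N n / ((243 * N (c x) * N h) ^ 2 / Y))
      else 0 := fun x b hb => vl_summable (σ x)
    (fun n => by rw [norm_mul, norm_omc, one_mul]; exact hb n) (by norm_num : (1 : ℝ) < 4 / 3)
    (fun z hz => hF.norm_le hz) (inv_pos.2 (by have := N_pos (hc0 x); positivity))
    fun n => div_eq_mul_inv _ _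
  have k1 : ∀ x r, conj (sym3 r h) * ∑' n, (if n ≠ 0 then rho 1 n *
      (psi (toC n * toC (x * t) / toC M0) * psi (toC n * toC r / toC h)) * WK K a (N n / Y)
      else 0) = η x * (((Y / (243 * N (c x) * N h)) ^ (2 / 3 : ℝ) : ℝ) : ℂ) *
      (rho (σ x) 0 * z0 * (if IsCoprime r h then 1 else 0) + ∑' n, (if n ≠ 0 then
        rho (σ x) n * (omc (c x) (y x) n *
          (if IsCoprime r h then psi (toC (-n) * toC (β x r) / toC h) else 0)) *
          FS (N n / ((243 * N (c x) * N h) ^ 2 / Y)) else 0)) := fun x r => by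
    by_cases hr : IsCoprime r h
    · have v := vor_WK hV 1 (γ x r) (by rw [H1 x r hr]; exact mul_ne_zero (hc0 x) h0) hY
      have c1 := Complex.mul_conj' (sym3 r h)
      rw [norm_sym3 hr] at c1
      have e5 : ∀ n : O, N n * Y / (243 * N (γ x r 1 0)) ^ 2 =
          N n / ((243 * N (c x) * N h) ^ 2 / Y) := fun n => by
        rw [H1 x r hr, N_mul, div_div_eq_mul_div, mul_assoc 243]
      have e6 : ∀ n : O, omc (γ x r 1 0) (γ x r 1 1) n =
          omc (c x) (y x) n * psi (toC (-n) * toC (β x r) / toC h) := fun n => by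
        rw [omc, H6 x r hr, omc, map_neg, neg_mul, neg_div]
      simp only [H3 x r hr, v, if_pos hr, one_mul, rho_mult rho_out (H2 x r hr), H4 x r hr, e5, e6]
      rw [H1 x r hr, N_mul, ← mul_assoc 243, mul_add, mul_add, mul_add, ← tsum_mul_left,
        ← tsum_mul_left, ← tsum_mul_left]
      congr 1
      · push_cast at c1
        linear_combination η x * (((Y / (243 * N (c x) * N h)) ^ (2 / 3 : ℝ) : ℝ) : ℂ) *
          rho (σ x) 0 * z0 * c1
      · refine tsum_congr fun n => ?_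
        split_ifs
        · push_cast at c1
          linear_combination η x * (((Y / (243 * N (c x) * N h)) ^ (2 / 3 : ℝ) : ℝ) : ℂ) *
            rho (σ x) n * omc (c x) (y x) n * psi (toC (-n) * toC (β x r) / toC h) *
            FS (N n / ((243 * N (c x) * N h) ^ 2 / Y)) * c1
        · simp
    · simp [hr, (sym3_eq_zero_iff h0).2 hr]
  have k2 : ∀ x n, ∑ r ∈ rs h, (if IsCoprime r h then psi (toC (-n) * toC (β x r) / toC h) else 0) =
      ∑ d ∈ divs h, mu (h / d) * ((N d : ℝ) : ℂ) * (if d ∣ n then 1 else 0) := fun x n => by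
    have := cusp2_inv (u := 81 * c x ^ 2) h0 (β x) (fun r hr => by convert H5 x r hr using 1; ring)
      (G := fun r => if IsCoprime r h then psi (toC (-n) * toC r / toC h) else 0)
      (fun r r' hr => by
        have : IsCoprime r h ↔ IsCoprime r' h := by
          obtain ⟨j, hj⟩ := hr
          rw [show r = r' + h * j by linear_combination hj]
          exact IsCoprime.add_mul_left_left_iff
        beta_reduce
        rw [← map_mul, ← map_mul, psi_congr h0 (x := -n * r) (y := -n * r') (by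
          rw [← mul_sub]; exact hr.mul_left _)]
        simp only [this])
      (fun r hr => if_neg hr)
    rw [← vl_ram hh, ← this]
    refine Finset.sum_congr rfl fun r _ => ?_
    split_ifs with h1 h2
    · rfl
    · obtain ⟨j, hj⟩ := H5 x r h1
      exact absurd ⟨81 * r * c x ^ 2, -j, by linear_combination hj⟩ h2
    · rfl
  have k0 : ∑ r ∈ rs h, (if IsCoprime r h then (1 : ℂ) else 0) =
      ∑ d ∈ divs h, mu (h / d) * ((N d : ℝ) : ℂ) := by
    simpa [psi_zero] using vl_ram hh 0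
  have k4 : ∀ n, sym3 n h * conj (g3 1 h) =
      ∑ r ∈ rs h, conj (sym3 r h) * psi (toC n * toC r / toC h) := fun n => by
    have := congrArg conj (g3_twist' hh.1 hh.2.1 (-n))
    rw [map_mul, Complex.conj_conj, kub_sym3_neg, g3, map_sum] at this
    rw [← this]
    refine Finset.sum_congr rfl fun r _ => ?_
    rw [map_mul, ← psi_neg, map_neg, neg_mul, neg_div, neg_neg]
  have k5 : ∀ n, f n = ∑ x ∈ rs M0, cf (t * x) * psi (toC n * toC (x * t) / toC M0) := fun n => by
    rw [hcf n, ← sum_rs_mul hM htM (f := fun x => cf x * psi (toC n * toC x / toC M0))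
      fun x x' hx => by
        beta_reduce
        rw [hcp x x' hx, ← map_mul, ← map_mul, psi_congr hM (x := n * x) (y := n * x') (by
          rw [← mul_sub]; exact hx.mul_left _)]]
    simp only [mul_comm t]
  refine mul_right_cancel₀ hg0 ?_
  calc _ = ∑' n, ∑ x ∈ rs M0, ∑ r ∈ rs h, cf (t * x) * (conj (sym3 r h) * (if n ≠ 0 then rho 1 n *
        (psi (toC n * toC (x * t) / toC M0) * psi (toC n * toC r / toC h)) * WK K a (N n / Y)
        else 0)) := by
        rw [← tsum_mul_right]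
        refine tsum_congr fun n => ?_
        split_ifs
        · rw [mul_right_comm _ (WK _ _ _), mul_assoc _ (sym3 n h), k4, k5, Finset.mul_sum (rs M0),
            Finset.sum_mul, Finset.sum_mul]
          refine Finset.sum_congr rfl fun x _ => ?_
          rw [Finset.mul_sum, Finset.sum_mul]
          exact Finset.sum_congr rfl fun r _ => by ring
        · simp
    _ = _ := by
        rw [Summable.tsum_finsetSum fun x _ => summable_sum fun r _ =>
          ((s1 x r).mul_left _).mul_left _, Finset.sum_mul]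
        refine Finset.sum_congr rfl fun x _ => ?_
        rw [Summable.tsum_finsetSum fun r _ => ((s1 x r).mul_left _).mul_left _]
        simp only [tsum_mul_left, k1]
        rw [← Finset.mul_sum, ← Finset.mul_sum, Finset.sum_add_distrib, ← Finset.mul_sum, k0,
          ← Summable.tsum_finsetSum fun r _ => s2 x _ fun n => by
            split_ifs; exacts [(norm_psi _).le, by simp]]
        have e7 : ∑' n, ∑ r ∈ rs h, (if n ≠ 0 then rho (σ x) n * (omc (c x) (y x) n *
            (if IsCoprime r h then psi (toC (-n) * toC (β x r) / toC h) else 0)) *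
            FS (N n / ((243 * N (c x) * N h) ^ 2 / Y)) else 0) =
            ∑ d ∈ divs h, mu (h / d) * ((N d : ℝ) : ℂ) *
              Vd FS (σ x) (omc (c x) (y x)) d ((243 * N (c x) * N h) ^ 2 / Y) := by
          have e8 : ∀ d, Vd FS (σ x) (omc (c x) (y x)) d ((243 * N (c x) * N h) ^ 2 / Y) =
              ∑' n, (if n ≠ 0 then rho (σ x) n * (omc (c x) (y x) n * (if d ∣ n then 1 else 0)) *
                FS (N n / ((243 * N (c x) * N h) ^ 2 / Y)) else 0) := fun d =>
            tsum_congr fun n => by by_cases h1 : n = 0 <;> by_cases h2 : d ∣ n <;> simp [h1, h2]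
          simp only [e8, ← tsum_mul_left]
          rw [← Summable.tsum_finsetSum fun d _ => (s2 x _ fun n => by
            split_ifs <;> simp).mul_left _]
          refine tsum_congr fun n => ?_
          split_ifs
          · rw [← Finset.sum_mul, ← Finset.mul_sum, ← Finset.mul_sum, k2, Finset.mul_sum,
              Finset.mul_sum, Finset.sum_mul]
            exact Finset.sum_congr rfl fun d _ => by ring
          · simp
        have e9 : ((√(N h) : ℝ) : ℂ) * ((N h ^ (-(1 / 2) : ℝ) : ℝ) : ℂ) = 1 := by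
          rw [← Complex.ofReal_mul, Real.sqrt_eq_rpow, ← Real.rpow_add n2]; norm_num
        rw [e7]
        simp only [mul_add, Finset.sum_add_distrib, ← Finset.sum_mul]
        rw [Complex.ofReal_mul]
        generalize ∑ d ∈ divs h, mu (h / d) * ((N d : ℝ) : ℂ) *
          Vd FS (σ x) (omc (c x) (y x)) d ((243 * N (c x) * N h) ^ 2 / Y) = A1
        generalize ∑ d ∈ divs h, mu (h / d) * ((N d : ℝ) : ℂ) = A2
        generalize (((Y / (243 * N (c x) * N h)) ^ (2 / 3 : ℝ) : ℝ) : ℂ) = A3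
        field_simp
        linear_combination (-(cf (t * x) * η x * A3 * (rho (σ x) 0 * z0 * A2 + A1))) * e9

end

end Vale.Agent.P006
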